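import Vale.Agent.P013.Gro

/-! The mass of the bad chains is small. -/

noncomputable section
namespace Jac
open Finset Real Filter
open scoped Classical

theorem bad_sup (P A : Finset ℕ) (F : Finset (Finset ℕ)) (hF : ∀ S ∈ F, S ⊆ P ∧ A ⊆ S) :
    ∑ S ∈ F, 1 / (pr S : ℝ) ≤ 1 / (pr A : ℝ) * ∏ p ∈ P, (1 + 1 / (p : ℝ)) := by
  have h1 : ∀ S ∈ F, 1 / (pr S : ℝ) = 1 / (pr A : ℝ) * (1 / (pr (S \ A) : ℝ)) := fun S hS => by
    have : pr S = pr A * pr (S \ A) := by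
      rw [← pr_union disjoint_sdiff, union_sdiff_of_subset (hF S hS).2]
    rw [this, Nat.cast_mul, one_div_mul_one_div]
  rw [sum_congr rfl h1, ← mul_sum]
  refine mul_le_mul_of_nonneg_left ?_ (by positivity)
  have h2 : Set.InjOn (fun S => S \ A) (F : Set (Finset ℕ)) := fun S hS S' hS' e => by
    have e' : S \ A = S' \ A := e
    rw [← union_sdiff_of_subset (hF S hS).2, e', union_sdiff_of_subset (hF S' hS').2]
  rw [← sum_image (f := fun S => 1 / (pr S : ℝ)) h2, ← sum_inv_pr]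
  simp only [one_pow]
  refine sum_le_sum_of_subset_of_nonneg (fun S hS => ?_) fun _ _ _ => by positivity
  obtain ⟨S', hS', rfl⟩ := mem_image.1 hS
  exact mem_powerset.2 (sdiff_subset.trans (hF S' hS').1)

theorem bad_cover {ι : Type} (P : Finset ℕ) (I : Finset ι) (A : ι → Finset ℕ)
    (F : Finset (Finset ℕ)) (hF : ∀ S ∈ F, S ⊆ P ∧ ∃ i ∈ I, A i ⊆ S) :
    ∑ S ∈ F, 1 / (pr S : ℝ) ≤ (∑ i ∈ I, 1 / (pr (A i) : ℝ)) * ∏ p ∈ P, (1 + 1 / (p : ℝ)) := by
  calc ∑ S ∈ F, 1 / (pr S : ℝ) ≤ ∑ S ∈ F, ∑ i ∈ I, if A i ⊆ S then 1 / (pr S : ℝ) else 0 := by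
        refine sum_le_sum fun S hS => ?_
        obtain ⟨i, hi, h⟩ := (hF S hS).2
        have := single_le_sum (f := fun i => if A i ⊆ S then 1 / (pr S : ℝ) else 0)
          (fun j _ => by positivity) hi
        simpa only [if_pos h] using this
    _ = ∑ i ∈ I, ∑ S ∈ F.filter (fun S => A i ⊆ S), 1 / (pr S : ℝ) := by
        rw [sum_comm]
        exact sum_congr rfl fun i _ => (sum_filter _ _).symm
    _ ≤ _ := by
        rw [sum_mul]
        exact sum_le_sum fun i _ => bad_sup P (A i) _ fun S hS =>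
          ⟨(hF S (mem_filter.1 hS).1).1, (mem_filter.1 hS).2⟩

theorem bad_aa_mono {y : ℕ} (hB : 1 ≤ B y) {i j : ℕ} (h : i ≤ j) : aa y i ≤ aa y j :=
  Nat.mul_le_mul_left _ (Nat.pow_le_pow_right hB (by omega))

/-- a missing window forces a heavy lower part -/
theorem bad_heavy {y m μ i : ℕ} {S : Finset ℕ} (hB : 1 ≤ B y) (hS : ∀ q ∈ S, q.Prime)
    (hR : ∀ p ∈ S, ∑ q ∈ up S p, be y q + be y p ≤ m) (h1 : μ < ∑ q ∈ S, be y q)
    (h2 : 2 * m ≤ 2 * μ + aa y 1) (h3 : aa y (r y + 1) ≤ μ) (hi : i ≤ r y)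
    (hw : ∀ p ∈ S, ¬ Win y i (be y p)) :
    aa y (i + 1) < 2 * ∑ q ∈ S.filter (fun q => be y q ≤ aa y i), be y q := by
  have e := sum_filter_add_sum_filter_not S (fun q => be y q ≤ aa y i) (be y)
  have h4 : aa y (i + 1) ≤ aa y (r y + 1) := bad_aa_mono hB (by omega)
  have h5 : aa y 1 ≤ aa y (i + 1) := bad_aa_mono hB (by omega)
  rcases (S.filter fun q => ¬ be y q ≤ aa y i).eq_empty_or_nonempty with h | h
  · rw [h, sum_empty] at e
    omega
  · have hp := mem_filter.1 (min'_mem _ h)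
    have hu : up S (min' _ h) = S.filter fun q => ¬ be y q ≤ aa y i := by
      ext q
      simp only [up, mem_filter]
      refine ⟨fun a => ⟨a.1, fun b => hp.2 ((be_mono y (hS _ hp.1).one_le a.2).trans b)⟩,
        fun a => ⟨a.1, min'_le _ _ (mem_filter.2 a)⟩⟩
    have h6 := hR _ hp.1
    rw [hu] at h6
    have h7 : aa y (i + 1) < be y (min' _ h) := by
      by_contra h8
      exact hw _ hp.1 ⟨not_le.1 hp.2, not_lt.1 h8⟩
    omega

/-- a heavy lower part is an event of Rankin -/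
theorem bad_rank {y i : ℕ} {S : Finset ℕ} (hD : 2 ≤ DD y) (hS : ∀ q ∈ S, q.Prime)
    (h : aa y (i + 1) < 2 * ∑ q ∈ S.filter (fun q => be y q ≤ aa y i), be y q) :
    S.filter (fun q => be y q ≤ aa y i) ∈ (PP (exp ((B y : ℝ) ^ (i + 1)))).powerset.filter
      (fun A => exp ((B y : ℝ) ^ (i + 2) / 4) ≤ (pr A : ℝ)) := by
  have hD' : (2 : ℝ) ≤ DD y := by exact_mod_cast hD
  have hA : ∀ q ∈ S.filter (fun q => be y q ≤ aa y i), q.Prime := fun q hq =>
    hS q (mem_filter.1 hq).1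
  refine mem_filter.2 ⟨mem_powerset.2 fun q hq => mem_PP.2 ⟨hA q hq, ?_⟩, ?_⟩
  · have h1 : (be y q : ℝ) ≤ aa y i := by exact_mod_cast (mem_filter.1 hq).2
    have h2 := be_ge y q
    rw [← log_le_iff_le_exp (by exact_mod_cast (hA q hq).pos), ← aa_div,
      le_div_iff₀ (by linarith)]
    linarith
  · rw [← le_log_iff_exp_le (by exact_mod_cast pr_pos hA), log_pr hA, ← aa_div y (i + 1)]
    have h1 : (aa y (i + 1) : ℝ) <
        2 * ∑ q ∈ S.filter (fun q => be y q ≤ aa y i), (be y q : ℝ) := by exact_mod_cast h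
    have h2 : ∑ q ∈ S.filter (fun q => be y q ≤ aa y i), (be y q : ℝ) ≤
        ∑ q ∈ S.filter (fun q => be y q ≤ aa y i), 2 * DD y * log q := by
      refine sum_le_sum fun q hq => ?_
      have h3 := be_lt y q
      have h4 : log 2 ≤ log q := log_le_log two_pos (by exact_mod_cast (hA q hq).two_le)
      have h5 := log_two_gt_d9
      have h6 : 1 ≤ DD y * log q := by nlinarith
      linarith
    rw [← mul_sum] at h2
    rw [div_div, div_le_iff₀ (by positivity)]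
    linarith

theorem bad_box {y b : ℕ} (hD : (DD y : ℝ) ≤ exp (B y)) (hb : aa y 0 < b) :
    ∑ p ∈ box y b, 1 / (p : ℝ) ≤ 3 / DD y := by
  have h2 : (0 : ℝ) < DD y := by exact_mod_cast DD_pos y
  have h3 : (aa y 0 : ℝ) + 1 ≤ b := by exact_mod_cast hb
  have h4 : exp (B y) ≤ Qb y b := by
    have := aa_div y 0
    rw [zero_add, pow_one] at this
    rw [← this]
    exact exp_le_exp.2 (div_le_div_of_nonneg_right (by linarith) h2.le)
  have h5 := Qb_pos y b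
  calc ∑ p ∈ box y b, 1 / (p : ℝ) ≤ (box y b).card • (1 / Qb y b) :=
        sum_le_card_nsmul _ _ _ fun p hp => one_div_le_one_div_of_le h5 (box_bd hp).1.le
    _ ≤ Vb y b * (1 / Qb y b) := by
        rw [nsmul_eq_mul]
        exact mul_le_mul_of_nonneg_right (card_box (hD.trans h4)) (by positivity)
    _ = 3 / DD y := by
        rw [Vb]
        field_simp

theorem bad_pairs {y : ℕ} (hD : (DD y : ℝ) ≤ exp (B y)) (P : Finset ℕ) :
    ∑ t ∈ (P.filter fun q => aa y 0 < be y q).sigma (fun q => (box y (be y q)).erase q),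
      1 / (pr {t.2, t.1} : ℝ) ≤ (∑ q ∈ P, 1 / (q : ℝ)) * (3 / DD y) := by
  rw [sum_sigma, sum_mul]
  refine le_trans (sum_le_sum fun q hq => ?_)
    (sum_le_sum_of_subset_of_nonneg (filter_subset _ P) fun _ _ _ => by positivity)
  refine le_trans ?_ (mul_le_mul_of_nonneg_left (bad_box hD (mem_filter.1 hq).2) (by positivity))
  rw [mul_sum]
  refine le_trans (le_of_eq (sum_congr rfl fun p hp => ?_))
    (sum_le_sum_of_subset_of_nonneg (erase_subset q _) fun _ _ _ => by positivity)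
  rw [pr, prod_pair (mem_erase.1 hp).1, Nat.cast_mul, one_div_mul_one_div, mul_comm]

theorem bad_ranks {C : ℝ} (hC : 0 < C) (hR : ∀ w Y : ℝ, 2 ≤ w → 0 < Y →
      ∑ S ∈ (PP w).powerset.filter (fun S => Y ≤ (pr S : ℝ)), (2 : ℝ) ^ S.card / pr S ≤
        C * log w ^ 6 * exp (-(log Y / log w))) {y : ℕ} (hB : 2 ≤ B y)
    (hL : (B y : ℝ) ^ (r y + 2) ≤ L y) :
    ∑ t ∈ (range (r y + 1)).sigma (fun i => (PP (exp ((B y : ℝ) ^ (i + 1)))).powerset.filter
      (fun A => exp ((B y : ℝ) ^ (i + 2) / 4) ≤ (pr A : ℝ))), 1 / (pr t.2 : ℝ) ≤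
      C * L y ^ 7 * exp (-(B y / 4)) := by
  have hB' : (2 : ℝ) ≤ B y := by exact_mod_cast hB
  have h1 : ((r y + 1 : ℕ) : ℝ) ≤ L y := by
    refine le_trans ?_ hL
    have : r y + 1 ≤ B y ^ (r y + 2) :=
      ((Nat.lt_succ_self _).trans Nat.lt_two_pow_self).le.trans (Nat.pow_le_pow_left hB _)
    exact_mod_cast this
  rw [sum_sigma]
  refine (sum_le_card_nsmul _ _ (C * L y ^ 6 * exp (-(B y / 4))) fun i hi => ?_).trans ?_
  · have h2 : (1 : ℝ) ≤ (B y : ℝ) ^ (i + 1) := one_le_pow₀ (by linarith)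
    have h3 := hR (exp ((B y : ℝ) ^ (i + 1))) (exp ((B y : ℝ) ^ (i + 2) / 4))
      (by linarith [add_one_le_exp ((B y : ℝ) ^ (i + 1))]) (exp_pos _)
    rw [log_exp, log_exp, show (B y : ℝ) ^ (i + 2) / 4 / (B y : ℝ) ^ (i + 1) = B y / 4 by
      field_simp; ring] at h3
    have h4 : (B y : ℝ) ^ (i + 1) ≤ L y :=
      (pow_le_pow_right₀ (by linarith) (by have := mem_range.1 hi; omega)).trans hL
    refine le_trans (sum_le_sum fun A _ => ?_) (h3.trans ?_)
    · exact div_le_div_of_nonneg_right (one_le_pow₀ one_le_two) (by positivity)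
    · gcongr
  · rw [nsmul_eq_mul, card_range]
    have h0 : 0 ≤ L y := le_trans (by positivity) h1
    calc ((r y + 1 : ℕ) : ℝ) * (C * L y ^ 6 * exp (-(B y / 4)))
        ≤ L y * (C * L y ^ 6 * exp (-(B y / 4))) := by gcongr
      _ = _ := by ring

theorem s_Bad (hSize : S_Size) (hRule : S_Rule) (hRank : S_Rank) (hM : S_M) (hGeo : S_Geo) :
    S_Bad := by
  intro J hJ
  obtain ⟨C, hC, hR⟩ := hRank
  obtain ⟨K, hK, -, -, -, hM4, -⟩ := hM
  filter_upwards [hSize J hJ, hRule, hGeo J hJ, ev_logB, ev_B_r one_pos, ev_G_B 5, ev_kap_T 16,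
    ev_L_G (2 * C * exp K) 8, ev_L_G (12 * exp K) 2, ev_L_G 2 0, ev_L (max K 1),
    eventually_ge_atTop 2] with y hSz hRu hGe hB hBr hGB hkap hG8 hG2 hG0 hL hy
  intro x g hg N hN
  have hL1 : 1 ≤ L y := (le_max_right _ _).trans hL
  have hLK : K ≤ L y := (le_max_left _ _).trans hL
  rw [rpow_one] at hBr
  rw [pow_zero, mul_one] at hG0
  have hG := G_pos y
  have hG4 : (2 : ℝ) ^ 4 ≤ G y ^ 4 := pow_le_pow_left₀ two_pos.le hG0 4
  have hD := DD_ge y
  have hD2 : 2 ≤ DD y := by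
    have : (2 : ℝ) ≤ DD y := by linarith
    exact_mod_cast this
  have hDB : (DD y : ℝ) ≤ exp (B y) := by
    have h1 := DD_le y
    have h2 : G y ^ 4 + 1 ≤ G y ^ 5 := by rw [pow_succ _ 4]; nlinarith
    have h3 : exp ((B y : ℝ) / 2 - 1) ≤ exp (B y) :=
      exp_le_exp.2 (by have : (0 : ℝ) ≤ B y := by positivity
                       linarith)
    linarith
  have hsum : ∑ p ∈ PP y, 1 / (p : ℝ) ≤ T y + K := by
    have := (abs_le.1 (hM4 y (by exact_mod_cast hy))).2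
    have e : log (log (y : ℝ)) = T y := rfl
    linarith
  have hprod : ∏ p ∈ PP y, (1 + 1 / (p : ℝ)) ≤ exp K * L y := by
    calc ∏ p ∈ PP y, (1 + 1 / (p : ℝ)) ≤ ∏ p ∈ PP y, exp (1 / (p : ℝ)) :=
          prod_le_prod (fun _ _ => by positivity) fun p _ => by
            linarith [add_one_le_exp (1 / (p : ℝ))]
      _ = exp (∑ p ∈ PP y, 1 / (p : ℝ)) := (exp_sum _ _).symm
      _ ≤ exp (T y + K) := exp_le_exp.2 hsum
      _ = exp K * L y := by rw [exp_add, exp_T (by linarith), mul_comm]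
  have hsub : Un y J g ⊆ PP y := fun p hp => by
    obtain ⟨h1, h2, h3, -⟩ := hGe.2 g hg
    have hJ' : (3 : ℝ) ≤ J := by exact_mod_cast hJ
    have h4 : 0 ≤ vv y J g := le_trans (by positivity) h1
    have h5 : lo y J g ≤ vv y J g := by
      have : 0 ≤ 1 / (4 * (J : ℝ)) * vv y J g := by positivity
      rw [lo, sub_mul, one_mul]
      linarith
    refine mem_PP.2 ⟨(mem_PP.1 hp).1, (mem_PP.1 hp).2.trans ?_⟩
    rw [← exp_L (y := y) (by omega)]
    exact exp_le_exp.2 (by linarith)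
  have hHi : ∀ S ∈ Hi y J g N, S ⊆ PP y := fun S hS =>
    (mem_Fam.1 (mem_filter.1 hS).1).1.trans hsub
  rw [← sum_filter_add_sum_filter_not _
    (fun S => ∃ p ∈ S, ∃ q ∈ S, p ≠ q ∧ be y p = be y q ∧ aa y 0 < be y p)]
  have k1 := bad_cover (PP y) (((PP y).filter fun q => aa y 0 < be y q).sigma
    (fun q => (box y (be y q)).erase q)) (fun t => {t.2, t.1})
    (((Hi y J g N).filter (Bad y)).filter
      (fun S => ∃ p ∈ S, ∃ q ∈ S, p ≠ q ∧ be y p = be y q ∧ aa y 0 < be y p)) fun S hS => by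
    have h1 := hHi S (mem_filter.1 (mem_filter.1 hS).1).1
    obtain ⟨p, hp, q, hq, h2, h3, h4⟩ := (mem_filter.1 hS).2
    refine ⟨h1, ⟨q, p⟩, mem_sigma.2 ⟨mem_filter.2 ⟨h1 hq, h3 ▸ h4⟩,
      mem_erase.2 ⟨h2, mem_box.2 ⟨(mem_PP.1 (h1 hp)).1, h3⟩⟩⟩, ?_⟩
    exact insert_subset hp (singleton_subset_iff.2 hq)
  have k2 := bad_cover (PP y) ((range (r y + 1)).sigma
    (fun i => (PP (exp ((B y : ℝ) ^ (i + 1)))).powerset.filter
      (fun A => exp ((B y : ℝ) ^ (i + 2) / 4) ≤ (pr A : ℝ)))) (fun t => t.2)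
    (((Hi y J g N).filter (Bad y)).filter
      (fun S => ¬ ∃ p ∈ S, ∃ q ∈ S, p ≠ q ∧ be y p = be y q ∧ aa y 0 < be y p)) fun S hS => by
    obtain ⟨hS1, hS2⟩ := mem_filter.1 (mem_filter.1 hS).1
    have h1 := hHi S hS1
    have hp : ∀ q ∈ S, q.Prime := fun q hq => (mem_PP.1 (h1 hq)).1
    obtain ⟨-, -, -, s4, s5, s6⟩ := hSz x g hg N hN S hS1
    have h2 : ∃ i ≤ r y, aa y (i + 1) < 2 * ∑ q ∈ S.filter (fun q => be y q ≤ aa y i), be y q := by
      rcases hS2 with ⟨i, hi, hw⟩ | h | h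
      · exact ⟨i, hi, bad_heavy (by omega) hp
          ((hRu _ s4).2 S hp (mem_Fam.1 (mem_filter.1 hS1).1).2) (mem_filter.1 hS1).2 s5 s6 hi hw⟩
      · exact absurd h (mem_filter.1 hS).2
      · exact ⟨0, Nat.zero_le _, h⟩
    obtain ⟨i, hi, h3⟩ := h2
    exact ⟨h1, ⟨i, _⟩, mem_sigma.2 ⟨mem_range.2 (Nat.lt_succ_of_le hi), bad_rank hD2 hp h3⟩,
      filter_subset _ _⟩
  have hP0 : 0 ≤ ∏ p ∈ PP y, (1 + 1 / (p : ℝ)) := prod_nonneg fun _ _ => by positivity
  have hT : T y ≤ L y := (log_le_sub_one_of_pos (by linarith)).trans (by linarith)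
  have m1 : (∑ q ∈ PP y, 1 / (q : ℝ)) * (3 / DD y) * ∏ p ∈ PP y, (1 + 1 / (p : ℝ)) ≤
      1 / (2 * G y ^ 3) := by
    calc (∑ q ∈ PP y, 1 / (q : ℝ)) * (3 / DD y) * ∏ p ∈ PP y, (1 + 1 / (p : ℝ))
        ≤ (2 * L y) * (3 / G y ^ 4) * (exp K * L y) := by
          gcongr
          linarith
      _ = (12 * exp K * L y ^ 2) / (2 * G y ^ 4) := by field_simp; ring
      _ ≤ G y / (2 * G y ^ 4) := by gcongr
      _ = 1 / (2 * G y ^ 3) := by field_simp
  have m2 : C * L y ^ 7 * exp (-(B y / 4)) * ∏ p ∈ PP y, (1 + 1 / (p : ℝ)) ≤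
      1 / (2 * G y ^ 3) := by
    have h1 : exp (-((B y : ℝ) / 4)) ≤ 1 / G y ^ 4 := by
      rw [G_pow, one_div, ← exp_neg]
      have := B_ge y
      exact exp_le_exp.2 (by push_cast; linarith)
    calc C * L y ^ 7 * exp (-(B y / 4)) * ∏ p ∈ PP y, (1 + 1 / (p : ℝ))
        ≤ C * L y ^ 7 * (1 / G y ^ 4) * (exp K * L y) := by gcongr
      _ = (2 * C * exp K * L y ^ 8) / (2 * G y ^ 4) := by field_simp
      _ ≤ G y / (2 * G y ^ 4) := by gcongr
      _ = 1 / (2 * G y ^ 3) := by field_simp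
  have n1 := k1.trans ((mul_le_mul_of_nonneg_right (bad_pairs hDB (PP y)) hP0).trans m1)
  have n2 := k2.trans ((mul_le_mul_of_nonneg_right (bad_ranks hC hR hB.1 hBr) hP0).trans m2)
  have e : 1 / (2 * G y ^ 3) + 1 / (2 * G y ^ 3) = 1 / G y ^ 3 := by field_simp; ring
  rw [← e]
  exact add_le_add n1 n2

end Jac
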