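import Vale.Agent.P013.Gro

/-! Direct bounds for the mass of short chains. -/

noncomputable section
namespace Jac
open Finset Real Filter
open scoped Classical

theorem base_win {C : ℝ} (hC : 0 < C) (h : ∀ t : ℝ, 2 ≤ t → ((PP t).card : ℝ) ≤ C * t / log t)
    {Y : ℝ} (hY : 0 < Y) {Q : Finset ℕ} (hQ : ∀ p ∈ Q, p.Prime ∧ Y ≤ log p ∧ log p ≤ Y + 1) :
    ∑ p ∈ Q, 1 / (p : ℝ) ≤ 3 * C / Y := by
  have h0 : ∀ p ∈ Q, (0 : ℝ) < p := fun p hp => by exact_mod_cast (hQ p hp).1.pos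
  have h1 : Q ⊆ PP (exp (Y + 1)) := fun p hp =>
    mem_PP.2 ⟨(hQ p hp).1, (log_le_iff_le_exp (h0 p hp)).1 (hQ p hp).2.2⟩
  have h2 := h (exp (Y + 1)) (by linarith [add_one_le_exp (Y + 1)])
  have h3 : (Q.card : ℝ) ≤ (PP (exp (Y + 1))).card := by exact_mod_cast card_le_card h1
  have h4 := sum_le_card_nsmul Q (fun p : ℕ => 1 / (p : ℝ)) (1 / exp Y) fun p hp =>
    one_div_le_one_div_of_le (exp_pos Y) ((le_log_iff_exp_le (h0 p hp)).1 (hQ p hp).2.1)
  have h5 := exp_pos Y
  rw [log_exp, exp_add] at h2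
  rw [nsmul_eq_mul] at h4
  rw [exp_add] at h3
  refine h4.trans ((mul_le_mul_of_nonneg_right (h3.trans h2) (by positivity)).trans ?_)
  have h6 : exp 1 ≤ 3 := exp_one_lt_three.le
  calc _ = C * exp 1 / (Y + 1) := by field_simp
    _ ≤ C * 3 / Y := by gcongr; linarith
    _ = _ := by rw [mul_comm]

theorem base_cover {ι : Type*} {X : Finset (Finset ℕ)} (I : Finset ι) (g : ι → Finset ℕ)
    (h : ∀ S ∈ X, ∃ i ∈ I, g i = S) :
    ∑ S ∈ X, 1 / (pr S : ℝ) ≤ ∑ i ∈ I, 1 / (pr (g i) : ℝ) :=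
  (sum_le_sum_of_subset_of_nonneg (t := I.image g) (fun S hS => mem_image.2 (h S hS))
    fun _ _ _ => by positivity).trans (sum_image_le_of_nonneg fun _ _ => by positivity)

theorem base_one (p : ℕ) : pr {p} = p := prod_singleton _ _

theorem s_Dir (hM : S_M) : S_Dir := by
  obtain ⟨C, hC, -, -, h3, -⟩ := hM
  refine ⟨3 * C, by positivity, fun ε l P t t2 s a ht hP ha => ?_⟩
  have ht' : (2 : ℝ) ≤ t := by exact_mod_cast ht
  have h1 : ∀ p ∈ P, log t ≤ log p := fun p hp =>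
    log_le_log (by linarith) (by exact_mod_cast (hP p hp).2)
  refine (base_cover (P.filter fun p : ℕ => log p ≤ log t + 1) (fun p => {p}) fun S hS => ?_).trans ?_
  · obtain ⟨a1, ⟨q, hq, -⟩, -, a2, -⟩ := mem_filter.1 hS
    have a3 := (mem_Fam.1 a1).1
    have a4 : S = {q} := by
      refine eq_singleton_iff_unique_mem.2 ⟨hq, fun p hp => by_contra fun e => ?_⟩
      have b1 : p * q ≤ pr S := by
        rw [← prod_pair (f := fun p : ℕ => p) e]
        exact prod_le_prod_of_subset_of_one_le' (insert_subset hp (singleton_subset_iff.2 hq))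
          fun r hr _ => (hP r (a3 hr)).1.pos
      have b2 := (hP p (a3 hp)).2
      have b3 := (hP q (a3 hq)).2
      have b4 : 3 * t ≤ p * q := by
        rcases lt_or_gt_of_ne e with b | b
        · exact mul_comm p q ▸ Nat.mul_le_mul (by omega) b2
        · exact Nat.mul_le_mul (by omega) b3
      have b5 : log (3 * t) ≤ log (pr S) :=
        log_le_log (by positivity) (by exact_mod_cast b4.trans b1)
      have b6 : 1 < log 3 := (lt_log_iff_exp_lt (by norm_num)).2 exp_one_lt_three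
      rw [log_mul (by norm_num) (by positivity)] at b5
      linarith
    rw [a4, base_one] at a2
    exact ⟨q, mem_filter.2 ⟨a3 hq, by linarith⟩, a4.symm⟩
  · simp only [base_one]
    exact base_win hC h3 (log_pos (by linarith)) fun p hp =>
      ⟨(hP p (mem_filter.1 hp).1).1, h1 p (mem_filter.1 hp).1, (mem_filter.1 hp).2⟩

theorem base_kth (S : Finset ℕ) {k : ℕ} (h1 : 1 ≤ k) (h2 : k ≤ S.card) :
    ∃ p ∈ S, (up S p).card = k := by
  induction S using induction_on_min with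
  | empty => exact absurd (h1.trans h2) (by simp)
  | insert m S hm ih =>
    by_cases h : k ≤ S.card
    · obtain ⟨p, hp, e⟩ := ih h
      refine ⟨p, mem_insert_of_mem hp, ?_⟩
      rw [up, filter_insert, if_neg (not_le.2 (hm p hp))]
      exact e
    · refine ⟨m, mem_insert_self _ _, ?_⟩
      have h3 := card_insert_le m S
      rw [up, filter_true_of_mem (forall_mem_insert _ _ _ |>.2 ⟨le_rfl, fun q hq => (hm q hq).le⟩)]
      omega

theorem base_log {l : ℝ} {S : Finset ℕ} (hS : ∀ q ∈ S, q.Prime) {p : ℕ} (hp : 0 < p)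
    (h : C0 l S p) : ∑ q ∈ S, log q + 2 * log p ≤ l := by
  have h0 : (0 : ℝ) < pr S := by exact_mod_cast pr_pos hS
  have h1 := (log_le_iff_le_exp (by positivity)).2 h
  rwa [log_mul h0.ne' (by positivity), log_pow, Nat.cast_ofNat, log_pr hS] at h1

theorem base_card {ε : ℕ} {l : ℝ} {S : Finset ℕ} (hε : ε ≤ 1) (hl : 0 ≤ l)
    (hS : ∀ q ∈ S, q.Prime ∧ l / 4 < log q) (hA : Alive ε (C0 l) S) : S.card ≤ 1 + ε := by
  by_contra hc
  obtain ⟨p, hp, e⟩ := base_kth S (k := 2 + ε) (by omega) (by omega)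
  have h1 : ∀ q ∈ up S p, q.Prime ∧ l / 4 < log q := fun q hq => hS q (mem_filter.1 hq).1
  have h2 := base_log (fun q hq => (h1 q hq).1) (hS p hp).1.pos (hA p hp (by omega))
  have h3 := card_nsmul_le_sum (up S p) (fun q : ℕ => log q) (l / 4) fun q hq => (h1 q hq).2.le
  have h4 : (0 : ℝ) ≤ ε * l := by positivity
  rw [e, nsmul_eq_mul, Nat.cast_add, Nat.cast_ofNat] at h3
  linarith [(hS p hp).2]

theorem base_third {l : ℝ} {S : Finset ℕ} (hS : ∀ q ∈ S, q.Prime) (hA : Alive 1 (C0 l) S) {q : ℕ}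
    (hq : q ∈ S) : log q ≤ l / 3 := by
  have h0 : S.Nonempty := ⟨q, hq⟩
  have h1 := max'_mem S h0
  have h2 : up S (S.max' h0) = {S.max' h0} := eq_singleton_iff_unique_mem.2
    ⟨mem_filter.2 ⟨h1, le_rfl⟩, fun r hr =>
      le_antisymm (le_max' S r (mem_filter.1 hr).1) (mem_filter.1 hr).2⟩
  have h3 := hA _ h1
  rw [h2] at h3
  have h4 := base_log (fun r hr => mem_singleton.1 hr ▸ hS _ h1) (hS _ h1).pos (h3 rfl)
  have h5 : log q ≤ log (S.max' h0) :=
    log_le_log (by exact_mod_cast (hS q hq).pos) (by exact_mod_cast le_max' S q hq)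
  rw [sum_singleton] at h4
  linarith

theorem s_Base (hM : S_M) : S_Base := by
  obtain ⟨C, hC, -, h2, h3, -⟩ := hM
  refine ⟨12 * C * (2 + C), by positivity, fun ε l P t2 a hε hl hP => ?_⟩
  have h0 : ∀ p ∈ P, (0 : ℝ) < p := fun p hp => by exact_mod_cast (hP p hp).1.pos
  have h4 : ∀ p ∈ P, l / 4 < log p := fun p hp => (lt_log_iff_exp_lt (h0 p hp)).2 (hP p hp).2.1
  have h5 : ∀ p ∈ P, log p ≤ l / 2 := fun p hp => (log_le_iff_le_exp (h0 p hp)).2 (hP p hp).2.2
  have key : ∀ S ∈ Fam ε (C0 l) P, S.card ≤ 1 + ε ∧ log (pr S) ≤ S.card * (l / 2) ∧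
      (ε = 1 → log (pr S) ≤ S.card * (l / 3)) := fun S hS => by
    obtain ⟨a1, a2⟩ := mem_Fam.1 hS
    have a3 : ∀ q ∈ S, q.Prime := fun q hq => (hP q (a1 hq)).1
    rw [log_pr a3, ← nsmul_eq_mul, ← nsmul_eq_mul]
    refine ⟨base_card hε (by linarith) (fun q hq => ⟨a3 q hq, h4 q (a1 hq)⟩) a2,
      sum_le_card_nsmul _ _ _ fun q hq => h5 q (a1 hq),
      fun e => sum_le_card_nsmul _ _ _ fun q hq => base_third a3 (e ▸ a2) hq⟩
  refine ⟨fun s => ?_, fun ha => sum_eq_zero fun S hS => ?_, fun ha => sum_eq_zero fun S hS => ?_⟩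
  · have w1 : ∀ u : ℝ, ∑ p ∈ P.filter (fun p : ℕ => u < log p ∧ log p ≤ u + 1), 1 / (p : ℝ)
        ≤ 12 * C / l := fun u => by
      have b1 := base_win hC h3 (Y := max u (l / 4)) (lt_max_of_lt_right (by linarith))
        (Q := P.filter fun p : ℕ => u < log p ∧ log p ≤ u + 1) fun p hp => by
          obtain ⟨c1, c2, c3⟩ := mem_filter.1 hp
          exact ⟨(hP p c1).1, max_le c2.le (h4 p c1).le, by linarith [le_max_left u (l / 4)]⟩
      refine b1.trans ((div_le_div_of_nonneg_left (by positivity) (by linarith)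
        (le_max_right u (l / 4))).trans (le_of_eq ?_))
      ring
    have w2 : ∑ p ∈ P, 1 / (p : ℝ) ≤ 1 + C := by
      have b1 := (abs_le.1 (h2 (exp (l / 4)) (exp (l / 2)) (by linarith [add_one_le_exp (l / 4)])
        (exp_le_exp.2 (by linarith)))).2
      have b2 : ∑ p ∈ P, 1 / (p : ℝ) ≤
          ∑ p ∈ (PP (exp (l / 2))).filter (fun p : ℕ => exp (l / 4) < p), 1 / (p : ℝ) :=
        sum_le_sum_of_subset_of_nonneg (fun p hp => mem_filter.2
          ⟨mem_PP.2 ⟨(hP p hp).1, (hP p hp).2.2⟩, (hP p hp).2.1⟩) fun _ _ _ => by positivity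
      have b3 : l / 2 / (l / 4) = 2 := by field_simp; norm_num
      have b4 : C / (l / 4) ^ 2 ≤ C := div_le_self hC.le (one_le_pow₀ (by linarith))
      rw [log_exp, log_exp, b3] at b1
      linarith [log_two_lt_d9]
    have w3 : ∑ x ∈ P.sigma (fun p => (P.erase p).filter fun q : ℕ =>
          l - a - log p < log q ∧ log q ≤ l - a - log p + 1), 1 / (pr {x.1, x.2} : ℝ)
        ≤ (1 + C) * (12 * C / l) := by
      refine le_trans ?_ (mul_le_mul_of_nonneg_right w2 (by positivity))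
      rw [sum_sigma, sum_mul]
      refine sum_le_sum fun p hp => le_trans ?_
        (mul_le_mul_of_nonneg_left (w1 (l - a - log p)) (by positivity))
      rw [mul_sum]
      refine (sum_congr rfl fun q hq => ?_).trans_le (sum_le_sum_of_subset_of_nonneg
        (filter_subset_filter _ (erase_subset p P)) fun _ _ _ => by positivity)
      rw [pr, prod_pair (ne_of_mem_erase (mem_filter.1 hq).1).symm, Nat.cast_mul, one_div_mul_one_div]
    rw [nm, ← sum_filter_add_sum_filter_not _ (fun S => S.card = 1)]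
    refine (add_le_add (b := 12 * C / l) ((base_cover
      (P.filter fun p : ℕ => l - a < log p ∧ log p ≤ l - a + 1) (fun p => {p}) fun S hS => ?_).trans ?_)
      ((base_cover _ (fun x : Σ _ : ℕ, ℕ => {x.1, x.2}) fun S hS => ?_).trans w3)).trans
      (le_of_eq (by ring))
    · obtain ⟨a1, a2⟩ := mem_filter.1 hS
      obtain ⟨p, rfl⟩ := card_eq_one.1 a2
      obtain ⟨a3, -, -, a4, a5⟩ := mem_filter.1 a1
      rw [base_one] at a4 a5
      exact ⟨p, mem_filter.2 ⟨(mem_Fam.1 a3).1 (mem_singleton_self p), by linarith, by linarith⟩,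
        rfl⟩
    · simp only [base_one]
      exact w1 _
    · obtain ⟨a1, a2⟩ := mem_filter.1 hS
      obtain ⟨a3, ⟨r, hr, -⟩, -, a4, a5⟩ := mem_filter.1 a1
      have a6 := (key S a3).1
      have a7 := card_pos.2 ⟨r, hr⟩
      obtain ⟨p, q, e, rfl⟩ := card_eq_two.1 (show S.card = 2 by omega)
      have a8 := (mem_Fam.1 a3).1
      rw [log_pr fun r hr => (hP r (a8 hr)).1, sum_pair e] at a4 a5
      exact ⟨⟨p, q⟩, mem_sigma.2 ⟨a8 (by simp), mem_filter.2
        ⟨mem_erase.2 ⟨e.symm, a8 (by simp)⟩, by linarith, by linarith⟩⟩, rfl⟩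
  · obtain ⟨a3, ⟨r, hr, -⟩, a4, -, a5⟩ := mem_filter.1 hS
    obtain ⟨a6, -, a8⟩ := key S a3
    have a7 := card_pos.2 ⟨r, hr⟩
    have a9 := a8 (by omega)
    rw [show S.card = 1 by omega, Nat.cast_one] at a9
    linarith
  · obtain ⟨a3, ⟨r, hr, -⟩, a4, -, a5⟩ := mem_filter.1 hS
    obtain ⟨a6, a7, a8⟩ := key S a3
    have a9 := card_pos.2 ⟨r, hr⟩
    by_cases e : ε = 1
    · have b := a8 e
      rw [show S.card = 2 by omega, Nat.cast_ofNat] at b
      linarith
    · rw [show S.card = 1 by omega, Nat.cast_one] at a7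
      linarith

end Jac
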