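import Vale.Agent.P013.Gro

/-! The bilinear estimate. -/

noncomputable section
namespace Jac
open Finset Real Filter
open scoped Classical ComplexConjugate

theorem bil_conj (t : ℝ) : conj (ee t) = ee (-t) := by
  rw [ee, ee, ← Complex.exp_conj]
  simp [map_ofNat]

theorem bil_ee {κ : ℕ} (hκ : 1 ≤ κ) {a b : ℤ} (h : (κ : ℤ) ∣ a - b) :
    ee ((a : ℝ) / κ) = ee ((b : ℝ) / κ) := by
  obtain ⟨t, ht⟩ := h
  have h0 : (κ : ℝ) ≠ 0 := by positivity
  have e : (a : ℝ) / κ = (b : ℝ) / κ + (t : ℤ) := by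
    rw [sub_eq_iff_eq_add'.1 ht]
    push_cast
    field_simp
  rw [e, ee_add, ee_int, mul_one]

theorem bil_inv {v κ : ℕ} (h : Nat.Coprime v κ) : (κ : ℤ) ∣ 1 - v * Nat.gcdA v κ := by
  have h1 := Nat.gcd_eq_gcd_ab v κ
  rw [h.gcd_eq_one] at h1
  exact ⟨Nat.gcdB v κ, by linear_combination h1⟩

theorem bil_mul {κ v q : ℕ} (hκ : 1 ≤ κ) (c : ℤ) (hv : Nat.Coprime v κ) (hq : Nat.Coprime q κ) :
    chi κ c (v * q) = chi κ (c * Nat.gcdA q κ) v := by
  refine bil_ee hκ ?_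
  obtain ⟨a, ha⟩ := bil_inv hv
  obtain ⟨b, hb⟩ := bil_inv hq
  obtain ⟨d, hd⟩ := bil_inv (Nat.Coprime.mul_left hv hq)
  push_cast at hd
  exact ⟨c * (Nat.gcdA (v * q) κ * (a + v * Nat.gcdA v κ * b) - Nat.gcdA v κ * Nat.gcdA q κ * d),
    by linear_combination c * Nat.gcdA (v * q) κ * ha
      + c * Nat.gcdA (v * q) κ * v * Nat.gcdA v κ * hb - c * Nat.gcdA v κ * Nat.gcdA q κ * hd⟩

theorem bil_mod {κ v : ℕ} (hκ : 1 ≤ κ) (s : ℤ) (hv : Nat.Coprime v κ) :
    chi κ s v = chi κ s (v % κ) := by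
  refine bil_ee hκ ?_
  obtain ⟨a, ha⟩ := bil_inv hv
  obtain ⟨b, hb⟩ := bil_inv ((ZMod.coprime_mod_iff_coprime v κ).2 hv)
  have e : (v : ℤ) = (v % κ : ℕ) + κ * (v / κ : ℕ) := by exact_mod_cast (Nat.mod_add_div v κ).symm
  exact ⟨s * (Nat.gcdA v κ * b - Nat.gcdA (v % κ) κ * a
      - Nat.gcdA (v % κ) κ * Nat.gcdA v κ * (v / κ : ℕ)),
    by linear_combination s * Nat.gcdA v κ * hb - s * Nat.gcdA (v % κ) κ * ha
      - s * Nat.gcdA (v % κ) κ * Nat.gcdA v κ * e⟩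

theorem bil_norm_chi (κ : ℕ) (s : ℤ) (v : ℕ) : ‖chi κ s v‖ = 1 := norm_ee _

theorem bil_sq (R A : Finset ℕ) (a : ℕ → ℝ) (f : ℕ → ℕ → ℂ) (ha : ∀ q ∈ A, |a q| ≤ 1) :
    ∑ v ∈ R, ‖∑ q ∈ A, (a q : ℂ) * f v q‖ ^ 2
      ≤ ∑ q ∈ A, ∑ q' ∈ A, ‖∑ v ∈ R, f v q * conj (f v q')‖ := by
  have e : ((∑ v ∈ R, ‖∑ q ∈ A, (a q : ℂ) * f v q‖ ^ 2 : ℝ) : ℂ)
      = ∑ q ∈ A, ∑ q' ∈ A, (a q * a q' : ℝ) * ∑ v ∈ R, f v q * conj (f v q') := by
    push_cast
    simp only [← Complex.mul_conj', map_sum]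
    simp only [sum_mul_sum]
    simp only [mul_sum]
    rw [sum_comm]
    refine sum_congr rfl fun q _ => ?_
    rw [sum_comm]
    refine sum_congr rfl fun q' _ => sum_congr rfl fun v _ => ?_
    rw [map_mul, Complex.conj_ofReal]
    ring
  refine (le_abs_self _).trans ?_
  rw [← Real.norm_eq_abs, ← Complex.norm_real, e]
  refine (norm_sum_le _ _).trans (sum_le_sum fun q hq =>
    (norm_sum_le _ _).trans (sum_le_sum fun q' hq' => ?_))
  rw [norm_mul, Complex.norm_real, Real.norm_eq_abs, abs_mul]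
  exact mul_le_of_le_one_left (norm_nonneg _) (mul_le_one₀ (ha q hq) (abs_nonneg _) (ha q' hq'))

theorem bil_class {κ : ℕ} (hκ : 1 ≤ κ) (R : Finset ℕ) (s : ℤ) (g : ℕ → ℂ) {D : ℝ}
    (h : ∀ j, ‖∑ v ∈ R.filter (fun v => v % κ = j % κ), g v - (∑ v ∈ R, g v) / κ‖ ≤ D) :
    ‖∑ v ∈ R.filter (fun v => Nat.Coprime v κ), g v * chi κ s v‖ ≤ ‖∑ v ∈ R, g v‖ / κ *
      ‖∑ j ∈ (range κ).filter (fun j => Nat.Coprime j κ), chi κ s j‖ + κ * D := by
  have e : ∑ v ∈ R.filter (fun v => Nat.Coprime v κ), g v * chi κ s v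
      = (∑ v ∈ R, g v) / κ * ∑ j ∈ (range κ).filter (fun j => Nat.Coprime j κ), chi κ s j
        + ∑ j ∈ (range κ).filter (fun j => Nat.Coprime j κ),
          (∑ v ∈ R.filter (fun v => v % κ = j % κ), g v - (∑ v ∈ R, g v) / κ) * chi κ s j := by
    rw [mul_sum, ← sum_add_distrib, ← sum_fiberwise_of_maps_to (g := fun v => v % κ)
      (t := (range κ).filter fun j => Nat.Coprime j κ) fun v hv => mem_filter.2
        ⟨mem_range.2 (Nat.mod_lt _ hκ), (ZMod.coprime_mod_iff_coprime v κ).2 (mem_filter.1 hv).2⟩]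
    refine sum_congr rfl fun j hj => ?_
    obtain ⟨j1, j2⟩ := mem_filter.1 hj
    rw [← add_mul, add_sub_cancel, sum_mul, Nat.mod_eq_of_lt (mem_range.1 j1), filter_filter]
    refine sum_congr (filter_congr fun v _ => ⟨fun h => h.2, fun h => ⟨?_, h⟩⟩) fun v hv => ?_
    · exact (ZMod.coprime_mod_iff_coprime v κ).1 (h ▸ j2)
    · have h1 := (mem_filter.1 hv).2
      rw [bil_mod hκ s ((ZMod.coprime_mod_iff_coprime v κ).1 (h1 ▸ j2)), h1]
  rw [e]
  refine (norm_add_le _ _).trans (add_le_add (by rw [norm_mul, norm_div, Complex.norm_natCast])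
    ((norm_sum_le _ _).trans ((sum_le_card_nsmul _ _ D fun j _ => ?_).trans ?_)))
  · rw [norm_mul, bil_norm_chi, mul_one]
    exact h j
  · rw [nsmul_eq_mul]
    refine mul_le_mul_of_nonneg_right ?_ ((norm_nonneg _).trans (h 0))
    exact_mod_cast (card_filter_le _ _).trans (card_range κ).le

theorem bil_pairs (A : Finset ℕ) (q n : ℕ) (F : ℕ → ℝ) (hF : ∀ d, 0 ≤ F d)
    (h : ∀ q' ∈ A, Nat.dist q q' ≤ n) :
    ∑ q' ∈ A.erase q, F (Nat.dist q q') ≤ 2 * ∑ d ∈ Ioc 0 n, F d := by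
  rw [← sum_fiberwise_of_maps_to (g := fun q' => Nat.dist q q') (t := Ioc 0 n) fun q' hq' =>
    mem_Ioc.2 ⟨Nat.dist_pos_of_ne (mem_erase.1 hq').1.symm, h q' (mem_erase.1 hq').2⟩, mul_sum]
  refine sum_le_sum fun d _ => ?_
  rw [sum_congr rfl (g := fun _ => F d) fun q' hq' => by rw [(mem_filter.1 hq').2], sum_const,
    nsmul_eq_mul]
  refine mul_le_mul_of_nonneg_right ?_ (hF d)
  have h1 : (A.erase q).filter (fun q' => Nat.dist q q' = d) ⊆ {q + d, q - d} := fun q' hq' => by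
    have h2 := (mem_filter.1 hq').2
    simp only [Nat.dist] at h2
    simp only [mem_insert, mem_singleton]
    omega
  exact_mod_cast (card_le_card h1).trans card_le_two

theorem bil_tau (κ : ℕ) : (κ.divisors.card : ℝ) ≤ 2 * √κ := by
  have h1 : (κ.divisors.filter fun e => e ≤ κ.sqrt).card ≤ (Ioc 0 κ.sqrt).card :=
    card_le_card fun e he =>
      mem_Ioc.2 ⟨Nat.pos_of_mem_divisors (mem_filter.1 he).1, (mem_filter.1 he).2⟩
  have h2 : (κ.divisors.filter fun e => ¬ e ≤ κ.sqrt).card ≤ (Ioc 0 κ.sqrt).card := by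
    refine card_le_card_of_injOn (fun e => κ / e) (fun e he => ?_) fun e he e' he' h => ?_
    · obtain ⟨a1, a2⟩ := mem_filter.1 he
      obtain ⟨a3, a4⟩ := Nat.mem_divisors.1 a1
      exact mem_Ioc.2 ⟨Nat.div_pos (Nat.le_of_dvd (Nat.pos_of_ne_zero a4) a3)
        (Nat.pos_of_mem_divisors a1),
        (Nat.le_sqrt_of_eq_mul (Nat.mul_div_cancel' a3).symm).resolve_left a2⟩
    · obtain ⟨a3, a4⟩ := Nat.mem_divisors.1 (mem_filter.1 he).1
      exact (Nat.div_eq_iff_eq_of_dvd_dvd a4 a3 (Nat.mem_divisors.1 (mem_filter.1 he').1).1).1 h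
  have h3 := card_filter_add_card_filter_not (s := κ.divisors) fun e => e ≤ κ.sqrt
  rw [Nat.card_Ioc] at h1 h2
  have h4 : (κ.divisors.card : ℝ) ≤ 2 * κ.sqrt := by exact_mod_cast (by omega)
  linarith [Real.nat_sqrt_le_real_sqrt (a := κ)]

theorem bil_div (κ n : ℕ) :
    ∑ d ∈ Ioc 0 n, ∑ e ∈ κ.divisors.filter (fun e => e ∣ d), (e : ℝ) ≤ 2 * √κ * n := by
  simp only [sum_filter]
  rw [sum_comm]
  refine (sum_le_card_nsmul _ _ (n : ℝ) fun e _ => ?_).trans ?_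
  · rw [← sum_filter, sum_const, Nat.Ioc_filter_dvd_card_eq_div, nsmul_eq_mul]
    exact_mod_cast Nat.div_mul_le_self n e
  · rw [nsmul_eq_mul]
    exact mul_le_mul_of_nonneg_right (bil_tau κ) (Nat.cast_nonneg n)

theorem bil_dvd {κ q q' e : ℕ} {c : ℤ} (hc : IsCoprime c κ) (hq : Nat.Coprime q κ)
    (hq' : Nat.Coprime q' κ) (he : e ∣ κ)
    (h : (e : ℤ) ∣ c * Nat.gcdA q κ - c * Nat.gcdA q' κ) : e ∣ Nat.dist q q' := by
  have he' : (e : ℤ) ∣ κ := Int.natCast_dvd_natCast.2 he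
  rw [← mul_sub] at h
  obtain ⟨t, ht⟩ := (hc.of_isCoprime_of_dvd_right he').symm.dvd_of_dvd_mul_left h
  obtain ⟨a, ha⟩ := he'.trans (bil_inv hq)
  obtain ⟨b, hb⟩ := he'.trans (bil_inv hq')
  have h1 : (e : ℤ) ∣ q - q' :=
    ⟨q * b - q' * a - q * q' * t, by linear_combination q * hb - q' * ha - q * q' * ht⟩
  rw [← Int.natCast_dvd_natCast]
  rcases le_total q q' with h2 | h2
  · rw [Nat.dist_eq_sub_of_le h2, Nat.cast_sub h2]
    exact dvd_sub_comm.1 h1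
  · rw [Nat.dist_eq_sub_of_le_right h2, Nat.cast_sub h2]
    exact h1

theorem bil_dist (q q' : ℕ) : (Nat.dist q q' : ℝ) = |(q : ℝ) - q'| := by
  rcases le_total q q' with h | h
  · rw [Nat.dist_eq_sub_of_le h, Nat.cast_sub h, abs_sub_comm,
      abs_of_nonneg (sub_nonneg.2 (Nat.cast_le.2 h))]
  · rw [Nat.dist_eq_sub_of_le_right h, Nat.cast_sub h,
      abs_of_nonneg (sub_nonneg.2 (Nat.cast_le.2 h))]

theorem bil_card {a b : ℝ} (ha : 0 ≤ a) (hab : a ≤ b) : ((Ioc ⌊a⌋₊ ⌊b⌋₊).card : ℝ) ≤ b - a + 1 := by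
  rw [Nat.card_Ioc, Nat.cast_sub (Nat.floor_mono hab)]
  linarith [Nat.floor_le (ha.trans hab), Nat.lt_floor_add_one a]

theorem bil_harm {V : ℝ} (hV : 1 ≤ V) : ∑ d ∈ Ioc 0 ⌊V⌋₊, (d : ℝ)⁻¹ ≤ 1 + log V := by
  have h := harmonic_le_one_add_log ⌊V⌋₊
  simp only [harmonic_eq_sum_Icc, Rat.cast_sum, Rat.cast_inv, Rat.cast_natCast] at h
  have h1 : (0 : ℝ) < ⌊V⌋₊ := by exact_mod_cast Nat.floor_pos.2 hV
  exact h.trans (by linarith [log_le_log h1 (Nat.floor_le (by linarith : 0 ≤ V))])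

theorem s_Bil (hRam : S_Ram) (hOsc : S_Osc) : S_Bil := by
  obtain ⟨C, hC, hO⟩ := hOsc
  refine ⟨24 + 16 * C, by positivity, fun κ c A W Q V Z E P1 hκ hc hW hV hVQ hP hZ hE hA hcase => ?_⟩
  have W0 : 0 < W := by linarith
  have Q0 : 0 < Q := by linarith
  have κ1 : (1 : ℝ) ≤ κ := by exact_mod_cast hκ
  have E0 : 0 ≤ E := nonneg_of_mul_nonneg_left ((abs_nonneg Z).trans hZ) W0
  have lV := log_nonneg hV
  have sP : 0 < √P1 := sqrt_pos.2 (by linarith)
  have hR : ((Ioc ⌊W⌋₊ ⌊exp 1 * W⌋₊).card : ℝ) ≤ 3 * W :=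
    (bil_card W0.le (by nlinarith [exp_one_gt_d9])).trans (by nlinarith [exp_one_lt_d9])
  have hAc : (A.card : ℝ) ≤ 2 * V := by
    have h1 : A ⊆ Ioc ⌊Q⌋₊ ⌊Q + V⌋₊ := fun q hq =>
      mem_Ioc.2 ⟨(Nat.floor_lt Q0.le).2 (hA q hq).2.1, Nat.le_floor (hA q hq).2.2.1⟩
    have h2 : (A.card : ℝ) ≤ (Ioc ⌊Q⌋₊ ⌊Q + V⌋₊).card := by exact_mod_cast card_le_card h1
    linarith [bil_card Q0.le (by linarith : Q ≤ Q + V)]
  obtain ⟨Zq, hZq⟩ : ∃ Zq : ℕ → ℕ → ℝ, Zq = fun q q' : ℕ => Z * (((q' : ℝ) - q) / (q * q')) :=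
    ⟨_, rfl⟩
  have aZ : ∀ q ∈ A, ∀ q' ∈ A, |Zq q q'| = |Z| * (Nat.dist q q' / (q * q')) := fun q _ q' _ => by
    rw [hZq, bil_dist, abs_mul, abs_div, abs_sub_comm, abs_of_nonneg (by positivity :
      (0 : ℝ) ≤ q * q')]
  have dV : ∀ q ∈ A, ∀ q' ∈ A, (Nat.dist q q' : ℝ) ≤ V := fun q hq q' hq' => by
    rw [bil_dist, abs_le]
    constructor <;> linarith [(hA q hq).2.1, (hA q hq).2.2.1, (hA q' hq').2.1, (hA q' hq').2.2.1]
  have bZ : ∀ q ∈ A, ∀ q' ∈ A, |Zq q q'| ≤ E * W := fun q hq q' hq' => by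
    have a1 := (hA q hq).2.1
    have a2 := (hA q' hq').2.1
    rw [aZ q hq q' hq']
    refine (mul_le_of_le_one_right (abs_nonneg _) ?_).trans hZ
    rw [div_le_one (mul_pos (by linarith) (by linarith))]
    nlinarith [dV q hq q' hq']
  -- the main terms
  obtain ⟨F, F0, F1, F2⟩ : ∃ F : ℕ → ℝ, (∀ d, 0 ≤ F d) ∧
      ∑ d ∈ Ioc 0 ⌊V⌋₊, F d ≤ (6 + 4 * C) * V * (W * (1 / √P1 + Q / V * (1 + log V) / P1)) ∧
      ∀ q ∈ A, ∀ q' ∈ A, q' ≠ q → ‖∑ v ∈ Ioc ⌊W⌋₊ ⌊exp 1 * W⌋₊, ee (Zq q q' / v)‖ / κ *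
        ‖∑ j ∈ (range κ).filter (fun j => Nat.Coprime j κ),
          chi κ (c * Nat.gcdA q κ - c * Nat.gcdA q' κ) j‖ ≤ F (Nat.dist q q') := by
    have t1 : 0 ≤ V * (W * (1 / √P1)) := by positivity
    have t2 : 0 ≤ V * (W * (Q / V * (1 + log V) / P1)) := by positivity
    rcases hcase with h | h
    · refine ⟨fun d => 3 * W / κ * ∑ e ∈ κ.divisors.filter (fun e => e ∣ d), (e : ℝ),
        fun d => by positivity, ?_, fun q hq q' hq' _ => ?_⟩
      · rw [← mul_sum]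
        have a1 : 3 * W / κ * (2 * √κ * V) = 6 * (V * (W * (1 / √κ))) := by
          nth_rw 1 [← mul_self_sqrt (Nat.cast_nonneg κ)]
          field_simp
          ring
        have a2 : V * (W * (1 / √κ)) ≤ V * (W * (1 / √P1)) := by gcongr
        have a3 := (bil_div κ ⌊V⌋₊).trans (mul_le_mul_of_nonneg_left
          (Nat.floor_le (by linarith : 0 ≤ V)) (by positivity))
        refine (mul_le_mul_of_nonneg_left a3 (by positivity)).trans ?_
        nlinarith [mul_nonneg hC.le t1, mul_nonneg hC.le t2]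
      · refine mul_le_mul (div_le_div_of_nonneg_right ((norm_sum_le _ _).trans ?_) (by linarith))
          ((hRam κ _ hκ).trans (sum_le_sum_of_subset_of_nonneg (fun e he => ?_)
            fun _ _ _ => Nat.cast_nonneg _)) (norm_nonneg _) (by positivity)
        · simpa only [norm_ee, sum_const, nsmul_eq_mul, mul_one] using hR
        · obtain ⟨a1, a2⟩ := mem_filter.1 he
          exact mem_filter.2 ⟨a1, bil_dvd hc (hA q hq).2.2.2 (hA q' hq').2.2.2
            (Nat.dvd_of_mem_divisors a1) a2⟩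
    · refine ⟨fun d => 4 * C * W * Q / P1 * (d : ℝ)⁻¹, fun d => by positivity, ?_,
        fun q hq q' hq' hne => ?_⟩
      · rw [← mul_sum]
        refine (mul_le_mul_of_nonneg_left (bil_harm hV) (by positivity)).trans ?_
        have a1 : 4 * C * W * Q / P1 * (1 + log V)
            = 4 * C * (V * (W * (Q / V * (1 + log V) / P1))) := by field_simp
        nlinarith [mul_nonneg hC.le t1]
      · have d0 : (0 : ℝ) < Nat.dist q q' := by exact_mod_cast Nat.dist_pos_of_ne hne.symm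
        have q0 : (0 : ℝ) < q := Q0.trans (hA q hq).2.1
        have q1 : (0 : ℝ) < q' := Q0.trans (hA q' hq').2.1
        have a1 : P1 * W * Q * (Nat.dist q q' / (2 * Q * (2 * Q))) ≤ |Zq q q'| := by
          rw [aZ q hq q' hq']
          gcongr <;> linarith [(hA q hq).2.2.1, (hA q' hq').2.2.1]
        have a2 : 0 < P1 * W * Q * (Nat.dist q q' / (2 * Q * (2 * Q))) := by positivity
        have a3 := (hO W (Zq q q') hW).1 (abs_pos.1 (a2.trans_le a1))
          ((bZ q hq q' hq').trans (by nlinarith))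
        have a4 : ‖∑ j ∈ (range κ).filter (fun j => Nat.Coprime j κ),
            chi κ (c * Nat.gcdA q κ - c * Nat.gcdA q' κ) j‖ ≤ κ := by
          refine (norm_sum_le _ _).trans ?_
          simp only [bil_norm_chi, sum_const, nsmul_eq_mul, mul_one]
          exact_mod_cast (card_filter_le _ _).trans (card_range κ).le
        refine (mul_le_mul_of_nonneg_left a4 (by positivity)).trans ?_
        rw [div_mul_cancel₀ _ (by linarith)]
        refine (a3.trans (div_le_div_of_nonneg_left (by positivity) a2 a1)).trans (le_of_eq ?_)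
        field_simp
        ring
  have key : ∀ q ∈ A, ∑ q' ∈ A, ‖∑ v ∈ (Ioc ⌊W⌋₊ ⌊exp 1 * W⌋₊).filter (fun v => Nat.Coprime v κ),
      ee (Z / ((v : ℝ) * q)) * chi κ c (v * q) * conj (ee (Z / ((v : ℝ) * q')) * chi κ c (v * q'))‖
      ≤ 3 * W + (2 * ((6 + 4 * C) * V * (W * (1 / √P1 + Q / V * (1 + log V) / P1)))
        + 2 * V * (κ * (C * (1 + E)))) := by
    intro q hq
    rw [← add_sum_erase _ _ hq]
    refine add_le_add ((norm_sum_le _ _).trans ?_) ((sum_le_sum (g := fun q' =>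
      F (Nat.dist q q') + κ * (C * (1 + E))) fun q' hq' => ?_).trans ?_)
    · simp only [norm_mul, Complex.norm_conj, norm_ee, bil_norm_chi, sum_const, nsmul_eq_mul,
        mul_one]
      exact le_trans (by exact_mod_cast card_filter_le _ _) hR
    · obtain ⟨hne, hq'⟩ := mem_erase.1 hq'
      have q0 : (0 : ℝ) < q := Q0.trans (hA q hq).2.1
      have q1 : (0 : ℝ) < q' := Q0.trans (hA q' hq').2.1
      rw [sum_congr rfl (g := fun v : ℕ => ee (Zq q q' / v) *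
        chi κ (c * Nat.gcdA q κ - c * Nat.gcdA q' κ) v) fun v hv => ?_]
      · refine (bil_class hκ _ _ _ fun j => ((hO W _ hW).2 κ j hκ).trans ?_).trans
          (add_le_add (F2 q hq q' hq' hne) le_rfl)
        gcongr
        rw [div_le_iff₀ W0]
        exact bZ q hq q' hq'
      · have hv' := (mem_filter.1 hv).2
        rw [bil_mul hκ c hv' (hA q hq).2.2.2, bil_mul hκ c hv' (hA q' hq').2.2.2, map_mul, chi, chi,
          chi, bil_conj, bil_conj, ← ee_add, ← ee_add, ← ee_add, ← ee_add, hZq]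
        congr 1
        push_cast
        field_simp
        ring
    · rw [sum_add_distrib, sum_const, nsmul_eq_mul]
      refine add_le_add ((bil_pairs A q ⌊V⌋₊ F F0 fun q' hq' =>
        Nat.le_floor (dV q hq q' hq')).trans (by linarith))
        (mul_le_mul_of_nonneg_right (le_trans ?_ hAc) (by positivity))
      exact_mod_cast card_erase_le
  refine (bil_sq _ A (fun q => Q / q) (fun v q => ee (Z / ((v : ℝ) * q)) * chi κ c (v * q))
    fun q hq => ?_).trans ((sum_le_card_nsmul _ _ _ key).trans ?_)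
  · have q0 := (hA q hq).2.1
    rw [abs_of_nonneg (by positivity), div_le_one (by linarith)]
    exact q0.le
  · rw [nsmul_eq_mul]
    refine (mul_le_mul_of_nonneg_right hAc (by positivity)).trans ?_
    have e : V * W = V ^ 2 * (W * (1 / V)) := by field_simp
    have t1 : 0 ≤ V ^ 2 * (W * (1 / V)) := by positivity
    have t2 : 0 ≤ V ^ 2 * (κ * (1 + E)) := by positivity
    nlinarith [mul_nonneg hC.le t1, mul_nonneg hC.le t2]

end Jac
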