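import Vale.Agent.P013.Gro

noncomputable section
namespace Jac
open Finset Real Filter
open scoped Classical

theorem s_AB : S_AB := by
  intro y x h n0 m0 u u' hy hn h0 hm hu hu' hne hh h1 h2
  have p1 : (0 : ℤ) < (m0 * u : ℕ) := by exact_mod_cast Nat.mul_pos hm hu.pos
  have p2 : (0 : ℤ) < (m0 * u' : ℕ) := by exact_mod_cast Nat.mul_pos hm hu'.pos
  have e1 := Int.mul_ediv_add_emod (h * (x + n0)) (m0 * u : ℕ)
  have e2 := Int.mul_ediv_add_emod (h * (x + n0)) (m0 * u' : ℕ)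
  have b1 := Int.emod_nonneg (h * (x + n0)) p1.ne'
  have b2 := Int.emod_lt_of_pos (h * (x + n0)) p1
  have b3 := Int.emod_nonneg (h * (x + n0)) p2.ne'
  have b4 := Int.emod_lt_of_pos (h * (x + n0)) p2
  generalize h * (x + n0) / (m0 * u : ℕ) = N at *
  generalize h * (x + n0) / (m0 * u' : ℕ) = N' at *
  generalize h * (x + n0) % (m0 * u : ℕ) = b at *
  generalize h * (x + n0) % (m0 * u' : ℕ) = b' at *
  push_cast at *
  have hK : h * (u' - u) ≠ 0 := mul_ne_zero h0 (sub_ne_zero.2 (by exact_mod_cast hne.symm))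
  have u0 : (0 : ℤ) < u := by exact_mod_cast hu.pos
  have u1 : (0 : ℤ) < u' := by exact_mod_cast hu'.pos
  have hK1 : |h * (u' - u)| ≤ y := by
    rw [abs_mul]
    exact le_trans (mul_le_mul_of_nonneg_left (abs_le.2 ⟨by linarith, by linarith⟩) (abs_nonneg _)) h2
  obtain ⟨c, c1, c2⟩ := Rat.num_den_mk hK
    (rfl : Rat.divInt (b * u' - b' * u - n0 * (h * (u' - u))) (h * (u' - u)) = _)
  generalize Rat.divInt (b * u' - b' * u - n0 * (h * (u' - u))) (h * (u' - u)) = ρ at *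
  have c0 : c ≠ 0 := by rintro rfl; exact hK (by simpa using c2)
  have c3 : 1 ≤ |c| := Int.one_le_abs c0
  have key : c * (ρ.den * x - ρ.num) = m0 * u * u' * (N - N') := by
    rw [mul_sub, ← mul_assoc, ← c1, ← c2]; linear_combination (-u' : ℤ) * e1 + u * e2
  have hit : ∀ q : ℕ, q.Prime → ¬ (q : ℤ) ∣ h * (u' - u) → (q : ℤ) ∣ m0 * u * u' * (N - N') →
      Hit x ρ q := fun q hq d e => by
    rw [← key] at e
    exact ((Nat.prime_iff_prime_int.1 hq).dvd_or_dvd e).resolve_left fun f => d (c2 ▸ f.mul_right _)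
  have y0 : (2 : ℤ) ≤ y := by exact_mod_cast hy
  have h1' : (m0 : ℤ) * u * u' ≤ y ^ 2 := by exact_mod_cast h1
  have n1 : (n0 : ℤ) < y := by exact_mod_cast hn
  refine ⟨ρ, ⟨?_, ?_⟩, hit u hu (fun d => ?_) ⟨m0 * u' * (N - N'), by ring⟩, _, hK, hK1,
    fun q hq d e => hit q hq d (e.mul_left _)⟩
  · have a1 : |b * u' - b' * u| ≤ y ^ 2 := abs_le.2 ⟨by nlinarith, by nlinarith⟩
    have a2 : |n0 * (h * (u' - u))| ≤ y ^ 2 := by
      rw [abs_mul, Nat.abs_cast, sq]; exact mul_le_mul n1.le hK1 (abs_nonneg _) (by linarith)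
    have a3 := abs_sub (b * u' - b' * u) (n0 * (h * (u' - u)))
    rw [c1, abs_mul] at a3
    nlinarith [abs_nonneg ρ.num]
  · rw [c2, abs_mul, Nat.abs_cast] at hK1
    have : (ρ.den : ℤ) ≤ y ^ 3 := by nlinarith [Int.natCast_nonneg ρ.den, sq_nonneg ((y : ℤ) - 1)]
    exact_mod_cast this
  · rcases (Nat.prime_iff_prime_int.1 hu).dvd_or_dvd d with f | f
    · exact absurd (Int.le_of_dvd (abs_pos.2 h0) ((dvd_abs _ _).2 f)) (not_le.2 hh)
    · have : (u : ℤ) ∣ u' := by simpa using dvd_add f (dvd_refl (u : ℤ))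
      exact hne ((Nat.prime_dvd_prime_iff_eq hu hu').1 (by exact_mod_cast this))

theorem ch_gap (U : Finset ℕ) (hU : U.Nonempty) (κ : ℕ) (hκ : 1 ≤ κ)
    (h : ∀ u ∈ U, ∀ u' ∈ U, (κ : ℤ) ∣ (u : ℤ) - u') :
    ((U.card : ℝ) - 1) * κ ≤ (U.max' hU : ℝ) - U.min' hU := by
  have h1 : U.card ≤ (range ((U.max' hU - U.min' hU) / κ + 1)).card := by
    refine card_le_card_of_injOn (fun u => (u - U.min' hU) / κ) (fun u hu => ?_) fun u hu v hv e => ?_
    · exact mem_coe.2 (mem_range.2 (Nat.lt_succ_of_le (Nat.div_le_div_right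
        (Nat.sub_le_sub_right (le_max' _ _ hu) _))))
    · have a : ∀ w ∈ U, κ ∣ w - U.min' hU := fun w hw => by
        have := h w hw _ (min'_mem U hU)
        rw [← Nat.cast_sub (min'_le _ _ hw)] at this
        exact_mod_cast this
      have b1 := Nat.div_mul_cancel (a u hu)
      have b2 := Nat.div_mul_cancel (a v hv)
      have b3 := min'_le _ _ hu
      have b4 := min'_le _ _ hv
      dsimp only at e
      rw [e] at b1
      omega
  rw [card_range] at h1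
  have h2 := Nat.div_mul_le_self (U.max' hU - U.min' hU) κ
  have h3 : ((U.card : ℝ) - 1) ≤ ((U.max' hU - U.min' hU) / κ : ℕ) := by
    rw [sub_le_iff_le_add]; exact_mod_cast h1
  rw [← Nat.cast_sub (min'_le _ _ (max'_mem U hU))]
  exact (mul_le_mul_of_nonneg_right h3 (by positivity)).trans (by exact_mod_cast h2)

theorem s_CH : S_CH := by
  intro y x h ρ n0 m0 u0 U al W s τ0 hy hρ hn h0 hh hm hW hs hsU hu0 hτ hU
  have y0 : (6 : ℤ) ≤ y := by exact_mod_cast hy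
  have k0 : (0 : ℤ) < ρ.den := by exact_mod_cast ρ.den_pos
  have k1 : (ρ.den : ℤ) ≤ y ^ 3 := by exact_mod_cast hρ.2
  have n1 : (n0 : ℤ) < y := by exact_mod_cast hn
  have hc : ∀ u ∈ U, ∃ c w b : ℤ, h * (ρ.den * x - ρ.num) = u * w ∧ |c| ≤ 3 * y ^ 5 ∧
      ρ.den * m0 * (h * (x + n0) / (m0 * u : ℕ)) = w + c ∧
      h * (ρ.num + n0 * ρ.den) = u * c + ρ.den * b ∧ 0 ≤ b ∧ b < m0 * u := by
    intro u hu
    obtain ⟨a1, -, -, -, a2, ⟨w, hw⟩, -⟩ := hU u hu
    have u0 : (0 : ℤ) < u := by exact_mod_cast a1.pos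
    have p1 : (0 : ℤ) < (m0 * u : ℕ) := by exact_mod_cast Nat.mul_pos hm a1.pos
    have e1 := Int.mul_ediv_add_emod (h * (x + n0)) (m0 * u : ℕ)
    have b1 := Int.emod_nonneg (h * (x + n0)) p1.ne'
    have b2 := Int.emod_lt_of_pos (h * (x + n0)) p1
    generalize h * (x + n0) / (m0 * u : ℕ) = N at *
    generalize h * (x + n0) % (m0 * u : ℕ) = b at *
    push_cast at *
    have e2 : h * (ρ.num + n0 * ρ.den) = u * (ρ.den * m0 * N - h * w) + ρ.den * b := by
      linear_combination (-ρ.den : ℤ) * e1 - h * hw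
    refine ⟨_, h * w, b, by rw [hw]; ring, ?_, by ring, e2, b1, b2⟩
    have a3 : (m0 : ℤ) * u ≤ y ^ 2 := by exact_mod_cast a2
    have a4 : |ρ.num + n0 * ρ.den| ≤ 2 * y ^ 4 := by
      refine (abs_add_le _ _).trans ?_
      rw [abs_of_nonneg (by positivity : (0 : ℤ) ≤ n0 * ρ.den)]
      have : (n0 : ℤ) * ρ.den ≤ y * y ^ 3 := by gcongr
      have : (y : ℤ) ^ 3 ≤ y ^ 4 := pow_le_pow_right₀ (by linarith) (by norm_num)
      nlinarith [hρ.1]
    have a5 : |h * (ρ.num + n0 * ρ.den)| ≤ y * (2 * y ^ 4) := by rw [abs_mul]; gcongr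
    have a6 : ρ.den * b ≤ y ^ 3 * y ^ 2 := by gcongr; linarith
    have a7 := abs_sub (h * (ρ.num + n0 * ρ.den)) (ρ.den * b)
    rw [e2, add_sub_cancel_right, ← e2, abs_mul, abs_of_pos u0,
      abs_of_nonneg (by positivity : 0 ≤ ρ.den * b)] at a7
    nlinarith [abs_nonneg (ρ.den * m0 * N - h * w)]
  choose! c w b h1 h2 h3 h4 h5 h6 using hc
  have hq : ∀ u ∈ U, ∀ q ∈ al u, (q : ℤ) ∣ w u := fun u hu q hq => by
    obtain ⟨a1, a2, -, -, -, -, a3, -⟩ := hU u hu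
    obtain ⟨b1, b2, b3⟩ := a3 q hq
    have : (q : ℤ) ∣ u * w u := h1 u hu ▸ Dvd.dvd.mul_left b3 _
    refine ((Nat.prime_iff_prime_int.1 b1).dvd_or_dvd this).resolve_left fun f => ?_
    have := (Nat.prime_dvd_prime_iff_eq b1 a1).1 (by exact_mod_cast f)
    rw [this] at b2; linarith
  have hcc : ∀ u ∈ U, c u = c u0 := by
    intro u hu
    by_contra ne
    have a1 := (hU u hu).2.2.2.2.2.2.2
    rw [tau] at a1
    set A := (al u0 ∩ al u).filter (fun q : ℕ => (q : ℤ) ∣ h * (x + n0) / (m0 * u0 : ℕ) -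
      h * (x + n0) / (m0 * u : ℕ)) with hA
    have a2 : ∀ q ∈ A, q.Prime := fun q hq =>
      ((hU u hu).2.2.2.2.2.2.1 q (mem_inter.1 (mem_filter.1 hq).1).2).1
    have a3 : (pr A : ℤ) ∣ c u0 - c u := (pr_dvd_iff a2 _).2 fun q hq' => by
      obtain ⟨b1, b2⟩ := mem_filter.1 hq'
      have b3 := (b2.mul_left (ρ.den * m0)).sub ((hq u0 hu0 q (mem_inter.1 b1).1).sub
        (hq u hu q (mem_inter.1 b1).2))
      rw [mul_sub, h3 u hu, h3 u0 hu0] at b3
      exact (by ring : w u0 + c u0 - (w u + c u) - (w u0 - w u) = c u0 - c u) ▸ b3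
    have a4 : (pr A : ℤ) ≤ y ^ 6 := by
      refine (Int.le_of_dvd (abs_pos.2 (sub_ne_zero.2 (Ne.symm ne))) ((dvd_abs _ _).2 a3)).trans ?_
      have := abs_sub (c u0) (c u)
      have := h2 u hu
      have := h2 u0 hu0
      have : 0 ≤ (y : ℤ) ^ 5 := by positivity
      nlinarith
    have a5 : 2 ^ A.card ≤ pr A := pow_card_le_prod _ _ _ fun q hq => (a2 q hq).two_le
    have a6 : (2 : ℝ) ^ τ0 < 2 ^ (A.card : ℝ) := rpow_lt_rpow_of_exponent_lt one_lt_two a1
    rw [rpow_natCast] at a6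
    have a7 : (2 : ℝ) ^ A.card ≤ y ^ 6 := by exact_mod_cast (by exact_mod_cast a5 : (2 : ℤ) ^ A.card ≤ pr A).trans a4
    linarith
  have hne : U.Nonempty := ⟨u0, hu0⟩
  have m1 := max'_mem U hne
  have m2 := min'_mem U hne
  have e3 : exp 1 < 2.72 := exp_one_lt_d9.trans (by norm_num)
  have r1 := (hU _ m1).2.2.1
  have r2 := (hU _ m2).2.1
  have r3 := (hU _ m2).2.2.1
  have r4 := (hU _ m1).2.1
  constructor
  · have g0 : 0 < Int.gcd (ρ.den * m0 : ℕ) (h * (ρ.den * x - ρ.num)) :=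
      Int.gcd_pos_of_ne_zero_left _ (by exact_mod_cast (Nat.mul_pos ρ.den_pos hm).ne')
    have g1 := Int.gcd_div_gcd_div_gcd g0
    have g2 := Int.gcd_dvd_left (ρ.den * m0 : ℕ) (h * (ρ.den * x - ρ.num))
    have g3 := Int.gcd_dvd_right (ρ.den * m0 : ℕ) (h * (ρ.den * x - ρ.num))
    generalize Int.gcd (ρ.den * m0 : ℕ) (h * (ρ.den * x - ρ.num)) = g at *
    obtain ⟨κ, hκ⟩ : g ∣ ρ.den * m0 := by exact_mod_cast g2
    obtain ⟨t, ht⟩ := g3
    have g4 : (g : ℤ) ≠ 0 := by exact_mod_cast g0.ne'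
    rw [hκ, ht, Nat.cast_mul, Int.mul_ediv_cancel_left _ g4, Int.mul_ediv_cancel_left _ g4] at g1
    rw [hκ, Nat.mul_div_cancel_left _ g0]
    have hκ' : (ρ.den : ℤ) * m0 = g * κ := by exact_mod_cast hκ
    have κ1 : 1 ≤ κ := Nat.pos_of_mul_pos_left (hκ ▸ Nat.mul_pos ρ.den_pos hm)
    have := ch_gap U hne κ κ1 fun u hu v hv => by
      refine (Int.isCoprime_iff_gcd_eq_one.2 g1).dvd_of_dvd_mul_right ?_
      rw [← mul_dvd_mul_iff_left g4, ← hκ']
      refine ⟨u * v * (h * (x + n0) / (m0 * v : ℕ) - h * (x + n0) / (m0 * u : ℕ)), ?_⟩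
      have a1 := h1 u hu
      have a2 := h1 v hv
      have a3 := h3 u hu
      have a4 := h3 v hv
      rw [hcc u hu] at a3
      rw [hcc v hv] at a4
      linear_combination (v - u : ℤ) * ht - v * a1 + u * a2 + u * v * a3 - u * v * a4
    have κ0 : (0 : ℝ) ≤ κ := by positivity
    rw [le_div_iff₀ (by linarith)]
    nlinarith
  · have g := ch_gap U hne 1 le_rfl fun _ _ _ _ => by simp
    have a1 := h4 _ m1
    have a2 := h4 _ m2
    rw [hcc _ m1] at a1
    rw [hcc _ m2] at a2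
    have a3 := h5 _ m1
    have a4 := h6 _ m1
    have a5 := h5 _ m2
    have a6 := h6 _ m2
    generalize U.max' hne = v at *
    generalize U.min' hne = u at *
    have a7 : |h * (ρ.num + n0 * ρ.den) * (v - u)| ≤ ρ.den * (m0 * u * v) := by
      rw [show h * (ρ.num + n0 * ρ.den) * (v - u) = ρ.den * (b u * v - b v * u) by
        linear_combination (v : ℤ) * a2 - u * a1, abs_mul, abs_of_pos k0]
      gcongr
      have : (0 : ℤ) ≤ u := by positivity
      have : (0 : ℤ) ≤ v := by positivity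
      exact abs_le.2 ⟨by nlinarith, by nlinarith⟩
    have k2 : (0 : ℝ) < ρ.den := by exact_mod_cast k0
    have a8 : |(h : ℝ) * ((ρ : ℝ) + n0) * (v - u)| ≤ m0 * u * v := by
      have : |(h : ℝ) * (ρ.num + n0 * ρ.den) * (v - u)| ≤ ρ.den * (m0 * u * v) := by
        exact_mod_cast a7
      rwa [show (h : ℝ) * (ρ.num + n0 * ρ.den) * (v - u) = ρ.den * (h * ((ρ : ℝ) + n0) * (v - u)) by
        rw [Rat.cast_def]; field_simp, abs_mul, abs_of_pos k2, mul_le_mul_iff_right₀ k2] at this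
    rw [Nat.cast_one, mul_one] at g
    rw [abs_mul, abs_of_nonneg (by linarith : (0 : ℝ) ≤ v - u)] at a8
    have a9 : (m0 : ℝ) * u * v ≤ m0 * (2.72 * W) * (2.72 * W) := by gcongr <;> nlinarith
    rw [div_mul_eq_mul_div, div_mul_eq_mul_div, le_div_iff₀ (by linarith)]
    have : 0 ≤ (m0 : ℝ) * W * W := by positivity
    nlinarith [abs_nonneg ((h : ℝ) * ((ρ : ℝ) + n0))]

end Jac
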