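import Vale.Agent.P013.Gro

/-! The structured case. -/

noncomputable section
namespace Jac
open Finset Real Filter
open scoped Classical

theorem caseI_ci {y : ℕ} (x : ℤ) {ρ : ℚ} (h : InR y ρ) (hy : 20 ≤ y) (hP : 1 ≤ PW y) :
    ∃ (k a : ℤ) (n1 M : ℕ), k ≠ 0 ∧ |(k : ℝ)| ≤ PW y ∧ (y : ℝ) / 5 ≤ M ∧ n1 + M ≤ y ∧
      (∀ n ∈ Ico n1 (n1 + M), |(k : ℝ)| * y / 4 ≤ ((k * n + a : ℤ) : ℝ) ∧
        ((k * n + a : ℤ) : ℝ) ≤ 2 * y * PW y ^ 2) ∧ IsCoprime a k ∧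
      ∀ p : ℕ, Hit x ρ p ↔ (p : ℤ) ∣ a - k * x := by
  obtain ⟨h1, h2⟩ := h
  have d0 : (0 : ℝ) < ρ.den := by exact_mod_cast ρ.pos
  have y0 : (0 : ℝ) ≤ y := Nat.cast_nonneg y
  have hb : |(ρ.num : ℝ)| ≤ y * PW y ^ 2 := by
    have e : (ρ.num : ℝ) = (ρ : ℝ) * ρ.den := by
      rw [Rat.cast_def]; field_simp
    rw [e, abs_mul, abs_of_pos d0, sq, ← mul_assoc]
    exact mul_le_mul h2 h1 d0.le (by positivity)
  have hb1 := le_abs_self (ρ.num : ℝ)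
  have hb2 := neg_abs_le (ρ.num : ℝ)
  have hPP : PW y ≤ PW y ^ 2 := by nlinarith
  have hco : IsCoprime ρ.num (ρ.den : ℤ) := Int.isCoprime_iff_gcd_eq_one.2 ρ.reduced
  have hden : (ρ.den : ℤ) ≠ 0 := by exact_mod_cast ρ.den_ne_zero
  by_cases hc : -(ρ.den * y / 2 : ℝ) ≤ ρ.num
  · refine ⟨ρ.den, ρ.num, (3 * y + 3) / 4, y - (3 * y + 3) / 4, hden, ?_, ?_, by omega, ?_, hco,
      fun p => ?_⟩
    · rw [Int.cast_natCast, abs_of_pos d0]; exact h1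
    · rw [div_le_iff₀ (by norm_num)]
      exact_mod_cast (by omega : y ≤ (y - (3 * y + 3) / 4) * 5)
    · intro n hn
      obtain ⟨n1, n2⟩ := mem_Ico.1 hn
      have a1 : (3 * y : ℝ) ≤ 4 * n := by exact_mod_cast (by omega : 3 * y ≤ 4 * n)
      have a2 : (n : ℝ) ≤ y := by exact_mod_cast (by omega : n ≤ y)
      have a3 := mul_le_mul_of_nonneg_left a1 d0.le
      have a4 : (ρ.den : ℝ) * n ≤ PW y ^ 2 * y :=
        mul_le_mul (h1.trans hPP) a2 (Nat.cast_nonneg n) (by positivity)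
      push_cast
      rw [abs_of_pos d0]
      constructor <;> linarith
    · rw [Hit, ← neg_sub, dvd_neg]
  · refine ⟨-ρ.den, -ρ.num, 0, y / 4, neg_ne_zero.2 hden, ?_, ?_, by omega, ?_, hco.neg_neg,
      fun p => ?_⟩
    · push_cast
      rw [abs_neg, abs_of_pos d0]; exact h1
    · rw [div_le_iff₀ (by norm_num)]
      exact_mod_cast (by omega : y ≤ (y / 4) * 5)
    · intro n hn
      obtain ⟨n1, n2⟩ := mem_Ico.1 hn
      have a1 : (4 * n : ℝ) ≤ y := by exact_mod_cast (by omega : 4 * n ≤ y)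
      have a3 := mul_le_mul_of_nonneg_left a1 d0.le
      have a4 : (0 : ℝ) ≤ ρ.den * n := by positivity
      have a5 : (0 : ℝ) ≤ y * PW y ^ 2 := by positivity
      push_cast
      rw [abs_neg, abs_of_pos d0]
      constructor <;> linarith
    · rw [Hit, show -ρ.num - -(ρ.den : ℤ) * x = ρ.den * x - ρ.num by ring]

theorem caseI_cnt {y : ℕ} {x k a : ℤ} {γ n1 M : ℕ} {E : Finset ℕ} (U : Finset ℕ)
    (h : CI y x k a γ n1 M E) (hz : z y < y / 8) (hy : 8 ≤ y)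
    (hγ : γ = 2 → ¬ (2 : ℤ) ∣ a - k * x)
    (hc : ∀ p ∈ PP (z y), ¬ (p : ℤ) ∣ a - k * x → p ∈ E ∨ p ∈ U ∨ (p = 2 ∧ γ = 2))
    (hw : log (2 * y * PW y ^ 2) ≤ 2 * L y) :
    ∑ n ∈ (PS k a γ n1 M).filter (fun n : ℕ => ∀ p ∈ E, ¬ (p : ℤ) ∣ (n : ℤ) + x), wt k a γ n ≤
      2 * L y * Cnt y x + ∑ u ∈ U, ∑ n ∈ (PS k a γ n1 M).filter
        (fun n : ℕ => (∀ p ∈ E, ¬ (p : ℤ) ∣ (n : ℤ) + x) ∧ (u : ℤ) ∣ (n : ℤ) + x), wt k a γ n := by
  have y8 : (8 : ℝ) ≤ y := by exact_mod_cast hy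
  have k1 : (1 : ℝ) ≤ |(k : ℝ)| := by exact_mod_cast Int.one_le_abs h.k0
  have g12 : γ = 1 ∨ γ = 2 := h.ga.imp id fun a => a.1
  have g1 : (1 : ℝ) ≤ γ := by rcases g12 with e | e <;> simp [e]
  have g2 : (γ : ℝ) ≤ 2 := by rcases g12 with e | e <;> simp [e]
  have hlow : ∀ n ∈ PS k a γ n1 M, (y : ℝ) / 8 ≤ ((k * n + a : ℤ) : ℝ) / γ := by
    intro n hn
    have a1 := (h.sz n (mem_filter.1 hn).1).1
    have a2 : (1 : ℝ) * y ≤ |(k : ℝ)| * y := mul_le_mul_of_nonneg_right k1 (by linarith)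
    have a3 : (y : ℝ) / 8 * γ ≤ y / 8 * 2 := mul_le_mul_of_nonneg_left g2 (by linarith)
    rw [le_div_iff₀ (by linarith)]
    linarith
  have hw0 : ∀ n ∈ PS k a γ n1 M, 0 ≤ wt k a γ n := fun n hn =>
    log_nonneg (le_trans (by linarith) (hlow n hn))
  have hw1 : ∀ n ∈ PS k a γ n1 M, wt k a γ n ≤ 2 * L y := by
    intro n hn
    refine le_trans (log_le_log (lt_of_lt_of_le (by linarith) (hlow n hn)) ?_) hw
    have a1 := h.sz n (mem_filter.1 hn).1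
    have a2 : 0 ≤ |(k : ℝ)| * y / 4 := by positivity
    exact (div_le_self (by linarith [a1.1]) g1).trans a1.2
  have hL : 0 ≤ 2 * L y := mul_nonneg (by norm_num) (log_nonneg (by linarith))
  have hg : ∀ n ∈ PS k a γ n1 M, (∀ p ∈ E, ¬ (p : ℤ) ∣ (n : ℤ) + x) →
      (∀ u ∈ U, ¬ (u : ℤ) ∣ (n : ℤ) + x) → n ∈ (range y).filter
        (fun n : ℕ => ∀ p ∈ PP (z y), ¬ (p : ℤ) ∣ (n : ℤ) + x) := by
    intro n hn hE hU
    obtain ⟨a1, a2, a3⟩ := mem_filter.1 hn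
    refine mem_filter.2 ⟨mem_range.2 ((mem_Ico.1 a1).2.trans_le h.M1), fun p hp hd => ?_⟩
    have e0 : k * n + a = k * (n + x) + (a - k * x) := by ring
    by_cases hh : (p : ℤ) ∣ a - k * x
    · obtain ⟨q, hq⟩ : ∃ q : ℕ, q = ((k * n + a) / γ).toNat := ⟨_, rfl⟩
      rw [← hq] at a3
      have e1 : (q : ℤ) = (k * n + a) / γ := by
        have := a3.pos
        omega
      have e2 : k * n + a = γ * q := by rw [e1, Int.mul_ediv_cancel' a2]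
      have e3 : (p : ℤ) ∣ γ * q := by
        rw [← e2, e0]; exact dvd_add (hd.mul_left k) hh
      obtain ⟨p1, p2⟩ := mem_PP.1 hp
      have e4 : p ∣ γ * q := by exact_mod_cast e3
      rcases (Nat.Prime.dvd_mul p1).1 e4 with e5 | e5
      · rcases g12 with e | e
        · rw [e] at e5; exact p1.one_lt.ne' (Nat.dvd_one.1 e5)
        · rw [e] at e5
          rw [(Nat.prime_dvd_prime_iff_eq p1 Nat.prime_two).1 e5] at hh
          exact hγ e hh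
      · have e6 := (Nat.prime_dvd_prime_iff_eq p1 a3).1 e5
        have e7 := hlow n hn
        rw [e2] at e7
        push_cast at e7
        rw [mul_div_cancel_left₀ _ (by linarith), ← e6] at e7
        linarith
    · rcases hc p hp hh with b | b | ⟨b1, b2⟩
      · exact hE p b hd
      · exact hU p b hd
      · apply hh
        rw [b2, ← b1, e0] at a2
        exact (dvd_add_right (hd.mul_left k)).1 a2
  rw [Cnt, mul_comm, ← nsmul_eq_mul, ← sum_const]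
  simp only [sum_filter]
  rw [sum_comm]
  have s1 : ∑ n ∈ PS k a γ n1 M, (if n ∈ (range y).filter
        (fun n : ℕ => ∀ p ∈ PP (z y), ¬ (p : ℤ) ∣ (n : ℤ) + x) then 2 * L y else 0)
      ≤ ∑ n ∈ range y, if ∀ p ∈ PP (z y), ¬ (p : ℤ) ∣ (n : ℤ) + x then 2 * L y else 0 := by
    rw [sum_ite_mem, ← sum_filter]
    exact sum_le_sum_of_subset_of_nonneg inter_subset_right fun _ _ _ => hL
  refine le_trans ?_ (add_le_add_left s1 _)
  rw [← sum_add_distrib]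
  refine sum_le_sum fun n hn => ?_
  have t0 : ∀ u ∈ U, 0 ≤ (if (∀ p ∈ E, ¬ (p : ℤ) ∣ (n : ℤ) + x) ∧ (u : ℤ) ∣ (n : ℤ) + x
      then wt k a γ n else 0) := fun u _ => by
    split_ifs
    · exact hw0 n hn
    · exact le_rfl
  have t1 : 0 ≤ (if n ∈ (range y).filter
      (fun n : ℕ => ∀ p ∈ PP (z y), ¬ (p : ℤ) ∣ (n : ℤ) + x) then 2 * L y else 0) := by
    split_ifs
    · exact hL
    · exact le_rfl
  have t2 := sum_nonneg t0
  by_cases hE : ∀ p ∈ E, ¬ (p : ℤ) ∣ (n : ℤ) + x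
  swap
  · rw [if_neg hE]; linarith
  rw [if_pos hE]
  by_cases hU : ∀ u ∈ U, ¬ (u : ℤ) ∣ (n : ℤ) + x
  · rw [if_pos (hg n hn hE hU)]
    linarith [hw1 n hn]
  · push Not at hU
    obtain ⟨u, hu, hd⟩ := hU
    have t3 := single_le_sum t0 hu
    simp only [if_pos (And.intro hE hd)] at t3
    linarith

theorem caseI_prod (hM : S_M) : ∀ᶠ y : ℕ in atTop, ∀ (x : ℤ) (ρ : ℚ) (E : Finset ℕ), Maj y x ρ →
    E ⊆ PP y → (∀ p ∈ E, ¬ Hit x ρ p) → ∏ p ∈ E, (1 + 1 / (p : ℝ)) ≤ L y ^ (0.8 : ℝ) := by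
  obtain ⟨C, hC, -, h2, -, h4, -⟩ := hM
  filter_upwards [ev_logB, ev_T_pow 2 2 (e := 1 / 2) (by norm_num), ev_T 1, ev_L 1,
    ev_log_sT 1, ev_sT 60, ev_T (60 * C), eventually_ge_atTop 2] with
    y a1 a2 a3 a4 a5 a6 a7 a8 x ρ E hm hE hn
  have y2 : (2 : ℝ) ≤ y := by exact_mod_cast a8
  have B2 : (2 : ℝ) ≤ B y := by exact_mod_cast a1.1
  have L0 : 0 < L y := by linarith
  have hBL : (B y : ℝ) ≤ √(L y) := by
    rw [sqrt_eq_rpow]
    have := B_le y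
    nlinarith
  have b1 := h2 (exp (B y)) (exp √(L y)) (by linarith [add_one_le_exp (B y : ℝ)])
    (exp_le_exp.2 hBL)
  rw [log_exp, log_exp, log_div (by positivity) (by positivity), log_sqrt L0.le] at b1
  have b2 : C / (B y : ℝ) ^ 2 ≤ C := div_le_self hC.le (by nlinarith)
  have b3 : T y / 2 - log (B y) - C ≤ ∑ p ∈ WW y, 1 / (p : ℝ) := by
    have := (abs_le.1 b1).1
    rw [WW, T]; linarith
  have b4 : ∑ p ∈ PP y, 1 / (p : ℝ) ≤ T y + C := by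
    have := (abs_le.1 (h4 y y2)).2
    rw [T, L]; linarith
  have b5 : ∑ p ∈ E, 1 / (p : ℝ) + ∑ p ∈ (WW y).filter (Hit x ρ), 1 / (p : ℝ)
      ≤ ∑ p ∈ PP y, 1 / (p : ℝ) := by
    rw [← sum_union (disjoint_left.2 fun p hp hq => hn p hp (mem_filter.1 hq).2)]
    refine sum_le_sum_of_subset_of_nonneg (union_subset hE fun p hp => ?_)
      fun _ _ _ => by positivity
    obtain ⟨c1, c2⟩ := mem_PP.1 (mem_filter.1 (mem_filter.1 hp).1).1
    refine mem_PP.2 ⟨c1, c2.trans ?_⟩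
    rw [← exp_L (y := y) (by omega)]
    refine exp_le_exp.2 ?_
    rw [sqrt_le_left L0.le]; nlinarith
  have b6 : 60 * √(T y) ≤ T y := by
    have := mul_self_sqrt (show 0 ≤ T y by linarith)
    nlinarith
  have b7 : ∑ p ∈ E, 1 / (p : ℝ) ≤ 0.8 * T y := by
    unfold Maj at hm
    linarith [a1.2]
  rw [L_rpow L0]
  refine le_trans ?_ (exp_le_exp.2 b7)
  rw [exp_sum]
  exact prod_le_prod (fun _ _ => by positivity) fun p _ => by
    linarith [add_one_le_exp (1 / (p : ℝ))]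

theorem caseI_z : ∀ᶠ y : ℕ in atTop, z y * (y : ℝ) ^ (0.4 : ℝ) ≤ y / L y := by
  filter_upwards [ev_T_pow 20 2 (e := 1) one_pos, ev_T 1, ev_L 1, eventually_ge_atTop 1] with
    y a1 a2 a3 a4
  have L0 : 0 < L y := by linarith
  rw [rpow_one] at a1
  rw [le_div_iff₀ L0, z, sqrt_eq_rpow, rpow_eq a4, rpow_eq a4]
  conv_rhs => rw [← exp_L a4]
  nth_rewrite 3 [← exp_T L0]
  rw [← exp_add, ← exp_add, ← exp_add]
  refine exp_le_exp.2 ?_
  have b1 : log (T y) ≤ T y := by linarith [log_le_sub_one_of_pos (show 0 < T y by linarith)]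
  have b2 : T y * log (T y) ≤ T y * T y := mul_le_mul_of_nonneg_left b1 (by linarith)
  nlinarith

theorem caseI_w : ∀ᶠ y : ℕ in atTop, 1 ≤ PW y ∧ log (2 * y * PW y ^ 2) ≤ 2 * L y := by
  filter_upwards [ev_T_pow 2 2 (e := 1) one_pos, ev_kap_T 200, ev_T 0, ev_L 2,
    eventually_ge_atTop 1] with y a1 a2 a3 a4 a5
  have y0 : (0 : ℝ) < y := by exact_mod_cast a5
  have k0 : 0 ≤ kap y := by rw [kap]; positivity
  rw [rpow_one] at a1
  rw [PW, G_pow]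
  refine ⟨one_le_exp (by positivity), ?_⟩
  rw [log_mul (by positivity) (by positivity), log_mul (by norm_num) y0.ne', log_pow, log_exp]
  have : log 2 ≤ 1 := by linarith [log_le_sub_one_of_pos (show (0 : ℝ) < 2 by norm_num)]
  push_cast
  change _ + L y + _ ≤ _
  linarith

theorem s_I (hIb : S_Ib) (hIc : S_Ic) (hM : S_M) : S_I := by
  obtain ⟨c, hc, J0, hb⟩ := hIb
  obtain ⟨C, hC, hcc⟩ := hIc (max J0 3) (le_max_right _ _)
  have hb := hb (max J0 3) (le_max_left _ _)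
  have hJ : 3 ≤ max J0 3 := le_max_right _ _
  generalize max J0 3 = J at *
  refine ⟨J, hJ, min (1 / 10) (c / (2 * C)), lt_min (by norm_num) (by positivity),
    min_le_left _ _, ?_⟩
  filter_upwards [hb, hcc, caseI_prod hM, caseI_z, caseI_w, ev_L 9, eventually_ge_atTop 20,
    ev_L_rpow (6 / c) (show (0.8 : ℝ) < 1 by norm_num)] with
    y a1 a2 a3 a4 a5 a6 a7 a8 x ρ hR hm hw
  obtain ⟨k, a, n1, M, k0, k1, M0, M1, sz, co, hit⟩ := caseI_ci x hR a7 a5.1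
  have y1 : (20 : ℝ) ≤ y := by exact_mod_cast a7
  have L0 : 0 < L y := by linarith
  obtain ⟨γ, hγ⟩ : ∃ γ : ℕ, γ = if Odd k ∧ ¬ Hit x ρ 2 then 2 else 1 := ⟨_, rfl⟩
  have g2 : γ = 2 ↔ Odd k ∧ ¬ Hit x ρ 2 := by
    rw [hγ]; split_ifs with h <;> simp [h]
  have g1 : γ = 1 ∨ γ = 2 := by
    rw [hγ]; split_ifs <;> simp
  obtain ⟨E, hE⟩ : ∃ E, E = (PP ((y : ℝ) ^ (1 / (J : ℝ)))).filter
    (fun p => ¬ Hit x ρ p ∧ ¬ (p = 2 ∧ γ = 2)) := ⟨_, rfl⟩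
  have mE : ∀ p, p ∈ E ↔ p ∈ PP ((y : ℝ) ^ (1 / (J : ℝ))) ∧ ¬ Hit x ρ p ∧ ¬ (p = 2 ∧ γ = 2) :=
    fun p => by rw [hE, mem_filter]
  have hci : CI y x k a γ n1 M E := by
    refine ⟨k0, k1, M0, M1, sz, co, g1.imp id fun e => ⟨e, (g2.1 e).1, fun h => ?_⟩, fun h => ?_,
      fun p hp => ⟨(mem_PP.1 ((mE p).1 hp).1).1, fun h => ((mE p).1 hp).2.1 ((hit p).2 h)⟩⟩
    · exact ((mE 2).1 h).2.2 ⟨rfl, e⟩
    · obtain ⟨-, b1, b2⟩ := (mE 2).1 h
      exact Int.not_odd_iff_even.1 fun ho => b2 ⟨rfl, g2.2 ⟨ho, b1⟩⟩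
  have hsub : E ⊆ PP ((y : ℝ) ^ (1 / (J : ℝ))) := fun p hp => ((mE p).1 hp).1
  obtain ⟨U, hU⟩ : ∃ U, U = (PP (z y)).filter
    (fun u : ℕ => (y : ℝ) ^ (1 / (J : ℝ)) < u ∧ ¬ Hit x ρ u) := ⟨_, rfl⟩
  rw [← hU] at hw
  have mU : ∀ u, u ∈ U ↔ u ∈ PP (z y) ∧ (y : ℝ) ^ (1 / (J : ℝ)) < u ∧ ¬ Hit x ρ u :=
    fun p => by rw [hU, mem_filter]
  have z0 : 0 ≤ z y := by rw [z]; positivity
  have y4 : (1 : ℝ) ≤ (y : ℝ) ^ (0.4 : ℝ) := one_le_rpow (by linarith) (by norm_num)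
  have hz : z y < y / 8 := by
    have b1 : z y ≤ y / L y := (le_mul_of_one_le_right z0 y4).trans a4
    exact b1.trans_lt (div_lt_div_of_pos_left (by linarith) (by norm_num) (by linarith))
  have key := caseI_cnt U hci hz (by omega)
    (fun e h => (g2.1 e).2 ((hit 2).2 (by exact_mod_cast h))) (fun p hp hn => ?_) a5.2
  swap
  · have b1 : ¬ Hit x ρ p := fun h => hn ((hit p).1 h)
    by_cases b2 : p = 2 ∧ γ = 2
    · exact Or.inr (Or.inr b2)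
    by_cases b3 : (y : ℝ) ^ (1 / (J : ℝ)) < p
    · exact Or.inr (Or.inl ((mU p).2 ⟨hp, b3, b1⟩))
    · exact Or.inl ((mE p).2 ⟨mem_PP.2 ⟨(mem_PP.1 hp).1, not_lt.1 b3⟩, b1, b2⟩)
  have i1 := a1 x k a γ n1 M E hci hsub
  have i2 := sum_le_sum fun u (hu : u ∈ U) => a2 x k a γ n1 M E hci hsub u
    (mem_PP.1 ((mU u).1 hu).1).1 ((mU u).1 hu).2.1
  have i3 := a3 x ρ E hm (fun p hp => ?_) fun p hp => ((mE p).1 hp).2.1
  swap
  · obtain ⟨b1, b2⟩ := mem_PP.1 (hsub hp)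
    refine mem_PP.2 ⟨b1, b2.trans ?_⟩
    have J3 : (3 : ℝ) ≤ J := by exact_mod_cast hJ
    simpa using rpow_le_rpow_of_exponent_le (show (1 : ℝ) ≤ y by linarith)
      (show 1 / (J : ℝ) ≤ 1 by rw [div_le_one (by linarith)]; linarith)
  have hκ : (1 : ℝ) ≤ |(k : ℝ)| / Nat.totient k.natAbs := by
    have b1 : 0 < Nat.totient k.natAbs := Nat.totient_pos.2 (Int.natAbs_pos.2 k0)
    rw [le_div_iff₀ (by exact_mod_cast b1), one_mul, ← Int.cast_abs, Int.abs_eq_natAbs,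
      Int.cast_natCast]
    exact_mod_cast Nat.totient_le _
  have hP : 0 < ∏ p ∈ E, (1 + 1 / (p : ℝ)) := prod_pos fun _ _ => by positivity
  have hcard : (U.card : ℝ) ≤ z y := by
    have b1 : U ⊆ Icc 1 ⌊z y⌋₊ := fun u hu => by
      obtain ⟨b2, b3⟩ := mem_PP.1 ((mU u).1 hu).1
      exact mem_Icc.2 ⟨b2.pos, Nat.le_floor b3⟩
    have b2 := card_le_card b1
    rw [Nat.card_Icc, Nat.add_sub_cancel] at b2
    exact le_trans (by exact_mod_cast b2) (Nat.floor_le z0)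
  generalize |(k : ℝ)| / Nat.totient k.natAbs = κ at *
  generalize ∏ p ∈ E, (1 + 1 / (p : ℝ)) = Pi at *
  have i4 : ∑ u ∈ U, (C * y * κ / (u * Pi) + (y : ℝ) ^ (0.4 : ℝ))
      = C * (y * κ / Pi) * ∑ u ∈ U, 1 / (u : ℝ) + U.card * (y : ℝ) ^ (0.4 : ℝ) := by
    rw [sum_add_distrib, sum_const, nsmul_eq_mul, mul_sum]
    congr 1
    exact sum_congr rfl fun u _ => by ring
  have i5 : C * (y * κ / Pi) * ∑ u ∈ U, 1 / (u : ℝ) ≤ c / 2 * (y * κ / Pi) := by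
    refine (mul_le_mul_of_nonneg_left (hw.trans (min_le_right _ _)) (by positivity)).trans
      (le_of_eq ?_)
    field_simp
  have i6 : (U.card : ℝ) * (y : ℝ) ^ (0.4 : ℝ) ≤ y / L y :=
    (mul_le_mul_of_nonneg_right hcard (by positivity)).trans a4
  have i7 : 3 * (y / L y) ≤ c / 2 * (y * κ / Pi) := by
    rw [rpow_one] at a8
    have b1 : 6 / c * Pi ≤ L y := (mul_le_mul_of_nonneg_left i3 (by positivity)).trans a8
    have b2 : (y : ℝ) / L y ≤ y * κ / (6 / c * Pi) :=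
      div_le_div₀ (by positivity) (le_mul_of_one_le_right (by linarith) hκ) (by positivity) b1
    refine (mul_le_mul_of_nonneg_left b2 (by norm_num)).trans (le_of_eq ?_)
    field_simp
    norm_num
  rw [show c * y * κ / Pi = 2 * (c / 2 * (y * κ / Pi)) by ring] at i1
  have i8 : 2 * (y / L y) ≤ 2 * L y * Cnt y x := by linarith
  rw [sq, ← div_div, div_le_iff₀ L0]
  linarith

end Jac
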