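import Vale.Agent.P013.End

/-! The unstructured case. -/

noncomputable section
namespace Jac
open Finset Real Filter
open scoped Classical

theorem caseii_sg (S : Finset ℕ) : |sg S| = 1 := by simp [sg]

theorem caseii_A1_nonneg (y : ℕ) (x : ℤ) (d : ℕ) : 0 ≤ A1 y x d := by
  unfold A1 av
  refine div_nonneg (sum_nonneg fun a _ => sum_nonneg fun b _ => ?_) (by positivity)
  positivity

theorem caseii_A1_le (y : ℕ) (x : ℤ) (d : ℕ) : A1 y x d ≤ (H y : ℝ) / d + 1 := by
  unfold A1 av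
  rcases Nat.eq_zero_or_pos (H y) with h | h
  · simp [h]
  have hH : (0 : ℝ) < H y := by exact_mod_cast h
  rw [div_le_iff₀ hH]
  have key : ∀ a ∈ range (H y), ∑ b ∈ range (H y),
      (if (d : ℤ) ∣ ((a + b : ℕ) : ℤ) + x ∧ ¬ Sp y x (a + b) then (1 : ℝ) else 0) ≤
        (H y : ℝ) / d + 1 := fun a _ => by
    rw [sum_boole]
    have h1 := end_card (H y) d ((a : ℤ) + x)
    have h2 : ((range (H y)).filter (fun b : ℕ => (d : ℤ) ∣ ((a + b : ℕ) : ℤ) + x ∧
        ¬ Sp y x (a + b))).card ≤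
        ((range (H y)).filter (fun t : ℕ => (d : ℤ) ∣ (t : ℤ) + ((a : ℤ) + x))).card := by
      refine card_le_card fun b hb => ?_
      rw [mem_filter] at hb ⊢
      refine ⟨hb.1, ?_⟩
      have e : (b : ℤ) + ((a : ℤ) + x) = ((a + b : ℕ) : ℤ) + x := by push_cast; ring
      rw [e]
      exact hb.2.1
    have h3 : ((H y / d + 1 : ℕ) : ℝ) ≤ (H y : ℝ) / d + 1 := by
      push_cast
      linarith [Nat.cast_div_le (α := ℝ) (m := H y) (n := d)]
    exact le_trans (by exact_mod_cast h2.trans h1) h3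
  refine (sum_le_sum key).trans (le_of_eq ?_)
  rw [sum_const, card_range, nsmul_eq_mul, mul_comm]

theorem caseii_eq {y : ℕ} (hP : 1 ≤ PW y) {x : ℤ} {d : ℕ} (h : ¬ Str y x d) :
    A1 y x d = A0 (H y) x d := by
  unfold A1 A0 av
  congr 1
  refine sum_congr rfl fun a ha => sum_congr rfl fun b hb => ?_
  refine if_congr ⟨fun h1 => h1.1, fun h1 => ⟨h1, fun h2 => h ⟨_, h2, ⟨?_, ?_⟩, ?_⟩⟩⟩ rfl rfl
  · rwa [Rat.den_neg_eq_den, Rat.den_natCast, Nat.cast_one]
  · have h3 : a + b ≤ y := by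
      rw [mem_range, H] at ha hb
      omega
    have h4 : ((a + b : ℕ) : ℝ) ≤ y := by exact_mod_cast h3
    have e : |((-((a + b : ℕ) : ℚ) : ℚ) : ℝ)| = ((a + b : ℕ) : ℝ) := by
      rw [Rat.cast_neg, abs_neg, Rat.cast_natCast, Nat.abs_cast]
    rw [e]
    exact h4.trans (le_mul_of_one_le_right (by positivity) hP)
  · intro p _ hp _
    unfold Hit
    rw [Rat.den_neg_eq_den, Rat.num_neg_eq_neg_num, Rat.den_natCast, Rat.num_natCast,
      Nat.cast_one, one_mul, sub_neg_eq_add, add_comm]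
    exact (Int.natCast_dvd_natCast.2 hp).trans h1

theorem caseii_split (y J : ℕ) (x : ℤ) (E : Finset ℕ) (f : Finset ℕ → ℕ → ℝ) :
    nsum y J x E (fun u => U1 y J (gg u)) f = nsum y J x E (fun u => Lo y J (gg u)) f +
      nsum y J x E (fun u N => (Hi y J (gg u) N).filter (Bad y)) f +
      nsum y J x E (fun u => Gd y J (gg u)) f := by
  unfold nsum
  simp only [← sum_add_distrib]
  refine sum_congr rfl fun u _ => sum_congr rfl fun N _ => ?_
  rw [add_assoc, Gd, sum_filter_add_sum_filter_not, Lo, Hi, add_comm,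
    sum_filter_add_sum_filter_not]

theorem caseii_mono {y J : ℕ} {x : ℤ} {E : Finset ℕ} {F : ℕ → Finset ℕ → Finset (Finset ℕ)}
    {f g : Finset ℕ → ℕ → ℝ} (h : ∀ S d, f S d ≤ g S d) : nsum y J x E F f ≤ nsum y J x E F g :=
  sum_le_sum fun _ _ => sum_le_sum fun _ _ => sum_le_sum fun _ _ => h _ _

theorem caseii_add (y J : ℕ) (x : ℤ) (E : Finset ℕ) (F : ℕ → Finset ℕ → Finset (Finset ℕ))
    (f g : Finset ℕ → ℕ → ℝ) :
    nsum y J x E F (fun S d => f S d + g S d) = nsum y J x E F f + nsum y J x E F g := by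
  unfold nsum
  simp only [sum_add_distrib]

theorem caseii_mul (y J : ℕ) (x : ℤ) (E : Finset ℕ) (F : ℕ → Finset ℕ → Finset (Finset ℕ))
    (f : Finset ℕ → ℕ → ℝ) (c : ℝ) :
    nsum y J x E F (fun S d => c * f S d) = c * nsum y J x E F f := by
  unfold nsum
  simp only [mul_sum]

theorem caseii_bad (hBad : S_Bad) (hSize : S_Size) (hGeo : S_Geo) (hMass : S_Mass) (hM : S_M)
    {J : ℕ} (hJ : 3 ≤ J) : ∀ᶠ y : ℕ in atTop, ∀ (x : ℤ) (E : Finset ℕ), EE y J x E →
    nsum y J x E (fun u N => (Hi y J (gg u) N).filter (Bad y))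
      (fun _ d => A1 y x d + (H y : ℝ) / d) ≤ y / L y ^ 2 := by
  obtain ⟨C, hC, -, -, -, hM4, -⟩ := hM
  obtain ⟨c, -, hMa⟩ := hMass J hJ
  filter_upwards [hBad J hJ, hSize J hJ, hGeo J hJ, hMa, ev_L C, ev_L 1, ev_L_G 4 3,
    eventually_ge_atTop 2] with y hB hS hG hMa hLC hL1 hLG hy x E hE
  have hy' : (2 : ℝ) ≤ y := by exact_mod_cast hy
  have hL0 : 0 < L y := by linarith
  have hG0 := G_pos y
  have hG1 : 1 ≤ G y := by nlinarith [one_le_pow₀ (n := 3) hL1]
  have hexp : exp (l1 y) = y * G y := by rw [l1, exp_add, exp_L (by omega), G]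
  have hsub : E ⊆ PP y := fun u hu => by
    obtain ⟨hp, h1, h2, -⟩ := hE.1 u hu
    obtain ⟨g1, -, g3⟩ := hG.1 u h1 h2
    obtain ⟨-, -, g4, -⟩ := hG.2 _ g1
    refine mem_PP.2 ⟨hp, ?_⟩
    have hu0 : (0 : ℝ) < u := by exact_mod_cast hp.pos
    rw [← exp_L (y := y) (by omega), ← exp_log hu0]
    exact exp_le_exp.2 (by linarith)
  have hsum : ∑ u ∈ E, 1 / (u : ℝ) ≤ 2 * L y := by
    have h1 := (abs_le.1 (hM4 y hy')).2
    have h2 : log (log (y : ℝ)) ≤ L y := (log_le_sub_one_of_pos hL0).trans (by linarith)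
    have h3 : ∑ u ∈ E, 1 / (u : ℝ) ≤ ∑ p ∈ PP y, 1 / (p : ℝ) :=
      sum_le_sum_of_subset_of_nonneg hsub fun _ _ _ => by positivity
    linarith
  have key : ∀ u ∈ E, ∑ N ∈ Nd y J x (gg u), ∑ S ∈ (Hi y J (gg u) N).filter (Bad y),
      (A1 y x (u * pr N * pr S) + (H y : ℝ) / (u * pr N * pr S : ℕ)) ≤
        2 * y / G y ^ 2 * (1 / u) := fun u hu => by
    obtain ⟨hp, h1, h2, -⟩ := hE.1 u hu
    obtain ⟨g1, -, g3⟩ := hG.1 u h1 h2
    have hu0 : (0 : ℝ) < u := by exact_mod_cast hp.pos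
    have hug : (u : ℝ) ≤ exp (gg u) := by
      rw [← exp_log hu0]
      exact exp_le_exp.2 g3
    have k2 : ∀ N ∈ Nd y J x (gg u), ∑ S ∈ (Hi y J (gg u) N).filter (Bad y),
        (A1 y x (u * pr N * pr S) + (H y : ℝ) / (u * pr N * pr S : ℕ)) ≤
          2 * y / G y ^ 2 * (1 / u) * (1 / pr N) := fun N hN => by
      have k3 : ∀ S ∈ (Hi y J (gg u) N).filter (Bad y),
          (A1 y x (u * pr N * pr S) + (H y : ℝ) / (u * pr N * pr S : ℕ)) ≤
            2 * y * G y * (1 / u) * (1 / pr N) * (1 / pr S) := fun S hS' => by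
        obtain ⟨s1, -, s3, -⟩ := hS x _ g1 N hN S (mem_filter.1 hS').1
        have hpos : (0 : ℝ) < (pr N : ℝ) * pr S := by
          have := (exp_pos _).trans_le s1
          rw [mul_assoc] at this
          exact (mul_pos_iff_of_pos_left (exp_pos _)).1 this
        have hd : (0 : ℝ) < (u * pr N * pr S : ℕ) := by
          push_cast
          rw [mul_assoc]
          positivity
        have hd2 : ((u * pr N * pr S : ℕ) : ℝ) ≤ y * G y := by
          rw [← hexp]
          refine le_trans ?_ s3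
          push_cast
          gcongr
        have hH : 2 * (H y : ℝ) ≤ y := by
          have : 2 * H y ≤ y := Nat.mul_div_le y 2
          exact_mod_cast this
        have e : 2 * y * G y * (1 / u) * (1 / pr N) * (1 / pr S) =
            2 * y * G y / (u * pr N * pr S : ℕ) := by
          push_cast
          ring
        have a1 := caseii_A1_le y x (u * pr N * pr S)
        rw [e]
        refine le_trans (b := ((2 : ℝ) * H y + (u * pr N * pr S : ℕ)) / (u * pr N * pr S : ℕ)) ?_ ?_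
        · rw [add_div, div_self hd.ne', mul_div_assoc]
          linarith
        · gcongr
          nlinarith
      refine (sum_le_sum k3).trans ?_
      rw [← mul_sum]
      refine (mul_le_mul_of_nonneg_left (hB x _ g1 N hN) (by positivity)).trans (le_of_eq ?_)
      field_simp
    refine (sum_le_sum k2).trans ?_
    rw [← mul_sum]
    exact mul_le_of_le_one_right (by positivity) (hMa x _ g1).2
  refine (sum_le_sum key).trans ?_
  rw [← mul_sum]
  refine (mul_le_mul_of_nonneg_left hsum (by positivity)).trans ?_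
  rw [div_mul_eq_mul_div, div_le_div_iff₀ (by positivity) (by positivity)]
  have h5 : G y ≤ G y ^ 2 := by nlinarith
  calc _ = y * (4 * L y ^ 3) := by ring
    _ ≤ _ := by gcongr; linarith

theorem s_II (hMaster : S_Master) (hMain : S_Main) (hLow : S_Low) (hBad : S_Bad) (hStr : S_Str)
    (hGood : S_Good) (hSize : S_Size) (hGeo : S_Geo) (hMass : S_Mass) (hM : S_M) : S_II := by
  intro J hJ w0 hw0
  obtain ⟨c, hc, hMa⟩ := hMain J hJ w0 hw0
  filter_upwards [hMaster J hJ, hMa, hLow J hJ, hStr J hJ, hGood J hJ,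
    caseii_bad hBad hSize hGeo hMass hM hJ, ev_T 4, ev_L 1, ev_T_kap (6 / c), ev_L_G 1 0,
    eventually_ge_atTop 2] with y h1 h2 h3 h4 h5 h6 hT hL hk hG hy x E hE hw
  have h1 := h1 x E hE
  have h2 := h2 x E hE hw
  have h3 := h3 x E hE
  have h4 := h4 x E hE
  have h5 := (abs_le.1 (h5 x E hE)).2
  have h6 := h6 x E hE
  have hP : 1 ≤ PW y := one_le_pow₀ (by simpa using hG)
  have hy0 : (0 : ℝ) ≤ y := by positivity
  have hH0 : (0 : ℝ) ≤ H y := by positivity
  have hH : (y : ℝ) / 3 ≤ H y := by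
    have : y ≤ 3 * H y := by unfold H; omega
    have h : (y : ℝ) ≤ 3 * H y := by exact_mod_cast this
    linarith
  have up : ∀ (S : Finset ℕ) (a b : ℝ) (d : ℕ),
      sg S * a ≤ b * (sg S / d) + |a - b / d| ∧ b * (sg S / d) ≤ sg S * a + |a - b / d| := by
    intro S a b d
    have e : |sg S * a - b * (sg S / d)| = |a - b / d| := by
      rw [show sg S * a - b * (sg S / d) = sg S * (a - b / d) by ring, abs_mul, caseii_sg, one_mul]
    rw [← e]
    constructor <;> linarith [le_abs_self (sg S * a - b * (sg S / d)),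
      neg_abs_le (sg S * a - b * (sg S / d))]
  have ab : ∀ d : ℕ, |A1 y x d - (H y : ℝ) / d| ≤ A1 y x d + (H y : ℝ) / d := fun d => by
    have a1 := caseii_A1_nonneg y x d
    have a2 : (0 : ℝ) ≤ (H y : ℝ) / d := by positivity
    rw [abs_le]
    constructor <;> linarith
  have t0 : (H y : ℝ) * Tm 0 (C0 (l0 y)) (PP (z y)) ≤
      ∑ S ∈ Fam 0 (C0 (l0 y)) (PP (z y)), sg S * A0 (H y) x (pr S) +
      ∑ S ∈ Fam 0 (C0 (l0 y)) (PP (z y)), |A0 (H y) x (pr S) - (H y : ℝ) / pr S| := by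
    rw [Tm, mul_sum, ← sum_add_distrib]
    exact sum_le_sum fun S _ => (up S _ _ _).2
  have t1 := caseii_mono (y := y) (J := J) (x := x) (E := E) (F := U0 y J)
    fun S d => (up S (A1 y x d) (H y) d).2
  have t2 := caseii_mono (y := y) (J := J) (x := x) (E := E) (F := fun u => Lo y J (gg u))
    fun S d => (up S (A1 y x d) (H y) d).1
  have t3 := caseii_mono (y := y) (J := J) (x := x) (E := E)
    (F := fun u N => (Hi y J (gg u) N).filter (Bad y))
    fun S d => (up S (A1 y x d) (H y) d).1.trans (add_le_add_right (ab d) _)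
  have t4 := caseii_mono (y := y) (J := J) (x := x) (E := E) (F := fun u => Gd y J (gg u))
    (f := fun S d => sg S * A1 y x d)
    (g := fun S d => (H y : ℝ) * (sg S / d) +
      ((if Str y x d then A1 y x d + (H y : ℝ) / d else 0) +
        (if Str y x d then 0 else sg S * (A0 (H y) x d - (H y : ℝ) / d)))) fun S d => by
      by_cases hs : Str y x d
      · simp only [hs, if_true, add_zero]
        exact (up S (A1 y x d) (H y) d).1.trans (add_le_add_right (ab d) _)
      · simp only [hs, if_false, zero_add, caseii_eq hP hs]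
        exact le_of_eq (by ring)
  rw [caseii_add, caseii_mul] at t1 t2 t3 t4
  rw [caseii_add] at t4
  rw [caseii_split] at h1 h2
  have hL0 : 0 < L y := by linarith
  have b1 : (y : ℝ) / L y ^ (2.1 : ℝ) ≤ y / L y ^ 2 := by
    rw [← rpow_natCast]
    exact div_le_div_of_nonneg_left hy0 (by positivity)
      (rpow_le_rpow_of_exponent_le hL (by norm_num))
  have b2 : (y : ℝ) / L y ^ 3 ≤ y / L y ^ 2 :=
    div_le_div_of_nonneg_left hy0 (by positivity) (pow_le_pow_right₀ hL (by norm_num))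
  have b3 : 6 * T y ≤ c * kap y := by
    have := mul_le_mul_of_nonneg_left hk hc.le
    rwa [← mul_assoc, mul_div_cancel₀ _ hc.ne'] at this
  have b4 : (y : ℝ) / 3 * (6 * T y / L y ^ 2) ≤ H y * (c * kap y / L y ^ 2) := by
    gcongr
  have b5 := mul_le_mul_of_nonneg_left h2 hH0
  have b6 : (y : ℝ) / 3 * (6 * T y / L y ^ 2) = 2 * (y * T y / L y ^ 2) := by ring
  have b7 : 4 * ((y : ℝ) / L y ^ 2) ≤ y * T y / L y ^ 2 := by
    rw [mul_comm (y : ℝ), mul_div_assoc]
    gcongr
  rw [mul_sub, mul_add, mul_add, mul_add] at b5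
  linarith

end Jac
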