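import Vale.Agent.P013.Gro

/-! The combinatorial identities of the sieve. -/

noncomputable section
namespace Jac
open Finset Real Filter
open scoped Classical

theorem comb_up_min {S : Finset ℕ} {p : ℕ} (h : ∀ q ∈ S, p ≤ q) : up S p = S :=
  filter_true_of_mem h

theorem comb_up_insert {S : Finset ℕ} {m q : ℕ} (h : m < q) : up (insert m S) q = up S q := by
  rw [up, filter_insert, if_neg (not_le.2 h), up]

theorem comb_alive_insert {ε : ℕ} {C : Finset ℕ → ℕ → Prop} {S : Finset ℕ} {m : ℕ}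
    (h : ∀ q ∈ S, m < q) : Alive ε C (insert m S) ↔
      Alive ε C S ∧ ((insert m S).card % 2 = ε → C (insert m S) m) := by
  have h1 : up (insert m S) m = insert m S :=
    comb_up_min (forall_mem_insert _ _ _ |>.2 ⟨le_rfl, fun q hq => (h q hq).le⟩)
  rw [Alive, forall_mem_insert, h1, and_comm]
  refine and_congr_left fun _ => forall₂_congr fun q hq => ?_
  rw [comb_up_insert (h q hq)]

theorem s_Id : S_Id := by
  intro ε C P hε
  rcases P.eq_empty_or_nonempty with rfl | hP
  · have h1 : Fam ε C ∅ = {∅} := by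
      rw [Fam, powerset_empty, filter_true_of_mem]
      intro S hS p hp
      rw [mem_singleton.1 hS] at hp
      exact absurd hp (notMem_empty p)
    simp [h1, sg, Stop, filter_singleton]
  obtain ⟨m, Q, hm, rfl⟩ : ∃ m Q, (∀ q ∈ Q, m < q) ∧ P = insert m Q :=
    ⟨_, _, fun q hq => lt_of_le_of_ne (min'_le P q (mem_of_mem_erase hq)) (ne_of_mem_erase hq).symm,
      (insert_erase (min'_mem P hP)).symm⟩
  have hQ : m ∉ Q := fun h => lt_irrefl _ (hm m h)
  rw [if_neg hP.ne_empty, zero_sub, Fam, sum_filter, natCast_card_filter, sum_powerset_insert hQ,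
    sum_powerset_insert hQ, ← sum_add_distrib, ← sum_add_distrib, mul_sum, ← sum_neg_distrib]
  refine sum_congr rfl fun S hS => ?_
  have h1 : ∀ q ∈ S, m < q := fun q hq => hm q (mem_powerset.1 hS hq)
  have h2 : m ∉ S := fun h => lt_irrefl _ (h1 m h)
  have h3 : ¬ ∃ p, Stop ε C S p ∧ ∀ q ∈ insert m Q, p ≤ q := fun ⟨p, a1, a2⟩ =>
    not_le.2 (h1 p a1.1) (a2 m (mem_insert_self _ _))
  have h4 : (∃ p, Stop ε C (insert m S) p ∧ ∀ q ∈ insert m Q, p ≤ q) ↔
      (insert m S).card % 2 = ε ∧ ¬ C (insert m S) m ∧ Alive ε C S := by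
    constructor
    · rintro ⟨p, a1, a2⟩
      obtain rfl : p = m := (mem_insert.1 a1.1).resolve_right fun a =>
        not_le.2 (h1 p a) (a2 m (mem_insert_self _ _))
      have a3 := a1.2.2
      rwa [erase_insert h2] at a3
    · intro a
      refine ⟨m, ⟨mem_insert_self _ _, forall_mem_insert _ _ _ |>.2 ⟨le_rfl, fun q hq => (h1 q hq).le⟩,
        ?_⟩, forall_mem_insert _ _ _ |>.2 ⟨le_rfl, fun q hq => (hm q hq).le⟩⟩
      rwa [erase_insert h2]
  have h5 : sg (insert m S) = -sg S := by
    rw [sg, sg, card_insert_of_notMem h2, pow_succ, mul_neg_one]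
  rw [if_neg h3, zero_add]
  simp only [comb_alive_insert h1, h4, h5]
  by_cases a1 : Alive ε C S
  · by_cases a2 : (insert m S).card % 2 = ε ∧ ¬ C (insert m S) m
    · have a3 : sg (insert m S) = (-1) ^ ε := by
        rw [sg, ← a2.1, ← neg_one_pow_eq_pow_mod_two]
      rw [if_pos a1, if_neg fun a => a2.2 (a.2 a2.1), if_pos ⟨a2.1, a2.2, a1⟩, ← a3, h5]
      ring
    · rw [if_pos a1, if_pos ⟨a1, fun a => not_not.1 fun b => a2 ⟨a, b⟩⟩,
        if_neg fun a => a2 ⟨a.1, a.2.1⟩]
      ring
  · simp [a1]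

theorem comb_C0 {l : ℝ} {N S : Finset ℕ} (hN : ∀ p ∈ N, p.Prime) (h : Disjoint N S) (p : ℕ) :
    C0 l (N ∪ S) p ↔ C0 (l - log (pr N)) S p := by
  have h0 : (0 : ℝ) < pr N := by exact_mod_cast pr_pos hN
  rw [C0, C0, pr_union h, exp_sub, exp_log h0, le_div_iff₀ h0, Nat.cast_mul, mul_assoc, mul_comm]

theorem comb_split {l : ℝ} {N S : Finset ℕ} (hN : ∀ p ∈ N, p.Prime) (hc : N.card % 2 = 1)
    (h : ∀ p ∈ S, ∀ q ∈ N, p < q) :
    Alive 0 (C0 l) (N ∪ S) ↔ Alive 0 (C0 l) N ∧ Alive 1 (C0 (l - log (pr N))) S := by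
  rw [Alive, forall_mem_union]
  refine and_congr (forall₂_congr fun q hq => ?_) (forall₂_congr fun p hp => ?_)
  · have h1 : up S q = ∅ := filter_false_of_mem fun p hp => not_le.2 (h p hp q hq)
    have h2 : up (N ∪ S) q = up N q ∪ up S q := filter_union _ _ _
    rw [h2, h1, union_empty]
  · have h1 : up N p = N := comb_up_min fun q hq => (h p hp q hq).le
    have h2 : up (N ∪ S) p = up N p ∪ up S p := filter_union _ _ _
    have h3 : Disjoint N (up S p) :=
      disjoint_left.2 fun q hq hq' => lt_irrefl _ (h q (mem_filter.1 hq').1 q hq)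
    rw [h2, h1, card_union_of_disjoint h3, comb_C0 hN h3]
    refine imp_congr_left ?_
    omega

theorem s_Split : S_Split := by
  intro l N S hN hc h
  refine ⟨comb_split hN hc h, fun p hA ⟨a1, a2, a3, a4, a5⟩ => ?_⟩
  have h3 : Disjoint N S := disjoint_left.2 fun q hq hq' => lt_irrefl _ (h q hq' q hq)
  refine ⟨mem_union_right _ a1, forall_mem_union.2 ⟨fun q hq => (h p a1 q hq).le, a2⟩, ?_,
    fun a => a4 ((comb_C0 hN h3 p).1 a), ?_⟩
  · rw [card_union_of_disjoint h3]
    omega
  · rw [erase_union_distrib, erase_eq_of_notMem (disjoint_right.1 h3 a1)]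
    exact (comb_split hN hc fun q hq => h q (mem_of_mem_erase hq)).2 ⟨hA, a5⟩

theorem comb_log {l : ℝ} {S : Finset ℕ} (hS : ∀ q ∈ S, q.Prime) {p : ℕ} (hp : 0 < p)
    (h : C0 l S p) : log (pr S) + 2 * log p ≤ l := by
  have h0 : (0 : ℝ) < pr S := by exact_mod_cast pr_pos hS
  have h1 := (log_le_iff_le_exp (by positivity)).2 h
  rwa [log_mul h0.ne' (by positivity), log_pow, Nat.cast_ofNat] at h1

theorem s_Rem : S_Rem := by
  intro ε l S hε hS h1 hA p hp hm
  have hp0 := (hS p hp).pos
  have h2 : S.card % 2 = ε → 2 * log p ≤ l - log (pr S) := fun e => by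
    have a := hA p hp
    rw [comb_up_min hm] at a
    linarith [comb_log hS hp0 (a e)]
  refine ⟨?_, h2⟩
  have h3 := log_natCast_nonneg p
  by_cases e : S.card % 2 = ε
  · linarith [h2 e]
  have hS' : ∀ q ∈ S.erase p, q.Prime := fun q hq => hS q (mem_of_mem_erase hq)
  have h4 : log (pr S) = log p + log (pr (S.erase p)) := by
    rw [log_pr hS, log_pr hS', add_sum_erase _ (fun q : ℕ => log q) hp]
  have h5 := card_erase_add_one hp
  rcases (S.erase p).eq_empty_or_nonempty with h0 | h0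
  · rw [h0] at h4 h5
    have a := (log_le_iff_le_exp (by positivity)).2 (h1 h5.symm p hp)
    rw [h4, pr, prod_empty, Nat.cast_one, log_one]
    linarith
  · have a1 := min'_mem _ h0
    have a2 : p < (S.erase p).min' h0 :=
      lt_of_le_of_ne (hm _ (mem_of_mem_erase a1)) (ne_of_mem_erase a1).symm
    have a3 : up S ((S.erase p).min' h0) = S.erase p := by
      have a := comb_up_insert (S := S.erase p) a2
      rw [insert_erase hp] at a
      exact a.trans (comb_up_min fun q hq => min'_le _ q hq)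
    have a4 := hA _ (mem_of_mem_erase a1)
    rw [a3] at a4
    have a5 := comb_log hS' (hp0.trans a2) (a4 (by omega))
    have a6 : log p ≤ log ((S.erase p).min' h0) :=
      log_le_log (by positivity) (by exact_mod_cast a2.le)
    linarith

end Jac
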