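import Vale.Agent.P013.Gro

/-! The two cases together, and the bound for the function of Jacobsthal. -/

noncomputable section
namespace Jac
open Finset Real Filter
open scoped Classical

theorem end_ht : ∀ᶠ y : ℕ in atTop, ∀ ρ : ℚ, InR y ρ → Ht y ρ := by
  filter_upwards [ev_kap_T 100, ev_T_pow 1 2 (e := 1) one_pos, eventually_ge_atTop 1] with y h1 h2 h3
  intro ρ hρ
  have hy : (1 : ℝ) ≤ y := by exact_mod_cast h3
  have hP : PW y ≤ y := by
    rw [PW, G_pow, ← exp_L h3]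
    rw [rpow_one] at h2
    exact exp_le_exp.2 (by push_cast; linarith)
  have hd : (ρ.den : ℝ) ≤ y := hρ.1.trans hP
  have ha : |(ρ : ℝ)| ≤ y * y := hρ.2.trans (mul_le_mul_of_nonneg_left hP (by positivity))
  have hn : (ρ.num : ℝ) = ρ * ρ.den := by
    rw [Rat.cast_def]
    have : (ρ.den : ℝ) ≠ 0 := by exact_mod_cast ρ.den_nz
    field_simp
  constructor
  · have : |(ρ.num : ℝ)| ≤ (y : ℝ) ^ 3 := by
      rw [hn, abs_mul, Nat.abs_cast]
      calc |(ρ : ℝ)| * ρ.den ≤ y * y * y := mul_le_mul ha hd (by positivity) (by positivity)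
        _ = (y : ℝ) ^ 3 := by ring
    exact_mod_cast this
  · have : (ρ.den : ℝ) ≤ (y : ℝ) ^ 3 := hd.trans (le_self_pow₀ hy (by norm_num))
    exact_mod_cast this

theorem end_maj (hCom : S_Com) : ∀ᶠ y : ℕ in atTop, ∀ (x : ℤ) (ρ ρ' : ℚ), InR y ρ → InR y ρ' →
    Maj y x ρ → Maj y x ρ' → ρ = ρ' := by
  filter_upwards [end_ht, ev_L_G 5 1, ev_G_B 1, eventually_ge_atTop 3] with y h1 h2 h3 h4
  intro x ρ ρ' a1 a2 b1 b2
  by_contra hne
  have hc := hCom y x ρ ρ' ((WW y).filter (Hit x ρ) ∩ (WW y).filter (Hit x ρ')) h4 (h1 ρ a1)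
    (h1 ρ' a2) hne fun p hp => by
      obtain ⟨c1, c2⟩ := mem_inter.1 hp
      exact ⟨(mem_PP.1 (mem_filter.1 (mem_filter.1 c1).1).1).1, (mem_filter.1 c1).2,
        (mem_filter.1 c2).2⟩
  have hB : 5 * L y ≤ exp (B y) := by
    rw [pow_one] at h2 h3
    refine h2.trans (h3.trans (exp_le_exp.2 ?_))
    have : (0 : ℝ) ≤ B y := by positivity
    linarith
  have hs : ∑ p ∈ (WW y).filter (Hit x ρ) ∩ (WW y).filter (Hit x ρ'), 1 / (p : ℝ) ≤ 2 := by
    refine (sum_le_card_nsmul _ _ (1 / exp (B y)) fun p hp => ?_).trans ?_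
    · exact one_div_le_one_div_of_le (exp_pos _)
        (mem_filter.1 (mem_filter.1 (mem_inter.1 hp).1).1).2.le
    · rw [nsmul_eq_mul, mul_one_div, div_le_iff₀ (exp_pos _)]
      linarith
  have hu := sum_union_inter (s₁ := (WW y).filter (Hit x ρ)) (s₂ := (WW y).filter (Hit x ρ'))
    (f := fun p : ℕ => 1 / (p : ℝ))
  have hw : ∑ p ∈ (WW y).filter (Hit x ρ) ∪ (WW y).filter (Hit x ρ'), 1 / (p : ℝ) ≤
      ∑ p ∈ WW y, 1 / (p : ℝ) :=
    sum_le_sum_of_subset_of_nonneg (union_subset (filter_subset _ _) (filter_subset _ _))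
      fun p _ _ => by positivity
  unfold Maj at b1 b2
  linarith

theorem end_top (hM : S_M) {J : ℕ} (hJ : 3 ≤ J) : ∀ᶠ y : ℕ in atTop,
    1 / 10 ≤ ∑ u ∈ (PP (z y)).filter (fun u : ℕ => (y : ℝ) ^ (1 / (J : ℝ)) < u), 1 / (u : ℝ) := by
  obtain ⟨C, hC, -, h2, -⟩ := hM
  filter_upwards [ev_L ((5 * C + 1) * J), ev_T 1, eventually_ge_atTop 1] with y a1 a2 a3
  have hJ' : (3 : ℝ) ≤ J := by exact_mod_cast hJ
  have hy : (0 : ℝ) < y := by exact_mod_cast a3
  have hs : (y : ℝ) ^ (1 / (J : ℝ)) = exp (L y / J) := by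
    rw [rpow_eq a3]
    congr 1
    ring
  have hl : 5 * C + 1 ≤ L y / J := by rwa [le_div_iff₀ (by linarith)]
  have hL : 0 < L y := by nlinarith
  have hz : z y = exp (L y / 2 + T y * log (T y)) := by
    rw [z, exp_add, exp_half, exp_L a3]
  have hT : 0 ≤ T y * log (T y) := mul_nonneg (by linarith) (log_nonneg a2)
  have hq : L y / J * (3 / 2) ≤ L y / 2 := by
    rw [div_mul_eq_mul_div, div_le_iff₀ (by linarith)]
    nlinarith
  have h3 := h2 (exp (L y / J)) (z y) (by linarith [add_one_le_exp (L y / J)])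
    (by rw [hz]; exact exp_le_exp.2 (by linarith))
  rw [hs]
  have h4 := (abs_le.1 h3).1
  have e1 : log (z y) = L y / 2 + T y * log (T y) := by rw [hz, log_exp]
  rw [log_exp, e1] at h4
  have h5 : (3 / 2 : ℝ) ≤ (L y / 2 + T y * log (T y)) / (L y / J) := by
    rw [le_div_iff₀ (by linarith)]
    linarith
  have h6 : (1 / 3 : ℝ) ≤ log ((L y / 2 + T y * log (T y)) / (L y / J)) := by
    refine le_trans ?_ (log_le_log (by norm_num) h5)
    have := one_sub_inv_le_log_of_pos (x := 3 / 2) (by norm_num)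
    linarith
  have h7 : C / (L y / J) ^ 2 ≤ 1 / 5 := by
    rw [div_le_iff₀ (by positivity)]
    nlinarith
  linarith

theorem s_All (hI : S_I) (hII : S_II) (hNU : S_NU) (hCom : S_Com) (hM : S_M) : S_All := by
  obtain ⟨J, hJ, w0, hw0, hw1, hI⟩ := hI
  have hJ' : (3 : ℝ) ≤ J := by exact_mod_cast hJ
  filter_upwards [hI, hII J hJ (w0 / 2) (by positivity), hNU, end_maj hCom, end_top hM hJ,
    ev_L_pow (2 / w0) 0 (e := 1 / (2 * J)) (by positivity),
    ev_L_rpow (2 * J) (a := 1 / 2) (b := 1) (by norm_num), eventually_ge_atTop 1]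
    with y a1 a2 a3 a4 a5 a6 a7 a8
  intro x
  have hsmall : exp √(L y) * (1 / (y : ℝ) ^ (1 / (J : ℝ))) ≤ w0 / 2 := by
    rw [pow_zero, mul_one, rpow_eq a8, div_le_iff₀ hw0] at a6
    rw [rpow_one, ← sqrt_eq_rpow] at a7
    rw [mul_one_div, rpow_eq a8, div_le_iff₀ (exp_pos _)]
    have b1 : exp √(L y) ≤ exp (1 / (2 * J) * L y) := by
      refine exp_le_exp.2 ?_
      rw [div_mul_eq_mul_div, le_div_iff₀ (by positivity)]
      linarith
    have b2 : exp (1 / (J : ℝ) * L y) = exp (1 / (2 * J) * L y) * exp (1 / (2 * J) * L y) := by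
      rw [← exp_add]
      congr 1
      field_simp
      ring
    rw [b2]
    have b3 := exp_pos (1 / (2 * (J : ℝ)) * L y)
    nlinarith
  have key : ∀ D : Finset ℕ,
      (∀ u ∈ D, u ∈ PP (z y) ∧ (y : ℝ) ^ (1 / (J : ℝ)) < u) →
      (∀ ρ : ℚ, InR y ρ → Maj y x ρ → ∀ u ∈ D, ¬ Hit x ρ u) →
      w0 ≤ ∑ u ∈ D, 1 / (u : ℝ) → y / L y ^ 2 ≤ Cnt y x := by
    intro D h1 h2 h3
    refine a2 x (D.filter (Uniq y x)) ⟨fun u hu => ?_, fun ρ b1 b2 u hu => ?_⟩ ?_
    · obtain ⟨c1, c2⟩ := mem_filter.1 hu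
      exact ⟨(mem_PP.1 (h1 u c1).1).1, (h1 u c1).2, (mem_PP.1 (h1 u c1).1).2, c2⟩
    · exact h2 ρ b1 b2 u (mem_filter.1 hu).1
    · have c1 := sum_filter_add_sum_filter_not D (Uniq y x) (fun u : ℕ => 1 / (u : ℝ))
      have c2 := a3 x (D.filter (fun u => ¬ Uniq y x u)) fun p hp =>
        ⟨(mem_PP.1 (h1 p (mem_filter.1 hp).1).1).1, (mem_filter.1 hp).2⟩
      have hpos : (0 : ℝ) < (y : ℝ) ^ (1 / (J : ℝ)) := by rw [rpow_eq a8]; exact exp_pos _
      have c3 : ∑ u ∈ D.filter (fun u => ¬ Uniq y x u), 1 / (u : ℝ) ≤ w0 / 2 := by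
        refine (sum_le_card_nsmul _ _ (1 / (y : ℝ) ^ (1 / (J : ℝ))) fun p hp => ?_).trans ?_
        · exact one_div_le_one_div_of_le hpos (h1 p (mem_filter.1 hp).1).2.le
        · rw [nsmul_eq_mul]
          exact (mul_le_mul_of_nonneg_right c2 (by positivity)).trans hsmall
      linarith
  by_cases hex : ∃ ρ : ℚ, InR y ρ ∧ Maj y x ρ
  · obtain ⟨ρ, b1, b2⟩ := hex
    by_cases hw : ∑ u ∈ (PP (z y)).filter
        (fun u : ℕ => (y : ℝ) ^ (1 / (J : ℝ)) < u ∧ ¬ Hit x ρ u), 1 / (u : ℝ) ≤ w0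
    · exact a1 x ρ b1 b2 hw
    · refine key _ (fun u hu => ?_) (fun ρ' c1 c2 u hu => ?_) (le_of_not_ge hw)
      · exact ⟨(mem_filter.1 hu).1, (mem_filter.1 hu).2.1⟩
      · rw [a4 x ρ' ρ c1 b1 c2 b2]
        exact (mem_filter.1 hu).2.2
  · exact key _ (fun u hu => mem_filter.1 hu) (fun ρ c1 c2 => absurd ⟨ρ, c1, c2⟩ hex)
      (hw1.trans a5)

theorem end_card (y q : ℕ) (x : ℤ) :
    ((range y).filter (fun t : ℕ => (q : ℤ) ∣ (t : ℤ) + x)).card ≤ y / q + 1 := by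
  rw [← card_range (y / q + 1)]
  refine card_le_card_of_injOn (fun t => t / q) (fun t ht => ?_) fun t ht t' ht' e => ?_
  · have := mem_range.1 (mem_filter.1 (mem_coe.1 ht)).1
    exact mem_coe.2 (mem_range.2 (Nat.lt_succ_of_le (Nat.div_le_div_right this.le)))
  · have h1 := (mem_filter.1 (mem_coe.1 ht)).2
    have h2 := (mem_filter.1 (mem_coe.1 ht')).2
    have h3 : t ≡ t' [MOD q] := (Nat.modEq_iff_dvd).2 (by simpa using dvd_sub h2 h1)
    have e' : t / q = t' / q := e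
    rw [← Nat.div_add_mod t q, ← Nat.div_add_mod t' q, e', h3]

theorem end_kill (b : ℕ) : ∀ᶠ y : ℕ in atTop, ∀ k : ℕ, k ≤ y →
    (k : ℝ) ^ 2 ≤ y * log (k + 1) ^ b → k * (y / z y + 1) < y / L y ^ 2 := by
  filter_upwards [(tendsto_log_atTop.comp T_top).eventually_ge_atTop (2 * b + 3 : ℝ), ev_L 3,
    ev_T 0, ev_L_pow 1 (2 * b + 3) (e := 1 / 2) (by norm_num), eventually_ge_atTop 2]
    with y a1 a2 a3 a4 a5
  intro k hk h
  have hy : (2 : ℝ) ≤ y := by exact_mod_cast a5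
  have hky : (k : ℝ) ≤ y := by exact_mod_cast hk
  have hk0 : (0 : ℝ) ≤ k := by positivity
  have b1 : log (k + 1) ≤ L y ^ 2 := by
    have c1 : log (k + 1) ≤ log ((y : ℝ) ^ 2) := log_le_log (by linarith) (by nlinarith)
    rw [log_pow] at c1
    have c2 : log y = L y := rfl
    push_cast at c1
    nlinarith
  have b2 : 1 ≤ L y ^ (2 * b) := one_le_pow₀ (by linarith)
  have b3 : (k : ℝ) ≤ √y * L y ^ (2 * b) := by
    refine le_of_sq_le_sq ?_ (by positivity)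
    rw [mul_pow, sq_sqrt (by linarith)]
    refine h.trans (mul_le_mul_of_nonneg_left ?_ (by linarith))
    refine (pow_le_pow_left₀ (log_nonneg (by linarith)) b1 b).trans ?_
    rw [← pow_mul]
    nlinarith
  have b4 : L y ^ (2 * b + 3) ≤ exp (T y * log (T y)) := by
    rw [← exp_T (y := y) (by linarith), ← exp_nat_mul]
    refine exp_le_exp.2 ?_
    push_cast
    rw [mul_comm]
    exact mul_le_mul_of_nonneg_left a1 a3
  rw [one_mul, ← sqrt_eq_rpow] at a4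
  have hs : 0 < √(y : ℝ) := sqrt_pos.2 (by linarith)
  have hss := mul_self_sqrt (by linarith : (0 : ℝ) ≤ y)
  have hL : 0 < L y := by linarith
  have b5 : y / z y ≤ √y / L y ^ (2 * b + 3) := by
    rw [z, ← div_div, div_sqrt]
    exact div_le_div_of_nonneg_left hs.le (by positivity) b4
  have b6 : 1 ≤ √y / L y ^ (2 * b + 3) := by rwa [le_div_iff₀ (by positivity), one_mul]
  have hz : 0 ≤ y / z y := by unfold z; positivity
  calc k * (y / z y + 1) ≤ √y * L y ^ (2 * b) * (2 * (√y / L y ^ (2 * b + 3))) :=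
        mul_le_mul b3 (by linarith) (by linarith) (by positivity)
    _ = 2 / L y * (√y * √y / L y ^ 2) := by
        field_simp
        ring
    _ < y / L y ^ 2 := by
        rw [hss]
        refine mul_lt_of_lt_one_left (by positivity) ?_
        rw [div_lt_one hL]
        linarith

theorem end_one {y k n : ℕ} (hn : 1 ≤ n) (hk : n.primeFactors.card ≤ k) (hz : 0 < z y) (x : ℤ)
    (h : k * (y / z y + 1) < (Cnt y x : ℝ)) : ∃ t < y, Int.gcd (x + t) n = 1 := by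
  by_contra hne
  have hsub : (range y).filter (fun t : ℕ => ∀ p ∈ PP (z y), ¬ (p : ℤ) ∣ (t : ℤ) + x) ⊆
      (n.primeFactors.filter (fun q : ℕ => z y < q)).biUnion
        (fun q => (range y).filter (fun t : ℕ => (q : ℤ) ∣ (t : ℤ) + x)) := by
    intro t ht
    obtain ⟨h1, h2⟩ := mem_filter.1 ht
    have h3 : Int.gcd (x + t) n ≠ 1 := fun e => hne ⟨t, mem_range.1 h1, e⟩
    obtain ⟨q, hq, hd⟩ := Nat.exists_prime_and_dvd h3
    have hd' : (q : ℤ) ∣ (Int.gcd (x + t) n : ℤ) := Int.natCast_dvd_natCast.2 hd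
    have h4 : (q : ℤ) ∣ (t : ℤ) + x := by
      rw [add_comm]
      exact hd'.trans (Int.gcd_dvd_left _ _)
    have h5 : q ∣ n := Int.natCast_dvd_natCast.1 (hd'.trans (Int.gcd_dvd_right _ _))
    refine mem_biUnion.2 ⟨q, mem_filter.2 ⟨Nat.mem_primeFactors.2 ⟨hq, h5, by omega⟩, ?_⟩,
      mem_filter.2 ⟨h1, h4⟩⟩
    by_contra h6
    exact h2 q (mem_PP.2 ⟨hq, not_lt.1 h6⟩) h4
  have h1 : (Cnt y x : ℝ) ≤ ∑ q ∈ n.primeFactors.filter (fun q : ℕ => z y < q),
      (((range y).filter (fun t : ℕ => (q : ℤ) ∣ (t : ℤ) + x)).card : ℝ) := by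
    exact_mod_cast (card_le_card hsub).trans card_biUnion_le
  have h2 := sum_le_card_nsmul (n.primeFactors.filter (fun q : ℕ => z y < q))
    (fun q => (((range y).filter (fun t : ℕ => (q : ℤ) ∣ (t : ℤ) + x)).card : ℝ)) (y / z y + 1)
    fun q hq => by
      have c1 : (((range y).filter (fun t : ℕ => (q : ℤ) ∣ (t : ℤ) + x)).card : ℝ) ≤
          ((y / q : ℕ) : ℝ) + 1 := by exact_mod_cast end_card y q x
      have c2 : ((y / q : ℕ) : ℝ) ≤ y / q := Nat.cast_div_le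
      have c3 : (y : ℝ) / q ≤ y / z y :=
        div_le_div_of_nonneg_left (by positivity) hz (mem_filter.1 hq).2.le
      linarith
  have h3 : ((n.primeFactors.filter (fun q : ℕ => z y < q)).card : ℝ) ≤ k := by
    exact_mod_cast (card_filter_le _ _).trans hk
  rw [nsmul_eq_mul] at h2
  have h4 := mul_le_mul_of_nonneg_right h3 (by positivity : (0 : ℝ) ≤ y / z y + 1)
  linarith

theorem s_End (hAll : S_All) : S_End := by
  intro b
  obtain ⟨y0, hy0⟩ := eventually_atTop.1 (hAll.and (end_kill b))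
  obtain ⟨k1, hk1⟩ := eventually_atTop.1 (ev_L_pow 2 b (e := 1) one_pos)
  have hlog : ∀ k : ℕ, 1 ≤ k → 0 < log ((k : ℝ) + 1) ^ b := fun k hk => by
    have : (1 : ℝ) ≤ k := by exact_mod_cast hk
    exact pow_pos (log_pos (by linarith)) b
  have hsm : ∀ k : ℕ, 1 ≤ k → k1 ≤ k → log ((k : ℝ) + 1) ^ b ≤ k := fun k hk h => by
    have h1 := hk1 (k + 1) (by omega)
    have : (1 : ℝ) ≤ k := by exact_mod_cast hk
    rw [rpow_one, L] at h1
    push_cast at h1
    linarith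
  have main : ∀ k : ℕ, 1 ≤ k → k1 ≤ k → y0 ≤ k → ∃ m : ℕ, 1 ≤ m ∧
      (m : ℝ) ≤ 2 * k ^ 2 / log (k + 1) ^ b ∧ ∀ n : ℕ, 1 ≤ n → n.primeFactors.card ≤ k →
      ∀ x : ℤ, ∃ t < m, Int.gcd (x + t) n = 1 := by
    intro k h1 h2 h3
    have hk : (1 : ℝ) ≤ k := by exact_mod_cast h1
    have a1 : (k : ℝ) ≤ k ^ 2 / log (k + 1) ^ b := by
      rw [le_div_iff₀ (hlog k h1)]
      nlinarith [hsm k h1 h2]
    obtain ⟨y, hy⟩ : ∃ y : ℕ, y = ⌈(k : ℝ) ^ 2 / log (k + 1) ^ b⌉₊ := ⟨_, rfl⟩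
    have a2 : (k : ℝ) ^ 2 / log (k + 1) ^ b ≤ y := by rw [hy]; exact Nat.le_ceil _
    have a3 : (y : ℝ) < k ^ 2 / log (k + 1) ^ b + 1 := by
      rw [hy]
      exact Nat.ceil_lt_add_one (by linarith)
    have a4 : k ≤ y := by exact_mod_cast a1.trans a2
    obtain ⟨a5, a6⟩ := hy0 y (h3.trans a4)
    refine ⟨y, h1.trans a4, by rw [mul_div_assoc]; linarith, fun n hn hc x => ?_⟩
    have hz : 0 < z y := by
      have : (0 : ℝ) < y := by exact_mod_cast h1.trans a4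
      unfold z
      positivity
    exact end_one hn hc hz x ((a6 k a4 ((div_le_iff₀ (hlog k h1)).1 a2)).trans_le (a5 x))
  obtain ⟨k0, hk0⟩ : ∃ k0 : ℕ, k0 = k1 + y0 + 1 := ⟨_, rfl⟩
  obtain ⟨m0, hm1, -, hm3⟩ := main k0 (by omega) (by omega) (by omega)
  refine ⟨m0 * k0 + 2, by positivity, fun k n hk hn hc => ?_⟩
  have hk' : (1 : ℝ) ≤ k := by exact_mod_cast hk
  by_cases h : k0 ≤ k
  · obtain ⟨m, a1, a2, a3⟩ := main k hk (by omega) (by omega)
    refine ⟨m, a1, a2.trans (div_le_div_of_nonneg_right ?_ (hlog k hk).le), a3 n hn hc⟩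
    exact mul_le_mul_of_nonneg_right (le_add_of_nonneg_left (by positivity)) (by positivity)
  · refine ⟨m0, hm1, ?_, hm3 n hn (by omega)⟩
    have a1 : (k : ℝ) ≤ k0 := by exact_mod_cast (by omega : k ≤ k0)
    have a2 : log ((k : ℝ) + 1) ^ b ≤ k0 :=
      (pow_le_pow_left₀ (log_nonneg (by linarith)) (log_le_log (by linarith) (by linarith)) b).trans
        (hsm k0 (by omega) (by omega))
    rw [le_div_iff₀ (hlog k hk)]
    have a3 : (0 : ℝ) ≤ m0 := by positivity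
    have a4 : (1 : ℝ) ≤ (k : ℝ) ^ 2 := one_le_pow₀ hk'
    have a5 := mul_le_mul_of_nonneg_left a2 a3
    have a6 : (0 : ℝ) ≤ m0 * k0 + 2 := by positivity
    nlinarith

end Jac
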