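import Vale.Agent.P013.Gro

/-! The fundamental lemma of the sieve, lower bound, by the method of Brun and Hooley. -/

noncomputable section
namespace Jac
open Finset Real Filter
open scoped Classical

def flS (c : Finset ℕ → ℝ) (x : ℕ → ℝ) (s : Finset ℕ) : ℝ := ∑ U ∈ s.powerset, c U * ∏ p ∈ U, x p
def flV (x : ℕ → ℝ) (s : Finset ℕ) : ℝ := ∏ p ∈ s, (1 - x p)
def flb (k : ℕ) (U : Finset ℕ) : ℝ := if U.card ≤ k then (-1) ^ U.card else 0
def fld (k : ℕ) (U : Finset ℕ) : ℝ := if U.card = k then 1 else 0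

theorem flS_empty (c : Finset ℕ → ℝ) (x : ℕ → ℝ) : flS c x ∅ = c ∅ := by simp [flS]

theorem flS_insert (c : Finset ℕ → ℝ) (x : ℕ → ℝ) {a : ℕ} {s : Finset ℕ} (ha : a ∉ s) :
    flS c x (insert a s) = flS c x s + x a * flS (fun U => c (insert a U)) x s := by
  unfold flS
  rw [sum_powerset_insert ha, mul_sum]
  congr 1
  refine sum_congr rfl fun U hU => ?_
  rw [prod_insert fun h => ha (mem_powerset.1 hU h)]; ring

theorem flS_congr {c c' : Finset ℕ → ℝ} (x : ℕ → ℝ) {s : Finset ℕ} (h : ∀ U ⊆ s, c U = c' U) :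
    flS c x s = flS c' x s := sum_congr rfl fun U hU => by rw [h U (mem_powerset.1 hU)]

theorem flS_neg (c : Finset ℕ → ℝ) (x : ℕ → ℝ) (s : Finset ℕ) :
    flS (fun U => -c U) x s = -flS c x s := by simp [flS]

theorem flS_sub (c c' : Finset ℕ → ℝ) (x : ℕ → ℝ) (s : Finset ℕ) :
    flS (fun U => c U - c' U) x s = flS c x s - flS c' x s := by
  simp [flS, sub_mul, sum_sub_distrib]

theorem flb_zero (x : ℕ → ℝ) (s : Finset ℕ) : flS (flb 0) x s = 1 := by
  unfold flS
  rw [sum_eq_single ∅]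
  · simp [flb]
  · intro U _ hU
    have : ¬ U.card ≤ 0 := by simpa using hU
    rw [flb, if_neg this, zero_mul]
  · simp

theorem fld_zero (x : ℕ → ℝ) (s : Finset ℕ) : flS (fld 0) x s = 1 := by
  rw [← flb_zero x s]
  refine flS_congr x fun U _ => ?_
  by_cases h : U.card = 0 <;> simp [flb, fld, h]

theorem flb_insert (x : ℕ → ℝ) (k : ℕ) {a : ℕ} {s : Finset ℕ} (ha : a ∉ s) :
    flS (flb (k + 1)) x (insert a s) = flS (flb (k + 1)) x s - x a * flS (flb k) x s := by
  rw [flS_insert _ _ ha, sub_eq_add_neg, ← mul_neg, ← flS_neg]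
  congr 2
  refine flS_congr x fun U hU => ?_
  have : a ∉ U := fun h => ha (hU h)
  simp only [flb, card_insert_of_notMem this, Nat.add_le_add_iff_right]
  split_ifs
  · ring
  · simp

theorem fld_insert (x : ℕ → ℝ) (k : ℕ) {a : ℕ} {s : Finset ℕ} (ha : a ∉ s) :
    flS (fld (k + 1)) x (insert a s) = flS (fld (k + 1)) x s + x a * flS (fld k) x s := by
  rw [flS_insert _ _ ha]
  congr 2
  refine flS_congr x fun U hU => ?_
  have : a ∉ U := fun h => ha (hU h)
  simp only [fld, card_insert_of_notMem this, Nat.add_right_cancel_iff]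

theorem flV_nonneg {x : ℕ → ℝ} {s : Finset ℕ} (hx : ∀ q ∈ s, 0 ≤ x q ∧ x q ≤ 1) : 0 ≤ flV x s :=
  prod_nonneg fun q hq => by linarith [(hx q hq).2]

theorem fl_bonf (x : ℕ → ℝ) (s : Finset ℕ) (hx : ∀ q ∈ s, 0 ≤ x q ∧ x q ≤ 1) (m : ℕ) :
    0 ≤ (-1) ^ m * (flS (flb m) x s - flV x s) := by
  induction s using Finset.induction_on generalizing m with
  | empty => simp [flS_empty, flb, flV]
  | insert a s ha ih =>
    have hs : ∀ q ∈ s, 0 ≤ x q ∧ x q ≤ 1 := fun q hq => hx q (mem_insert_of_mem hq)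
    cases m with
    | zero =>
      rw [flb_zero, pow_zero, one_mul, sub_nonneg]
      exact prod_le_one (fun q hq => by linarith [(hx q hq).2]) fun q hq => by
        linarith [(hx q hq).1]
    | succ m =>
      have h1 := ih hs (m + 1)
      have h2 := mul_nonneg (hx a (mem_insert_self a s)).1 (ih hs m)
      have h3 : flV x (insert a s) = (1 - x a) * flV x s := prod_insert ha
      rw [flb_insert x m ha, h3]
      rw [pow_succ] at h1 ⊢
      nlinarith

theorem fld_nonneg {x : ℕ → ℝ} {s : Finset ℕ} (hx : ∀ q ∈ s, 0 ≤ x q) (k : ℕ) :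
    0 ≤ flS (fld k) x s :=
  sum_nonneg fun U hU => mul_nonneg (by unfold fld; split_ifs <;> norm_num)
    (prod_nonneg fun q hq => hx q (mem_powerset.1 hU hq))

theorem fld_le (x : ℕ → ℝ) (s : Finset ℕ) (hx : ∀ q ∈ s, 0 ≤ x q) (k : ℕ) :
    flS (fld k) x s ≤ (∑ q ∈ s, x q) ^ k / k.factorial := by
  induction s using Finset.induction_on generalizing k with
  | empty =>
    cases k with
    | zero => simp [fld_zero]
    | succ k => simp [flS_empty, fld]
  | insert a s ha ih =>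
    have hs : ∀ q ∈ s, 0 ≤ x q := fun q hq => hx q (mem_insert_of_mem hq)
    have h0 := hx a (mem_insert_self a s)
    cases k with
    | zero => simp [fld_zero]
    | succ k =>
      rw [fld_insert x k ha, sum_insert ha]
      have h1 := ih hs (k + 1)
      have h2 := mul_le_mul_of_nonneg_left (ih hs k) h0
      have h3 : 0 ≤ ∑ q ∈ s, x q := sum_nonneg hs
      have h4 := pow_add_mul_le_add_pow (a := ∑ q ∈ s, x q) (b := x a) h3 (by linarith) (k + 1)
      rw [Nat.add_sub_cancel] at h4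
      have h5 : (0 : ℝ) < k.factorial := by exact_mod_cast k.factorial_pos
      refine (add_le_add h1 h2).trans ?_
      rw [add_comm (x a)]
      refine le_trans (le_of_eq ?_) (div_le_div_of_nonneg_right h4 (by positivity))
      rw [Nat.factorial_succ]
      push_cast
      field_simp

theorem flb_succ (x : ℕ → ℝ) (s : Finset ℕ) (k : ℕ) :
    flS (flb (2 * k + 1)) x s = flS (flb (2 * k)) x s - flS (fld (2 * k + 1)) x s := by
  rw [← flS_sub]
  refine flS_congr x fun U _ => ?_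
  unfold flb fld
  by_cases h : U.card = 2 * k + 1
  · rw [h]; simp [pow_succ]
  · by_cases h' : U.card ≤ 2 * k
    · rw [if_pos (by omega), if_pos h', if_neg h, sub_zero]
    · rw [if_neg (by omega), if_neg h', if_neg h, sub_zero]

theorem fl_block (x : ℕ → ℝ) (s : Finset ℕ) (hx : ∀ q ∈ s, 0 ≤ x q ∧ x q ≤ 1) (k : ℕ) :
    flV x s ≤ flS (flb (2 * k)) x s ∧
      flS (flb (2 * k)) x s - flS (fld (2 * k + 1)) x s ≤ flV x s := by
  have h1 := fl_bonf x s hx (2 * k)
  have h2 := fl_bonf x s hx (2 * k + 1)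
  rw [flb_succ, pow_succ] at h2
  rw [pow_mul] at h1 h2
  norm_num at h1 h2
  exact ⟨h1, by linarith⟩

theorem flS_mul (q : ℕ → Prop) (c c' : Finset ℕ → ℝ) (x : ℕ → ℝ) (s : Finset ℕ) :
    flS (fun U => c (U.filter q) * c' (U.filter fun p => ¬ q p)) x s
      = flS c x (s.filter q) * flS c' x (s.filter fun p => ¬ q p) := by
  unfold flS
  rw [sum_mul_sum, ← sum_product']
  refine sum_nbij' (fun U => (U.filter q, U.filter fun p => ¬ q p)) (fun t => t.1 ∪ t.2)
    ?_ ?_ ?_ ?_ ?_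
  · intro U hU
    exact mem_product.2 ⟨mem_powerset.2 (filter_subset_filter _ (mem_powerset.1 hU)),
      mem_powerset.2 (filter_subset_filter _ (mem_powerset.1 hU))⟩
  · intro t ht
    obtain ⟨h1, h2⟩ := mem_product.1 ht
    exact mem_powerset.2 (union_subset ((mem_powerset.1 h1).trans (filter_subset _ _))
      ((mem_powerset.1 h2).trans (filter_subset _ _)))
  · intro U _
    exact filter_union_filter_not_eq _ _
  · intro t ht
    obtain ⟨h1, h2⟩ := mem_product.1 ht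
    have h3 : ∀ p ∈ t.1, q p := fun p hp => (mem_filter.1 (mem_powerset.1 h1 hp)).2
    have h4 : ∀ p ∈ t.2, ¬ q p := fun p hp => (mem_filter.1 (mem_powerset.1 h2 hp)).2
    ext p
    · simp only [mem_filter, mem_union]
      have := h3 p
      have := h4 p
      tauto
    · simp only [mem_filter, mem_union]
      have := h3 p
      have := h4 p
      tauto
  · intro U _
    rw [← prod_filter_mul_prod_filter_not U q]
    ring

theorem flV_mul (q : ℕ → Prop) (x : ℕ → ℝ) (s : Finset ℕ) :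
    flV x s = flV x (s.filter q) * flV x (s.filter fun p => ¬ q p) :=
  (prod_filter_mul_prod_filter_not s q _).symm

theorem flV_ge {x : ℕ → ℝ} {s : Finset ℕ} (hx : ∀ q ∈ s, 0 ≤ x q ∧ x q ≤ 1 / 2) :
    exp (-(2 * ∑ q ∈ s, x q)) ≤ flV x s := by
  rw [mul_sum, ← sum_neg_distrib, exp_sum]
  refine prod_le_prod (fun _ _ => (exp_pos _).le) fun q hq => ?_
  obtain ⟨h1, h2⟩ := hx q hq
  have h3 := add_one_le_exp (2 * x q)
  rw [exp_neg, inv_le_iff_one_le_mul₀ (exp_pos _)]
  nlinarith [mul_le_mul_of_nonneg_left h3 (show 0 ≤ 1 - x q by linarith),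
    mul_nonneg h1 (show 0 ≤ 1 - 2 * x q by linarith)]

/-- upper and lower weights -/
structure FlP (g : ℕ → ℝ) (P : Finset ℕ) (D e : ℝ) (u l : Finset ℕ → ℝ) : Prop where
  bu : ∀ U, |u U| ≤ 1
  bl : ∀ U, |l U| ≤ 1
  lev : ∀ U ⊆ P, u U ≠ 0 ∨ l U ≠ 0 → (pr U : ℝ) ≤ D
  up : ∀ A ⊆ P, flV (fun _ => 1) A ≤ flS u (fun _ => 1) A
  lo : ∀ A ⊆ P, flS l (fun _ => 1) A ≤ flV (fun _ => 1) A
  m1 : flV g P ≤ flS u g P
  m2 : (1 - e) * flS u g P ≤ flS l g P

theorem fl_step (g : ℕ → ℝ) (P : Finset ℕ) (q : ℕ → Prop) (D e v δ : ℝ) (k : ℕ)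
    (u l : Finset ℕ → ℝ) (hg : ∀ p ∈ P, 0 ≤ g p ∧ g p ≤ 1) (hv : 1 ≤ v) (hP : ∀ p ∈ P, (p : ℝ) ≤ v)
    (h : FlP g (P.filter q) D e u l) (hδ : 0 ≤ δ)
    (hd : flS (fld (2 * k + 1)) g (P.filter fun p => ¬ q p) ≤ δ * flV g (P.filter fun p => ¬ q p)) :
    ∃ u' l', FlP g P (D * v ^ (2 * k + 1)) (e + δ) u' l' := by
  have hb : ∀ U, |flb (2 * k) U| ≤ 1 := fun U => by
    unfold flb; split_ifs <;> simp
  have hl : ∀ x s, flS (fun U => l (U.filter q) * flb (2 * k) (U.filter fun p => ¬ q p)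
      - u (U.filter q) * fld (2 * k + 1) (U.filter fun p => ¬ q p)) x s
      = flS l x (s.filter q) * flS (flb (2 * k)) x (s.filter fun p => ¬ q p)
        - flS u x (s.filter q) * flS (fld (2 * k + 1)) x (s.filter fun p => ¬ q p) := by
    intro x s
    rw [flS_sub, flS_mul, flS_mul]
  have h1 : ∀ (s : Finset ℕ), ∀ q ∈ s, (0 : ℝ) ≤ (fun _ => 1 : ℕ → ℝ) q ∧
      (fun _ => 1 : ℕ → ℝ) q ≤ 1 := fun _ _ _ => ⟨zero_le_one, le_rfl⟩
  have hg1 : ∀ p ∈ P.filter q, 0 ≤ g p ∧ g p ≤ 1 := fun p hp => hg p (mem_filter.1 hp).1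
  have hg2 : ∀ p ∈ P.filter fun p => ¬ q p, 0 ≤ g p ∧ g p ≤ 1 :=
    fun p hp => hg p (mem_filter.1 hp).1
  refine ⟨fun U => u (U.filter q) * flb (2 * k) (U.filter fun p => ¬ q p),
    fun U => l (U.filter q) * flb (2 * k) (U.filter fun p => ¬ q p)
      - u (U.filter q) * fld (2 * k + 1) (U.filter fun p => ¬ q p),
    fun U => ?_, fun U => ?_, fun U hU hne => ?_, fun A hA => ?_, fun A hA => ?_, ?_, ?_⟩
  · rw [abs_mul]
    exact mul_le_one₀ (h.bu _) (abs_nonneg _) (hb _)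
  · by_cases hc : (U.filter fun p => ¬ q p).card = 2 * k + 1
    · rw [flb, fld, if_neg (by omega), if_pos hc]
      simpa using h.bu _
    · rw [fld, if_neg hc, mul_zero, sub_zero, abs_mul]
      exact mul_le_one₀ (h.bl _) (abs_nonneg _) (hb _)
  · have h2 : u (U.filter q) ≠ 0 ∨ l (U.filter q) ≠ 0 := by
      by_contra h3
      push Not at h3
      simp [h3.1, h3.2] at hne
    have h3 : (U.filter fun p => ¬ q p).card ≤ 2 * k + 1 := by
      by_contra h3
      have h4 : flb (2 * k) (U.filter fun p => ¬ q p) = 0 := if_neg (by omega)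
      have h5 : fld (2 * k + 1) (U.filter fun p => ¬ q p) = 0 := if_neg (by omega)
      simp [h4, h5] at hne
    have h4 := h.lev _ (filter_subset_filter _ hU) h2
    have h5 : (pr (U.filter fun p => ¬ q p) : ℝ) ≤ v ^ (2 * k + 1) := by
      refine le_trans ?_ (pow_le_pow_right₀ hv h3)
      rw [pr, Nat.cast_prod, ← prod_const]
      exact prod_le_prod (fun _ _ => Nat.cast_nonneg _) fun p hp => hP p (hU (mem_filter.1 hp).1)
    have h6 : pr U = pr (U.filter q) * pr (U.filter fun p => ¬ q p) :=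
      (prod_filter_mul_prod_filter_not U q _).symm
    rw [h6, Nat.cast_mul]
    exact mul_le_mul h4 h5 (Nat.cast_nonneg _) (le_trans (Nat.cast_nonneg _) h4)
  · rw [flS_mul, flV_mul q]
    have h2 := h.up _ (filter_subset_filter q hA)
    exact mul_le_mul h2 (fl_block _ _ (h1 _) k).1 (flV_nonneg (h1 _))
      ((flV_nonneg (h1 _)).trans h2)
  · rw [hl, flV_mul q]
    have h2 := h.up _ (filter_subset_filter q hA)
    have h3 := h.lo _ (filter_subset_filter q hA)
    obtain ⟨h4, h5⟩ := fl_block _ (A.filter fun p => ¬ q p) (h1 _) k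
    have h6 := flV_nonneg (h1 (A.filter q))
    have h7 := flV_nonneg (h1 (A.filter fun p => ¬ q p))
    have h8 : 0 ≤ flS (fld (2 * k + 1)) (fun _ => 1) (A.filter fun p => ¬ q p) :=
      fld_nonneg (fun _ _ => zero_le_one) _
    have h9 := mul_le_mul_of_nonneg_right h3 (h7.trans h4)
    have h10 := mul_le_mul_of_nonneg_right h2 h8
    have h11 := mul_le_mul_of_nonneg_left h5 h6
    nlinarith
  · rw [flS_mul, flV_mul q]
    exact mul_le_mul h.m1 (fl_block _ _ hg2 k).1 (flV_nonneg hg2) ((flV_nonneg hg1).trans h.m1)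
  · rw [hl, flS_mul]
    have h2 := (fl_block _ _ hg2 k).1
    have h3 := (flV_nonneg hg1).trans h.m1
    have h4 := (flV_nonneg hg2).trans h2
    have h5 := mul_le_mul_of_nonneg_right h.m2 h4
    have h6 := mul_le_mul_of_nonneg_left (hd.trans (mul_le_mul_of_nonneg_left h2 hδ)) h3
    nlinarith

theorem fl_sigma (hM : S_M) : ∃ k0 : ℝ, 0 < k0 ∧ ∀ (v : ℝ) (P : Finset ℕ) (g : ℕ → ℝ), 1 ≤ v →
    P ⊆ PP v → (∀ p ∈ P, √v < p) → (∀ p ∈ P, 0 ≤ g p ∧ g p ≤ 1 / 2 ∧ g p ≤ 2 / p) →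
    ∑ p ∈ P, g p ≤ k0 := by
  obtain ⟨C, hC, -, h2, -⟩ := hM
  refine ⟨3 + 10 * C, by positivity, fun v P g hv hP hs hg => ?_⟩
  by_cases h4 : v < 4
  · have h5 : P ⊆ range 4 := fun p hp => by
      have := (mem_PP.1 (hP hp)).2
      have h6 : (p : ℝ) < 4 := by linarith
      exact mem_range.2 (by exact_mod_cast h6)
    have h6 := sum_le_card_nsmul P g (1 / 2) fun p hp => (hg p hp).2.1
    have h7 : (P.card : ℝ) ≤ 4 := by exact_mod_cast (card_le_card h5).trans_eq (card_range 4)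
    rw [nsmul_eq_mul] at h6
    linarith
  · push Not at h4
    have h5 : 2 ≤ √v := le_sqrt_of_sq_le (by linarith)
    have h6 : √v ≤ v := by
      rw [sqrt_le_left (by linarith)]; nlinarith
    have h7 := (abs_le.1 (h2 (√v) v h5 h6)).2
    have h8 : log √v = log v / 2 := log_sqrt (by linarith)
    have h9 : 0 < log v := log_pos (by linarith)
    have h10 : log v / log √v = 2 := by rw [h8]; field_simp
    have h11 : log 2 ≤ log √v := log_le_log (by norm_num) h5
    have h12 := log_two_gt_d9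
    have h13 := log_two_lt_d9
    have h14 : C / log √v ^ 2 ≤ 5 * C := by
      rw [div_le_iff₀ (by nlinarith)]
      have : 1 ≤ 5 * log √v ^ 2 := by nlinarith
      nlinarith
    rw [h10] at h7
    have h15 : ∑ p ∈ P, g p ≤ ∑ p ∈ (PP v).filter (fun p : ℕ => √v < p), 2 * (1 / (p : ℝ)) := by
      refine (sum_le_sum fun p hp => ?_).trans (sum_le_sum_of_subset_of_nonneg
        (fun p hp => mem_filter.2 ⟨hP hp, hs p hp⟩) fun p _ _ => by positivity)
      rw [mul_one_div]; exact (hg p hp).2.2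
    rw [← mul_sum] at h15
    linarith

theorem fl_ind (hM : S_M) : ∃ K : ℕ, ∀ (g : ℕ → ℝ) (n i : ℕ) (v : ℝ) (P : Finset ℕ), 1 ≤ v →
    v < 2 ^ 2 ^ n → P ⊆ PP v → (∀ p ∈ P, 0 ≤ g p ∧ g p ≤ 1 / 2 ∧ g p ≤ 2 / p) →
    ∃ u l, FlP g P (v ^ (4 * (K + i) + 6)) (1 / 2 ^ (i + 1)) u l := by
  obtain ⟨k0, hk, hσ⟩ := fl_sigma hM
  obtain ⟨K, hK⟩ := eventually_atTop.1 ((FloorSemiring.tendsto_pow_div_factorial_atTop
    (2 * k0)).eventually (gt_mem_nhds (show 0 < exp (-(2 * k0)) / 4 by positivity)))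
  refine ⟨K, fun g n => ?_⟩
  induction n with
  | zero =>
    intro i v P hv hv2 hP _
    have h0 : P = ∅ := eq_empty_of_forall_notMem fun p hp => by
      obtain ⟨h1, h2⟩ := mem_PP.1 (hP hp)
      have : (2 : ℝ) ≤ p := by exact_mod_cast h1.two_le
      norm_num at hv2
      linarith
    subst h0
    refine ⟨fun _ => 1, fun _ => 1, by simp, by simp, fun U hU _ => ?_, fun A hA => ?_,
      fun A hA => ?_, ?_, ?_⟩
    · rw [subset_empty.1 hU]
      simpa [pr] using one_le_pow₀ hv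
    · simp [subset_empty.1 hA, flS_empty, flV]
    · simp [subset_empty.1 hA, flS_empty, flV]
    · simp [flS_empty, flV]
    · simp [flS_empty]
  | succ n ih =>
    intro i v P hv hv2 hP hg
    have hs1 : 1 ≤ √v := le_sqrt_of_sq_le (by linarith)
    have hs2 : √v < 2 ^ 2 ^ n := by
      rw [sqrt_lt' (by positivity), ← pow_mul, ← pow_succ]; exact hv2
    obtain ⟨u, l, h⟩ := ih (i + 1) (√v) (P.filter fun p : ℕ => (p : ℝ) ≤ √v) hs1 hs2
      (fun p hp => mem_PP.2 ⟨(mem_PP.1 (hP (mem_filter.1 hp).1)).1, (mem_filter.1 hp).2⟩)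
      fun p hp => hg p (mem_filter.1 hp).1
    set Q := P.filter fun p : ℕ => ¬ (p : ℝ) ≤ √v with hQ
    have hgQ : ∀ p ∈ Q, 0 ≤ g p ∧ g p ≤ 1 / 2 ∧ g p ≤ 2 / p := fun p hp => hg p (mem_filter.1 hp).1
    have h1 := hσ v Q g hv ((filter_subset _ _).trans hP)
      (fun p hp => not_le.1 (mem_filter.1 hp).2) hgQ
    have h2 : 0 ≤ ∑ p ∈ Q, g p := sum_nonneg fun p hp => (hgQ p hp).1
    have h3 : exp (-(2 * k0)) ≤ flV g Q :=
      le_trans (exp_le_exp.2 (by linarith)) (flV_ge fun p hp => ⟨(hgQ p hp).1, (hgQ p hp).2.1⟩)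
    have h4 := fld_le g Q (fun p hp => (hgQ p hp).1) (2 * (K + i) + 1)
    have h5 := (hK (2 * (K + i) + 1) (by omega)).le
    have h6 : flS (fld (2 * (K + i) + 1)) g Q ≤ 1 / 2 ^ (i + 2) * flV g Q := by
      refine h4.trans (le_trans ?_ (mul_le_mul_of_nonneg_left h3 (by positivity)))
      have h7 : (2 : ℝ) ^ i ≤ 2 ^ (2 * (K + i) + 1) := pow_le_pow_right₀ (by norm_num) (by omega)
      have h8 : (∑ p ∈ Q, g p) ^ (2 * (K + i) + 1) * 2 ^ i ≤ (2 * k0) ^ (2 * (K + i) + 1) := by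
        rw [mul_pow, mul_comm]
        exact mul_le_mul h7 (pow_le_pow_left₀ h2 h1 _) (by positivity) (by positivity)
      have h9 := (div_le_div_of_nonneg_right h8 (Nat.cast_nonneg (2 * (K + i) + 1).factorial)).trans h5
      rw [mul_div_right_comm, ← le_div_iff₀ (by positivity)] at h9
      refine h9.trans (le_of_eq ?_)
      field_simp
      ring
    obtain ⟨u', l', h'⟩ := fl_step g P _ _ _ v _ (K + i) u l
      (fun p hp => ⟨(hg p hp).1, by linarith [(hg p hp).2.1]⟩) hv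
      (fun p hp => (mem_PP.1 (hP hp)).2) h (by positivity) h6
    refine ⟨u', l', ?_⟩
    convert h' using 1
    · rw [show 4 * (K + (i + 1)) + 6 = 2 * (2 * (K + i) + 5) by ring, pow_mul,
        sq_sqrt (by linarith), ← pow_add]
      congr 1; ring
    · field_simp
      ring

theorem s_FL (hM : S_M) : S_FL := by
  obtain ⟨K, hK⟩ := fl_ind hM
  refine ⟨4 * (K + 0) + 6, fun w P g hw hP hg => ?_⟩
  obtain ⟨n, hn⟩ := pow_unbounded_of_one_lt w (show (1 : ℝ) < 2 by norm_num)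
  have hn2 : w < 2 ^ 2 ^ n :=
    hn.trans_le (pow_le_pow_right₀ (by norm_num) Nat.lt_two_pow_self.le)
  obtain ⟨u, l, h⟩ := hK g n 0 w P (by linarith) hn2 hP hg
  refine ⟨l, h.bl, fun U hU hne => h.lev U hU (Or.inr hne), fun A hA => ?_, ?_⟩
  · have := h.lo A hA
    simp only [flS, flV, prod_const_one, mul_one, sub_self, prod_const] at this
    refine this.trans (le_of_eq ?_)
    split_ifs with h0
    · simp [h0]
    · exact zero_pow (card_ne_zero.2 (nonempty_iff_ne_empty.2 h0))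
  · have h1 := h.m1
    have h2 := h.m2
    unfold flV at h1
    change _ ≤ flS l g P
    norm_num at h2
    linarith

end Jac
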