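import Vale.Agent.P013.Gro

/-! The bound for one fibre. -/

noncomputable section
namespace Jac
open Finset Real Filter
open scoped Classical

theorem fib_gg {u g : ℕ} (hu : u.Prime) (hg : gg u = g) :
    exp ((g : ℝ) - 1) < u ∧ (u : ℝ) ≤ exp g := by
  have h0 : (0 : ℝ) < u := by exact_mod_cast hu.pos
  have h1 : (g : ℝ) < log u + 1 := hg ▸ Nat.ceil_lt_add_one (log_natCast_nonneg u)
  have h2 : log u ≤ g := hg ▸ Nat.le_ceil _
  exact ⟨(lt_log_iff_exp_lt h0).1 (by linarith), (log_le_iff_le_exp h0).1 h2⟩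

theorem fib_card {U : Finset ℕ} {g : ℕ} (hU : ∀ u ∈ U, u.Prime ∧ gg u = g) :
    (U.card : ℝ) ≤ 3 * exp ((g : ℝ) - 1) := by
  have h1 : U ⊆ Ioc 0 ⌊exp (g : ℝ)⌋₊ := fun u hu =>
    mem_Ioc.2 ⟨(hU u hu).1.pos, Nat.le_floor (fib_gg (hU u hu).1 (hU u hu).2).2⟩
  have h2 : (U.card : ℝ) ≤ ⌊exp (g : ℝ)⌋₊ := by
    have := card_le_card h1
    rw [Nat.card_Ioc, Nat.sub_zero] at this
    exact_mod_cast this
  have h3 := Nat.floor_le (exp_pos (g : ℝ)).le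
  have h4 : exp (g : ℝ) = exp 1 * exp ((g : ℝ) - 1) := by rw [← exp_add]; congr 1; ring
  have h5 := exp_one_lt_d9
  have h6 := exp_pos ((g : ℝ) - 1)
  nlinarith

theorem fib_trm {y : ℕ} (x : ℤ) (n0 : ℕ) (h : ℤ) (m0 : ℕ) {g b0 : ℕ} {bs : Fin (r y) → ℕ}
    {u q : ℕ} (hD : ∀ i, (DD y : ℝ) ≤ Qb y (bs i)) (hu : exp ((g : ℝ) - 1) < u)
    (hq : q ∈ box y b0) : ‖trm y x n0 h m0 g b0 bs u q‖ ≤ ∏ i, Vb y (bs i) := by
  have hb : ∀ {b p : ℕ}, p ∈ box y b → 0 ≤ Qb y b / p ∧ Qb y b / p ≤ 1 := fun {b p} hp =>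
    ⟨div_nonneg (Qb_pos y b).le (Nat.cast_nonneg _),
      (div_le_one ((Qb_pos y b).trans (box_bd hp).1)).2 (box_bd hp).1.le⟩
  have h1 : ‖trm y x n0 h m0 g b0 bs u q‖
      ≤ ∑ _f ∈ Fintype.piFinset (fun i => box y (bs i)), (1 : ℝ) := by
    refine norm_sum_le_of_le _ fun f hf => ?_
    split_ifs
    · simp
    · have h2 : ∀ i, f i ∈ box y (bs i) := Fintype.mem_piFinset.1 hf
      have h3 : 0 ≤ ∏ i, Qb y (bs i) / f i := prod_nonneg fun i _ => (hb (h2 i)).1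
      have h4 : ∏ i, Qb y (bs i) / f i ≤ 1 :=
        prod_le_one (fun i _ => (hb (h2 i)).1) fun i _ => (hb (h2 i)).2
      have h5 : 0 ≤ exp ((g : ℝ) - 1) / u := by positivity
      have h6 : exp ((g : ℝ) - 1) / u ≤ 1 := (div_le_one ((exp_pos _).trans hu)).2 hu.le
      have h7 := hb hq
      rw [norm_mul, norm_ee, mul_one, Complex.norm_real,
        norm_of_nonneg (mul_nonneg (mul_nonneg h5 h7.1) h3)]
      exact mul_le_one₀ (mul_le_one₀ h6 h7.1 h7.2) h3 h4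
  rw [sum_const, nsmul_eq_mul, mul_one, Fintype.card_piFinset, Nat.cast_prod] at h1
  exact h1.trans (prod_le_prod (fun i _ => Nat.cast_nonneg _) fun i _ => card_box (hD i))

theorem fib_sub {y J : ℕ} {x : ℤ} {n0 : ℕ} {h : ℤ} {m0 g b0 : ℕ} {bs : Fin (r y) → ℕ}
    {U U' : Finset ℕ} (hF : FibH y J x n0 h m0 g b0 bs U) (hU : U' ⊆ U) :
    FibH y J x n0 h m0 g b0 bs U' :=
  ⟨hF.win0, hF.win, hF.hn, hF.h0, hF.h1, hF.m1, hF.gr, fun u hu => hF.hU u (hU hu), hF.hm, hF.sz⟩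

theorem fib_par : ∀ᶠ y : ℕ in atTop, 6 ≤ G y ∧ 20 * L y ≤ G y ∧ (DD y : ℝ) ≤ G y ^ 5 ∧
    ∀ i b, Win y i b → G y ^ 18 ≤ Qb y b := by
  filter_upwards [ev_L_G 6 0, ev_L_G 20 1, ev_G_B 18, ev_logB] with y h1 h2 h3 h4
  rw [pow_zero, mul_one] at h1
  rw [pow_one] at h2
  refine ⟨h1, h2, (DD_le y).trans ?_, fun i b hb => h3.trans (le_trans ?_ (win_Qb hb).1)⟩
  · have h5 : 1 ≤ G y ^ 4 := one_le_pow₀ (by linarith)
    rw [pow_succ _ 4]
    nlinarith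
  · have h5 : (1 : ℝ) ≤ B y := by exact_mod_cast (by omega : 1 ≤ B y)
    have h6 : (B y : ℝ) ≤ (B y : ℝ) ^ (i + 1) := le_self_pow₀ h5 (by omega)
    exact exp_le_exp.2 (by linarith)

theorem s_Fib (hFibAB : S_FibAB) (hFibC : S_FibC) (hJohn : S_John) (hCom : S_Com) : S_Fib := by
  intro J hJ
  filter_upwards [hFibAB J hJ, hFibC J hJ, fib_par, eventually_ge_atTop 3, ev_L 0]
    with y hAB hC hp hy hL x n0 h m0 g b0 bs U hF
  obtain ⟨hG, hLG, hDG, hQ⟩ := hp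
  have hG0 : 0 < G y := G_pos y
  have hD0 : (0 : ℝ) < DD y := by exact_mod_cast DD_pos y
  have hG1 : G y ^ 5 ≤ G y ^ 18 := pow_le_pow_right₀ (by linarith) (by norm_num)
  have hD : ∀ i, (DD y : ℝ) ≤ Qb y (bs i) := fun i => hDG.trans (hG1.trans (hQ _ _ (hF.win i)))
  have hQ0 := hQ _ _ hF.win0
  have hV0 : ∀ b, 0 < Vb y b := fun b => div_pos (mul_pos three_pos (Qb_pos y b)) hD0
  have hV : G y ^ 13 ≤ Vb y b0 := by
    rw [Vb, le_div_iff₀ hD0]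
    have h1 : G y ^ 13 * DD y ≤ G y ^ 13 * G y ^ 5 := mul_le_mul_of_nonneg_left hDG (by positivity)
    rw [show G y ^ 13 * G y ^ 5 = G y ^ 18 by ring] at h1
    linarith [Qb_pos y b0]
  obtain ⟨A, hA⟩ : ∃ A : ℕ → Finset ℕ, ∀ u, A u =
    (box y b0).filter (fun q => ∃ ρ, Rich y x ρ ∧ Hit x ρ u ∧ Hit x ρ q) := ⟨_, fun _ => rfl⟩
  obtain ⟨τ, hτ⟩ : ∃ τ, τ = Vb y b0 / G y ^ 6 := ⟨_, rfl⟩
  have hτ0 : 0 < τ := by rw [hτ]; exact div_pos (hV0 b0) (by positivity)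
  have hP0 : 0 < ∏ i, Vb y (bs i) := prod_pos fun i _ => hV0 _
  have hVol : 0 < Vol y g b0 bs := mul_pos (mul_pos (by positivity) (hV0 b0)) hP0
  have hex : ∀ u : ℕ, ∃ ρ : ℚ, u ∈ U.filter (fun u => τ ≤ (A u).card) →
      Rich y x ρ ∧ Hit x ρ u ∧ A u = (box y b0).filter (Hit x ρ) := by
    intro u
    by_cases hu : u ∈ U.filter (fun u => τ ≤ (A u).card)
    · obtain ⟨hu1, hu2⟩ := mem_filter.1 hu
      have h1 : 0 < (A u).card := by exact_mod_cast hτ0.trans_le hu2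
      obtain ⟨q, hq⟩ := card_pos.1 h1
      rw [hA] at hq
      obtain ⟨ρ, h2, h3, -⟩ := (mem_filter.1 hq).2
      refine ⟨ρ, fun _ => ⟨h2, h3, ?_⟩⟩
      rw [hA]
      refine filter_congr fun q _ => ⟨?_, fun h4 => ⟨ρ, h2, h3, h4⟩⟩
      rintro ⟨ρ', h4, h5, h6⟩
      rwa [(hF.hU u hu1).2.1 ρ ρ' h2 h4 h3 h5]
    · exact ⟨0, fun h1 => absurd h1 hu⟩
  choose ρ hρ using hex
  obtain ⟨Ub, hUb⟩ : ∃ Ub, Ub = U.filter (fun u => τ ≤ (A u).card) := ⟨_, rfl⟩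
  have hI : ((Ub.image ρ).card : ℝ) ≤ 2 * G y ^ 6 := by
    have h1 := hJohn (box y b0) (Ub.image ρ) (fun s => (box y b0).filter (Hit x s)) (Vb y b0) τ
      (10 * L y) hτ0 (by linarith) (card_box (hDG.trans (hG1.trans hQ0))) ?_ ?_ ?_
    · rwa [hτ, div_div_eq_mul_div, mul_assoc, mul_comm (Vb y b0), ← mul_assoc,
        mul_div_cancel_right₀ _ (hV0 b0).ne'] at h1
    · rw [hτ, div_pow, le_div_iff₀ (by positivity), show (G y ^ 6) ^ 2 = G y ^ 12 by ring]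
      have h2 : 20 * L y * G y ^ 12 ≤ G y * G y ^ 12 :=
        mul_le_mul_of_nonneg_right hLG (by positivity)
      rw [← pow_succ'] at h2
      have h3 := mul_le_mul_of_nonneg_left (h2.trans hV) (hV0 b0).le
      nlinarith
    · intro s hs
      obtain ⟨u, hu, rfl⟩ := mem_image.1 hs
      rw [hUb] at hu
      exact ⟨filter_subset _ _, (hρ u hu).2.2 ▸ (mem_filter.1 hu).2⟩
    · intro s hs s' hs' hne
      obtain ⟨u, hu, rfl⟩ := mem_image.1 hs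
      obtain ⟨u', hu', rfl⟩ := mem_image.1 hs'
      rw [hUb] at hu hu'
      refine hCom y x _ _ _ hy (hρ u hu).1.1 (hρ u' hu').1.1 hne fun p hp => ?_
      obtain ⟨h2, h3⟩ := mem_inter.1 hp
      exact ⟨(mem_box.1 (mem_filter.1 h2).1).1, (mem_filter.1 h2).2, (mem_filter.1 h3).2⟩
  have hB : ‖∑ u ∈ Ub, ∑ q ∈ A u, trm y x n0 h m0 g b0 bs u q‖
      ≤ 2 * G y ^ 6 * (Vol y g b0 bs / G y ^ 12) := by
    rw [← sum_fiberwise_of_maps_to (t := Ub.image ρ) (g := ρ) fun u hu => mem_image_of_mem ρ hu]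
    refine (norm_sum_le_of_le _ (n := fun _ => Vol y g b0 bs / G y ^ 12) fun s hs => ?_).trans ?_
    · obtain ⟨u0, hu0, rfl⟩ := mem_image.1 hs
      rw [hUb] at hu0
      have h1 : ∀ u ∈ Ub.filter (fun u => ρ u = ρ u0), Hit x (ρ u0) u ∧
          A u = (box y b0).filter (Hit x (ρ u0)) := by
        intro u hu
        obtain ⟨h2, h3⟩ := mem_filter.1 hu
        rw [hUb] at h2
        rw [← h3]
        exact (hρ u h2).2
      rw [sum_congr rfl fun u hu => by rw [(h1 u hu).2]]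
      refine hC x n0 h m0 g b0 bs _ _ (fib_sub hF ?_) (hρ u0 hu0).1 fun u hu => (h1 u hu).1
      rw [hUb]
      exact (filter_subset _ _).trans (filter_subset _ _)
    · rw [sum_const, nsmul_eq_mul]
      exact mul_le_mul_of_nonneg_right hI (by positivity)
  have hS : ‖∑ u ∈ U.filter (fun u => ¬ τ ≤ (A u).card), ∑ q ∈ A u, trm y x n0 h m0 g b0 bs u q‖
      ≤ 3 * exp ((g : ℝ) - 1) * (τ * ∏ i, Vb y (bs i)) := by
    refine (norm_sum_le_of_le _ (n := fun _ => τ * ∏ i, Vb y (bs i)) fun u hu => ?_).trans ?_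
    · obtain ⟨h1, h2⟩ := mem_filter.1 hu
      refine (norm_sum_le_of_le _ (n := fun _ => ∏ i, Vb y (bs i)) fun q hq => ?_).trans ?_
      · rw [hA] at hq
        exact fib_trm x n0 h m0 hD (fib_gg (hF.hU u h1).1 (hF.hU u h1).2.2.1).1
          (mem_filter.1 hq).1
      · rw [sum_const, nsmul_eq_mul]
        exact mul_le_mul_of_nonneg_right (not_le.1 h2).le hP0.le
    · rw [sum_const, nsmul_eq_mul]
      refine mul_le_mul_of_nonneg_right (fib_card fun u hu => ?_) (by positivity)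
      exact ⟨(hF.hU u (mem_filter.1 hu).1).1, (hF.hU u (mem_filter.1 hu).1).2.2.1⟩
  have hE : ∑ u ∈ U, ∑ q ∈ box y b0, trm y x n0 h m0 g b0 bs u q
      = ∑ u ∈ U, ∑ q ∈ (box y b0).filter
          (fun q => ¬ ∃ ρ, Rich y x ρ ∧ Hit x ρ u ∧ Hit x ρ q), trm y x n0 h m0 g b0 bs u q
        + (∑ u ∈ Ub, ∑ q ∈ A u, trm y x n0 h m0 g b0 bs u q
          + ∑ u ∈ U.filter (fun u => ¬ τ ≤ (A u).card),
              ∑ q ∈ A u, trm y x n0 h m0 g b0 bs u q) := by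
    rw [hUb, sum_filter_add_sum_filter_not, ← sum_add_distrib]
    refine sum_congr rfl fun u _ => ?_
    rw [hA, add_comm, sum_filter_add_sum_filter_not]
  rw [hE]
  refine (norm_add_le_of_le (hAB x n0 h m0 g b0 bs U hF) (norm_add_le_of_le hB hS)).trans ?_
  have h1 : 3 * exp ((g : ℝ) - 1) * (τ * ∏ i, Vb y (bs i)) = 3 / 2 * (Vol y g b0 bs / G y ^ 6) := by
    rw [hτ, Vol]
    ring
  have h2 : 2 * G y ^ 6 * (Vol y g b0 bs / G y ^ 12) = 2 * (Vol y g b0 bs / G y ^ 6) := by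
    field_simp
  have h3 : Vol y g b0 bs / G y ^ 13 ≤ Vol y g b0 bs / G y ^ 6 :=
    div_le_div_of_nonneg_left hVol.le (by positivity)
      (pow_le_pow_right₀ (by linarith) (by norm_num))
  have h4 : Vol y g b0 bs / G y ^ 5 = G y * (Vol y g b0 bs / G y ^ 6) := by
    field_simp
  have h5 : 0 < Vol y g b0 bs / G y ^ 6 := by positivity
  rw [h1, h2, h4, mul_div_assoc]
  nlinarith

end Jac
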