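import Vale.Agent.P013.Gro

/-! Fibres without rational structure. -/

noncomputable section
namespace Jac
open Finset Real Filter
open scoped Classical

theorem FibAB_gg {u g : ℕ} (hu : 1 ≤ u) (h : gg u = g) :
    exp ((g : ℝ) - 1) < u ∧ (u : ℝ) ≤ exp g := by
  have h0 : (0 : ℝ) < u := by exact_mod_cast hu
  have h1 : log u ≤ g := h ▸ Nat.le_ceil _
  have h2 : (g : ℝ) < log u + 1 := h ▸ Nat.ceil_lt_add_one (log_natCast_nonneg u)
  exact ⟨(lt_log_iff_exp_lt h0).1 (by linarith), (log_le_iff_le_exp h0).1 h1⟩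

theorem FibAB_cardU {g : ℝ} {U : Finset ℕ} (hg : 4 ≤ exp (g - 1))
    (hU : ∀ u ∈ U, exp (g - 1) < u ∧ (u : ℝ) ≤ exp g) : (U.card : ℝ) ≤ 2 * exp (g - 1) := by
  have h1 : U ⊆ Ioc ⌊exp (g - 1)⌋₊ ⌊exp g⌋₊ := fun p hp =>
    mem_Ioc.2 ⟨(Nat.floor_lt (exp_pos _).le).2 (hU p hp).1, Nat.le_floor (hU p hp).2⟩
  have h3 : exp (g - 1) ≤ exp g := exp_le_exp.2 (by linarith)
  have h4 : (U.card : ℝ) ≤ ⌊exp g⌋₊ - ⌊exp (g - 1)⌋₊ := by
    rw [← Nat.cast_sub (Nat.floor_mono h3), ← Nat.card_Ioc]; exact_mod_cast card_le_card h1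
  have h5 := Nat.floor_le (exp_pos g).le
  have h6 := Nat.lt_floor_add_one (exp (g - 1))
  have h7 : exp g = exp 1 * exp (g - 1) := by rw [← exp_add]; ring_nf
  have h8 : exp 1 * exp (g - 1) ≤ 2.75 * exp (g - 1) :=
    mul_le_mul_of_nonneg_right (by linarith [exp_one_lt_d9]) (exp_pos _).le
  linarith

theorem FibAB_div {K : ℤ} {A : Finset ℕ} {y : ℕ} (hK : K ≠ 0) (hy : |K| ≤ y)
    (hA : ∀ q ∈ A, q.Prime ∧ (q : ℤ) ∣ K) : (A.card : ℝ) ≤ 2 * L y := by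
  have h1 : (pr A : ℤ) ∣ K := (pr_dvd_iff (fun p hp => (hA p hp).1) K).2 fun p hp => (hA p hp).2
  have h2 : (pr A : ℤ) ≤ y := (Int.le_abs_of_dvd hK h1).trans hy
  have h3 : 2 ^ A.card ≤ pr A := pow_card_le_prod _ _ _ fun p hp => (hA p hp).1.two_le
  have h4 : (2 : ℝ) ^ A.card ≤ y := by
    have : 2 ^ A.card ≤ y := h3.trans (by exact_mod_cast h2)
    exact_mod_cast this
  have h5 := log_le_log (by positivity) h4
  rw [log_pow] at h5
  have h6 := log_two_gt_d9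
  have h7 : (0 : ℝ) ≤ A.card := by positivity
  rw [L]; nlinarith

/-- the coefficients -/
def FibAB_a (y : ℕ) (bs : Fin (r y) → ℕ) (i : Fin (r y)) (p : ℕ) : ℂ :=
  ((min 1 (Qb y (bs i) / p) : ℝ) : ℂ)

theorem FibAB_a_le (y : ℕ) (bs : Fin (r y) → ℕ) (i : Fin (r y)) (p : ℕ) :
    ‖FibAB_a y bs i p‖ ≤ 1 := by
  have := Qb_pos y (bs i)
  rw [FibAB_a, Complex.norm_real, norm_of_nonneg (le_min zero_le_one (by positivity))]
  exact min_le_left _ _

theorem FibAB_phase (M : ℤ) {m q F : ℕ} (hm : 1 ≤ m) (hq : 1 ≤ q) (hF : 1 ≤ F) :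
    |(M : ℝ) / ((m : ℝ) * (q * F)) - ((M / (m : ℤ) : ℤ) : ℝ) / (q * F)| ≤ 1 / q := by
  have hm0 : (0 : ℝ) < m := by exact_mod_cast hm
  have hq0 : (0 : ℝ) < q := by exact_mod_cast hq
  have hF0 : (1 : ℝ) ≤ F := by exact_mod_cast hF
  have h1 : (M : ℝ) = m * ((M / (m : ℤ) : ℤ) : ℝ) + ((M % (m : ℤ) : ℤ) : ℝ) := by
    exact_mod_cast (Int.mul_ediv_add_emod M m).symm
  have h2 : (0 : ℝ) ≤ ((M % (m : ℤ) : ℤ) : ℝ) := by
    exact_mod_cast Int.emod_nonneg M (by omega)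
  have h3 : ((M % (m : ℤ) : ℤ) : ℝ) ≤ m := by
    exact_mod_cast (Int.emod_lt_of_pos M (by omega : (0 : ℤ) < m)).le
  generalize ((M / (m : ℤ) : ℤ) : ℝ) = a at *
  generalize ((M % (m : ℤ) : ℤ) : ℝ) = b at *
  have h4 : (M : ℝ) / ((m : ℝ) * (q * F)) - a / (q * F) = b / m / (q * F) := by
    rw [h1]; field_simp; ring
  rw [h4, abs_of_nonneg (by positivity)]
  exact div_le_div₀ zero_le_one ((div_le_one hm0).2 h3) hq0 (le_mul_of_one_le_right hq0.le hF0)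

theorem FibAB_trm {y : ℕ} {x : ℤ} {n0 : ℕ} {h : ℤ} {m0 g b0 : ℕ} {bs : Fin (r y) → ℕ} {u q : ℕ}
    (hm : 1 ≤ m0) (hu : exp ((g : ℝ) - 1) < u) (hq : q ∈ box y b0)
    (hD : ∀ i, (DD y : ℝ) ≤ Qb y (bs i)) (hS : ∀ F : ℕ, ¬ Str y x (u * m0 * q * F)) :
    ‖trm y x n0 h m0 g b0 bs u q‖ ≤
      ‖gsum (fun i => box y (bs i)) (FibAB_a y bs) q (h * (x + n0) / ((m0 * u : ℕ) : ℤ))‖ +
        2 * π / Qb y b0 * ∏ i, Vb y (bs i) := by
  have hu0 : (0 : ℝ) < u := (exp_pos _).trans hu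
  have hu1 : 1 ≤ u := by exact_mod_cast hu0
  have hQ := Qb_pos y b0
  have hq1 := (box_bd hq).1
  have hq0 : (0 : ℝ) < q := hQ.trans hq1
  have hq2 : 1 ≤ q := by exact_mod_cast hq0
  set c : ℝ := exp ((g : ℝ) - 1) / u * (Qb y b0 / q) with hc
  have hc0 : 0 ≤ c := by positivity
  have hc1 : c ≤ 1 := mul_le_one₀ ((div_le_one hu0).2 hu.le) (by positivity)
    ((div_le_one hq0).2 hq1.le)
  set N : ℤ := h * (x + n0) / ((m0 * u : ℕ) : ℤ) with hN
  set al : (Fin (r y) → ℕ) → ℝ := fun f =>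
    (h : ℝ) * ((x : ℝ) + n0) / ((u * m0 * q * ∏ i, f i : ℕ) : ℝ) with hal
  set be' : (Fin (r y) → ℕ) → ℝ := fun f => (N : ℝ) / ((q : ℝ) * ∏ i, (f i : ℝ)) with hbe
  have h1 : trm y x n0 h m0 g b0 bs u q
      = c * gsum (fun i => box y (bs i)) (FibAB_a y bs) q N +
        ∑ f ∈ Fintype.piFinset (fun i => box y (bs i)),
          c * (∏ i, FibAB_a y bs i (f i)) * (ee (al f) - ee (be' f)) := by
    rw [trm, gsum, mul_sum, ← sum_add_distrib]
    refine sum_congr rfl fun f hf => ?_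
    rw [if_neg (hS _)]
    have h2 : ∏ i, FibAB_a y bs i (f i) = ((∏ i, Qb y (bs i) / f i : ℝ) : ℂ) := by
      rw [Complex.ofReal_prod]
      refine prod_congr rfl fun i _ => ?_
      have h3 := (box_bd (Fintype.mem_piFinset.1 hf i)).1
      rw [FibAB_a, min_eq_right ((div_le_one ((Qb_pos _ _).trans h3)).2 h3.le)]
    rw [h2, Complex.ofReal_mul]
    ring
  rw [h1]
  refine (norm_add_le _ _).trans (add_le_add ?_ ?_)
  · rw [norm_mul, Complex.norm_real, norm_of_nonneg hc0]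
    exact mul_le_of_le_one_left (norm_nonneg _) hc1
  · refine (norm_sum_le _ _).trans ?_
    refine (sum_le_card_nsmul _ _ (2 * π / Qb y b0) fun f hf => ?_).trans ?_
    · have hF : 1 ≤ ∏ i, f i := prod_pos fun i _ => (mem_box.1 (Fintype.mem_piFinset.1 hf i)).1.pos
      have h2 := FibAB_phase (h * (x + n0)) (m := m0 * u) (Nat.mul_pos hm hu1) hq2 hF
      have h3 : |al f - be' f| ≤ 1 / q := by
        refine le_trans (le_of_eq ?_) h2
        simp only [hal, hbe, hN]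
        congr 2
        · push_cast; ring
        · push_cast; ring
      have h4 : ‖∏ i, FibAB_a y bs i (f i)‖ ≤ 1 := by
        rw [norm_prod]
        exact prod_le_one (fun _ _ => norm_nonneg _) fun i _ => FibAB_a_le y bs i _
      rw [norm_mul, norm_mul, Complex.norm_real, norm_of_nonneg hc0]
      have h5 : ‖ee (al f) - ee (be' f)‖ ≤ 2 * π / Qb y b0 := by
        refine (norm_ee_sub _ _).trans ?_
        rw [div_eq_mul_one_div]
        exact mul_le_mul_of_nonneg_left (h3.trans (one_div_le_one_div_of_le hQ hq1.le))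
          (by positivity)
      exact (mul_le_of_le_one_left (norm_nonneg _) (mul_le_one₀ hc1 (norm_nonneg _) h4)).trans h5
    · rw [nsmul_eq_mul, mul_comm, Fintype.card_piFinset, Nat.cast_prod]
      exact mul_le_mul_of_nonneg_left
        (prod_le_prod (fun _ _ => by positivity) fun i _ => card_box (hD i)) (by positivity)

theorem FibAB_ev (J : ℕ) (hJ : 3 ≤ J) : ∀ᶠ y : ℕ in atTop, 2 ≤ y ∧ 7 ≤ G y ∧ 2 * L y ≤ G y ∧
    (∀ i b, Win y i b → G y ^ 100 ≤ Qb y b) ∧ ∀ g, GR y J g →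
      G y ^ 100 ≤ exp ((g : ℝ) - 1) ∧ L y ^ (0.2 : ℝ) ≤ (g : ℝ) - 1 ∧
      exp (l1 y) * exp g ≤ (y : ℝ) ^ 2 ∧ G y ^ 3 * (exp g + exp g) ≤ y := by
  filter_upwards [eventually_ge_atTop 2, ev_L_G 2 1, ev_L 4, ev_G_B 100, ev_logB, ev_kap_T 100,
    ev_T_pow (2 * J) 2 one_pos, ev_L_rpow (2 * J) (show (0.2 : ℝ) < 1 by norm_num), ev_T 1,
    ev_TlogT 1] with y h1 h2 h3 h4 h5 h6 h7 h8 h9 h10
  rw [pow_one] at h2
  rw [rpow_one] at h7 h8
  have hJ' : (3 : ℝ) ≤ J := by exact_mod_cast hJ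
  have hT : 1 ≤ T y ^ 2 := one_le_pow₀ h9
  have hk : 0 ≤ kap y := by rw [kap]; positivity
  refine ⟨h1, by linarith, h2, fun i b hb => ?_, fun g hg => ?_⟩
  · refine h4.trans (le_trans (exp_le_exp.2 ?_) (win_Qb hb).1)
    have hB : (1 : ℝ) ≤ B y := by exact_mod_cast (by omega : 1 ≤ B y)
    have := le_self_pow₀ hB (n := i + 1) (by omega)
    linarith
  · have e1 : 2 * T y ^ 2 ≤ g := by
      refine le_trans ?_ hg.1
      rw [le_div_iff₀ (by linarith)]; linarith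
    have e2 : 2 * L y ^ (0.2 : ℝ) ≤ g := by
      refine le_trans ?_ hg.1
      rw [le_div_iff₀ (by linarith)]; linarith
    have e3 : 1 ≤ L y ^ (0.2 : ℝ) := one_le_rpow (by linarith) (by norm_num)
    have hy0 : (0 : ℝ) < y := by exact_mod_cast (by omega : 0 < y)
    have e4 : log (z y) = L y / 2 + T y * log (T y) := by
      rw [z, log_mul (by positivity) (exp_pos _).ne', log_exp, log_sqrt hy0.le, L]
    have e5 : (g : ℝ) ≤ L y / 2 + kap y + 1 := by linarith [hg.2]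
    have e6 : 6 * T y ^ 2 ≤ L y := by nlinarith
    have e7 : exp (L y) = y := exp_L (by omega)
    refine ⟨?_, by linarith, ?_, ?_⟩
    · rw [G_pow]; refine exp_le_exp.2 ?_
      push_cast; linarith
    · rw [← e7, ← exp_add, ← exp_nat_mul, l1]
      refine exp_le_exp.2 ?_
      push_cast; linarith
    · have e8 : (2 : ℝ) ≤ exp 1 := by linarith [add_one_le_exp (1 : ℝ)]
      calc G y ^ 3 * (exp g + exp g) = 2 * (G y ^ 3 * exp g) := by ring
        _ ≤ exp 1 * (G y ^ 3 * exp g) :=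
          mul_le_mul_of_nonneg_right e8 (by have := G_pos y; positivity)
        _ ≤ y := by
          rw [G_pow, ← exp_add, ← exp_add, ← e7]
          refine exp_le_exp.2 ?_
          push_cast; linarith

theorem FibAB_rpow {Q G l : ℝ} (hG : 7 ≤ G) (hl : l ≤ G) (hQ : G ^ 100 ≤ Q) :
    Q ^ (0.7 : ℝ) + l ≤ Q ^ (0.71 : ℝ) ∧ 1 ≤ Q ^ (0.7 : ℝ) := by
  have h0 : 1 ≤ Q := (one_le_pow₀ (by linarith)).trans hQ
  have h1 : G ≤ Q ^ (0.01 : ℝ) := by
    have := rpow_le_rpow (by positivity) hQ (show (0 : ℝ) ≤ 0.01 by norm_num)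
    rwa [← rpow_natCast, ← rpow_mul (by linarith), show ((100 : ℕ) : ℝ) * 0.01 = 1 by norm_num,
      rpow_one] at this
  have h2 : Q ^ (0.01 : ℝ) ≤ Q ^ (0.7 : ℝ) := rpow_le_rpow_of_exponent_le h0 (by norm_num)
  have h3 : Q ^ (0.71 : ℝ) = Q ^ (0.01 : ℝ) * Q ^ (0.7 : ℝ) := by
    rw [← rpow_add (by linarith)]; norm_num
  refine ⟨?_, by linarith⟩
  rw [h3]; nlinarith

theorem s_FibAB (hMom2 : S_Mom2) (hAB : S_AB) : S_FibAB := by
  intro J hJ
  filter_upwards [hMom2, FibAB_ev J hJ] with y hM ⟨hy, hG, hLG, hW, hg⟩ x n0 h m0 g b0 bs U hF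
  obtain ⟨g1, g2, g3, g4⟩ := hg g hF.gr
  have hG1 : 1 ≤ G y := by linarith
  have hQ := hW _ _ hF.win0
  have hD : (DD y : ℝ) ≤ G y ^ 100 := by
    have e1 : G y ^ 5 ≤ G y ^ 100 := pow_le_pow_right₀ hG1 (by norm_num)
    have e2 : 1 ≤ G y ^ 4 := one_le_pow₀ hG1
    have := DD_le y
    nlinarith
  have hU : ∀ u ∈ U, exp ((g : ℝ) - 1) < u ∧ (u : ℝ) ≤ exp g := fun u hu =>
    FibAB_gg (hF.hU u hu).1.pos (hF.hU u hu).2.2.1
  have hG7 : 7 ≤ G y ^ 100 := hG.trans (le_self_pow₀ hG1 (by norm_num))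
  have hc := FibAB_cardU (by linarith) hU
  set al : ℕ → Finset ℕ := fun u =>
    (box y b0).filter (fun q => ¬ ∃ ρ, Rich y x ρ ∧ Hit x ρ u ∧ Hit x ρ q) with hal
  have hV : ∀ i, 0 ≤ Vb y (bs i) := fun i => by
    have := Qb_pos y (bs i); rw [Vb]; positivity
  have hP : 0 ≤ ∏ i, Vb y (bs i) := prod_nonneg fun i _ => hV i
  rcases hM b0 bs (FibAB_a y bs) U al (fun u => h * (x + n0) / ((m0 * u : ℕ) : ℤ))
    (2 * exp ((g : ℝ) - 1)) hF.win0 hF.win (FibAB_a_le y bs) hc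
    (fun u _ => filter_subset _ _) with h1 | ⟨u0, hu0, h1⟩
  · have h2 : ∀ u ∈ U, ∀ q ∈ al u, ‖trm y x n0 h m0 g b0 bs u q‖ ≤
        ‖gsum (fun i => box y (bs i)) (FibAB_a y bs) q (h * (x + n0) / ((m0 * u : ℕ) : ℤ))‖ +
          2 * π / Qb y b0 * ∏ i, Vb y (bs i) := by
      intro u hu q hq
      obtain ⟨hq1, hq2⟩ := mem_filter.1 hq
      refine FibAB_trm hF.m1 (hU u hu).1 hq1 (fun i => hD.trans (hW _ _ (hF.win i))) ?_
      rintro F ⟨ρ, r1, -, r3⟩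
      refine hq2 ⟨ρ, r1, r3 u (hF.hU u hu).1 ⟨m0 * q * F, by ring⟩ (g1.trans_lt (hU u hu).1),
        r3 q (mem_box.1 hq1).1 ⟨u * m0 * F, by ring⟩ (hQ.trans_lt (box_bd hq1).1)⟩
    have hQ0 := Qb_pos y b0
    have h3 : 0 ≤ 2 * π / Qb y b0 * ∏ i, Vb y (bs i) := by positivity
    have h4 : ∀ u ∈ U, ((al u).card : ℝ) ≤ Vb y b0 := fun u _ =>
      le_trans (by exact_mod_cast card_filter_le _ _) (card_box (hD.trans hQ))
    have hV0 : 0 ≤ Vb y b0 := by rw [Vb]; positivity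
    have h5 : 2 * π / Qb y b0 ≤ 1 / G y ^ 13 := by
      rw [div_le_div_iff₀ hQ0 (by positivity), one_mul]
      have e1 : G y ^ 14 ≤ G y ^ 100 := pow_le_pow_right₀ hG1 (by norm_num)
      have e2 : 2 * π ≤ G y := by linarith [pi_lt_d2]
      calc 2 * π * G y ^ 13 ≤ G y * G y ^ 13 := mul_le_mul_of_nonneg_right e2 (by positivity)
        _ = G y ^ 14 := by ring
        _ ≤ _ := e1.trans hQ
    calc _ ≤ ∑ u ∈ U, ∑ q ∈ al u, ‖trm y x n0 h m0 g b0 bs u q‖ :=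
          (norm_sum_le _ _).trans (sum_le_sum fun u _ => norm_sum_le _ _)
      _ ≤ ∑ u ∈ U, (∑ q ∈ al u, ‖gsum (fun i => box y (bs i)) (FibAB_a y bs) q
            (h * (x + n0) / ((m0 * u : ℕ) : ℤ))‖ +
          Vb y b0 * (2 * π / Qb y b0 * ∏ i, Vb y (bs i))) := by
          refine sum_le_sum fun u hu => (sum_le_sum (h2 u hu)).trans ?_
          rw [sum_add_distrib, sum_const, nsmul_eq_mul]
          exact add_le_add_right (mul_le_mul_of_nonneg_right (h4 u hu) h3) _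
      _ ≤ Vol y g b0 bs / G y ^ 13 +
          2 * exp ((g : ℝ) - 1) * (Vb y b0 * (1 / G y ^ 13 * ∏ i, Vb y (bs i))) := by
          rw [sum_add_distrib, sum_const, nsmul_eq_mul]
          refine add_le_add h1 (mul_le_mul hc ?_ (by positivity) (by positivity))
          exact mul_le_mul_of_nonneg_left (mul_le_mul_of_nonneg_right h5 hP) hV0
      _ = _ := by rw [Vol]; ring
  · exfalso
    have h2 : (1 : ℝ) < 2 * exp ((g : ℝ) - 1) * exp (-(L y ^ (0.2 : ℝ))) := by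
      rw [mul_assoc, ← exp_add]
      have := one_le_exp (x := (g : ℝ) - 1 + -(L y ^ (0.2 : ℝ))) (by linarith)
      linarith
    obtain ⟨u, hu, hne⟩ := exists_mem_ne (by exact_mod_cast h2.trans_le h1) u0
    obtain ⟨hu1, hu2⟩ := mem_filter.1 hu
    have s1 : exp g * m0 ≤ exp (l1 y) := by
      refine le_trans ?_ hF.sz
      rw [mul_assoc (exp g * m0)]
      refine le_mul_of_one_le_right (by positivity) (one_le_mul_of_one_le_of_one_le
        (one_le_exp (by positivity)) ?_)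
      exact prod_induction _ (fun t : ℝ => 1 ≤ t) (fun a b => one_le_mul_of_one_le_of_one_le)
        le_rfl fun i _ => one_le_exp (by positivity)
    have s2 : |h| < u0 := by
      have e1 : G y ^ 3 ≤ G y ^ 100 := pow_le_pow_right₀ hG1 (by norm_num)
      have : |(h : ℝ)| < u0 := (hF.h1.trans (e1.trans g1)).trans_lt (hU u0 hu0).1
      exact_mod_cast this
    have s3 : m0 * u0 * u ≤ y ^ 2 := by
      have : (m0 : ℝ) * u0 * u ≤ (y : ℝ) ^ 2 := by
        refine le_trans (mul_le_mul (le_trans ?_ s1) (hU u hu1).2 (by positivity)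
          (by positivity)) g3
        rw [mul_comm]
        exact mul_le_mul_of_nonneg_right (hU u0 hu0).2 (by positivity)
      exact_mod_cast this
    have s4 : |h| * (u0 + u) ≤ y := by
      have : |(h : ℝ)| * (u0 + u) ≤ y :=
        (mul_le_mul hF.h1 (add_le_add (hU u0 hu0).2 (hU u hu1).2) (by positivity)
          (by positivity)).trans g4
      exact_mod_cast this
    obtain ⟨ρ, r1, r2, K, k0, k1, k2⟩ := hAB y x h n0 m0 u0 u hy hF.hn hF.h0 hF.m1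
      (hF.hU u0 hu0).1 (hF.hU u hu1).1 hne.symm s2 s3 s4
    rw [tau] at hu2
    set A := (al u0 ∩ al u).filter (fun q : ℕ => (q : ℤ) ∣
      h * (x + n0) / ((m0 * u0 : ℕ) : ℤ) - h * (x + n0) / ((m0 * u : ℕ) : ℤ)) with hA
    have hAb : ∀ q ∈ A, q ∈ al u0 := fun q hq => (mem_inter.1 (mem_filter.1 hq).1).1
    have hAp : ∀ q ∈ A, q.Prime := fun q hq => (mem_box.1 (mem_filter.1 (hAb q hq)).1).1
    have c1 : ((A.filter (fun q : ℕ => (q : ℤ) ∣ K)).card : ℝ) ≤ 2 * L y :=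
      FibAB_div k0 k1 fun q hq => ⟨hAp q (mem_filter.1 hq).1, (mem_filter.1 hq).2⟩
    have c2 : ((A.filter (fun q : ℕ => (q : ℤ) ∣ K)).card : ℝ) +
        (A.filter (fun q : ℕ => ¬ (q : ℤ) ∣ K)).card = A.card := by
      exact_mod_cast card_filter_add_card_filter_not _
    obtain ⟨c3, c4⟩ := FibAB_rpow hG hLG hQ
    have c5 : ∀ q ∈ A.filter (fun q : ℕ => ¬ (q : ℤ) ∣ K), Hit x ρ q := fun q hq =>
      k2 q (hAp q (mem_filter.1 hq).1) (mem_filter.1 hq).2 (mem_filter.1 (mem_filter.1 hq).1).2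
    have c6 : Qb y b0 ^ (0.7 : ℝ) ≤ (A.filter (fun q : ℕ => ¬ (q : ℤ) ∣ K)).card := by linarith
    have c7 : Rich y x ρ := by
      refine ⟨r1, b0, hF.win0, c6.trans ?_⟩
      exact_mod_cast card_le_card fun q hq =>
        mem_filter.2 ⟨(mem_filter.1 (hAb q (mem_filter.1 hq).1)).1, c5 q hq⟩
    obtain ⟨q, hq⟩ := card_pos.1 (show 0 < (A.filter (fun q : ℕ => ¬ (q : ℤ) ∣ K)).card by
      exact_mod_cast zero_lt_one.trans_le (c4.trans c6))
    exact (mem_filter.1 (hAb q (mem_filter.1 hq).1)).2 ⟨ρ, c7, r2, c5 q hq⟩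

end Jac
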