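import Vale.Agent.P013.Gro

/-! Fibres in which all top primes are hit by one rational. -/

noncomputable section
namespace Jac
open Finset Real Filter
open scoped Classical

theorem fibc_floor (a : ℤ) {m : ℕ} (hm : 0 < m) : |(a : ℝ) / m - ((a / m : ℤ) : ℝ)| ≤ 1 := by
  have h0 : (0 : ℤ) < m := by exact_mod_cast hm
  have hm' : (0 : ℝ) < m := by exact_mod_cast hm
  have h1 : ((a / m * m : ℤ) : ℝ) ≤ a := by exact_mod_cast Int.ediv_mul_le a h0.ne'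
  have h2 : (a : ℝ) < ((a / m + 1) * m : ℤ) := by exact_mod_cast Int.lt_ediv_add_one_mul_self a h0
  rw [Int.cast_mul, Int.cast_natCast] at h1 h2
  rw [Int.cast_add, Int.cast_one] at h2
  rw [← le_div_iff₀ hm'] at h1
  rw [← div_lt_iff₀ hm'] at h2
  rw [abs_le]
  constructor <;> linarith

theorem fibc_cmp {k : ℕ} (P : Fin k → Finset ℕ) (a : Fin k → ℕ → ℂ) {q : ℕ} {t Q : ℝ} {N : ℤ}
    (ha : ∀ i p, ‖a i p‖ ≤ 1) (ht : |t - N| ≤ 1) (hQ : 0 < Q) (hq : Q ≤ q)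
    (hP : ∀ i, ∀ p ∈ P i, 1 ≤ p) :
    ‖∑ f ∈ Fintype.piFinset P, (∏ i, a i (f i)) * ee (t / ((q : ℝ) * ∏ i, (f i : ℝ)))‖ ≤
      ‖gsum P a q N‖ + (∏ i, ((P i).card : ℝ)) * (2 * π / Q) := by
  refine (norm_le_insert' _ (gsum P a q N)).trans (add_le_add le_rfl ?_)
  rw [gsum, ← sum_sub_distrib]
  refine (norm_sum_le_of_le _ (n := fun _ => 2 * π / Q) fun f hf => ?_).trans ?_
  · have h1 : ‖∏ i, a i (f i)‖ ≤ 1 := by
      rw [norm_prod]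
      exact prod_le_one (fun _ _ => norm_nonneg _) fun i _ => ha i _
    have h2 : (1 : ℝ) ≤ ∏ i, (f i : ℝ) :=
      one_le_prod fun i _ => by exact_mod_cast hP i _ (Fintype.mem_piFinset.1 hf i)
    have h3 : Q ≤ (q : ℝ) * ∏ i, (f i : ℝ) := hq.trans (le_mul_of_one_le_right (by positivity) h2)
    rw [← mul_sub, norm_mul]
    refine (mul_le_of_le_one_left (norm_nonneg _) h1).trans ((norm_ee_sub _ _).trans ?_)
    rw [← sub_div, abs_div, abs_of_pos (hQ.trans_le h3), mul_div_assoc]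
    exact mul_le_mul_of_nonneg_left (div_le_div₀ zero_le_one ht hQ h3)
      (by positivity) |>.trans (by rw [mul_one_div, mul_div_assoc])
  · rw [sum_const, Fintype.card_piFinset, nsmul_eq_mul, Nat.cast_prod]

theorem fibc_str {y k : ℕ} {x : ℤ} {ρ : ℚ} {u m0 q : ℕ} {f : Fin k → ℕ} (hρ : Rich y x ρ)
    (hu : u.Prime) (hun : Uniq y x u) (huW : PW y < u) (huh : Hit x ρ u) (hq : q.Prime)
    (hqh : Hit x ρ q) (hf : ∀ i, (f i).Prime ∧ PW y < f i) :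
    Str y x (u * m0 * q * ∏ i, f i) ↔
      (InR y ρ ∧ ∀ p : ℕ, p.Prime → p ∣ m0 → PW y < p → Hit x ρ p) ∧ ∀ i, Hit x ρ (f i) := by
  constructor
  · rintro ⟨ρ', h1, h2, h3⟩
    have h4 := hun ρ ρ' hρ h1 huh
      (h3 u hu (((dvd_mul_right _ _).mul_right _).mul_right _) huW)
    subst h4
    exact ⟨⟨h2, fun p hp hd => h3 p hp (((hd.mul_left u).mul_right q).mul_right _)⟩,
      fun i => h3 _ (hf i).1 ((dvd_prod_of_mem f (mem_univ i)).mul_left _) (hf i).2⟩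
  · rintro ⟨⟨h1, h2⟩, h3⟩
    refine ⟨ρ, hρ, h1, fun p hp hd hW => ?_⟩
    rcases (Nat.Prime.dvd_mul hp).1 hd with hd | hd
    · rcases (Nat.Prime.dvd_mul hp).1 hd with hd | hd
      · rcases (Nat.Prime.dvd_mul hp).1 hd with hd | hd
        · exact (Nat.prime_dvd_prime_iff_eq hp hu).1 hd ▸ huh
        · exact h2 p hp hd hW
      · exact (Nat.prime_dvd_prime_iff_eq hp hq).1 hd ▸ hqh
    · obtain ⟨i, -, hi⟩ := (Prime.dvd_finsetProd_iff hp.prime _).1 hd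
      exact (Nat.prime_dvd_prime_iff_eq hp (hf i).1).1 hi ▸ h3 i

/-- coefficients -/
def fibcA (y : ℕ) (bs : Fin (r y) → ℕ) (R : ℕ → Prop) (i : Fin (r y)) (p : ℕ) : ℂ :=
  if p ∈ box y (bs i) ∧ R p then ((Qb y (bs i) / p : ℝ) : ℂ) else 0

theorem fibc_A (y : ℕ) (bs : Fin (r y) → ℕ) (R : ℕ → Prop) (i : Fin (r y)) (p : ℕ) :
    ‖fibcA y bs R i p‖ ≤ 1 := by
  unfold fibcA
  split_ifs with h
  · have h1 := (box_bd h.1).1
    have h2 := Qb_pos y (bs i)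
    rw [Complex.norm_real, Real.norm_of_nonneg (by positivity)]
    exact (div_le_one (by linarith)).2 h1.le
  · simp

theorem fibc_trm {y : ℕ} {x : ℤ} {ρ : ℚ} {u m0 q : ℕ} (n0 : ℕ) (h : ℤ) (g b0 : ℕ)
    (bs : Fin (r y) → ℕ) (hρ : Rich y x ρ) (hu : u.Prime) (hun : Uniq y x u) (huW : PW y < u)
    (huh : Hit x ρ u) (hug : exp ((g : ℝ) - 1) ≤ u) (hq : q ∈ box y b0) (hqh : Hit x ρ q)
    (hm : 1 ≤ m0) (hb : ∀ i, PW y ≤ Qb y (bs i)) :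
    ‖trm y x n0 h m0 g b0 bs u q‖ ≤
      ‖gsum (fun i => box y (bs i)) (fibcA y bs fun _ => True) q (h * (x + n0) / (m0 * u : ℕ))‖ +
      ‖gsum (fun i => box y (bs i)) (fibcA y bs (Hit x ρ)) q (h * (x + n0) / (m0 * u : ℕ))‖ +
      2 * ((∏ i, ((box y (bs i)).card : ℝ)) * (2 * π / Qb y b0)) := by
  obtain ⟨c, hc⟩ : ∃ c : Prop,
      c = (InR y ρ ∧ ∀ p : ℕ, p.Prime → p ∣ m0 → PW y < p → Hit x ρ p) := ⟨_, rfl⟩
  obtain ⟨t, ht⟩ : ∃ t : ℝ, t = ((h * (x + n0) : ℤ) : ℝ) / (m0 * u : ℕ) := ⟨_, rfl⟩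
  have h1 : |t - ((h * (x + n0) / (m0 * u : ℕ) : ℤ) : ℝ)| ≤ 1 :=
    ht ▸ fibc_floor _ (Nat.mul_pos hm hu.pos)
  have hq1 := (box_bd hq).1
  have hQ := Qb_pos y b0
  have hP : ∀ i, ∀ p ∈ box y (bs i), 1 ≤ p := fun i p hp => (mem_box.1 hp).1.one_le
  have a1 := fibc_cmp _ _ (fibc_A y bs fun _ => True) h1 hQ hq1.le hP
  have a2 := fibc_cmp _ _ (fibc_A y bs (Hit x ρ)) h1 hQ hq1.le hP
  have e : trm y x n0 h m0 g b0 bs u q = ((exp ((g : ℝ) - 1) / u * (Qb y b0 / q) : ℝ) : ℂ) *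
      (∑ f ∈ Fintype.piFinset fun i => box y (bs i),
        (∏ i, fibcA y bs (fun _ => True) i (f i)) * ee (t / ((q : ℝ) * ∏ i, (f i : ℝ))) -
      (if c then 1 else 0) * ∑ f ∈ Fintype.piFinset fun i => box y (bs i),
        (∏ i, fibcA y bs (Hit x ρ) i (f i)) * ee (t / ((q : ℝ) * ∏ i, (f i : ℝ)))) := by
    rw [trm, mul_sum, ← sum_sub_distrib, mul_sum]
    refine sum_congr rfl fun f hf => ?_
    have hf' := Fintype.mem_piFinset.1 hf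
    have h2 := fibc_str (m0 := m0) (f := f) hρ hu hun huW huh (mem_box.1 hq).1 hqh fun i =>
      ⟨(mem_box.1 (hf' i)).1, (hb i).trans_lt (box_bd (hf' i)).1⟩
    rw [← hc] at h2
    have h3 : (h : ℝ) * ((x : ℝ) + n0) / ((u * m0 * q * ∏ i, f i : ℕ) : ℝ) =
        t / ((q : ℝ) * ∏ i, (f i : ℝ)) := by
      rw [ht, div_div]
      push_cast
      congr 1
      ring
    have h4 : ∏ i, fibcA y bs (fun _ => True) i (f i) = ((∏ i, Qb y (bs i) / f i : ℝ) : ℂ) := by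
      rw [Complex.ofReal_prod]
      exact prod_congr rfl fun i _ => if_pos ⟨hf' i, trivial⟩
    rw [h3, h4, Complex.ofReal_mul _ (∏ i, Qb y (bs i) / f i)]
    by_cases h5 : ∀ i, Hit x ρ (f i)
    · have h6 : ∏ i, fibcA y bs (Hit x ρ) i (f i) = ((∏ i, Qb y (bs i) / f i : ℝ) : ℂ) := by
        rw [Complex.ofReal_prod]
        exact prod_congr rfl fun i _ => if_pos ⟨hf' i, h5 i⟩
      rw [h6]
      by_cases h7 : c
      · rw [if_pos (h2.2 ⟨h7, h5⟩), if_pos h7]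
        ring
      · rw [if_neg fun h8 => h7 (h2.1 h8).1, if_neg h7]
        ring
    · obtain ⟨i, hi⟩ := not_forall.1 h5
      have h6 : ∏ i, fibcA y bs (Hit x ρ) i (f i) = 0 :=
        prod_eq_zero (mem_univ i) (if_neg fun h7 => hi h7.2)
      rw [if_neg fun h8 => h5 (h2.1 h8).2, h6]
      ring
  have hu0 : (0 : ℝ) < u := by exact_mod_cast hu.pos
  have b1 : ‖((exp ((g : ℝ) - 1) / u * (Qb y b0 / q) : ℝ) : ℂ)‖ ≤ 1 := by
    rw [Complex.norm_real, Real.norm_of_nonneg (by positivity)]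
    exact mul_le_one₀ ((div_le_one hu0).2 hug) (by positivity)
      ((div_le_one (by linarith)).2 hq1.le)
  have b2 : ‖(if c then 1 else 0 : ℂ)‖ ≤ 1 := by split_ifs <;> simp
  rw [e, norm_mul]
  refine (mul_le_of_le_one_left (norm_nonneg _) b1).trans ((norm_sub_le _ _).trans ?_)
  rw [norm_mul]
  have b3 := (mul_le_of_le_one_left (norm_nonneg _) b2).trans a2
  linarith

theorem fibc_gg {u g : ℕ} (hu : u.Prime) (h : gg u = g) :
    exp ((g : ℝ) - 1) < u ∧ (u : ℝ) ≤ exp g := by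
  have hu0 : (0 : ℝ) < u := by exact_mod_cast hu.pos
  have h1 : log u ≤ g := h ▸ Nat.le_ceil _
  have h2 : (g : ℝ) < log u + 1 := h ▸ Nat.ceil_lt_add_one (log_natCast_nonneg u)
  exact ⟨(lt_log_iff_exp_lt hu0).1 (by linarith), (log_le_iff_le_exp hu0).1 h1⟩

theorem fibc_card {U : Finset ℕ} {W : ℝ} (hW : 4 ≤ W)
    (h : ∀ u ∈ U, W < u ∧ (u : ℝ) ≤ exp 1 * W) : (U.card : ℝ) ≤ 2 * W := by
  have h1 : U ⊆ Ioc ⌊W⌋₊ ⌊exp 1 * W⌋₊ := fun u hu =>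
    mem_Ioc.2 ⟨(Nat.floor_lt (by linarith)).2 (h u hu).1, Nat.le_floor (h u hu).2⟩
  have h2 := card_le_card h1
  have h3 : W ≤ exp 1 * W := le_mul_of_one_le_left (by linarith) (one_le_exp zero_le_one)
  rw [Nat.card_Ioc] at h2
  have h4 : (U.card : ℝ) ≤ (⌊exp 1 * W⌋₊ : ℝ) - ⌊W⌋₊ := by
    rw [← Nat.cast_sub (Nat.floor_le_floor h3)]
    exact_mod_cast h2
  have h5 := Nat.floor_le (show 0 ≤ exp 1 * W by linarith)
  have h6 := Nat.lt_floor_add_one W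
  nlinarith [exp_one_lt_d9]

/-- the size conditions -/
structure FibcP (y J : ℕ) : Prop where
  hy : 6 ≤ y
  hG : 15 ≤ G y
  hLG : 12 * L y ≤ G y
  hGB : G y ^ 100 ≤ exp (B y / 2 - 1)
  hB : (2 : ℝ) ≤ B y
  hBr : (B y : ℝ) ^ (r y + 2) ≤ L y ^ (0.2 : ℝ)
  hL3 : 3 ≤ L y ^ (0.2 : ℝ)
  hLJ : 2 * J * L y ^ (0.2 : ℝ) ≤ L y
  hL4 : 4 * L y ^ (0.2 : ℝ) ≤ L y ^ (0.3 : ℝ)
  hJ : (3 : ℝ) ≤ J

theorem fibc_ev {J : ℕ} (hJ : 3 ≤ J) : ∀ᶠ y : ℕ in atTop, FibcP y J := by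
  filter_upwards [eventually_ge_atTop 6, ev_L_G 15 0, ev_L_G 12 1, ev_G_B 100,
    ev_logB, ev_B_r (e := 0.2) (by norm_num), ev_L_rpow 3 (a := 0) (b := 0.2) (by norm_num),
    ev_L_rpow (2 * J) (a := 0.2) (b := 1) (by norm_num),
    ev_L_rpow 4 (a := 0.2) (b := 0.3) (by norm_num)] with y hy hG hLG hGB hB hBr hL3 hLJ hL4
  rw [pow_zero, mul_one] at hG
  rw [pow_one] at hLG
  rw [rpow_zero, mul_one] at hL3
  rw [rpow_one] at hLJ
  exact ⟨hy, hG, hLG, hGB, by exact_mod_cast hB.1, hBr, hL3, hLJ, hL4, by exact_mod_cast hJ⟩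

namespace FibcP
variable {y J : ℕ} (hP : FibcP y J)
include hP

theorem G1 : 1 ≤ G y := by linarith [hP.hG]

theorem Gk {k : ℕ} (hk : k ≤ 100) : G y ^ k ≤ exp (B y / 2 - 1) :=
  (pow_le_pow_right₀ hP.G1 hk).trans hP.hGB

theorem Bk (k : ℕ) : (B y : ℝ) ≤ B y ^ (k + 1) := le_self_pow₀ (by linarith [hP.hB]) (by omega)

theorem Qw {i b : ℕ} (hw : Win y i b) : exp (B y) ≤ Qb y b :=
  (exp_le_exp.2 (hP.Bk _)).trans (win_Qb hw).1

theorem GQ {k : ℕ} (hk : k ≤ 100) {i b : ℕ} (hw : Win y i b) : G y ^ k ≤ Qb y b :=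
  (hP.Gk hk).trans ((exp_le_exp.2 (by linarith [hP.hB])).trans (hP.Qw hw))

theorem card {i b : ℕ} (hw : Win y i b) : ((box y b).card : ℝ) ≤ Vb y b := by
  refine card_box ((DD_le y).trans (le_trans ?_ (hP.GQ (k := 5) (by norm_num) hw)))
  have : 1 ≤ G y ^ 4 := one_le_pow₀ hP.G1
  rw [pow_succ _ 4]
  nlinarith [hP.hG]

theorem gl {g : ℕ} (h : GR y J g) : L y ^ (0.2 : ℝ) ≤ (g : ℝ) - 1 := by
  have h1 := h.1
  have h2 := hP.hJ
  rw [div_le_iff₀ (by linarith)] at h1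
  have h3 : 2 * L y ^ (0.2 : ℝ) ≤ g :=
    le_of_mul_le_mul_right (by linarith [hP.hLJ]) (show (0 : ℝ) < J by linarith)
  linarith [hP.hL3]

theorem y1 : exp (L y) = y := exp_L (by have := hP.hy; omega)

theorem Gy : G y ^ 3 ≤ y := by
  rw [← hP.y1]
  refine (hP.Gk (by norm_num)).trans (exp_le_exp.2 ?_)
  have h1 := hP.Bk (r y + 1)
  have h2 := mul_le_mul_of_nonneg_right hP.hJ (show 0 ≤ L y ^ (0.2 : ℝ) by linarith [hP.hL3])
  linarith [hP.hB, hP.hBr, hP.hLJ, hP.hL3]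

theorem W4 {g : ℕ} (h : GR y J g) : 4 ≤ exp ((g : ℝ) - 1) := by
  have := add_one_le_exp ((g : ℝ) - 1)
  linarith [hP.gl h, hP.hL3]

theorem PWle {g : ℕ} (h : GR y J g) : PW y ≤ exp ((g : ℝ) - 1) := by
  refine hP.hGB.trans (exp_le_exp.2 ?_)
  have := hP.Bk (r y + 1)
  linarith [hP.gl h, hP.hB, hP.hBr]

theorem tau0 {i b : ℕ} (hw : Win y i b) : (y : ℝ) ^ 6 ≤ 2 ^ (Qb y b ^ (0.71 : ℝ)) := by
  have h2 : exp (B y / 2 - 1) ≤ Qb y b ^ (0.71 : ℝ) := by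
    refine le_trans ?_ (rpow_le_rpow (exp_pos _).le (hP.Qw hw) (by norm_num))
    rw [← exp_mul]
    exact exp_le_exp.2 (by linarith [hP.hB])
  have h3 := hP.Gk (k := 1) (by norm_num)
  rw [pow_one] at h3
  rw [← hP.y1, ← exp_nat_mul, rpow_def_of_pos two_pos]
  refine exp_le_exp.2 ?_
  have h4 : 1 / 2 ≤ log 2 := by linarith [log_two_gt_d9]
  have h5 := mul_le_mul_of_nonneg_right h4 ((exp_pos _).le.trans h2)
  push_cast
  linarith [hP.hLG]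

theorem e8 : 8 * exp (L y ^ (0.2 : ℝ)) ≤ exp (L y ^ (0.3 : ℝ)) := by
  have h2 := add_one_le_exp (L y ^ (0.3 : ℝ) - L y ^ (0.2 : ℝ))
  rw [exp_sub, le_div_iff₀ (exp_pos _)] at h2
  exact le_trans (mul_le_mul_of_nonneg_right (by linarith [hP.hL3, hP.hL4]) (exp_pos _).le) h2

variable {x h : ℤ} {n0 m0 g b0 : ℕ} {bs : Fin (r y) → ℕ} {U : Finset ℕ}
  (hF : FibH y J x n0 h m0 g b0 bs U)
include hF

omit hP in
theorem UW {u : ℕ} (hu : u ∈ U) :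
    exp ((g : ℝ) - 1) < u ∧ (u : ℝ) ≤ exp 1 * exp ((g : ℝ) - 1) := by
  rw [← exp_add, add_sub_cancel]
  exact fibc_gg (hF.hU u hu).1 (hF.hU u hu).2.2.1

theorem mu {u : ℕ} (hu : u ∈ U) : m0 * u ≤ y ^ 2 := by
  have h2 := hF.sz
  have h3 : (1 : ℝ) ≤ ∏ i, exp ((bs i : ℝ) / DD y) :=
    one_le_prod fun i _ => one_le_exp (by positivity)
  have h4 : (1 : ℝ) ≤ exp ((b0 : ℝ) / DD y) := one_le_exp (by positivity)
  have h5 : exp (l1 y) = y * G y := by rw [l1, exp_add, hP.y1, G]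
  have h6 : G y ≤ y := (le_self_pow₀ hP.G1 (by norm_num)).trans hP.Gy
  have h7 : (m0 : ℝ) * u ≤ exp g * m0 := by
    rw [mul_comm]
    exact mul_le_mul_of_nonneg_right (fibc_gg (hF.hU u hu).1 (hF.hU u hu).2.2.1).2 (by positivity)
  have h8 := (le_mul_of_one_le_right (by positivity) h4).trans
    ((le_mul_of_one_le_right (by positivity) h3).trans h2)
  have h9 : (m0 : ℝ) * u ≤ (y : ℝ) ^ 2 := by
    rw [sq]
    exact h7.trans (h8.trans (h5 ▸ mul_le_mul_of_nonneg_left h6 (by positivity)))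
  exact_mod_cast h9

theorem alt (hCH : S_CH) {ρ : ℚ} (hρ : Rich y x ρ) (hU : ∀ u ∈ U, Hit x ρ u) {A : Finset ℕ}
    (hA : ∀ q ∈ A, q ∈ box y b0 ∧ Hit x ρ q) {u0 : ℕ} (hu0 : u0 ∈ U)
    (h1 : 2 * exp ((g : ℝ) - 1) * exp (-(L y ^ (0.2 : ℝ))) ≤
      ((U.filter fun u => Qb y b0 ^ (0.71 : ℝ) <
        (tau (fun _ => A) (fun v => h * (x + n0) / (m0 * v : ℕ)) u0 u : ℝ)).card : ℝ)) :
    ((ρ.den * m0 / Int.gcd (ρ.den * m0 : ℕ) (h * (ρ.den * x - ρ.num)) : ℕ) : ℝ) ≤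
      exp (L y ^ (0.3 : ℝ)) ∧
    |(h : ℝ) * ((ρ : ℝ) + n0)| ≤ exp (L y ^ (0.3 : ℝ)) * m0 * exp ((g : ℝ) - 1) := by
  have hg := hP.gl hF.gr
  have hW4 := hP.W4 hF.gr
  have s2 : 2 ≤ 2 * exp ((g : ℝ) - 1) * exp (-(L y ^ (0.2 : ℝ))) := by
    rw [mul_assoc, ← exp_add]
    have := one_le_exp (show 0 ≤ (g : ℝ) - 1 + -(L y ^ (0.2 : ℝ)) by linarith)
    linarith
  obtain ⟨u1, hu1⟩ := card_pos.1 (Nat.cast_pos.1 ((two_pos.trans_le s2).trans_le h1))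
  have hmem : u0 ∈ U.filter fun u => Qb y b0 ^ (0.71 : ℝ) <
      (tau (fun _ => A) (fun v => h * (x + n0) / (m0 * v : ℕ)) u0 u : ℝ) := by
    refine mem_filter.2 ⟨hu0, (mem_filter.1 hu1).2.trans_le (Nat.cast_le.2 (card_le_card ?_))⟩
    exact monotone_filter_right _ fun q _ _ => by simp
  have hh : |h| ≤ (y : ℤ) := by exact_mod_cast hF.h1.trans hP.Gy
  obtain ⟨c1, c2⟩ := hCH y x h ρ n0 m0 u0 _ (fun _ => A) _ _ _ hP.hy hρ.1 hF.hn hF.h0 hh hF.m1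
    (le_trans (by norm_num) hW4) s2 h1 hmem (hP.tau0 hF.win0) fun u hu => by
      obtain ⟨hu, hu'⟩ := mem_filter.1 hu
      exact ⟨(hF.hU u hu).1, (UW hF hu).1, (UW hF hu).2, (hF.hU u hu).2.2.2, hP.mu hF hu, hU u hu,
        fun q hq => ⟨(mem_box.1 (hA q hq).1).1, (box_bd (hA q hq).1).2.trans
          ((win_Qb hF.win0).2.trans (exp_le_exp.2 (hP.hBr.trans hg))), (hA q hq).2⟩, hu'⟩
  have e1 : exp ((g : ℝ) - 1) / (2 * exp ((g : ℝ) - 1) * exp (-(L y ^ (0.2 : ℝ)))) =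
      exp (L y ^ (0.2 : ℝ)) / 2 := by
    rw [exp_neg]
    field_simp
  rw [mul_div_assoc, e1] at c1 c2
  have h3 := exp_pos (L y ^ (0.2 : ℝ))
  have e2 := hP.e8
  exact ⟨by linarith, c2.trans (mul_le_mul_of_nonneg_right
    (mul_le_mul_of_nonneg_right (by linarith) (by positivity)) (by linarith))⟩

theorem err {A : Finset ℕ} (hA : A ⊆ box y b0) {S : ℝ} (hS : S ≤ 2 * (Vol y g b0 bs / G y ^ 13)) :
    S + (U.card : ℝ) * (A.card * (2 * ((∏ i, ((box y (bs i)).card : ℝ)) * (2 * π / Qb y b0)))) ≤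
      Vol y g b0 bs / G y ^ 12 := by
  have hUc := fibc_card (hP.W4 hF.gr) fun u hu => UW hF hu
  have hG := G_pos y
  have hV : ∀ b, 0 ≤ Vb y b := fun b => by
    have := Qb_pos y b
    unfold Vb
    positivity
  have d1 : (A.card : ℝ) ≤ Vb y b0 := (Nat.cast_le.2 (card_le_card hA)).trans (hP.card hF.win0)
  have d2 : ∏ i, ((box y (bs i)).card : ℝ) ≤ ∏ i, Vb y (bs i) :=
    prod_le_prod (fun _ _ => by positivity) fun i _ => hP.card (hF.win i)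
  have d3 : 2 * π / Qb y b0 ≤ (13 / 2) / G y ^ 13 :=
    div_le_div₀ (by norm_num) (by linarith [pi_lt_d2]) (by positivity)
      (hP.GQ (by norm_num) hF.win0)
  have d4 : 0 ≤ ∏ i, Vb y (bs i) := prod_nonneg fun i _ => hV _
  have d5 := hV b0
  have d6 := Qb_pos y b0
  have d7 := mul_le_mul hUc (mul_le_mul d1 (mul_le_mul_of_nonneg_left
    (mul_le_mul d2 d3 (by positivity) d4) zero_le_two) (by positivity) d5) (by positivity)
    (by positivity)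
  have d8 : 0 ≤ Vol y g b0 bs := by
    unfold Vol
    positivity
  have d9 : 15 * (Vol y g b0 bs / G y ^ 13) ≤ Vol y g b0 bs / G y ^ 12 := by
    have : Vol y g b0 bs / G y ^ 12 = G y * (Vol y g b0 bs / G y ^ 13) := by field_simp
    rw [this]
    exact mul_le_mul_of_nonneg_right hP.hG (by positivity)
  have d10 : 2 * exp ((g : ℝ) - 1) * (Vb y b0 * (2 * ((∏ i, Vb y (bs i)) *
      ((13 / 2) / G y ^ 13)))) = 13 * (Vol y g b0 bs / G y ^ 13) := by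
    rw [Vol]
    ring
  linarith

end FibcP

theorem s_FibC (hFibH : S_FibH) (hMom2 : S_Mom2) (hCH : S_CH) : S_FibC := by
  intro J hJ
  filter_upwards [hFibH J hJ, hMom2, fibc_ev hJ] with y H1 H2 hP x n0 h m0 g b0 bs U ρ hF hρ hU
  by_cases hc : ((ρ.den * m0 / Int.gcd (ρ.den * m0 : ℕ) (h * (ρ.den * x - ρ.num)) : ℕ) : ℝ) ≤
      exp (L y ^ (0.3 : ℝ)) ∧
      |(h : ℝ) * ((ρ : ℝ) + n0)| ≤ exp (L y ^ (0.3 : ℝ)) * m0 * exp ((g : ℝ) - 1)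
  · exact H1 x n0 h m0 g b0 bs U ρ hF hρ hU hc.1 hc.2
  obtain ⟨A, hA⟩ : ∃ A, A = (box y b0).filter (Hit x ρ) := ⟨_, rfl⟩
  rw [← hA]
  have hA' : ∀ q ∈ A, q ∈ box y b0 ∧ Hit x ρ q := fun q hq => mem_filter.1 (hA ▸ hq)
  have key : ∀ a : Fin (r y) → ℕ → ℂ, (∀ i p, ‖a i p‖ ≤ 1) → ∑ u ∈ U, ∑ q ∈ A,
      ‖gsum (fun i => box y (bs i)) a q (h * (x + n0) / (m0 * u : ℕ))‖ ≤
        Vol y g b0 bs / G y ^ 13 := fun a ha =>
    (H2 b0 bs a U (fun _ => A) (fun v => h * (x + n0) / (m0 * v : ℕ)) _ hF.win0 hF.win ha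
      (fibc_card (hP.W4 hF.gr) fun u hu => FibcP.UW hF hu) fun _ _ q hq => (hA' q hq).1).elim id
      fun ⟨u0, hu0, h1⟩ => absurd (hP.alt hF hCH hρ hU hA' hu0 h1) hc
  have k1 := key _ (fibc_A y bs fun _ => True)
  have k2 := key _ (fibc_A y bs (Hit x ρ))
  refine (norm_sum_le_of_le _ fun u hu => norm_sum_le_of_le _ fun q hq =>
    fibc_trm n0 h g b0 bs hρ (hF.hU u hu).1 (hF.hU u hu).2.1
      ((hP.PWle hF.gr).trans_lt (FibcP.UW hF hu).1) (hU u hu) (FibcP.UW hF hu).1.le (hA' q hq).1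
      (hA' q hq).2 hF.m1 fun i => hP.GQ le_rfl (hF.win i)).trans ?_
  simp only [sum_add_distrib, sum_const, nsmul_eq_mul]
  exact hP.err hF (fun q hq => (hA' q hq).1) (by linarith)

end Jac
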