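import Vale.Agent.P013.Gro

/-! The fibre estimate in the case of small height. -/

noncomputable section
namespace Jac
open Finset Real Filter
open scoped Classical

lemma fibh_kap (a F : ℕ) (w : ℤ) (ha : 0 < a) (hF : 0 < F) :
    a * F / Int.gcd (a * F : ℕ) w ≤ a / Int.gcd (a : ℕ) w * F := by
  simp only [Int.gcd, Int.natAbs_natCast]
  have h1 : Nat.gcd a w.natAbs ∣ Nat.gcd (a * F) w.natAbs :=
    Nat.gcd_dvd_gcd_mul_right_left _ _ _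
  have h2 : 0 < Nat.gcd a w.natAbs := Nat.gcd_pos_of_pos_left _ ha
  have h3 : 0 < Nat.gcd (a * F) w.natAbs := Nat.gcd_pos_of_pos_left _ (Nat.mul_pos ha hF)
  rw [Nat.div_mul_right_comm (Nat.gcd_dvd_left _ _)]
  exact Nat.div_le_div_left (Nat.le_of_dvd h3 h1) h2

/-- the numerical facts -/
structure FibhN (y J : ℕ) (C : ℝ) : Prop where
  g1 : 2 * C + 3 ≤ G y
  lg : 2 * L y ≤ G y
  l1 : 1 ≤ L y
  gb : G y ^ 100 ≤ exp (B y)
  b1 : 1 ≤ B y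
  br : (B y : ℝ) ^ (r y + 2) ≤ L y ^ (0.1 : ℝ)
  rr : (r y : ℝ) ≤ L y ^ (0.1 : ℝ)
  kl : kap y ≤ L y ^ (0.3 : ℝ)
  big : 200 * L y ^ (0.3 : ℝ) ≤ L y / J - 1
  y1 : 1 ≤ y

lemma fibh_ev (J : ℕ) (hJ : 3 ≤ J) (C : ℝ) : ∀ᶠ y : ℕ in atTop, FibhN y J C := by
  have hJ0 : (0 : ℝ) < J := by exact_mod_cast (by omega : 0 < J)
  filter_upwards [ev_L_G (2 * |C| + 3) 0, ev_L_G 2 1, ev_L 1, ev_G_B 100, ev_logB,
    ev_B_r (e := 0.1) (by norm_num), ev_T_pow 12001 1 (e := 0.1) (by norm_num), ev_T 1,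
    ev_kap_T 1, ev_T_pow 1 2 (e := 0.3) (by norm_num),
    ev_L_rpow (201 * J) (a := 0.3) (b := 1) (by norm_num), eventually_ge_atTop 1]
    with y h1 h2 h3 h4 h5 h6 h7 h8 h9 h10 h11 h12
  have hB : (2 : ℝ) ≤ B y := by exact_mod_cast h5.1
  refine ⟨?_, by simpa using h2, h3, h4.trans (exp_le_exp.2 (by linarith)), by omega, h6, ?_,
    by linarith, ?_, h12⟩
  · have := le_abs_self C
    simp only [pow_zero, mul_one] at h1
    linarith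
  · have a1 := r_le y
    have a2 : √(T y) ≤ T y := by
      rw [Real.sqrt_le_left (by linarith)]; nlinarith
    simp only [pow_one] at h7
    linarith
  · have a1 : (1 : ℝ) ≤ L y ^ (0.3 : ℝ) := one_le_rpow h3 (by norm_num)
    rw [rpow_one] at h11
    have a2 : 201 * L y ^ (0.3 : ℝ) ≤ L y / J := by
      rw [le_div_iff₀ hJ0]; linarith
    linarith

lemma fibh_cs {U A : Finset ℕ} (c : ℕ → ℝ) (Bf : ℕ → ℂ) (hc : ∀ u ∈ U, 0 ≤ c u ∧ c u ≤ 1)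
    (hUA : U ⊆ A) {N S D : ℝ} (hN : (U.card : ℝ) ≤ N) (hS : ∑ v ∈ A, ‖Bf v‖ ^ 2 ≤ S) (hD : 0 ≤ D)
    (h : N * S ≤ D ^ 2) : ‖∑ u ∈ U, (c u : ℂ) * Bf u‖ ≤ D := by
  have h1 : ‖∑ u ∈ U, (c u : ℂ) * Bf u‖ ≤ ∑ u ∈ U, ‖Bf u‖ := by
    refine (norm_sum_le _ _).trans (sum_le_sum fun u hu => ?_)
    rw [norm_mul, Complex.norm_real, Real.norm_eq_abs, abs_of_nonneg (hc u hu).1]
    exact mul_le_of_le_one_left (norm_nonneg _) (hc u hu).2
  have h2 : (∑ u ∈ U, ‖Bf u‖) ^ 2 ≤ U.card * ∑ u ∈ U, ‖Bf u‖ ^ 2 := sq_sum_le_card_mul_sum_sq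
  have h3 : ∑ u ∈ U, ‖Bf u‖ ^ 2 ≤ S :=
    (sum_le_sum_of_subset_of_nonneg hUA fun _ _ _ => by positivity).trans hS
  have h4 : (0 : ℝ) ≤ ∑ u ∈ U, ‖Bf u‖ ^ 2 := sum_nonneg fun _ _ => by positivity
  refine h1.trans (abs_le_of_sq_le_sq' ?_ hD).2
  calc _ ≤ U.card * ∑ u ∈ U, ‖Bf u‖ ^ 2 := h2
    _ ≤ N * S := mul_le_mul hN h3 h4 ((Nat.cast_nonneg _).trans hN)
    _ ≤ _ := h

lemma fibh_mem {g u : ℕ} (hu : u.Prime) (h : gg u = g) :
    exp ((g : ℝ) - 1) < u ∧ (u : ℝ) ≤ exp 1 * exp ((g : ℝ) - 1) := by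
  have h0 : (0 : ℝ) < u := by exact_mod_cast hu.pos
  have h1 : log u ≤ g := h ▸ Nat.le_ceil _
  have h2 : (g : ℝ) < log u + 1 := h ▸ Nat.ceil_lt_add_one (log_natCast_nonneg u)
  constructor
  · rw [← exp_log h0]; exact exp_lt_exp.2 (by linarith)
  · rw [← exp_add, ← exp_log h0]; exact exp_le_exp.2 (by linarith)

lemma fibh_win_ne {y i j b : ℕ} (hB : 1 ≤ B y) (hij : i < j) (h1 : Win y i b) (h2 : Win y j b) :
    False := by
  have : aa y (i + 1) ≤ aa y j :=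
    Nat.mul_le_mul_left _ (Nat.pow_le_pow_right hB (by omega))
  have := h1.2
  have := h2.1
  omega

section
variable {y J : ℕ} {C : ℝ} (hn : FibhN y J C)
include hn

lemma fibh_G1 (hC : 0 < C) : 3 ≤ G y := by linarith [hn.g1]

lemma fibh_box {i b p : ℕ} (hi : i ≤ r y) (hw : Win y i b) (hp : p ∈ box y b) :
    G y ^ 100 < p ∧ (p : ℝ) ≤ exp (L y ^ (0.1 : ℝ)) := by
  have hB : (1 : ℝ) ≤ B y := by exact_mod_cast hn.b1
  obtain ⟨h1, h2⟩ := win_Qb hw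
  obtain ⟨h3, h4⟩ := box_bd hp
  constructor
  · refine lt_of_le_of_lt (hn.gb.trans ((exp_le_exp.2 ?_).trans h1)) h3
    exact le_self_pow₀ hB (by omega)
  · refine h4.trans (h2.trans (exp_le_exp.2 (le_trans ?_ hn.br)))
    exact pow_le_pow_right₀ hB (by omega)

lemma fibh_Q {i b : ℕ} (hi : i ≤ r y) (hw : Win y i b) :
    G y ^ 100 ≤ Qb y b ∧ Qb y b ≤ exp (L y ^ (0.1 : ℝ)) := by
  have hB : (1 : ℝ) ≤ B y := by exact_mod_cast hn.b1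
  obtain ⟨h1, h2⟩ := win_Qb hw
  have h0 : (0 : ℝ) < DD y := by exact_mod_cast DD_pos y
  refine ⟨hn.gb.trans ((exp_le_exp.2 (le_self_pow₀ hB (by omega))).trans h1), ?_⟩
  refine le_trans (exp_le_exp.2 (div_le_div_of_nonneg_right (by linarith) h0.le))
    (h2.trans (exp_le_exp.2 (le_trans ?_ hn.br)))
  exact pow_le_pow_right₀ hB (by omega)

lemma fibh_DD (hC : 0 < C) : 3 ≤ (DD y : ℝ) ∧ (DD y : ℝ) ≤ 3 * G y ^ 4 := by
  have h1 := fibh_G1 hn hC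
  have h2 := DD_ge y
  have h3 := DD_le y
  have h4 : G y ≤ G y ^ 4 := le_self_pow₀ (by linarith) (by norm_num)
  constructor <;> linarith

lemma fibh_pw {g : ℕ} (hg : L y / J ≤ g) :
    exp (200 * L y ^ (0.3 : ℝ)) ≤ exp ((g : ℝ) - 1) := exp_le_exp.2 (by linarith [hn.big])

lemma fibh_rp : 1 ≤ L y ^ (0.1 : ℝ) ∧ L y ^ (0.1 : ℝ) * L y ^ (0.1 : ℝ) ≤ L y ^ (0.3 : ℝ) ∧
    L y ^ (0.1 : ℝ) ≤ L y ^ (0.3 : ℝ) ∧ L y ^ (0.1 : ℝ) ≤ L y := by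
  have h := hn.l1
  refine ⟨one_le_rpow h (by norm_num), ?_, rpow_le_rpow_of_exponent_le h (by norm_num), ?_⟩
  · rw [← rpow_add (by linarith)]
    exact rpow_le_rpow_of_exponent_le h (by norm_num)
  · conv_rhs => rw [← rpow_one (L y)]
    exact rpow_le_rpow_of_exponent_le h (by norm_num)

/-- the final numerical inequality -/
lemma fibh_num (hC : 0 < C) {b g κ : ℕ} (hw : Win y (r y) b) (hg : L y / J ≤ g)
    (hκ : (κ : ℝ) ≤ exp (L y ^ (0.3 : ℝ)) * exp (L y ^ (0.3 : ℝ))) :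
    2 * exp ((g : ℝ) - 1) * (C * Vb y b ^ 2 * (exp ((g : ℝ) - 1) * (1 / √(G y ^ 90) + 1 / Vb y b +
      Qb y b / Vb y b * (1 + log (Vb y b)) / G y ^ 90) + κ * (1 + exp (L y ^ (0.3 : ℝ))))) ≤
    (2 * exp ((g : ℝ) - 1) * Vb y b / G y ^ 12) ^ 2 := by
  have hG := fibh_G1 hn hC
  have hG0 := G_pos y
  obtain ⟨hQ1, hQ2⟩ := fibh_Q hn le_rfl hw
  obtain ⟨hD1, hD2⟩ := fibh_DD hn hC
  obtain ⟨r1, r2, r3, r4⟩ := fibh_rp hn
  have hW := fibh_pw hn hg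
  set W := exp ((g : ℝ) - 1)
  set E := exp (L y ^ (0.3 : ℝ)) with hE
  have hW0 : 0 < W := exp_pos _
  have hQ0 := Qb_pos y b
  have hs : √(G y ^ 90) = G y ^ 45 := by
    rw [show G y ^ 90 = (G y ^ 45) ^ 2 by ring, sqrt_sq (by positivity)]
  have hV1 : G y ^ 45 ≤ Vb y b := by
    rw [Vb, le_div_iff₀ (by linarith)]
    have : G y ^ 49 ≤ G y ^ 100 := pow_le_pow_right₀ (by linarith) (by norm_num)
    calc G y ^ 45 * DD y ≤ G y ^ 45 * (3 * G y ^ 4) := by gcongr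
      _ = 3 * G y ^ 49 := by ring
      _ ≤ _ := by linarith
  have hV0 : 0 < Vb y b := lt_of_lt_of_le (by positivity) hV1
  have hV2 : Vb y b ≤ Qb y b := by
    rw [Vb, div_le_iff₀ (by linarith)]; nlinarith
  have hlog : 1 + log (Vb y b) ≤ G y := by
    have : log (Vb y b) ≤ L y ^ (0.1 : ℝ) := by
      rw [log_le_iff_le_exp hV0]; exact hV2.trans hQ2
    linarith [hn.lg, hn.l1]
  have hlog0 : 0 ≤ 1 + log (Vb y b) := by
    have : 0 ≤ log (Vb y b) := log_nonneg (le_trans (one_le_pow₀ (by linarith)) hV1)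
    linarith
  have hQV : Qb y b / Vb y b ≤ G y ^ 4 := by
    have : Qb y b / Vb y b = DD y / 3 := by
      rw [Vb]; field_simp
    rw [this]; linarith
  have t1 : 1 / Vb y b ≤ 1 / G y ^ 45 := one_div_le_one_div_of_le (by positivity) hV1
  have t2 : Qb y b / Vb y b * (1 + log (Vb y b)) / G y ^ 90 ≤ 1 / G y ^ 45 := by
    rw [div_le_div_iff₀ (by positivity) (by positivity)]
    have : G y ^ 50 ≤ G y ^ 90 := pow_le_pow_right₀ (by linarith) (by norm_num)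
    calc Qb y b / Vb y b * (1 + log (Vb y b)) * G y ^ 45 ≤ G y ^ 4 * G y * G y ^ 45 := by gcongr
      _ = G y ^ 50 := by ring
      _ ≤ _ := by linarith
  have t3 : (κ : ℝ) * (1 + E) ≤ W * (1 / G y ^ 45) := by
    rw [mul_one_div, le_div_iff₀ (by positivity)]
    have e1 : 2 ≤ E := by
      have := add_one_le_exp (L y ^ (0.3 : ℝ)); linarith
    have e2 : G y ^ 45 ≤ E ^ 45 := by
      gcongr; exact exp_le_exp.2 hn.kl
    have e3 : E ^ 49 ≤ W := by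
      refine le_trans ?_ hW
      rw [hE, ← exp_nat_mul]
      exact exp_le_exp.2 (by push_cast; nlinarith)
    calc (κ : ℝ) * (1 + E) * G y ^ 45 ≤ E * E * (E * E) * E ^ 45 := by gcongr; nlinarith
      _ = E ^ 49 := by ring
      _ ≤ W := e3
  have t4 : C * (4 * (1 / G y ^ 45)) ≤ 2 * (1 / G y ^ 24) := by
    have e1 : 2 * C ≤ G y ^ 21 := by
      have : G y ≤ G y ^ 21 := le_self_pow₀ (by linarith) (by norm_num)
      linarith [hn.g1]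
    have e2 : 2 * (1 / G y ^ 24) = 2 * G y ^ 21 * (1 / G y ^ 45) := by field_simp
    rw [e2]
    have : 0 < 1 / G y ^ 45 := by positivity
    nlinarith
  rw [hs]
  calc _ ≤ 2 * W * (C * Vb y b ^ 2 * (W * (1 / G y ^ 45 + 1 / G y ^ 45 + 1 / G y ^ 45) +
        W * (1 / G y ^ 45))) := by gcongr
    _ = 2 * W ^ 2 * Vb y b ^ 2 * (C * (4 * (1 / G y ^ 45))) := by ring
    _ ≤ 2 * W ^ 2 * Vb y b ^ 2 * (2 * (1 / G y ^ 24)) := by gcongr
    _ = _ := by field_simp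

end

lemma fibh_card {g : ℕ} {U : Finset ℕ} (hW : 2 ≤ exp ((g : ℝ) - 1))
    (hU : U ⊆ Ioc ⌊exp ((g : ℝ) - 1)⌋₊ ⌊exp 1 * exp ((g : ℝ) - 1)⌋₊) :
    (U.card : ℝ) ≤ 2 * exp ((g : ℝ) - 1) ∨ exp ((g : ℝ) - 1) < 4 := by
  by_cases h4 : exp ((g : ℝ) - 1) < 4
  · exact Or.inr h4
  left
  set W := exp ((g : ℝ) - 1)
  have h1 := card_le_card hU
  rw [Nat.card_Ioc] at h1
  have h2 : ⌊W⌋₊ ≤ ⌊exp 1 * W⌋₊ := Nat.floor_mono (by nlinarith [exp_one_gt_d9])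
  have h3 : (U.card : ℝ) ≤ (⌊exp 1 * W⌋₊ : ℝ) - ⌊W⌋₊ := by
    rw [← Nat.cast_sub h2]; exact_mod_cast h1
  have h5 : (⌊exp 1 * W⌋₊ : ℝ) ≤ exp 1 * W := Nat.floor_le (by positivity)
  have h6 := Nat.lt_floor_add_one W
  nlinarith [exp_one_lt_d9]

lemma fibh_di {y : ℕ} (hG : 3 ≤ G y) {x h : ℤ} {ρ : ℚ} {n0 m κ : ℕ} {W Q : ℝ} (h0 : h ≠ 0)
    (h1 : |(h : ℝ)| ≤ G y ^ 3) (hn : n0 < y) (hm1 : 1 ≤ m) (hκ1 : 1 ≤ κ)
    (hden : (ρ.den : ℤ) ∣ κ * h)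
    (hpm : ∀ p : ℕ, p.Prime → p ∣ m → p ∣ κ ∨ (p : ℤ) ∣ h ∨ Hit x ρ p)
    (hsz : (m : ℝ) * W * Q ≤ y * G y)
    (hc : ¬ (InR y ρ ∧ ∀ p : ℕ, p.Prime → p ∣ m → PW y < p → Hit x ρ p)) :
    G y ^ 90 < κ ∨ G y ^ 90 * W * Q < |(h : ℝ) * ((ρ : ℝ) + n0) / m| := by
  by_contra hne
  rw [not_or, not_lt, not_lt] at hne
  obtain ⟨k1, k2⟩ := hne
  have hmR : (0 : ℝ) < m := by exact_mod_cast hm1
  have hh1 : (1 : ℝ) ≤ |(h : ℝ)| := by exact_mod_cast Int.one_le_abs h0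
  have g1 : (1 : ℝ) ≤ G y := by linarith
  have p90 : G y ^ 90 ≤ PW y := pow_le_pow_right₀ g1 (by norm_num)
  have p3 : G y ^ 3 ≤ PW y := pow_le_pow_right₀ g1 (by norm_num)
  refine hc ⟨⟨?_, ?_⟩, fun p hp hdv hpw => ?_⟩
  · have a1 : (ρ.den : ℤ) ≤ |κ * h| :=
      Int.le_of_dvd (abs_pos.2 (mul_ne_zero (by omega) h0)) ((dvd_abs _ _).2 hden)
    have a2 : (ρ.den : ℝ) ≤ κ * |(h : ℝ)| := by
      rw [abs_mul, Nat.abs_cast] at a1; exact_mod_cast a1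
    calc (ρ.den : ℝ) ≤ G y ^ 90 * G y ^ 3 := a2.trans (by gcongr)
      _ = G y ^ 93 := by ring
      _ ≤ PW y := pow_le_pow_right₀ g1 (by norm_num)
  · have a1 : |(ρ : ℝ) + n0| ≤ y * G y ^ 91 := by
      rw [abs_div, abs_of_pos hmR, div_le_iff₀ hmR, abs_mul] at k2
      calc |(ρ : ℝ) + n0| ≤ |(h : ℝ)| * |(ρ : ℝ) + n0| := le_mul_of_one_le_left (abs_nonneg _) hh1
        _ ≤ G y ^ 90 * ((m : ℝ) * W * Q) := by linarith
        _ ≤ G y ^ 90 * (y * G y) := by gcongr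
        _ = _ := by ring
    have a2 : (n0 : ℝ) ≤ y := by exact_mod_cast hn.le
    have a3 : |(ρ : ℝ)| ≤ |(ρ : ℝ) + n0| + n0 := by
      have := abs_sub ((ρ : ℝ) + n0) n0
      rwa [add_sub_cancel_right, Nat.abs_cast] at this
    have a4 : G y ^ 91 + 1 ≤ PW y := by
      have e1 : 1 ≤ G y ^ 91 := one_le_pow₀ g1
      have e2 : G y ^ 92 ≤ PW y := pow_le_pow_right₀ g1 (by norm_num)
      have e3 : 3 * G y ^ 91 ≤ G y * G y ^ 91 := by gcongr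
      have e4 : G y ^ 92 = G y * G y ^ 91 := by ring
      linarith
    calc |(ρ : ℝ)| ≤ y * (G y ^ 91 + 1) := by linarith
      _ ≤ _ := by gcongr
  · rcases hpm p hp hdv with a1 | a1 | a1
    · have : (p : ℝ) ≤ κ := by exact_mod_cast Nat.le_of_dvd hκ1 a1
      linarith
    · have a2 : (p : ℤ) ≤ |h| := Int.le_of_dvd (abs_pos.2 h0) ((dvd_abs _ _).2 a1)
      have a3 : (p : ℝ) ≤ |(h : ℝ)| := by exact_mod_cast a2
      linarith
    · exact a1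

/-- one choice of the lower primes -/
lemma fibh_one (hPh : S_Ph) {C : ℝ} (hC : 0 < C)
    (hBil : ∀ (κ : ℕ) (c : ℤ) (A : Finset ℕ) (W Q V Z E P1 : ℝ),
      1 ≤ κ → IsCoprime c κ → 1 ≤ W → 1 ≤ V → V ≤ Q → 1 ≤ P1 → |Z| ≤ E * W → E ≤ W / 2 →
      (∀ q ∈ A, q.Prime ∧ Q < q ∧ (q : ℝ) ≤ Q + V ∧ Nat.Coprime q κ) →
      (P1 < κ ∨ P1 * W * Q < |Z|) →
      ∑ v ∈ (Ioc ⌊W⌋₊ ⌊exp 1 * W⌋₊).filter (fun v => Nat.Coprime v κ),
        ‖∑ q ∈ A, ((Q / q : ℝ) : ℂ) * (ee (Z / ((v : ℝ) * q)) * chi κ c (v * q))‖ ^ 2 ≤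
        C * V ^ 2 * (W * (1 / √P1 + 1 / V + Q / V * (1 + log V) / P1) + κ * (1 + E)))
    {y J : ℕ} (hn : FibhN y J C) {x : ℤ} {n0 : ℕ} {h : ℤ} {m0 g b0 : ℕ} {bs : Fin (r y) → ℕ}
    {U : Finset ℕ} {ρ : ℚ} (hF : FibH y J x n0 h m0 g b0 bs U) (hR : Rich y x ρ)
    (hU : ∀ u ∈ U, Hit x ρ u)
    (hk : ((ρ.den * m0 / Int.gcd (ρ.den * m0 : ℕ) (h * (ρ.den * x - ρ.num)) : ℕ) : ℝ) ≤
      exp (L y ^ (0.3 : ℝ)))
    (hz : |(h : ℝ) * ((ρ : ℝ) + n0)| ≤ exp (L y ^ (0.3 : ℝ)) * m0 * exp ((g : ℝ) - 1))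
    {f : Fin (r y) → ℕ} (hf : ∀ i, f i ∈ box y (bs i)) :
    ‖∑ u ∈ U, ∑ q ∈ (box y b0).filter (Hit x ρ),
      (if Str y x (u * m0 * q * ∏ i, f i) then 0 else
        ((exp ((g : ℝ) - 1) / u * (Qb y b0 / q) * ∏ i, Qb y (bs i) / f i : ℝ) : ℂ) *
          ee ((h : ℝ) * ((x : ℝ) + n0) / ((u * m0 * q * ∏ i, f i : ℕ) : ℝ)))‖ ≤
      2 * exp ((g : ℝ) - 1) * Vb y b0 / G y ^ 12 := by
  have hG := fibh_G1 hn hC
  have hG0 := G_pos y
  obtain ⟨hQ1, hQ2⟩ := fibh_Q hn le_rfl hF.win0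
  obtain ⟨hD1, hD2⟩ := fibh_DD hn hC
  obtain ⟨r1, r2, r3, r4⟩ := fibh_rp hn
  have hW := fibh_pw hn hF.gr.1
  have hQ0 := Qb_pos y b0
  have hV0 : 0 ≤ Vb y b0 := by rw [Vb]; positivity
  have hD : 0 ≤ 2 * exp ((g : ℝ) - 1) * Vb y b0 / G y ^ 12 := by positivity
  rcases U.eq_empty_or_nonempty with rfl | ⟨u0, hu0⟩
  · simpa using hD
  set W := exp ((g : ℝ) - 1) with hWd
  set E := exp (L y ^ (0.3 : ℝ)) with hE
  have hW0 : 0 < W := exp_pos _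
  have hE2 : 2 ≤ E := by have := add_one_le_exp (L y ^ (0.3 : ℝ)); linarith
  have hEW : E ^ 200 ≤ W := by
    refine le_trans (le_of_eq ?_) hW
    rw [hE, ← exp_nat_mul]; norm_num
  have hE3 : E ^ 3 ≤ W := (pow_le_pow_right₀ (by linarith) (by norm_num)).trans hEW
  have hGE : G y ≤ E := exp_le_exp.2 hn.kl
  have hPW : PW y ≤ W := by
    refine le_trans ?_ hEW
    calc PW y = G y ^ 100 := rfl
      _ ≤ E ^ 100 := by gcongr
      _ ≤ E ^ 200 := pow_le_pow_right₀ (by linarith) (by norm_num)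
  have hsm : exp (L y ^ (0.1 : ℝ)) ≤ E := exp_le_exp.2 r3
  have hEW1 : 2 * E ≤ W := by
    refine le_trans ?_ hE3
    calc 2 * E = 2 * 1 * E := by ring
      _ ≤ E * E * E := by gcongr; linarith
      _ = E ^ 3 := by ring
  set F := ∏ i, f i with hFd
  have hfp : ∀ i, (f i).Prime := fun i => (mem_box.1 (hf i)).1
  have hF0 : 0 < F := prod_pos fun i _ => (hfp i).pos
  have hfb : ∀ i, (f i : ℝ) ≤ exp (L y ^ (0.1 : ℝ)) := fun i =>
    (fibh_box hn i.2.le (hF.win i) (hf i)).2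
  have hFE : (F : ℝ) ≤ E := by
    rw [hFd, Nat.cast_prod]
    calc ∏ i, (f i : ℝ) ≤ ∏ _i : Fin (r y), exp (L y ^ (0.1 : ℝ)) :=
          prod_le_prod (fun i _ => by positivity) fun i _ => hfb i
      _ = exp (r y * L y ^ (0.1 : ℝ)) := by rw [prod_const, card_univ, Fintype.card_fin, exp_nat_mul]
      _ ≤ E := exp_le_exp.2 ((mul_le_mul_of_nonneg_right hn.rr (by linarith)).trans r2)
  set m := m0 * F with hm
  have hm1 : 1 ≤ m := Nat.mul_pos hF.m1 hF0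
  have hd : ∀ u q : ℕ, u * m0 * q * F = u * m * q := fun u q => by rw [hm]; ring
  have hUW : ∀ u ∈ U, W < u ∧ (u : ℝ) ≤ exp 1 * W := fun u hu =>
    fibh_mem (hF.hU u hu).1 (hF.hU u hu).2.2.1
  have hum : ∀ u ∈ U, ¬ u ∣ m := by
    intro u hu hdv
    rcases ((hF.hU u hu).1.dvd_mul).1 hdv with h1 | h1
    · exact (hF.hU u hu).2.2.2 h1
    · obtain ⟨i, -, hi⟩ := ((hF.hU u hu).1.prime.dvd_finsetProd_iff _).1 h1
      have e := (Nat.prime_dvd_prime_iff_eq (hF.hU u hu).1 (hfp i)).1 hi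
      have := hfb i
      have := (hUW u hu).1
      rw [← e] at *
      linarith
  have hqm : ∀ q ∈ box y b0, ¬ q ∣ m := by
    intro q hq hdv
    obtain ⟨hq1, hq2⟩ := mem_box.1 hq
    rcases (hq1.dvd_mul).1 hdv with h1 | h1
    · exact (hF.hm q hq1 h1).1 hq2
    · obtain ⟨i, -, hi⟩ := (hq1.prime.dvd_finsetProd_iff _).1 h1
      have e := (Nat.prime_dvd_prime_iff_eq hq1 (hfp i)).1 hi
      have e2 : bs i = b0 := by rw [← hq2, e, (mem_box.1 (hf i)).2]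
      exact fibh_win_ne hn.b1 i.2 (e2 ▸ hF.win i) hF.win0
  have huq : ∀ u ∈ U, ∀ q ∈ box y b0, u ≠ q := by
    rintro u hu q hq rfl
    have := (fibh_box hn le_rfl hF.win0 hq).2
    have := (hUW u hu).1
    linarith
  by_cases hc : InR y ρ ∧ ∀ p : ℕ, p.Prime → p ∣ m → PW y < p → Hit x ρ p
  · refine le_of_eq_of_le ?_ hD
    rw [norm_eq_zero]
    refine sum_eq_zero fun u hu => sum_eq_zero fun q hq => if_pos ⟨ρ, hR, hc.1, ?_⟩
    intro p hp hdv hpw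
    obtain ⟨hq1, hq2⟩ := mem_filter.1 hq
    rw [hd] at hdv
    rcases (hp.dvd_mul).1 hdv with h1 | h1
    · rcases (hp.dvd_mul).1 h1 with h2 | h2
      · rw [(Nat.prime_dvd_prime_iff_eq hp (hF.hU u hu).1).1 h2]; exact hU u hu
      · exact hc.2 p hp h2 hpw
    · rw [(Nat.prime_dvd_prime_iff_eq hp (mem_box.1 hq1).1).1 h1]; exact hq2
  obtain ⟨κ, c, hκ1, hco, hκ, hden, hpm, hph⟩ := hPh x h ρ n0 m hm1
  set Z := (h : ℝ) * ((ρ : ℝ) + n0) / m with hZ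
  have hm0 : (0 : ℝ) < m0 := by exact_mod_cast hF.m1
  have hmR : (0 : ℝ) < m := by exact_mod_cast hm1
  have hZ1 : |Z| ≤ E * W := by
    rw [hZ, abs_div, abs_of_pos hmR, div_le_iff₀ hmR]
    refine hz.trans ?_
    have : (m0 : ℝ) ≤ m := by exact_mod_cast Nat.le_mul_of_pos_right _ hF0
    calc E * m0 * W ≤ E * m * W := by gcongr
      _ = _ := by ring
  have hκE : (κ : ℝ) ≤ E * E := by
    have h1 := fibh_kap (ρ.den * m0) F (h * (ρ.den * x - ρ.num)) (Nat.mul_pos ρ.den_pos hF.m1) hF0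
    rw [mul_assoc, ← hm, ← hκ] at h1
    have h2 := (Nat.cast_le (α := ℝ)).2 h1
    rw [Nat.cast_mul] at h2
    exact h2.trans (mul_le_mul hk hFE (by positivity) (by linarith))
  have hsz : (m : ℝ) * W * Qb y b0 ≤ y * G y := by
    have h1 : exp (l1 y) = y * G y := by rw [l1, exp_add, exp_L hn.y1, G]
    rw [← h1]
    refine le_trans ?_ hF.sz
    have h2 : W ≤ exp g := exp_le_exp.2 (by linarith)
    have h3 : Qb y b0 ≤ exp ((b0 : ℝ) / DD y) :=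
      exp_le_exp.2 (div_le_div_of_nonneg_right (by linarith) (by linarith))
    have h4 : (F : ℝ) ≤ ∏ i, exp ((bs i : ℝ) / DD y) := by
      rw [hFd, Nat.cast_prod]
      exact prod_le_prod (fun i _ => by positivity) fun i _ => (box_bd (hf i)).2
    calc (m : ℝ) * W * Qb y b0 = W * m0 * Qb y b0 * F := by rw [hm]; push_cast; ring
      _ ≤ _ := by gcongr
  have hdi : G y ^ 90 < κ ∨ G y ^ 90 * W * Qb y b0 < |Z| :=
    fibh_di hG hF.h0 hF.h1 hF.hn hm1 hκ1 hden hpm hsz hc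
  have hns : ∀ u ∈ U, ∀ q : ℕ, ¬ Str y x (u * m0 * q * F) := by
    rintro u hu q ⟨ρ', h1, h2, h3⟩
    have h4 : ρ' = ρ := (hF.hU u hu).2.1 ρ' ρ h1 hR
      (h3 u (hF.hU u hu).1 ⟨m0 * q * F, by ring⟩ (by linarith [(hUW u hu).1])) (hU u hu)
    subst h4
    exact hc ⟨h2, fun p hp hdv hpw => h3 p hp (by rw [hd]; exact (hdv.mul_left _).mul_right _) hpw⟩
  set A := (box y b0).filter (Hit x ρ) with hA
  have hpa : ∀ u ∈ U, ∀ q ∈ A, _ := fun u hu q hq =>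
    hph u q (hF.hU u hu).1 (mem_box.1 (mem_filter.1 hq).1).1 (huq u hu q (mem_filter.1 hq).1)
      (hU u hu) (mem_filter.1 hq).2 (hum u hu) (hqm q (mem_filter.1 hq).1)
  rcases A.eq_empty_or_nonempty with hA0 | ⟨q0, hq0⟩
  · simpa [hA0] using hD
  have hV1 : 1 ≤ Vb y b0 := by
    rw [Vb, le_div_iff₀ (by linarith)]
    have : G y ^ 4 ≤ G y ^ 100 := pow_le_pow_right₀ (by linarith) (by norm_num)
    linarith
  have hV2 : Vb y b0 ≤ Qb y b0 := by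
    rw [Vb, div_le_iff₀ (by linarith), mul_comm]; gcongr
  have hB := hBil κ c A W (Qb y b0) (Vb y b0) Z E (G y ^ 90) hκ1 hco (by linarith) hV1 hV2
    (one_le_pow₀ (by linarith)) hZ1 (by linarith) (fun q hq => by
      have h1 := (mem_filter.1 hq).1
      refine ⟨(mem_box.1 h1).1, (box_bd h1).1, ((box_bd h1).2.trans (exp_box_le y b0)).trans ?_,
        (hpa u0 hu0 q hq).2.1⟩
      rw [Vb]
      gcongr
      norm_num) hdi
  have hsub : U ⊆ Ioc ⌊W⌋₊ ⌊exp 1 * W⌋₊ := fun u hu =>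
    mem_Ioc.2 ⟨(Nat.floor_lt hW0.le).2 (hUW u hu).1, Nat.le_floor (hUW u hu).2⟩
  have hcard : (U.card : ℝ) ≤ 2 * W :=
    (fibh_card (by linarith) hsub).resolve_right (by rw [← hWd]; linarith)
  have hcf0 : 0 ≤ ∏ i, Qb y (bs i) / f i :=
    prod_nonneg fun i _ => div_nonneg (Qb_pos _ _).le (by positivity)
  have hcf1 : ∏ i, Qb y (bs i) / f i ≤ 1 :=
    prod_le_one (fun i _ => div_nonneg (Qb_pos _ _).le (by positivity)) fun i _ =>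
      div_le_one_of_le₀ (box_bd (hf i)).1.le (by positivity)
  refine le_of_eq_of_le ?_ (fibh_cs (fun u => W / u * ∏ i, Qb y (bs i) / f i)
    (fun v => ∑ q ∈ A, ((Qb y b0 / q : ℝ) : ℂ) * (ee (Z / ((v : ℝ) * q)) * chi κ c (v * q)))
    (fun u hu => ⟨by positivity, mul_le_one₀ (div_le_one_of_le₀ (hUW u hu).1.le (by positivity))
      hcf0 hcf1⟩)
    (fun u hu => mem_filter.2 ⟨hsub hu, (hpa u hu q0 hq0).1⟩) hcard hB hD
    (fibh_num hn hC hF.win0 hF.gr.1 hκE))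
  congr 1
  refine sum_congr rfl fun u hu => ?_
  rw [mul_sum]
  refine sum_congr rfl fun q hq => ?_
  rw [if_neg (hns u hu q), hd, (hpa u hu q hq).2.2]
  push_cast
  ring

theorem s_FibH (hBil : S_Bil) (hPh : S_Ph) : S_FibH := by
  intro J hJ
  obtain ⟨C, hC, hBil⟩ := hBil
  filter_upwards [fibh_ev J hJ C] with y hn x n0 h m0 g b0 bs U ρ hF hR hU hk hz
  have hG := fibh_G1 hn hC
  obtain ⟨hD1, hD2⟩ := fibh_DD hn hC
  unfold trm
  simp_rw [sum_comm (t := Fintype.piFinset _)]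
  refine (norm_sum_le _ _).trans ?_
  refine (sum_le_card_nsmul _ _ _ fun f hf =>
    fibh_one hPh hC hBil hn hF hR hU hk hz (Fintype.mem_piFinset.1 hf)).trans ?_
  rw [nsmul_eq_mul, Fintype.card_piFinset, Nat.cast_prod, Vol]
  have h1 : ∏ i, ((box y (bs i)).card : ℝ) ≤ ∏ i, Vb y (bs i) := by
    refine prod_le_prod (fun i _ => by positivity) fun i _ => card_box ?_
    have h2 := (fibh_Q hn i.2.le (hF.win i)).1
    have h3 : G y ^ 5 ≤ G y ^ 100 := pow_le_pow_right₀ (by linarith) (by norm_num)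
    have h4 : G y ^ 5 = G y * G y ^ 4 := by ring
    have h5 : 0 < G y ^ 4 := by positivity
    nlinarith
  have h2 : 0 ≤ 2 * exp ((g : ℝ) - 1) * Vb y b0 / G y ^ 12 := by
    have := Qb_pos y b0
    rw [Vb]; positivity
  calc _ ≤ (∏ i, Vb y (bs i)) * (2 * exp ((g : ℝ) - 1) * Vb y b0 / G y ^ 12) := by gcongr
    _ = _ := by ring

end Jac
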