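import Vale.Agent.P013.Gro

noncomputable section
namespace Jac
open Finset Real Filter
open scoped Classical

theorem fibre_win {y : ℕ} (hB : 2 ≤ B y) {i j b : ℕ} (h : Win y i b) (h' : Win y j b) : i = j := by
  have m : ∀ {i j : ℕ}, i ≤ j → aa y i ≤ aa y j := fun h =>
    Nat.mul_le_mul_left _ (Nat.pow_le_pow_right (by omega) (by omega))
  by_contra e
  rcases lt_or_gt_of_ne e with c | c
  · have := m (show i + 1 ≤ j from c); have := h.2; have := h'.1; omega
  · have := m (show j + 1 ≤ i from c); have := h.1; have := h'.2; omega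

theorem fibre_repl {ι : Type} [Fintype ι] {y : ℕ} {𝓕 : Finset (Finset ℕ)}
    (hI : ∀ S ∈ 𝓕, ∀ q ∈ S, ∀ q' : ℕ, q'.Prime → be y q' = be y q → aa y 0 < be y q →
      be y q ≤ aa y (r y + 1) → insert q' (S.erase q) ∈ 𝓕) {b : ι → ℕ} (hb : Function.Injective b)
    (hb' : ∀ i, aa y 0 < b i ∧ b i ≤ aa y (r y + 1)) {S0 : Finset ℕ}
    (h0 : ∀ p ∈ S0, ∀ i, be y p ≠ b i) {g g' : ι → ℕ} (hg : ∀ i, be y (g i) = b i)
    (hg' : ∀ i, g' i ∈ box y (b i)) (h : S0 ∪ image g univ ∈ 𝓕) : S0 ∪ image g' univ ∈ 𝓕 := by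
  have key : ∀ A : Finset ι, S0 ∪ image (fun i => if i ∈ A then g' i else g i) univ ∈ 𝓕 := by
    intro A
    induction A using Finset.induction_on with
    | empty => simpa using h
    | insert a A ha ih =>
      have h1 := hI _ ih (g a) (mem_union_right _ (mem_image.2 ⟨a, mem_univ _, if_neg ha⟩)) (g' a)
        (mem_box.1 (hg' a)).1 (by rw [(mem_box.1 (hg' a)).2, hg]) (by rw [hg]; exact (hb' a).1)
        (by rw [hg]; exact (hb' a).2)
      refine (congrArg (· ∈ 𝓕) ?_).mp h1
      ext p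
      simp only [mem_insert, mem_erase, mem_union, mem_image, mem_univ, true_and]
      constructor
      · rintro (rfl | ⟨c, d | ⟨i, rfl⟩⟩)
        · exact Or.inr ⟨a, by simp⟩
        · exact Or.inl d
        · refine Or.inr ⟨i, ?_⟩
          have : i ≠ a := by rintro rfl; exact c (if_neg ha)
          simp [this]
      · rintro (d | ⟨i, rfl⟩)
        · exact Or.inr ⟨fun e => h0 p d a (by rw [e, hg]), Or.inl d⟩
        · by_cases e : i = a
          · left; simp [e]
          · refine Or.inr ⟨fun c => e (hb ?_), Or.inr ⟨i, by simp [e]⟩⟩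
            rw [← hg a, ← c]
            split_ifs
            · exact (mem_box.1 (hg' i)).2.symm
            · exact (hg i).symm
  simpa using key univ

/-- the largest element of `S` in window `i` -/
def fibreM (y : ℕ) (S : Finset ℕ) (i : ℕ) : ℕ := (S.filter (fun p => Win y i (be y p))).sup id

theorem fibreM_eq {y : ℕ} {S : Finset ℕ} {i q : ℕ} (h1 : q ∈ S) (h2 : Win y i (be y q))
    (h3 : ∀ p ∈ S, Win y i (be y p) → p ≤ q) : fibreM y S i = q :=
  le_antisymm (Finset.sup_le fun p hp => h3 p (mem_filter.1 hp).1 (mem_filter.1 hp).2)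
    (le_sup (f := id) (mem_filter.2 ⟨h1, h2⟩))

theorem fibreM_spec {y : ℕ} {S : Finset ℕ} (h : ¬ Bad y S) {i : ℕ} (hi : i ≤ r y) :
    fibreM y S i ∈ S ∧ Win y i (be y (fibreM y S i)) ∧
      ∀ p ∈ S, Win y i (be y p) → p ≤ fibreM y S i := by
  have h1 : (S.filter (fun p => Win y i (be y p))).Nonempty := by
    by_contra c
    exact h (Or.inl ⟨i, hi, fun p hp w => c ⟨p, mem_filter.2 ⟨hp, w⟩⟩⟩)
  obtain ⟨q, hq, e⟩ := exists_mem_eq_sup _ h1 id
  have e' : fibreM y S i = q := e
  rw [e']
  exact ⟨(mem_filter.1 hq).1, (mem_filter.1 hq).2, fun p hp w =>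
    e' ▸ le_sup (f := id) (mem_filter.2 ⟨hp, w⟩)⟩

/-- window index -/
def fibreW (k : ℕ) (o : Option (Fin k)) : ℕ := o.elim k (fun i => i)

theorem fibreW_inj (k : ℕ) : Function.Injective (fibreW k) := by
  rintro (_ | i) (_ | j) h <;> simp only [fibreW, Option.elim] at h
  · rfl
  · exact absurd h.symm j.2.ne
  · exact absurd h i.2.ne
  · rw [Fin.ext h]

theorem fibreW_le (k : ℕ) (o : Option (Fin k)) : fibreW k o ≤ k := by
  rcases o with _ | i
  · exact le_rfl
  · exact i.2.le

theorem fibre_img {k : ℕ} (S : Finset ℕ) (g : Option (Fin k) → ℕ) :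
    S ∪ image g univ = insert (g none) (S ∪ image (fun i => g (some i)) univ) := by
  ext p; simp only [mem_union, mem_image, mem_univ, true_and, mem_insert, Option.exists]
  constructor
  · rintro (h | h | h); exacts [Or.inr (Or.inl h), Or.inl h.symm, Or.inr (Or.inr h)]
  · rintro (h | h | h); exacts [Or.inr (Or.inl h.symm), Or.inl h, Or.inr (Or.inr h)]

/-- the data of the fibre of `S` -/
def fibreP (y : ℕ) (S : Finset ℕ) : Finset ℕ × ℕ × (Fin (r y) → ℕ) :=
  (S \ image (fun o => fibreM y S (fibreW (r y) o)) univ, be y (fibreM y S (r y)),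
    fun i => be y (fibreM y S i))

theorem s_Fibre : S_Fibre := by
  intro y 𝓕 F _ hB h1 hI
  have hm : ∀ {i j : ℕ}, i ≤ j → aa y i ≤ aa y j := fun h =>
    Nat.mul_le_mul_left _ (Nat.pow_le_pow_right (by omega) (by omega))
  have sp := fun S (hS : S ∈ 𝓕) (o : Option (Fin (r y))) => fibreM_spec (h1 S hS).2 (fibreW_le _ o)
  have lt : ∀ S ∈ 𝓕, ∀ p ∈ (fibreP y S).1, ∀ o, Win y (fibreW (r y) o) (be y p) →
      be y p < be y (fibreM y S (fibreW (r y) o)) := by
    intro S hS p hp o w
    obtain ⟨a1, a2⟩ := mem_sdiff.1 hp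
    refine lt_of_le_of_ne (be_mono y ((h1 S hS).1 p a1).pos ((sp S hS o).2.2 p a1 w)) fun e => ?_
    exact (h1 S hS).2 (Or.inr (Or.inl ⟨p, a1, _, (sp S hS o).1,
      fun c => a2 (mem_image.2 ⟨o, mem_univ _, c.symm⟩), e, (hm (Nat.zero_le _)).trans_lt w.1⟩))
  have ne : ∀ S ∈ 𝓕, ∀ p ∈ (fibreP y S).1, ∀ o, be y p ≠ be y (fibreM y S (fibreW (r y) o)) :=
    fun S hS p hp o e => (lt S hS p hp o (e ▸ (sp S hS o).2.1)).ne e
  have un : ∀ S ∈ 𝓕, (fibreP y S).1 ∪ image (fun o => fibreM y S (fibreW (r y) o)) univ = S :=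
    fun S hS => sdiff_union_of_subset (image_subset_iff.2 fun o _ => (sp S hS o).1)
  have bi : ∀ S ∈ 𝓕, Function.Injective fun o => be y (fibreM y S (fibreW (r y) o)) :=
    fun S hS o o' e => fibreW_inj _ (fibre_win hB (sp S hS o).2.1 (by
      have := (sp S hS o').2.1
      dsimp only at e
      rwa [← e] at this))
  refine ⟨image (fibreP y) 𝓕, fun t ht => ?_, ?_⟩
  · obtain ⟨S, hS, rfl⟩ := mem_image.1 ht
    refine ⟨(sp S hS none).2.1, fun i => (sp S hS (some i)).2.1,
      fun p hp => ⟨ne S hS p hp none, fun i => ne S hS p hp (some i)⟩, S, hS, sdiff_subset, ?_⟩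
    conv_lhs => rw [← un S hS]
    rw [sum_union (s₁ := (fibreP y S).1) sdiff_disjoint, sum_image fun o _ o' _ e => bi S hS (congrArg (be y) e),
      Fintype.sum_option, add_assoc]
    rfl
  rw [← sum_fiberwise_of_maps_to (fun S hS => mem_image_of_mem (fibreP y) hS)]
  refine (norm_sum_le _ _).trans (sum_le_sum fun t ht => ?_)
  obtain ⟨S, hS, rfl⟩ := mem_image.1 ht
  have mx : ∀ g : Option (Fin (r y)) → ℕ,
      (∀ o, g o ∈ box y (be y (fibreM y S (fibreW (r y) o)))) →
      ∀ o, fibreM y ((fibreP y S).1 ∪ image g univ) (fibreW (r y) o) = g o := by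
    intro g hg o
    have w : ∀ o, Win y (fibreW (r y) o) (be y (g o)) := fun o => by
      rw [(mem_box.1 (hg o)).2]; exact (sp S hS o).2.1
    refine fibreM_eq (mem_union_right _ (mem_image_of_mem _ (mem_univ _))) (w o) fun p hp wp => ?_
    rcases mem_union.1 hp with c | c
    · by_contra d
      have := be_mono y (mem_box.1 (hg o)).1.pos (not_le.1 d).le
      have := lt S hS p c o wp
      have := (mem_box.1 (hg o)).2
      omega
    · obtain ⟨o', -, rfl⟩ := mem_image.1 c
      rw [fibreW_inj _ (fibre_win hB wp (w o'))]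
  have dj : ∀ g : Option (Fin (r y)) → ℕ,
      (∀ o, g o ∈ box y (be y (fibreM y S (fibreW (r y) o)))) →
      Disjoint (fibreP y S).1 (image g univ) := fun g hg => disjoint_left.2 fun p hp c => by
    obtain ⟨o, -, rfl⟩ := mem_image.1 c
    exact ne S hS _ hp o (mem_box.1 (hg o)).2
  have bx : ∀ z ∈ box y (fibreP y S).2.1 ×ˢ
      Fintype.piFinset (fun i => box y ((fibreP y S).2.2 i)),
      ∀ o : Option (Fin (r y)), o.elim z.1 z.2 ∈ box y (be y (fibreM y S (fibreW (r y) o))) := by
    intro z hz o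
    rcases o with _ | i
    · exact (mem_product.1 hz).1
    · exact Fintype.mem_piFinset.1 (mem_product.1 hz).2 i
  have e : ∑ S' ∈ 𝓕.filter (fun S' => fibreP y S' = fibreP y S), (sg S' : ℂ) * F S' =
      ∑ z ∈ box y (fibreP y S).2.1 ×ˢ Fintype.piFinset (fun i => box y ((fibreP y S).2.2 i)),
        (-1) ^ ((fibreP y S).1.card + (r y + 1)) *
          F (insert z.1 ((fibreP y S).1 ∪ image z.2 univ)) := by
    symm
    refine sum_nbij' (fun z => insert z.1 ((fibreP y S).1 ∪ image z.2 univ))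
      (fun S' => (fibreM y S' (r y), fun i => fibreM y S' i)) ?_ ?_ ?_ ?_ ?_
    · intro z hz
      have a := bx z hz
      have e1 := fibre_img (fibreP y S).1 fun o => o.elim z.1 z.2
      refine mem_filter.2 ⟨?_, ?_⟩
      · refine (congrArg (· ∈ 𝓕) e1).mp (fibre_repl hI (bi S hS) (fun o => ?_) (ne S hS)
          (fun _ => rfl) a (by rw [un S hS]; exact hS))
        exact ⟨(hm (Nat.zero_le _)).trans_lt (sp S hS o).2.1.1,
          (sp S hS o).2.1.2.trans (hm (Nat.succ_le_succ (fibreW_le _ o)))⟩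
      · have m := mx _ a
        refine (congrArg (fibreP y) e1).symm.trans ?_
        refine Prod.ext ?_ (Prod.ext ?_ (funext fun i => ?_))
        · change _ \ _ = _
          rw [funext m, union_sdiff_right, (dj _ a).sdiff_eq_left]
        · exact (congrArg (be y) (m none)).trans (mem_box.1 (a none)).2
        · exact (congrArg (be y) (m (some i))).trans (mem_box.1 (a (some i))).2
    · intro S' hS'
      obtain ⟨a1, a2⟩ := mem_filter.1 hS'
      rw [← a2]
      exact mem_product.2 ⟨mem_box.2 ⟨(h1 S' a1).1 _ (sp S' a1 none).1, rfl⟩,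
        Fintype.mem_piFinset.2 fun i => mem_box.2 ⟨(h1 S' a1).1 _ (sp S' a1 (some i)).1, rfl⟩⟩
    · intro z hz
      have m := mx _ (bx z hz)
      rw [fibre_img] at m
      exact Prod.ext (m none) (funext fun i => m (some i))
    · intro S' hS'
      obtain ⟨a1, a2⟩ := mem_filter.1 hS'
      rw [← a2]
      exact (fibre_img _ fun o => fibreM y S' (fibreW (r y) o)).symm.trans (un S' a1)
    · intro z hz
      have a := bx z hz
      have e1 := fibre_img (fibreP y S).1 fun o => o.elim z.1 z.2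
      congr 1
      have : (insert z.1 ((fibreP y S).1 ∪ image z.2 univ)).card =
          (fibreP y S).1.card + (r y + 1) := by
        refine (congrArg card e1).symm.trans ?_
        rw [card_union_of_disjoint (dj _ a), card_image_of_injective _ fun o o' c => bi S hS ?_]
        · simp
        · exact (mem_box.1 (a o)).2.symm.trans ((congrArg (be y) c).trans (mem_box.1 (a o')).2)
      rw [sg, this]; push_cast; rfl
  rw [e, ← mul_sum, norm_mul, norm_pow, norm_neg, norm_one, one_pow, one_mul, sum_product]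

end Jac
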