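import Vale.Agent.P013.Gro

/-! Fourier expansion of the tent weighted count of a residue class. -/

noncomputable section
namespace Jac
open Finset Real Filter
open scoped Classical

namespace FourX

theorem ee_pow (t : ℝ) (n : ℕ) : ee t ^ n = ee (n * t) := by
  induction n with
  | zero => simp [ee]
  | succ n ih => rw [pow_succ, ih, ← ee_add]; congr 1; push_cast; ring

theorem norm_one_sub (t : ℝ) (ht : |t| ≤ 1 / 2) : 4 * |t| ≤ ‖ee t - 1‖ := by
  have h1 : ee t = Complex.exp (Complex.I * ((2 * π * t : ℝ) : ℂ)) := by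
    rw [ee]; congr 1; push_cast; ring
  rw [h1, Complex.norm_exp_I_mul_ofReal_sub_one, show 2 * π * t / 2 = π * t by ring, norm_mul,
    Real.norm_eq_abs, Real.norm_eq_abs, abs_two]
  have h2 : |sin (π * t)| = sin (π * |t|) := by
    rcases le_total 0 t with h | h
    · rw [abs_of_nonneg h] at ht ⊢
      exact abs_of_nonneg (sin_nonneg_of_nonneg_of_le_pi (by positivity) (by nlinarith [pi_pos]))
    · rw [abs_of_nonpos h] at ht ⊢
      rw [mul_neg, sin_neg]
      refine abs_of_nonpos ?_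
      have : 0 ≤ sin (π * -t) :=
        sin_nonneg_of_nonneg_of_le_pi (by nlinarith [pi_pos]) (by nlinarith [pi_pos])
      rw [mul_neg, sin_neg] at this; linarith
  have h3 := mul_le_sin (x := π * |t|) (by positivity) (by nlinarith [pi_pos, abs_nonneg t])
  rw [h2]
  have h4 : 2 / π * (π * |t|) = 2 * |t| := by field_simp
  linarith

theorem geo (t : ℝ) (h0 : t ≠ 0) (ht : |t| ≤ 1 / 2) (K : ℕ) :
    ‖∑ a ∈ range K, ee (a * t)‖ ≤ 1 / (2 * |t|) := by
  have h1 := norm_one_sub t ht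
  have h2 : 0 < |t| := abs_pos.2 h0
  have h3 : (∑ a ∈ range K, ee (a * t)) * (ee t - 1) = ee t ^ K - 1 := by
    rw [← geom_sum_mul]; congr 1; exact sum_congr rfl fun a _ => (ee_pow t a).symm
  have h4 : ‖ee t ^ K - 1‖ ≤ 2 := by
    refine (norm_sub_le _ _).trans ?_
    rw [norm_pow, norm_ee]; norm_num
  rw [← h3, norm_mul] at h4
  rw [le_div_iff₀ (by positivity)]
  nlinarith [norm_nonneg (∑ a ∈ range K, ee (a * t))]

theorem ind (d : ℕ) (hd : 1 ≤ d) (c m : ℤ) :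
    ∑ h ∈ Ico c (c + d), ee ((h : ℝ) * m / d) = if (d : ℤ) ∣ m then (d : ℂ) else 0 := by
  have hd' : (d : ℝ) ≠ 0 := by positivity
  have e1 : ∑ h ∈ Ico c (c + d), ee ((h : ℝ) * m / d) =
      ∑ j ∈ range d, ee ((c : ℝ) * m / d) * ee ((m : ℝ) / d) ^ j := by
    symm
    refine sum_bij (fun j _ => c + (j : ℤ)) ?_ ?_ ?_ ?_
    · intro j hj; have := mem_range.1 hj; simp only [mem_Ico]; omega
    · intro j _ k _ h; omega
    · intro h hh; have := mem_Ico.1 hh
      exact ⟨(h - c).toNat, mem_range.2 (by omega), by omega⟩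
    · intro j _; rw [ee_pow, ← ee_add]; congr 1; push_cast; ring
  rw [e1, ← mul_sum]
  split_ifs with h
  · obtain ⟨k, rfl⟩ := h
    have a1 : ee (((d * k : ℤ) : ℝ) / d) = 1 := by
      rw [← ee_int k]; congr 1; push_cast; field_simp
    have a2 : ee ((c : ℝ) * ((d * k : ℤ) : ℝ) / d) = 1 := by
      rw [← ee_int (c * k)]; congr 1; push_cast; field_simp
    rw [a1, a2]; simp
  · have a1 : ee ((m : ℝ) / d) ≠ 1 := by
      intro e
      rw [ee, Complex.exp_eq_one_iff] at e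
      obtain ⟨n, hn⟩ := e
      apply h
      have hpi : (π : ℂ) ≠ 0 := by exact_mod_cast pi_ne_zero
      have : (((m : ℝ) / d : ℝ) : ℂ) = n := by
        have h2 : (2 * π * Complex.I) * ((((m : ℝ) / d : ℝ) : ℂ) - n) = 0 := by
          linear_combination hn
        rcases mul_eq_zero.1 h2 with h3 | h3
        · exact absurd h3 (by simp [hpi, Complex.I_ne_zero])
        · exact sub_eq_zero.1 h3
      have h5 : (m : ℝ) / d = n := by exact_mod_cast this
      rw [div_eq_iff hd'] at h5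
      exact ⟨n, by rw [mul_comm]; exact_mod_cast h5⟩
    have a2 : ee ((m : ℝ) / d) ^ d = 1 := by
      rw [ee_pow, ← ee_int m]; congr 1; field_simp
    rw [geom_sum_eq a1, a2]; simp

theorem tail (d H0 : ℕ) (I : Finset ℤ) (hI : ∀ h ∈ I, (H0 : ℤ) < |h| ∧ |h| ≤ d) :
    ∑ h ∈ I, ((h : ℝ) ^ 2)⁻¹ ≤ 4 / (H0 + 1) := by
  have h1 := sum_Ioo_inv_sq_le (α := ℝ) H0 (d + 1)
  have h2 : I ⊆ (Ioo H0 (d + 1)).image (fun n : ℕ => (n : ℤ)) ∪
      (Ioo H0 (d + 1)).image (fun n : ℕ => -(n : ℤ)) := by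
    intro h hh
    obtain ⟨a, b⟩ := hI h hh
    simp only [mem_union, mem_image, mem_Ioo]
    rcases le_total 0 h with p | p
    · rw [abs_of_nonneg p] at a b; exact Or.inl ⟨h.toNat, by omega, by omega⟩
    · rw [abs_of_nonpos p] at a b; exact Or.inr ⟨(-h).toNat, by omega, by omega⟩
  refine (sum_le_sum_of_subset_of_nonneg h2 fun _ _ _ => by positivity).trans ?_
  have h3 := sum_union_inter (s₁ := (Ioo H0 (d + 1)).image (fun n : ℕ => (n : ℤ)))
    (s₂ := (Ioo H0 (d + 1)).image (fun n : ℕ => -(n : ℤ))) (f := fun h : ℤ => ((h : ℝ) ^ 2)⁻¹)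
  have h4 : 0 ≤ ∑ h ∈ (Ioo H0 (d + 1)).image (fun n : ℕ => (n : ℤ)) ∩
      (Ioo H0 (d + 1)).image (fun n : ℕ => -(n : ℤ)), ((h : ℝ) ^ 2)⁻¹ :=
    sum_nonneg fun _ _ => by positivity
  rw [sum_image (fun a _ b _ h => by exact_mod_cast h),
    sum_image (fun a _ b _ h => by simpa using h)] at h3
  simp only [Int.cast_natCast, Int.cast_neg, neg_sq] at h3
  have h5 : (4 : ℝ) / (H0 + 1) = 2 / (H0 + 1) + 2 / (H0 + 1) := by ring
  linarith

theorem main (K d : ℕ) (x : ℤ) (hK : 1 ≤ K) (hd : 1 ≤ d) (H0 : ℕ) (hH : 2 * H0 < d) :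
    ‖((A0 K x d - (K : ℝ) / d : ℝ) : ℂ) - (∑ a ∈ range K, ∑ b ∈ range K,
      ∑ h ∈ (Icc (-(H0 : ℤ)) H0).erase 0, ee ((h : ℝ) * ((x : ℝ) + (a + b : ℕ)) / d) / d) / K‖ ≤
    (d : ℝ) / (K * (H0 + 1)) := by
  have hd' : (d : ℝ) ≠ 0 := by positivity
  have hK' : (K : ℝ) ≠ 0 := by positivity
  have hdc : (d : ℂ) ≠ 0 := by exact_mod_cast hd'
  have hKc : (K : ℂ) ≠ 0 := by exact_mod_cast hK'
  set c : ℤ := -(((d - 1) / 2 : ℕ) : ℤ) with hc
  set I := Ico c (c + d) with hI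
  set J := I \ Icc (-(H0 : ℤ)) H0 with hJ
  have hsub : Icc (-(H0 : ℤ)) H0 ⊆ I := by
    intro h hh; have := mem_Icc.1 hh; simp only [hI, mem_Ico]; omega
  have h0 : (0 : ℤ) ∈ Icc (-(H0 : ℤ)) H0 := mem_Icc.2 (by omega)
  have key : ∀ n : ℕ, ((if (d : ℤ) ∣ (n : ℤ) + x then 1 else 0 : ℝ) : ℂ) =
      1 / d + ∑ h ∈ (Icc (-(H0 : ℤ)) H0).erase 0, ee ((h : ℝ) * ((x : ℝ) + n) / d) / d +
        (∑ h ∈ J, ee ((h : ℝ) * ((x : ℝ) + n) / d)) / d := by
    intro n
    have e1 := ind d hd c ((n : ℤ) + x)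
    rw [← hI, ← sum_sdiff hsub, ← hJ, ← add_sum_erase _ _ h0] at e1
    have e2 : ∀ h : ℤ, (h : ℝ) * (((n : ℤ) + x : ℤ) : ℝ) / d = (h : ℝ) * ((x : ℝ) + n) / d := by
      intro h; push_cast; ring
    simp only [e2] at e1
    have e3 : ee (((0 : ℤ) : ℝ) * ((x : ℝ) + n) / d) = 1 := by simp [ee]
    rw [e3] at e1
    rw [← sum_div]
    generalize ∑ h ∈ J, ee ((h : ℝ) * ((x : ℝ) + n) / d) = u at e1 ⊢
    generalize ∑ h ∈ (Icc (-(H0 : ℤ)) H0).erase 0, ee ((h : ℝ) * ((x : ℝ) + n) / d) = v at e1 ⊢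
    split_ifs at e1 ⊢ with h
    · field_simp; push_cast; linear_combination -e1
    · field_simp; push_cast; linear_combination -e1
  have e4 : ((A0 K x d - (K : ℝ) / d : ℝ) : ℂ) - (∑ a ∈ range K, ∑ b ∈ range K,
      ∑ h ∈ (Icc (-(H0 : ℤ)) H0).erase 0, ee ((h : ℝ) * ((x : ℝ) + (a + b : ℕ)) / d) / d) / K =
      (∑ h ∈ J, ee ((h : ℝ) * x / d) * (∑ a ∈ range K, ee (a * ((h : ℝ) / d))) ^ 2) / (K * d) := by
    have e5 : ∑ h ∈ J, ee ((h : ℝ) * x / d) * (∑ a ∈ range K, ee (a * ((h : ℝ) / d))) ^ 2 =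
        ∑ a ∈ range K, ∑ b ∈ range K, ∑ h ∈ J, ee ((h : ℝ) * ((x : ℝ) + (a + b : ℕ)) / d) := by
      simp only [sq, sum_mul_sum]
      simp only [mul_sum]
      rw [sum_comm]
      refine sum_congr rfl fun a _ => ?_
      rw [sum_comm]
      refine sum_congr rfl fun b _ => sum_congr rfl fun h _ => ?_
      rw [← ee_add, ← ee_add]; congr 1; push_cast; ring
    rw [e5, A0, av]
    push_cast
    have e6 : ∀ a b : ℕ, ((if (d : ℤ) ∣ (a : ℤ) + (b : ℤ) + x then 1 else 0 : ℝ) : ℂ) =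
      1 / d + ∑ h ∈ (Icc (-(H0 : ℤ)) H0).erase 0, ee ((h : ℝ) * ((x : ℝ) + (a + b)) / d) / d +
        (∑ h ∈ J, ee ((h : ℝ) * ((x : ℝ) + (a + b)) / d)) / d := by
      intro a b; have := key (a + b); push_cast at this ⊢; exact this
    simp only [e6, sum_add_distrib, sum_const, card_range, nsmul_eq_mul, ← sum_div]
    field_simp
    ring
  rw [e4, norm_div, norm_mul, Complex.norm_natCast, Complex.norm_natCast]
  have hJm : ∀ h ∈ J, (H0 : ℤ) < |h| ∧ 2 * |h| ≤ d := by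
    intro h hh
    obtain ⟨a, b⟩ := mem_sdiff.1 hh
    simp only [hI, mem_Ico, mem_Icc] at a b
    rcases le_total 0 h with p | p
    · rw [abs_of_nonneg p]; omega
    · rw [abs_of_nonpos p]; omega
  have e7 : ‖∑ h ∈ J, ee ((h : ℝ) * x / d) * (∑ a ∈ range K, ee (a * ((h : ℝ) / d))) ^ 2‖ ≤
      ∑ h ∈ J, (d : ℝ) ^ 2 / 4 * ((h : ℝ) ^ 2)⁻¹ := by
    refine (norm_sum_le _ _).trans (sum_le_sum fun h hh => ?_)
    obtain ⟨a, b⟩ := hJm h hh
    have hh0 : (h : ℝ) ≠ 0 := by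
      have : h ≠ 0 := by rintro rfl; simp at a; omega
      exact_mod_cast this
    have b' : 2 * |(h : ℝ)| ≤ d := by exact_mod_cast b
    have g := geo ((h : ℝ) / d) (div_ne_zero hh0 hd')
      (by rw [abs_div, Nat.abs_cast, div_le_iff₀ (by positivity)]; linarith) K
    rw [norm_mul, norm_ee, one_mul, norm_pow]
    refine (pow_le_pow_left₀ (norm_nonneg _) g 2).trans (le_of_eq ?_)
    rw [abs_div, Nat.abs_cast, div_pow, mul_pow, div_pow, sq_abs]
    field_simp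
    norm_num
  rw [← mul_sum] at e7
  have e8 := tail d H0 J fun h hh => ⟨(hJm h hh).1, by have := (hJm h hh).2; have := abs_nonneg h; omega⟩
  rw [div_le_iff₀ (by positivity)]
  refine e7.trans ((mul_le_mul_of_nonneg_left e8 (by positivity)).trans (le_of_eq ?_))
  field_simp

end FourX

theorem s_Four : S_Four := by
  intro K d x hK hd
  refine ⟨?_, fun H0 h1 h2 => (FourX.main K d x hK hd H0 h2).trans ?_⟩
  · have := FourX.main K d x hK hd 0 (by omega)
    simp only [Nat.cast_zero, neg_zero, Icc_self, erase_singleton, sum_empty, sum_const_zero,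
      zero_div, sub_zero, zero_add, mul_one, Complex.norm_real, Real.norm_eq_abs] at this
    exact this
  · have : (0 : ℝ) < H0 := by exact_mod_cast h1
    have : (0 : ℝ) < K := by exact_mod_cast hK
    gcongr; linarith

end Jac
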