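import Vale.Agent.P013.Gro

/-! Sizes of the nodes and of the rounded condition. -/

noncomputable section
namespace Jac
open Finset Real Filter
open scoped Classical

theorem geo_logz {y : ℕ} (h : 1 ≤ y) : log (z y) = L y / 2 + T y * log (T y) := by
  have : z y = exp (L y / 2 + T y * log (T y)) := by rw [z, exp_add, exp_half, exp_L h]
  rw [this, log_exp]

theorem geo_nd {y J g : ℕ} {x : ℤ} {N : Finset ℕ} (h : N ∈ Nd y J x g) :
    (∀ p ∈ N, p.Prime ∧ lo y J g ≤ log p ∧ log p ≤ vv y J g) ∧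
      2 * J * lo y J g ≤ log (pr N) ∧ log (pr N) ≤ 2 * J * vv y J g := by
  obtain ⟨h1, h2⟩ := mem_powersetCard.1 h
  have h3 : ∀ p ∈ N, p.Prime ∧ lo y J g ≤ log p ∧ log p ≤ vv y J g := fun p hp => by
    obtain ⟨a1, a2, -⟩ := mem_filter.1 (h1 hp)
    obtain ⟨a3, a4⟩ := mem_PP.1 a1
    have a5 : (0 : ℝ) < p := by exact_mod_cast a3.pos
    exact ⟨a3, ((lt_log_iff_exp_lt a5).2 a2).le, (log_le_iff_le_exp a5).2 a4⟩
  rw [log_pr fun p hp => (h3 p hp).1]
  have h4 := card_nsmul_le_sum N (fun p : ℕ => log p) _ fun p hp => (h3 p hp).2.1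
  have h5 := sum_le_card_nsmul N (fun p : ℕ => log p) _ fun p hp => (h3 p hp).2.2
  rw [h2, nsmul_eq_mul] at h4 h5
  push_cast at h4 h5
  exact ⟨h3, h4, h5⟩

theorem s_Geo : S_Geo := by
  intro J hJ
  have hJ' : (3 : ℝ) ≤ J := by exact_mod_cast hJ
  filter_upwards [ev_T_pow (96 * J) 2 (e := 1) one_pos, ev_kap_T 1, ev_T 3, eventually_ge_atTop 1]
    with y a1 a2 a3 a4
  rw [rpow_one] at a1
  rw [one_mul] at a2
  have hlog : T y * log (T y) ≤ T y ^ 2 := by
    have := log_le_sub_one_of_pos (x := T y) (by linarith)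
    nlinarith
  have hT2 : 9 ≤ T y ^ 2 := by nlinarith
  have hT3 : 3 * T y ≤ T y ^ 2 := by nlinarith
  have hL : 288 * T y ^ 2 ≤ L y := by nlinarith
  refine ⟨fun u h1 h2 => ?_, fun g hg => ?_⟩
  · rw [rpow_eq a4] at h1
    have hu : (0 : ℝ) < u := (exp_pos _).trans h1
    have b1 : log u ≤ gg u := Nat.le_ceil _
    have b2 : (gg u : ℝ) < log u + 1 := Nat.ceil_lt_add_one (log_natCast_nonneg u)
    have b3 := (lt_log_iff_exp_lt hu).2 h1
    have b4 := log_le_log hu h2
    refine ⟨⟨?_, by linarith⟩, by linarith, b1⟩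
    rw [div_eq_inv_mul, ← one_div]
    linarith
  obtain ⟨g1, g2⟩ := hg
  rw [geo_logz a4] at g2
  have hv : (2 * J + 2) * vv y J g = L y - 3 * T y - g := by
    rw [vv, l0]
    field_simp
  have v1 : L y / (8 * J) ≤ vv y J g := by
    rw [div_le_iff₀ (by positivity)]
    have c1 : L y / 3 ≤ (2 * J + 2) * vv y J g := by linarith
    have c2 : 0 ≤ vv y J g := by
      by_contra c3
      have := mul_neg_of_pos_of_neg (by positivity : (0 : ℝ) < 2 * J + 2) (not_le.1 c3)
      linarith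
    nlinarith
  have v0 : 12 * T y ^ 2 ≤ vv y J g := by
    refine le_trans ?_ v1
    rw [le_div_iff₀ (by positivity)]
    linarith
  have v2 : vv y J g + 2 ≤ g := by
    rw [div_le_iff₀ (by positivity)] at g1
    by_contra c
    have c1 : (g : ℝ) * J ≤ (vv y J g + 2) * J :=
      mul_le_mul_of_nonneg_right (not_le.1 c).le (by positivity)
    have c2 : (0 : ℝ) ≤ g := by positivity
    nlinarith
  refine ⟨v1, v2, by linarith, fun x N hN => ?_⟩
  obtain ⟨n1, n2, n3⟩ := geo_nd hN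
  have hlo : 2 * J * lo y J g = 2 * J * vv y J g - vv y J g / 2 := by
    rw [lo]
    field_simp
    ring
  have hlo2 : 11 / 12 * vv y J g ≤ lo y J g := by
    have c1 : 1 / (4 * (J : ℝ)) ≤ 1 / 12 := one_div_le_one_div_of_le (by norm_num) (by linarith)
    rw [lo]
    exact mul_le_mul_of_nonneg_right (by linarith) (by linarith)
  refine ⟨by rw [l0]; linarith, by rw [l1]; linarith, fun u hu hgu => ?_⟩
  have hu0 : (0 : ℝ) < u := by exact_mod_cast hu.pos
  have b1 : log u ≤ g := by rw [← hgu]; exact Nat.le_ceil _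
  have b2 : (g : ℝ) < log u + 1 := by
    rw [← hgu]
    exact Nat.ceil_lt_add_one (log_natCast_nonneg u)
  have hlt : ∀ p ∈ N, p < u := fun p hp => by
    have c1 : (0 : ℝ) < p := by exact_mod_cast (n1 p hp).1.pos
    have c2 : log p < log u := by linarith [(n1 p hp).2.2]
    exact_mod_cast (log_lt_log_iff c1 hu0).1 c2
  have hun : u ∉ N := fun h => lt_irrefl _ (hlt u h)
  refine ⟨hun, fun p hp hc => ?_⟩
  rcases mem_insert.1 hp with rfl | hp'
  · have : up (insert p N) p = {p} := by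
      ext q
      simp only [up, mem_filter, mem_insert, mem_singleton]
      refine ⟨fun h => h.1.resolve_right fun h' => ?_, fun h => ⟨Or.inl h, h.ge⟩⟩
      exact absurd (hlt q h') (not_lt.2 h.2)
    rw [this, card_singleton] at hc
    omega
  have hpr : ∀ q ∈ insert u N, q.Prime := fun q hq => by
    rcases mem_insert.1 hq with rfl | h
    · exact hu
    · exact (n1 q h).1
  have c1 : pr (up (insert u N) p) ≤ pr (insert u N) :=
    Nat.le_of_dvd (pr_pos hpr) (prod_dvd_prod_of_subset _ _ _ (filter_subset _ _))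
  have c2 : (0 : ℝ) < pr N := by exact_mod_cast pr_pos fun q hq => (n1 q hq).1
  have c3 : (0 : ℝ) < p := by exact_mod_cast (n1 p hp').1.pos
  have c4 : (pr (up (insert u N) p) : ℝ) ≤ u * pr N := by
    rw [pr_insert hun] at c1
    exact_mod_cast c1
  refine (mul_le_mul_of_nonneg_right c4 (by positivity)).trans ?_
  rw [← log_le_iff_le_exp (by positivity), log_mul (by positivity) (by positivity),
    log_mul (by positivity) (by positivity), log_pow, l0]
  push_cast
  linarith [(n1 p hp').2.2]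

theorem geo_sum_ge (y : ℕ) {S : Finset ℕ} (h : ∀ p ∈ S, p.Prime) :
    (DD y : ℝ) * log (pr S) ≤ ((∑ q ∈ S, be y q : ℕ) : ℝ) := by
  rw [log_pr h, mul_sum, Nat.cast_sum]
  exact sum_le_sum fun p _ => be_ge y p

theorem geo_sum_le (y : ℕ) {S : Finset ℕ} (h : ∀ p ∈ S, p.Prime) :
    ((∑ q ∈ S, be y q : ℕ) : ℝ) ≤ (DD y : ℝ) * log (pr S) + S.card := by
  rw [log_pr h, mul_sum, Nat.cast_sum, card_eq_sum_ones, Nat.cast_sum, ← sum_add_distrib]
  exact sum_le_sum fun p _ => by simpa using (be_lt y p).le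

theorem geo_card {y : ℕ} {S : Finset ℕ} (h : ∀ p ∈ S, p.Prime) (hL : 0 ≤ L y)
    (hs : ((∑ q ∈ S, be y q : ℕ) : ℝ) ≤ 2 * DD y * L y) : (S.card : ℝ) ≤ 3 * L y := by
  have hD : (0 : ℝ) < DD y := by exact_mod_cast DD_pos y
  have h1 := geo_sum_ge y h
  have h2 : S.card * log 2 ≤ log (pr S) := by
    rw [log_pr h, ← nsmul_eq_mul]
    exact card_nsmul_le_sum _ _ _ fun p hp =>
      log_le_log (by norm_num) (by exact_mod_cast (h p hp).two_le)
  have h3 : log (pr S) ≤ 2 * L y := le_of_mul_le_mul_left (by linarith) hD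
  have h4 := log_two_gt_d9
  have h5 : (0 : ℝ) ≤ S.card := by positivity
  nlinarith

theorem geo_up_min {S : Finset ℕ} (h : S.Nonempty) : up S (S.min' h) = S :=
  filter_true_of_mem fun q hq => min'_le S q hq

theorem geo_part {y m : ℕ} {S : Finset ℕ} (h : ∀ q ∈ S, q.Prime) (ha : Alive 1 (C1 y m) S) :
    ∀ p ∈ S, ∑ q ∈ up S p, be y q + be y p ≤ m := by
  intro p hp
  by_cases hc : (up S p).card % 2 = 1
  · have := ha p hp hc
    unfold C1 at this
    omega
  have hpu : p ∈ up S p := mem_filter.2 ⟨hp, le_rfl⟩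
  have h1 := card_erase_add_one hpu
  have hne : ((up S p).erase p).Nonempty := card_pos.1 (by omega)
  have h2 := min'_mem _ hne
  obtain ⟨h3, h4⟩ := mem_erase.1 h2
  obtain ⟨h5, h6⟩ := mem_filter.1 h4
  have h7 : up S (((up S p).erase p).min' hne) = (up S p).erase p := by
    ext q
    constructor
    · intro hq
      obtain ⟨a1, a2⟩ := mem_filter.1 hq
      exact mem_erase.2 ⟨by omega, mem_filter.2 ⟨a1, by omega⟩⟩
    · intro hq
      exact mem_filter.2 ⟨(mem_filter.1 (mem_erase.1 hq).2).1, min'_le _ q hq⟩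
  have h8 := ha _ h5 (by rw [h7]; omega)
  unfold C1 at h8
  rw [h7] at h8
  have h9 := be_mono y (h p hp).one_lt.le h6
  have h10 := sum_erase_add (up S p) (be y) hpu
  omega

theorem geo_tot {y m : ℕ} {S : Finset ℕ} (h : ∀ q ∈ S, q.Prime) (ha : Alive 1 (C1 y m) S) :
    ∑ q ∈ S, be y q ≤ m := by
  rcases S.eq_empty_or_nonempty with rfl | hne
  · simp
  · have := geo_part h ha _ (min'_mem S hne)
    rw [geo_up_min] at this
    omega

theorem geo_DD : ∀ᶠ y : ℕ in atTop, 3 * L y + 3 ≤ DD y := by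
  filter_upwards [ev_L_G 6 1, ev_L 1] with y h1 h2
  rw [pow_one] at h1
  have h3 : G y ≤ G y ^ 4 := le_self_pow₀ (by linarith) (by norm_num)
  linarith [DD_ge y]

theorem s_Rule : S_Rule := by
  filter_upwards [geo_DD, ev_L 0] with y h1 h2
  intro m hm
  have hD : (0 : ℝ) < DD y := by exact_mod_cast DD_pos y
  refine ⟨fun S p hS hp => ?_, fun S hS ha => geo_part hS ha⟩
  have a1 : (0 : ℝ) < pr S := by exact_mod_cast pr_pos hS
  have a2 : (0 : ℝ) < p := by exact_mod_cast (hS p hp).pos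
  have a3 : log ((pr S : ℝ) * (p : ℝ) ^ 2) = log (pr S) + 2 * log p := by
    rw [log_mul a1.ne' (by positivity), log_pow]
    norm_num
  constructor
  · intro hc
    have b1 : ((∑ q ∈ S, be y q : ℕ) : ℝ) + 2 * be y p ≤ m := by exact_mod_cast hc
    unfold C0
    rw [← log_le_iff_le_exp (by positivity), a3, le_div_iff₀ hD]
    linarith [geo_sum_ge y hS, be_ge y p]
  · rintro ⟨-, -, -, hc, ha⟩
    have b1 : (m : ℝ) ≤ ((∑ q ∈ S, be y q : ℕ) : ℝ) + 2 * be y p := by
      exact_mod_cast (not_le.1 hc).le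
    have hS' : ∀ q ∈ S.erase p, q.Prime := fun q hq => hS q (mem_of_mem_erase hq)
    have b2 : ((∑ q ∈ S.erase p, be y q : ℕ) : ℝ) ≤ m := by exact_mod_cast geo_tot hS' ha
    have b3 := geo_card hS' h2 (b2.trans hm)
    have b4 : ((S.erase p).card : ℝ) + 1 = S.card := by exact_mod_cast card_erase_add_one hp
    rw [← le_log_iff_exp_le (by positivity), a3, sub_le_iff_le_add, div_le_iff₀ hD]
    linarith [geo_sum_le y hS, be_lt y p]

theorem s_Size (hGeo : S_Geo) (hRule : S_Rule) : S_Size := by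
  intro J hJ
  have hJ' : (3 : ℝ) ≤ J := by exact_mod_cast hJ
  filter_upwards [hGeo J hJ, hRule, geo_DD, ev_L 0, ev_kap_T 1, ev_T 3,
    ev_T_pow 1 2 (e := 1) one_pos, ev_B_r (e := 1 / 2) (by norm_num),
    ev_L_rpow (4 * J) (a := 1 / 2) (b := 1) (by norm_num)] with y a1 _ a3 a4 a5 a6 a7 a8 a9
  intro x g hg N hN S hS
  rw [rpow_one] at a7 a9
  rw [one_mul] at a5 a7
  have hD : (1 : ℝ) ≤ DD y := by exact_mod_cast DD_pos y
  have hD0 : (0 : ℝ) < DD y := by linarith
  obtain ⟨v1, -, -, v4⟩ := a1.2 g hg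
  obtain ⟨w1, -, -⟩ := v4 x N hN
  obtain ⟨hS1, hmu⟩ := mem_filter.1 hS
  obtain ⟨hsub, hal⟩ := mem_Fam.1 hS1
  have hpr : ∀ p ∈ S, p.Prime := fun p hp => (mem_PP.1 (hsub hp)).1
  have hN0 : (0 : ℝ) < pr N := by exact_mod_cast pr_pos fun q hq => ((geo_nd hN).1 q hq).1
  have hS0 : (0 : ℝ) < pr S := by exact_mod_cast pr_pos hpr
  have hk : 0 ≤ kap y := by unfold kap; positivity
  have hv : L y / (4 * J) ≤ l0 y - g - log (pr N) := by
    have : L y / (4 * J) = 2 * (L y / (8 * J)) := by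
      field_simp
      ring
    linarith
  have hv0 : 0 ≤ l0 y - g - log (pr N) := le_trans (by positivity) hv
  have e1 : l1 y = l0 y + 3 * T y + kap y := by rw [l0, l1]; ring
  have l1' : (lam y g N : ℝ) ≤ DD y * (l1 y - g - log (pr N)) :=
    Nat.floor_le (mul_nonneg hD0.le (by linarith))
  have m1 : DD y * (l0 y - g - log (pr N)) < mu y g N + 1 := Nat.lt_floor_add_one _
  have d1 : (lam y g N : ℝ) ≤ 2 * DD y * L y := by
    refine l1'.trans ?_
    rw [mul_comm 2, mul_assoc]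
    refine mul_le_mul_of_nonneg_left ?_ hD0.le
    have c1 : (0 : ℝ) ≤ g := by positivity
    have c2 := log_natCast_nonneg (pr N)
    rw [l1]
    linarith
  have s1 : ((∑ q ∈ S, be y q : ℕ) : ℝ) ≤ lam y g N := by exact_mod_cast geo_tot hpr hal
  have s2 : (mu y g N : ℝ) + 1 ≤ ((∑ q ∈ S, be y q : ℕ) : ℝ) := by exact_mod_cast hmu
  have s3 := geo_card hpr a4 (s1.trans d1)
  have b2 : exp g * pr N * exp ((∑ q ∈ S, be y q : ℕ) / (DD y : ℝ)) ≤ exp (l1 y) := by
    rw [← exp_log hN0, ← exp_add, ← exp_add]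
    refine exp_le_exp.2 ?_
    have : ((∑ q ∈ S, be y q : ℕ) : ℝ) / DD y ≤ l1 y - g - log (pr N) := by
      rw [div_le_iff₀ hD0]
      linarith
    linarith
  refine ⟨?_, b2, le_trans ?_ b2, d1, ?_, ?_⟩
  · rw [← exp_log hN0, ← exp_log hS0, ← exp_add, ← exp_add]
    refine exp_le_exp.2 ?_
    have : l0 y - g - log (pr N) ≤ log (pr S) + 1 := by
      refine le_of_mul_le_mul_left ?_ hD0
      linarith [geo_sum_le y hpr]
    linarith
  · refine mul_le_mul_of_nonneg_left ?_ (by positivity)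
    rw [← log_le_iff_le_exp hS0, le_div_iff₀ hD0]
    linarith [geo_sum_ge y hpr]
  · have c1 : (aa y 1 : ℝ) = DD y * (B y : ℝ) ^ 2 := by rw [aa]; push_cast; ring
    have c2 : (T y ^ 2) ^ 2 ≤ (B y : ℝ) ^ 2 := pow_le_pow_left₀ (by positivity) (B_ge y) 2
    have c3 : 2 * (3 * T y + kap y) + 2 ≤ (B y : ℝ) ^ 2 := by
      have : 9 ≤ T y ^ 2 := by nlinarith
      have : 3 * T y ≤ T y ^ 2 := by nlinarith
      nlinarith
    have c4 := mul_le_mul_of_nonneg_left c3 hD0.le
    have : (2 : ℝ) * lam y g N ≤ 2 * mu y g N + aa y 1 := by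
      rw [e1] at l1'
      rw [c1]
      linarith
    exact_mod_cast this
  · refine Nat.le_floor ?_
    have c1 : (aa y (r y + 1) : ℝ) = DD y * (B y : ℝ) ^ (r y + 2) := by rw [aa]; push_cast; ring
    rw [c1]
    refine mul_le_mul_of_nonneg_left (a8.trans (le_trans ?_ hv)) hD0.le
    rw [le_div_iff₀ (by positivity)]
    linarith

end Jac
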