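import Vale.Agent.P013.Gro

/-! Primes of the structured case in one residue class. -/

noncomputable section
namespace Jac
open Finset Real Filter
open scoped Classical

theorem ia_class {γ : ℕ} {b Q : ℤ} (hQ : Q ≠ 0) (h1 : IsCoprime (γ : ℤ) Q) (h2 : IsCoprime b Q) :
    ∃ a' : ℕ, Nat.Coprime a' Q.natAbs ∧ ∀ p : ℕ, p ≡ a' [MOD Q.natAbs] ↔ Q ∣ γ * p - b := by
  obtain ⟨g, h, e⟩ := h1
  have h0 : (((g * b) % Q).toNat : ℤ) = g * b - Q * (g * b / Q) := by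
    rw [Int.toNat_of_nonneg (Int.emod_nonneg _ hQ), Int.emod_def]
  have h3 : (γ : ℤ) * (((g * b) % Q).toNat : ℤ) = b + Q * (-(h * b) - γ * (g * b / Q)) := by
    rw [h0]
    linear_combination b * e
  refine ⟨((g * b) % Q).toNat, ?_, fun p => ?_⟩
  · have h4 : IsCoprime ((γ : ℤ) * (((g * b) % Q).toNat : ℤ)) Q := by
      rw [h3]
      exact h2.add_mul_left_left _
    have h5 := Int.isCoprime_iff_gcd_eq_one.1 h4.of_mul_left_right
    exact h5
  · have e1 : (γ : ℤ) * p - b = γ * (p - (((g * b) % Q).toNat : ℤ)) +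
        Q * (-(h * b) - γ * (g * b / Q)) := by
      rw [mul_sub, h3]
      ring
    rw [Nat.ModEq.comm, Nat.modEq_iff_dvd, Int.natAbs_dvd, e1, dvd_add_left (dvd_mul_right _ _)]
    exact ⟨fun h4 => h4.mul_left _, fun h4 => IsCoprime.dvd_of_dvd_mul_left ⟨h, g, by
      rw [add_comm, e]⟩ h4⟩

theorem ia_bij {x k a : ℤ} {γ n1 M A B a' : ℕ} {U : Finset ℕ} (hk : k ≠ 0) (hγ : 0 < γ)
    (hU : ∀ p ∈ U, p.Prime)
    (hr : ∀ n : ℤ, (n1 ≤ n ∧ n < n1 + M) ↔ (A < k * n + a ∧ k * n + a ≤ B))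
    (ha : ∀ p : ℕ, p ≡ a' [MOD (k * pr U).natAbs] ↔ k * pr U ∣ γ * p - (a - k * x)) :
    ∑ n ∈ (PS k a γ n1 M).filter (fun n : ℕ => ∀ p ∈ U, (p : ℤ) ∣ (n : ℤ) + x), wt k a γ n
      = ∑ p ∈ (Ioc (A / γ) (B / γ)).filter (fun p => p.Prime ∧ p ≡ a' [MOD (k * pr U).natAbs]),
          log p := by
  have hγ' : (γ : ℤ) ≠ 0 := by exact_mod_cast hγ.ne'
  have key : ∀ n ∈ (PS k a γ n1 M).filter (fun n : ℕ => ∀ p ∈ U, (p : ℤ) ∣ (n : ℤ) + x),
      (γ : ℤ) * (((k * n + a) / γ).toNat : ℤ) = k * n + a := fun n hn => by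
    obtain ⟨-, h1, h2⟩ := mem_filter.1 (mem_filter.1 hn).1
    have h3 := h2.pos
    rw [Int.toNat_of_nonneg (by omega), Int.mul_ediv_cancel' h1]
  refine sum_bij (fun n _ => ((k * n + a) / γ).toNat) (fun n hn => ?_) (fun n hn m hm e => ?_)
    (fun p hp => ?_) fun n hn => ?_
  · have h0 := key n hn
    obtain ⟨h1, -, h2⟩ := mem_filter.1 (mem_filter.1 hn).1
    obtain ⟨h3, h4⟩ := (hr n).1 (by have h5 := mem_Ico.1 h1; omega)
    rw [← h0, mul_comm] at h3 h4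
    refine mem_filter.2 ⟨mem_Ioc.2 ⟨(Nat.div_lt_iff_lt_mul hγ).2 (by exact_mod_cast h3),
      (Nat.le_div_iff_mul_le hγ).2 (by exact_mod_cast h4)⟩, h2, (ha _).2 ?_⟩
    have e : k * n + a - (a - k * x) = k * (n + x) := by ring
    rw [h0, e]
    exact mul_dvd_mul_left k ((pr_dvd_iff hU _).2 (mem_filter.1 hn).2)
  · have h1 := key n hn
    have h2 := key m hm
    have e' : ((k * n + a) / γ).toNat = ((k * m + a) / γ).toNat := e
    rw [e', h2] at h1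
    exact_mod_cast (mul_left_cancel₀ hk (add_right_cancel h1)).symm
  · obtain ⟨h1, h2, h3⟩ := mem_filter.1 hp
    obtain ⟨t, ht⟩ := (ha p).1 h3
    have h4 := (Nat.div_lt_iff_lt_mul hγ).1 (mem_Ioc.1 h1).1
    have h5 := (Nat.le_div_iff_mul_le hγ).1 (mem_Ioc.1 h1).2
    have e : k * (pr U * t - x) + a = p * γ := by linear_combination -ht
    obtain ⟨h6, h7⟩ := (hr (pr U * t - x)).2 (by rw [e]; exact_mod_cast And.intro h4 h5)
    obtain ⟨n, hn⟩ := Int.eq_ofNat_of_zero_le (le_trans (Int.natCast_nonneg n1) h6)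
    rw [hn] at e h6 h7
    have e2 : ((k * n + a) / γ).toNat = p := by
      rw [e, Int.mul_ediv_cancel _ hγ', Int.toNat_natCast]
    refine ⟨n, mem_filter.2 ⟨mem_filter.2 ⟨mem_Ico.2 (by omega), e ▸ dvd_mul_left _ _, e2 ▸ h2⟩,
      (pr_dvd_iff hU _).1 ⟨t, by rw [← hn, sub_add_cancel]⟩⟩, e2⟩
  · have h1 : ((k * n + a : ℤ) : ℝ) = γ * (((k * n + a) / γ).toNat : ℝ) := by
      have h3 := congrArg (Int.cast : ℤ → ℝ) (key n hn)
      rw [Int.cast_mul, Int.cast_natCast, Int.cast_natCast] at h3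
      exact h3.symm
    have h2 : (γ : ℝ) ≠ 0 := by exact_mod_cast hγ.ne'
    rw [wt, h1, mul_div_cancel_left₀ _ h2]

theorem ia_range {k : ℤ} (a : ℤ) (n1 : ℕ) {M : ℕ} (hk : k ≠ 0) (hM : 1 ≤ M) : ∃ A B : ℤ,
    (∀ n : ℤ, (n1 ≤ n ∧ n < n1 + M) ↔ (A < k * n + a ∧ k * n + a ≤ B)) ∧ B = A + M * |k| ∧
    (∃ n ∈ Ico n1 (n1 + M), A = k * n + a - |k|) ∧ ∃ n ∈ Ico n1 (n1 + M), B = k * n + a := by
  obtain ⟨m, rfl⟩ := Nat.exists_eq_add_of_le' hM
  have m1 : n1 ∈ Ico n1 (n1 + (m + 1)) := mem_Ico.2 (by omega)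
  have m2 : n1 + m ∈ Ico n1 (n1 + (m + 1)) := mem_Ico.2 (by omega)
  rcases lt_or_gt_of_ne hk with h | h
  · refine ⟨k * (n1 + m + 1) + a, k * n1 + a, fun n => ?_, ?_, ⟨_, m2, ?_⟩, _, m1, rfl⟩
    · rw [add_lt_add_iff_right, add_le_add_iff_right, mul_lt_mul_left_of_neg h,
        mul_le_mul_left_of_neg h]
      omega
    · rw [abs_of_neg h]
      push_cast
      ring
    · rw [abs_of_neg h]
      push_cast
      ring
  · refine ⟨k * (n1 - 1) + a, k * (n1 + m) + a, fun n => ?_, ?_, ⟨_, m1, ?_⟩, _, m2, ?_⟩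
    · rw [add_lt_add_iff_right, add_le_add_iff_right, mul_lt_mul_iff_right₀ h,
        mul_le_mul_iff_right₀ h]
      omega
    · rw [abs_of_pos h]
      push_cast
      ring
    · rw [abs_of_pos h]
      ring
    · push_cast
      ring

theorem ia_div (A γ : ℕ) :
    ((A / γ : ℕ) : ℝ) ≤ A / γ ∧ (A : ℝ) / γ < (A / γ : ℕ) + 1 := by
  refine ⟨Nat.cast_div_le, ?_⟩
  rw [← Nat.floor_div_eq_div (K := ℝ)]
  exact Nat.lt_floor_add_one _

theorem ia_PW (K : ℝ) {e : ℝ} (he : 0 < e) :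
    ∀ᶠ y : ℕ in atTop, 1 ≤ PW y ∧ K * PW y ^ 2 ≤ (y : ℝ) ^ e := by
  filter_upwards [ev_kap_T 200, ev_T_pow (2 / e) 2 one_pos, ev_L_pow K 0 (half_pos he), ev_T 0,
    eventually_ge_atTop 1] with y h1 h2 h3 h4 h5
  have h6 : 0 ≤ kap y := by
    unfold kap
    positivity
  rw [rpow_one, div_mul_eq_mul_div, div_le_iff₀ he] at h2
  rw [pow_zero, mul_one] at h3
  have h7 : PW y ^ 2 ≤ (y : ℝ) ^ (e / 2) := by
    rw [PW, ← pow_mul, G_pow, rpow_eq h5]
    refine exp_le_exp.2 ?_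
    push_cast
    linarith
  refine ⟨by rw [PW, G_pow]; exact one_le_exp (by positivity), ?_⟩
  have h8 : (0 : ℝ) < y := by exact_mod_cast h5
  rw [← add_halves e, rpow_add h8]
  exact mul_le_mul h3 h7 (by positivity) (by positivity)

theorem s_Ia (hP : PNTAP) : S_Ia := by
  obtain ⟨c0, hc0, C, hP⟩ := hP
  have hc : 0 < min c0 1 := lt_min hc0 one_pos
  have hc1 := min_le_left c0 1
  have hc2 := min_le_right c0 1
  generalize min c0 1 = c at hc hc1 hc2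
  refine ⟨c / 2, half_pos hc, ?_⟩
  filter_upwards [ia_PW (4 * |C| + 1) (half_pos hc), eventually_ge_atTop 100] with y hPW hy
  intro x k a γ n1 M E h U hU hu
  have hy' : (100 : ℝ) ≤ y := by exact_mod_cast hy
  have hUp : ∀ p ∈ U, p.Prime := fun p hp => (h.hE p (hU hp)).1
  have hγ : 0 < γ ∧ γ ≤ 2 := by rcases h.ga with e | ⟨e, -⟩ <;> omega
  have hγ1 : (1 : ℝ) ≤ γ := by exact_mod_cast hγ.1
  have hγ2 : (γ : ℝ) ≤ 2 := by exact_mod_cast hγ.2
  have hu0 := pr_pos hUp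
  have hQ : k * pr U ≠ 0 := mul_ne_zero h.k0 (by exact_mod_cast hu0.ne')
  have c1 : IsCoprime (γ : ℤ) (k * pr U) := by
    rcases h.ga with e | ⟨e, h1, h2⟩
    · rw [e]
      exact isCoprime_one_left
    · rw [e]
      refine (Int.prime_two.coprime_iff_not_dvd).2 fun h3 => ?_
      rcases Int.prime_two.dvd_or_dvd h3 with h4 | h4
      · exact Int.not_even_iff_odd.2 h1 (even_iff_two_dvd.2 h4)
      · exact h2 (hU ((prime_dvd_pr hUp Nat.prime_two).1 (by exact_mod_cast h4)))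
  have c2 : IsCoprime (a - k * x) (k * pr U) := by
    refine IsCoprime.mul_right ?_ ?_
    · rw [sub_eq_add_neg, ← mul_neg]
      exact h.co.add_mul_left_left _
    · rw [pr, Nat.cast_prod]
      exact IsCoprime.prod_right fun p hp =>
        (((Nat.prime_iff_prime_int.1 (hUp p hp)).coprime_iff_not_dvd).2 (h.hE p (hU hp)).2).symm
  obtain ⟨a', ha1, ha2⟩ := ia_class hQ c1 c2
  have hM : 1 ≤ M := by
    have h1 : (1 : ℝ) ≤ M := by linarith [h.M0]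
    exact_mod_cast h1
  obtain ⟨A, B, hr, hB, ⟨n, hn, hA1⟩, m, hm, hB1⟩ := ia_range a n1 h.k0 hM
  have hk1 : (1 : ℝ) ≤ |(k : ℝ)| := by exact_mod_cast Int.one_le_abs h.k0
  have hA2 : |(k : ℝ)| * y / 4 - |(k : ℝ)| ≤ A := by
    rw [hA1, Int.cast_sub, Int.cast_abs]
    linarith [(h.sz n hn).1]
  have hB2 : (B : ℝ) ≤ 2 * y * PW y ^ 2 := hB1 ▸ (h.sz m hm).2
  have hky := mul_le_mul_of_nonneg_left hy' (abs_nonneg (k : ℝ))
  have hA0 : 0 ≤ A := by
    have h1 : (0 : ℝ) ≤ A := by linarith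
    exact_mod_cast h1
  have hAB : A ≤ B := hB ▸ le_add_of_nonneg_right (by positivity)
  obtain ⟨A, rfl⟩ := Int.eq_ofNat_of_zero_le hA0
  obtain ⟨B, rfl⟩ := Int.eq_ofNat_of_zero_le (hA0.trans hAB)
  have hB3 : (B : ℝ) = A + M * |(k : ℝ)| := by exact_mod_cast hB
  rw [Int.cast_natCast] at hA2 hB2
  have eq : k.natAbs * pr U = (k * pr U).natAbs := by rw [Int.natAbs_mul, Int.natAbs_natCast]
  have hq : (((k * pr U).natAbs : ℕ) : ℝ) = |(k : ℝ)| * pr U := by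
    rw [← eq, Nat.cast_mul, Nat.cast_natAbs, Int.cast_abs]
  have hq1 : 1 ≤ (k * pr U).natAbs := Int.natAbs_pos.2 hQ
  obtain ⟨d1, d2⟩ := ia_div A γ
  obtain ⟨d3, d4⟩ := ia_div B γ
  have hAB' : A / γ ≤ B / γ := Nat.div_le_div_right (by exact_mod_cast hAB)
  have hqA : (k * pr U).natAbs ≤ A / γ := by
    have h1 : (y : ℝ) ^ (c / 2) ≤ (y : ℝ) ^ (1 / 2 : ℝ) :=
      rpow_le_rpow_of_exponent_le (by linarith) (by linarith)
    have h2 : √(y : ℝ) ≤ y / 10 := sqrt_le_iff.2 ⟨by positivity, by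
      linarith [mul_le_mul_of_nonneg_left hy' (by positivity : (0 : ℝ) ≤ y)]⟩
    rw [← sqrt_eq_rpow] at h1
    have h3 := mul_le_mul_of_nonneg_left (hu.trans (h1.trans h2)) (abs_nonneg (k : ℝ))
    have h4 : (A : ℝ) / 2 ≤ A / γ := div_le_div_of_nonneg_left (by positivity) (by linarith) hγ2
    have h5 : (((k * pr U).natAbs : ℕ) : ℝ) ≤ (A / γ : ℕ) := by
      rw [hq]
      linarith
    exact_mod_cast h5
  have est : ∀ N : ℕ, 1 ≤ N → N ≤ B / γ →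
      C * (N : ℝ) ^ (1 - c0) ≤ |C| * ((y : ℝ) ^ (1 - c) * (2 * PW y ^ 2)) := fun N h1 h2 => by
    have h3 : (1 : ℝ) ≤ N := by exact_mod_cast h1
    have h4 : (N : ℝ) ≤ y * (2 * PW y ^ 2) := by
      have h5 : (N : ℝ) ≤ (B / γ : ℕ) := by exact_mod_cast h2
      linarith [div_le_self (Nat.cast_nonneg (α := ℝ) B) hγ1]
    have h5 : 1 ≤ 2 * PW y ^ 2 := by linarith [one_le_pow₀ (n := 2) hPW.1]
    refine mul_le_mul (le_abs_self C) ?_ (by positivity) (abs_nonneg C)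
    refine (rpow_le_rpow_of_exponent_le h3 (by linarith : 1 - c0 ≤ 1 - c)).trans
      ((rpow_le_rpow (by positivity) h4 (by linarith)).trans ?_)
    rw [mul_rpow (by positivity) (by positivity)]
    exact mul_le_mul_of_nonneg_left (rpow_le_self_of_one_le h5 (by linarith)) (by positivity)
  have p1 := (hP _ _ a' hq1 hqA ha1).trans (est _ (hq1.trans hqA) hAB')
  have p2 := (hP _ _ a' hq1 (hqA.trans hAB') ha1).trans (est _ ((hq1.trans hqA).trans hAB') le_rfl)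
  have e1 : ∀ N : ℕ, Icc 1 N = Ioc 0 N := fun N => rfl
  have e2 := sum_Ioc_consecutive (fun p : ℕ =>
    if p.Prime ∧ p ≡ a' [MOD (k * pr U).natAbs] then log p else 0) (Nat.zero_le _) hAB'
  rw [e1, sum_filter] at p1 p2
  rw [← e2] at p2
  rw [eq, ia_bij h.k0 hγ.1 hUp hr ha2, sum_filter, ← div_div]
  have hφ : (1 : ℝ) ≤ (Nat.totient (k * pr U).natAbs : ℕ) := by
    exact_mod_cast Nat.totient_pos.2 hq1
  have p3 : |((B / γ : ℕ) - (A / γ : ℕ) - M * |(k : ℝ)| / γ) /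
      (Nat.totient (k * pr U).natAbs : ℕ)| ≤ 1 := by
    rw [hB3, add_div] at d3 d4
    rw [abs_div, Nat.abs_cast, div_le_one (by linarith)]
    exact (abs_le.2 ⟨by linarith, by linarith⟩).trans hφ
  rw [sub_div, sub_div] at p3
  have p4 : 1 ≤ (y : ℝ) ^ (1 - c) * PW y ^ 2 := one_le_mul_of_one_le_of_one_le
    (one_le_rpow (by linarith) (by linarith)) (one_le_pow₀ hPW.1)
  have p5 := mul_le_mul_of_nonneg_left hPW.2 (by positivity : 0 ≤ (y : ℝ) ^ (1 - c))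
  have e3 : 1 - c + c / 2 = 1 - c / 2 := by ring
  rw [← rpow_add (by linarith), e3] at p5
  rw [abs_le] at p1 p2 p3 ⊢
  constructor <;> linarith [p1.1, p1.2, p2.1, p2.2, p3.1, p3.2]

end Jac
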