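import Vale.Agent.P013.Gro

/-! The lower bound sieve in the structured case. -/

noncomputable section
namespace Jac
open Finset Real Filter
open scoped Classical

namespace IbX

/-- local density -/
def gk (K p : ℕ) : ℝ := if p ∣ K then 1 / (p : ℝ) else 1 / ((p : ℝ) - 1)

theorem tot (K : ℕ) (U : Finset ℕ) (hU : ∀ p ∈ U, p.Prime) :
    (Nat.totient (K * pr U) : ℝ) * ∏ p ∈ U, gk K p = Nat.totient K := by
  induction U using Finset.induction_on with
  | empty => simp [pr]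
  | insert p U hp ih =>
    have h1 := hU p (mem_insert_self _ _)
    have h2 : ∀ q ∈ U, q.Prime := fun q hq => hU q (mem_insert_of_mem hq)
    have h3 : (2 : ℝ) ≤ p := by exact_mod_cast h1.two_le
    rw [pr_insert hp, prod_insert hp, ← ih h2, mul_left_comm K p, gk]
    split_ifs with h
    · rw [Nat.totient_mul_of_prime_of_dvd h1 (h.mul_right _)]
      push_cast
      field_simp
    · have h4 : ¬ p ∣ K * pr U := fun d =>
        ((Nat.Prime.dvd_mul h1).1 d).elim h fun d' => hp ((prime_dvd_pr h2 h1).1 d')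
      have h5 : (p : ℝ) - 1 ≠ 0 := by linarith
      rw [Nat.totient_mul_of_prime_of_not_dvd h1 h4]
      push_cast [Nat.cast_sub h1.one_le]
      field_simp

theorem gk_bd {K p : ℕ} (hp : p.Prime) (h2 : p = 2 → p ∣ K) :
    0 ≤ gk K p ∧ gk K p ≤ 1 / 2 ∧ gk K p ≤ 2 / p := by
  have h3 : (2 : ℝ) ≤ p := by exact_mod_cast hp.two_le
  rw [gk]
  split_ifs with h
  · exact ⟨by positivity, one_div_le_one_div_of_le two_pos h3, by gcongr; norm_num⟩
  · have h4 : 3 ≤ p := by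
      have := hp.two_le
      by_contra h5
      exact h (h2 (by omega))
    have h5 : (3 : ℝ) ≤ p := by exact_mod_cast h4
    refine ⟨div_nonneg zero_le_one (by linarith), one_div_le_one_div_of_le two_pos (by linarith), ?_⟩
    rw [div_le_div_iff₀ (by linarith) (by linarith)]
    linarith

/-- telescoping factor -/
def ff (m : ℕ) : ℝ := if m = 2 then 3 / 4 else ((m : ℝ) - 2) * (m + 1) / (m * (m - 1))

theorem ff_bd {m : ℕ} (h : 2 ≤ m) : 0 ≤ ff m ∧ ff m ≤ 1 := by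
  have h3 : (2 : ℝ) ≤ m := by exact_mod_cast h
  rw [ff]
  split_ifs
  · norm_num
  · have h4 : 0 < (m : ℝ) * (m - 1) := mul_pos (by linarith) (by linarith)
    refine ⟨div_nonneg (mul_nonneg (by linarith) (by linarith)) h4.le, ?_⟩
    rw [div_le_one h4]
    linarith

theorem ff_prod {N : ℕ} (h : 2 ≤ N) : ∏ m ∈ Icc 2 N, ff m = (N + 1) / (4 * ((N : ℝ) - 1)) := by
  induction N, h using Nat.le_induction with
  | base => norm_num [ff]
  | succ N h ih =>
    have h3 : (2 : ℝ) ≤ N := by exact_mod_cast h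
    have h4 : (N : ℝ) - 1 ≠ 0 := by linarith
    have h5 : (N : ℝ) ≠ 0 := by linarith
    rw [prod_Icc_succ_top (by omega), ih, ff, if_neg (by omega)]
    push_cast
    rw [add_sub_cancel_right]
    field_simp
    ring

theorem ff_le {K p : ℕ} (hp : p.Prime) (h2 : p = 2 → p ∣ K) :
    ff p ≤ (1 - gk K p) * (1 + 1 / (p : ℝ)) := by
  have h3 : (2 : ℝ) ≤ p := by exact_mod_cast hp.two_le
  have h4 : (p : ℝ) - 1 ≠ 0 := by linarith
  have h5 : (p : ℝ) ≠ 0 := by linarith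
  rw [ff, gk]
  split_ifs with h h' h'
  · rw [h]; norm_num
  · exact absurd (h2 h) h'
  · have e : (1 - 1 / (p : ℝ)) * (1 + 1 / (p : ℝ)) = ((p : ℝ) ^ 2 - 1) / p ^ 2 := by
      field_simp; ring
    rw [e, div_le_div_iff₀ (mul_pos (by linarith) (by linarith)) (by positivity)]
    nlinarith [mul_pos (by linarith : (0 : ℝ) < p) (by linarith : (0 : ℝ) < p + 1)]
  · apply le_of_eq
    field_simp
    ring

theorem prod_low {K : ℕ} {E : Finset ℕ} (hE : ∀ p ∈ E, p.Prime) (h2 : 2 ∈ E → 2 ∣ K) :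
    1 / 4 ≤ (∏ p ∈ E, (1 - gk K p)) * ∏ p ∈ E, (1 + 1 / (p : ℝ)) := by
  have hs : E ⊆ Icc 2 (E.sup id + 2) := fun p hp =>
    mem_Icc.2 ⟨(hE p hp).two_le, (le_sup (f := id) hp).trans (Nat.le_add_right _ _)⟩
  have h1 := prod_le_prod_of_subset_of_le_one hs (fun m hm => (ff_bd (mem_Icc.1 hm).1).1)
    (fun m hm _ => (ff_bd (mem_Icc.1 hm).1).2)
  rw [ff_prod (by omega)] at h1
  rw [← prod_mul_distrib]
  refine le_trans ?_ (h1.trans (prod_le_prod (fun p hp => (ff_bd (hE p hp).two_le).1)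
    fun p hp => ff_le (hE p hp) fun e => by subst e; exact h2 hp))
  have h3 : (0 : ℝ) ≤ (E.sup id : ℕ) := Nat.cast_nonneg _
  push_cast
  rw [div_le_div_iff₀ (by norm_num) (by linarith)]
  linarith

theorem prod_tel (N : ℕ) : ∏ m ∈ Icc 1 N, (1 + 1 / (m : ℝ)) = N + 1 := by
  induction N with
  | zero => simp
  | succ N ih =>
    rw [prod_Icc_succ_top (by omega), ih]
    push_cast
    field_simp

theorem prod_up {w : ℝ} (hw : 1 ≤ w) {E : Finset ℕ} (hE : E ⊆ PP w) :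
    ∏ p ∈ E, (1 + 1 / (p : ℝ)) ≤ 2 * w := by
  have hs : E ⊆ Icc 1 ⌊w⌋₊ := fun p hp =>
    mem_Icc.2 ⟨(mem_PP.1 (hE hp)).1.one_le, Nat.le_floor (mem_PP.1 (hE hp)).2⟩
  have h1 := prod_le_prod_of_subset_of_one_le (f := fun m : ℕ => 1 + 1 / (m : ℝ)) hs
    (fun m _ => by positivity) (fun m _ _ => le_add_of_nonneg_right (by positivity))
  rw [prod_tel] at h1
  have := Nat.floor_le (by linarith : 0 ≤ w)
  linarith

theorem card_supp {E : Finset ℕ} (hE : ∀ p ∈ E, p.Prime) {c : Finset ℕ → ℝ} {X : ℝ} (hX : 0 ≤ X)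
    (h : ∀ U ⊆ E, c U ≠ 0 → (pr U : ℝ) ≤ X) :
    ((E.powerset.filter fun U => c U ≠ 0).card : ℝ) ≤ X := by
  have h1 : (E.powerset.filter fun U => c U ≠ 0).card ≤ (Icc 1 ⌊X⌋₊).card := by
    refine card_le_card_of_injOn pr (fun U hU => ?_) fun U hU U' hU' e => ?_
    · obtain ⟨h2, h3⟩ := mem_filter.1 (mem_coe.1 hU)
      have h4 := mem_powerset.1 h2
      exact mem_coe.2 (mem_Icc.2 ⟨pr_pos fun p hp => hE p (h4 hp), Nat.le_floor (h U h4 h3)⟩)
    · exact pr_inj (fun p hp => hE p (mem_powerset.1 (mem_filter.1 (mem_coe.1 hU)).1 hp))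
        (fun p hp => hE p (mem_powerset.1 (mem_filter.1 (mem_coe.1 hU')).1 hp)) e
  rw [Nat.card_Icc, Nat.add_sub_cancel] at h1
  exact le_trans (by exact_mod_cast h1) (Nat.floor_le hX)

theorem sieve (A E : Finset ℕ) (w : ℕ → ℝ) (D : ℕ → ℕ → Prop) [∀ p n, Decidable (D p n)]
    (c : Finset ℕ → ℝ)
    (hw : ∀ n ∈ A, 0 ≤ w n) (hc : ∀ B ⊆ E, ∑ U ∈ B.powerset, c U ≤ if B = ∅ then 1 else 0) :
    ∑ U ∈ E.powerset, c U * ∑ n ∈ A.filter (fun n => ∀ p ∈ U, D p n), w n ≤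
      ∑ n ∈ A.filter (fun n => ∀ p ∈ E, ¬ D p n), w n := by
  simp only [sum_filter, mul_sum]
  rw [sum_comm]
  refine sum_le_sum fun n hn => ?_
  have h1 := hc (E.filter fun p => D p n) (filter_subset _ _)
  have e1 : (E.filter fun p => D p n).powerset = E.powerset.filter fun U => ∀ p ∈ U, D p n := by
    ext U
    simp only [mem_powerset, mem_filter]
    exact ⟨fun h => ⟨h.trans (filter_subset _ _), fun p hp => (mem_filter.1 (h hp)).2⟩,
      fun h p hp => mem_filter.2 ⟨h.1 hp, h.2 p hp⟩⟩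
  rw [e1, sum_filter] at h1
  have h2 := mul_le_mul_of_nonneg_right h1 (hw n hn)
  rw [sum_mul] at h2
  refine le_trans (le_of_eq (sum_congr rfl fun U _ => ?_)) (h2.trans (le_of_eq ?_))
  · split_ifs <;> simp
  · by_cases h : ∀ p ∈ E, ¬ D p n
    · rw [if_pos h, if_pos (filter_eq_empty_iff.2 h), one_mul]
    · rw [if_neg h, if_neg (fun h' => h (filter_eq_empty_iff.1 h')), zero_mul]

theorem approx (E : Finset ℕ) (c Θ m : Finset ℕ → ℝ) {R : ℝ} (hc : ∀ U, |c U| ≤ 1)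
    (h : ∀ U ⊆ E, c U ≠ 0 → |Θ U - m U| ≤ R) :
    ∑ U ∈ E.powerset, c U * m U - (E.powerset.filter fun U => c U ≠ 0).card * R ≤
      ∑ U ∈ E.powerset, c U * Θ U := by
  rw [natCast_card_filter, sum_mul, ← sum_sub_distrib]
  refine sum_le_sum fun U hU => ?_
  by_cases h0 : c U = 0
  · simp [h0]
  · rw [if_pos h0, one_mul]
    have h1 := h U (mem_powerset.1 hU) h0
    have h2 : |c U * (Θ U - m U)| ≤ R := by
      rw [abs_mul]
      exact (mul_le_of_le_one_left (abs_nonneg _) (hc U)).trans h1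
    have := neg_abs_le (c U * (Θ U - m U))
    linarith

theorem fin {y M q γ P Q S R : ℝ} (hy : 0 ≤ y) (hM : y / 5 ≤ M) (hq : 1 ≤ q) (hγ : 0 < γ)
    (hγ2 : γ ≤ 2) (hQ : 0 < Q) (hPQ : 1 / 4 ≤ P * Q) (hS : P / 2 ≤ S) (hR : 160 * Q * R ≤ y) :
    1 / 160 * y * q / Q ≤ M * q / γ * S - R := by
  have hP : 0 ≤ P := by
    by_contra h
    have := mul_neg_of_neg_of_pos (not_le.1 h) hQ
    linarith
  have h0 : 0 ≤ M := by linarith
  have h1 : y / 5 * q / 2 ≤ M * q / γ := by gcongr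
  have h2 : y / 5 * q / 2 * (P / 2) ≤ M * q / γ * S :=
    mul_le_mul h1 hS (by positivity) ((by positivity : 0 ≤ y / 5 * q / 2).trans h1)
  rw [div_le_iff₀ hQ, sub_mul]
  have h3 := mul_le_mul_of_nonneg_right h2 hQ.le
  have h4 := mul_le_mul_of_nonneg_left hPQ (by positivity : 0 ≤ y * q)
  have h5 := mul_le_mul_of_nonneg_left hq hy
  linarith

end IbX

open IbX in
theorem s_Ib (hIa : S_Ia) (hFL : S_FL) : S_Ib := by
  obtain ⟨c, hc, hI⟩ := hIa
  obtain ⟨s0, hF⟩ := hFL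
  refine ⟨1 / 160, by norm_num, ⌈(2 * s0 + 4) / c⌉₊, fun J hJ => ?_⟩
  have hJ1 : 2 * s0 + 4 ≤ J * c := (div_le_iff₀ hc).1 (Nat.ceil_le.1 hJ)
  have hs0 : (0 : ℝ) ≤ s0 := Nat.cast_nonneg _
  have hJ0 : (0 : ℝ) < J := by
    by_contra h
    have := mul_nonpos_of_nonpos_of_nonneg (not_lt.1 h) hc.le
    linarith
  have hJ2 : 1 / (J : ℝ) * s0 ≤ c / 2 := by
    rw [div_mul_eq_mul_div, div_le_iff₀ hJ0]; linarith
  have hJ3 : 1 / (J : ℝ) ≤ c / 4 := by
    rw [div_le_iff₀ hJ0]; linarith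
  have t1 := ((tendsto_rpow_atTop (one_div_pos.2 hJ0)).comp
    tendsto_natCast_atTop_atTop).eventually_ge_atTop 2
  have t2 := ((tendsto_rpow_atTop (by positivity : 0 < c / 4)).comp
    tendsto_natCast_atTop_atTop).eventually_ge_atTop 320
  filter_upwards [hI, t1, t2, eventually_ge_atTop 8] with y h1 h2 h3 h4 x k a γ n1 M E hC hE
  simp only [Function.comp] at h2 h3
  have hy : (8 : ℝ) ≤ y := by exact_mod_cast h4
  have hP : ∀ p ∈ E, p.Prime := fun p hp => (hC.hE p hp).1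
  have he : 2 ∈ E → 2 ∣ k.natAbs := fun h => (Int.natAbs_even.2 (hC.e2 h)).two_dvd
  obtain ⟨cc, c1, c2, c3, c4⟩ := hF _ E (gk k.natAbs) h2 hE
    fun p hp => gk_bd (hP p hp) fun e => by subst e; exact he hp
  have hγ : (0 : ℝ) < γ ∧ (γ : ℝ) ≤ 2 := by
    rcases hC.ga with h | h
    · rw [h]; norm_num
    · rw [h.1]; norm_num
  have hk : (1 : ℝ) ≤ |(k : ℝ)| := by exact_mod_cast Int.one_le_abs hC.k0
  have hkn : (k.natAbs : ℝ) = |(k : ℝ)| := by rw [Nat.cast_natAbs, Int.cast_abs]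
  have hφ : (0 : ℝ) < Nat.totient k.natAbs := by
    exact_mod_cast Nat.totient_pos.2 (Int.natAbs_pos.2 hC.k0)
  have hq : 1 ≤ |(k : ℝ)| / Nat.totient k.natAbs := by
    rw [le_div_iff₀ hφ, one_mul, ← hkn]
    exact_mod_cast Nat.totient_le _
  have hw : ∀ n ∈ PS k a γ n1 M, 0 ≤ wt k a γ n := fun n hn => by
    have h5 := (hC.sz n (mem_filter.1 hn).1).1
    refine log_nonneg ((one_le_div hγ.1).2 ?_)
    nlinarith [hγ.2]
  have c5 : ∀ U ⊆ E, cc U ≠ 0 → (pr U : ℝ) ≤ (y : ℝ) ^ (c / 2) := fun U hU h => by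
    refine (c2 U hU h).trans ?_
    rw [← rpow_natCast, ← rpow_mul (by linarith)]
    exact rpow_le_rpow_of_exponent_le (by linarith) hJ2
  have s1 := sieve (PS k a γ n1 M) E (wt k a γ) (fun p n => (p : ℤ) ∣ (n : ℤ) + x) cc hw c3
  have s2 := approx E cc
    (fun U => ∑ n ∈ (PS k a γ n1 M).filter (fun n : ℕ => ∀ p ∈ U, (p : ℤ) ∣ (n : ℤ) + x),
      wt k a γ n)
    (fun U => M * (|(k : ℝ)| / Nat.totient k.natAbs) / γ * ∏ p ∈ U, gk k.natAbs p)
    (R := (y : ℝ) ^ (1 - c)) c1 fun U hU h => by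
      have h5 := h1 x k a γ n1 M E hC U hU
        ((c5 U hU h).trans (rpow_le_rpow_of_exponent_le (by linarith) (by linarith)))
      have h6 := tot k.natAbs U fun p hp => hP p (hU hp)
      have h7 : (0 : ℝ) < Nat.totient (k.natAbs * pr U) := by
        exact_mod_cast Nat.totient_pos.2
          (mul_pos (Int.natAbs_pos.2 hC.k0) (pr_pos fun p hp => hP p (hU hp)))
      have h8 : ∏ p ∈ U, gk k.natAbs p =
          Nat.totient k.natAbs / Nat.totient (k.natAbs * pr U) := by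
        rw [eq_div_iff h7.ne', mul_comm, h6]
      have h9 : M * (|(k : ℝ)| / Nat.totient k.natAbs) / γ * ∏ p ∈ U, gk k.natAbs p =
          M * |(k : ℝ)| / (γ * Nat.totient (k.natAbs * pr U)) := by
        have := hγ.1.ne'
        rw [h8]; field_simp
      rw [h9]
      exact h5
  have s3 := card_supp hP (by positivity) c5
  have hQ : 0 < ∏ p ∈ E, (1 + 1 / (p : ℝ)) := prod_pos fun p _ => by positivity
  have hQ2 := prod_up (by linarith) hE
  have s4 : 160 * (∏ p ∈ E, (1 + 1 / (p : ℝ))) *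
      ((E.powerset.filter fun U => cc U ≠ 0).card * (y : ℝ) ^ (1 - c)) ≤ y := by
    have h5 : (y : ℝ) ^ (1 / (J : ℝ)) ≤ (y : ℝ) ^ (c / 4) :=
      rpow_le_rpow_of_exponent_le (by linarith) hJ3
    have h6 : (y : ℝ) ^ (c / 4) * (y : ℝ) ^ (c / 4) * ((y : ℝ) ^ (c / 2) * (y : ℝ) ^ (1 - c)) = y := by
      rw [← rpow_add (by linarith), ← rpow_add (by linarith), ← rpow_add (by linarith),
        show c / 4 + c / 4 + (c / 2 + (1 - c)) = 1 by ring, rpow_one]
    refine le_trans ?_ h6.le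
    refine mul_le_mul ?_ (mul_le_mul_of_nonneg_right s3 (by positivity)) (by positivity)
      (by positivity)
    have h7 := mul_le_mul_of_nonneg_right h3 (by positivity : 0 ≤ (y : ℝ) ^ (c / 4))
    linarith
  have s5 := fin (by linarith) hC.M0 hq hγ.1 hγ.2 hQ (prod_low hP he) c4 s4
  refine s5.trans (le_trans (le_of_eq ?_) (s2.trans ?_))
  · rw [mul_sum]
    exact congrArg (· - _) (sum_congr rfl fun U _ => by ring)
  · exact s1

end Jac
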