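import Vale.Agent.P013.Gro

/-! The structured case: upper bound for the terms with one large prime. -/

noncomputable section
namespace Jac
open Finset Real Filter
open scoped Classical

theorem ic_pos (S : Finset ℕ) : 1 ≤ ∏ p ∈ S, (1 + 1 / (p : ℝ)) :=
  prod_induction _ (1 ≤ ·) (fun _ _ => one_le_mul_of_one_le_of_one_le) le_rfl
    fun p _ => le_add_of_nonneg_right (by positivity)

theorem ic_low {C w : ℝ} (hw : 1 < w) (h1 : |∑ p ∈ PP w, 1 / (p : ℝ) - log (log w)| ≤ C)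
    (h2 : ∑ p ∈ PP w, 1 / ((p : ℝ) * log p) ≤ C) :
    log w * exp (-(2 * C)) ≤ ∏ p ∈ PP w, (1 + 1 / (p : ℝ)) := by
  calc _ ≤ exp (∑ p ∈ PP w, (1 / (p : ℝ) - 1 / ((p : ℝ) * log p))) := by
        rw [← exp_log (log_pos hw), ← exp_add, sum_sub_distrib]
        exact exp_le_exp.2 (by linarith [(abs_le.1 h1).1])
    _ ≤ _ := by
        rw [exp_sum]
        refine prod_le_prod (fun _ _ => (exp_pos _).le) fun p hp => ?_
        have h3 : (1 : ℝ) < p := by exact_mod_cast (mem_PP.1 hp).1.one_lt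
        have h4 : 1 / ((p : ℝ) * (p + 1)) ≤ 1 / ((p : ℝ) * log p) :=
          one_div_le_one_div_of_le (mul_pos (by linarith) (log_pos h3))
            (mul_le_mul_of_nonneg_left (by linarith [log_le_sub_one_of_pos (by linarith : 0 < (p : ℝ))])
              (by linarith))
        have h5 : 1 - (1 + 1 / (p : ℝ))⁻¹ = 1 / p - 1 / ((p : ℝ) * (p + 1)) := by
          field_simp
          ring
        rw [← le_log_iff_exp_le (by positivity)]
        linarith [one_sub_inv_le_log_of_pos (by positivity : 0 < 1 + 1 / (p : ℝ))]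

theorem ic_tot (n : ℕ) : (Nat.totient n : ℝ) * ∏ p ∈ n.primeFactors, (1 + 1 / (p : ℝ)) ≤ n := by
  have h : (Nat.totient n : ℝ) = n * ∏ p ∈ n.primeFactors, (1 - (p : ℝ)⁻¹) := by
    simpa using congrArg (fun q : ℚ => (q : ℝ)) (Nat.totient_eq_mul_prod_factors n)
  rw [h, mul_assoc, ← prod_mul_distrib]
  refine mul_le_of_le_one_right (by positivity) (prod_le_one (fun p hp => ?_) fun p _ => ?_)
  · have h1 : (1 : ℝ) ≤ p := by exact_mod_cast (Nat.prime_of_mem_primeFactors hp).one_le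
    exact mul_nonneg (sub_nonneg.2 (inv_le_one_of_one_le₀ h1)) (by positivity)
  · rw [one_div]
    nlinarith [sq_nonneg (p : ℝ)⁻¹]

theorem ic_mono {S S' : Finset ℕ} (h : S ⊆ S') :
    ∏ p ∈ S, (1 + 1 / (p : ℝ)) ≤ ∏ p ∈ S', (1 + 1 / (p : ℝ)) := by
  rw [← prod_sdiff h]
  exact le_mul_of_one_le_left (zero_le_one.trans (ic_pos _)) (ic_pos _)

theorem ic_P1 (w : ℝ) {k : ℤ} (hk : k ≠ 0) : ∏ p ∈ PP w, (1 + 1 / (p : ℝ)) ≤
    (∏ p ∈ (PP w).filter (fun p : ℕ => ¬ (p : ℤ) ∣ 2 * k), (1 + 1 / (p : ℝ))) *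
      (2 * (|(k : ℝ)| / Nat.totient k.natAbs)) := by
  rw [← prod_filter_not_mul_prod_filter (PP w) fun p : ℕ => (p : ℤ) ∣ 2 * k]
  refine mul_le_mul_of_nonneg_left ?_ (zero_le_one.trans (ic_pos _))
  have h1 : (PP w).filter (fun p : ℕ => (p : ℤ) ∣ 2 * k) ⊆ insert 2 k.natAbs.primeFactors :=
    fun p hp => by
      obtain ⟨h1, h2⟩ := mem_filter.1 hp
      have h3 := (mem_PP.1 h1).1
      rw [Int.natCast_dvd, Int.natAbs_mul, h3.dvd_mul] at h2
      rw [mem_insert, Nat.mem_primeFactors]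
      exact h2.imp (Nat.prime_dvd_prime_iff_eq h3 Nat.prime_two).1
        fun h => ⟨h3, h, Int.natAbs_ne_zero.2 hk⟩
  have h2 : ∏ p ∈ k.natAbs.primeFactors, (1 + 1 / (p : ℝ)) ≤ |(k : ℝ)| / Nat.totient k.natAbs := by
    rw [le_div_iff₀' (by exact_mod_cast Nat.totient_pos.2 (Int.natAbs_pos.2 hk)), ← Int.cast_abs,
      ← Int.natCast_natAbs, Int.cast_natCast]
    exact ic_tot _
  have h3 := ic_pos k.natAbs.primeFactors
  refine (ic_mono h1).trans ?_
  by_cases h : 2 ∈ k.natAbs.primeFactors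
  · rw [insert_eq_of_mem h]
    linarith
  · rw [prod_insert h]
    norm_num at h2 h3 ⊢
    linarith

theorem ic_P2 {C w v : ℝ} {E : Finset ℕ} (hE : E ⊆ PP v)
    (h : ∑ p ∈ (PP v).filter (fun p : ℕ => w < p), 1 / (p : ℝ) ≤ C) :
    ∏ p ∈ E, (1 + 1 / (p : ℝ)) ≤
      (∏ p ∈ E.filter (fun p : ℕ => ¬ w < p), (1 + 1 / (p : ℝ))) * exp C := by
  rw [← prod_filter_not_mul_prod_filter E fun p : ℕ => w < p]
  refine mul_le_mul_of_nonneg_left ((ic_mono (filter_subset_filter _ hE)).trans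
    ((prod_one_add_le_exp_sum _ fun p => by positivity).trans (exp_le_exp.2 h)))
    (zero_le_one.trans (ic_pos _))

theorem ic_card (hUp : S_Up) {y γ n1 M u : ℕ} {x k a : ℤ} {E : Finset ℕ} {w : ℝ}
    (h : CI y x k a γ n1 M E) (hu : u.Prime) (hw : 1 ≤ w) (hwu : w < u) (hwy : 8 * w < y) :
    (((PS k a γ n1 M).filter
      (fun n : ℕ => (∀ p ∈ E, ¬ (p : ℤ) ∣ (n : ℤ) + x) ∧ (u : ℤ) ∣ (n : ℤ) + x)).card : ℝ) ≤
    4 * ((y / u + 1 : ℕ) : ℝ) /
      ((∏ p ∈ (PP w).filter (fun p : ℕ => ¬ (p : ℤ) ∣ 2 * k), (1 + 1 / (p : ℝ))) *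
        ∏ p ∈ E.filter (fun p : ℕ => ¬ w < p), (1 + 1 / (p : ℝ))) + (4 * w) ^ 32 := by
  set F := (PS k a γ n1 M).filter
    (fun n : ℕ => (∀ p ∈ E, ¬ (p : ℤ) ∣ (n : ℤ) + x) ∧ (u : ℤ) ∣ (n : ℤ) + x) with hF
  rcases F.eq_empty_or_nonempty with h0 | h0
  · have := ic_pos ((PP w).filter (fun p : ℕ => ¬ (p : ℤ) ∣ 2 * k))
    have := ic_pos (E.filter (fun p : ℕ => ¬ w < p))
    rw [h0, card_empty, Nat.cast_zero]
    positivity
  obtain ⟨n0, hn0, hmin⟩ := F.exists_min_image (fun n => n) h0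
  have hpu : ∀ p : ℕ, p.Prime → (p : ℝ) ≤ w → ¬ (p : ℤ) ∣ u := fun p hp h1 h2 => by
    rw [Int.natCast_dvd_natCast, Nat.prime_dvd_prime_iff_eq hp hu] at h2
    rw [h2] at h1
    linarith
  have hdiv : ∀ n ∈ F, (n : ℤ) = n0 + u * ((n - n0) / u : ℕ) := fun n hn => by
    have h1 : u ∣ n - n0 := by
      rw [← Int.natCast_dvd_natCast, Nat.cast_sub (hmin n hn)]
      have := dvd_sub (mem_filter.1 hn).2.2 (mem_filter.1 hn0).2.2
      rwa [add_sub_add_right_eq_sub] at this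
    rw [← Nat.cast_mul, Nat.mul_div_cancel' h1, Nat.cast_sub (hmin n hn), add_sub_cancel]
  refine le_trans ?_ (hUp w _ _ (k * u) (k * n0 + a) u (n0 + x) (y / u + 1) hw (fun p hp => ?_)
    (fun p hp => ?_) fun p hp hp' => ?_)
  · refine Nat.cast_le.2 (card_le_card_of_injOn (fun n => (n - n0) / u) (fun n hn => ?_)
      fun n hn n' hn' e => ?_)
    · have h1 := hdiv n hn
      obtain ⟨h2, h3, -⟩ := mem_filter.1 (mem_coe.1 hn)
      obtain ⟨h4, h5, h6⟩ := mem_filter.1 h2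
      refine mem_coe.2 (mem_filter.2 ⟨mem_range.2 (Nat.lt_succ_of_le (Nat.div_le_div_right ?_)),
        fun p hp => ?_, fun p hp => ?_⟩)
      · have := (mem_Ico.1 h4).2
        have := h.M1
        omega
      · rw [show k * u * ((n - n0) / u : ℕ) + (k * n0 + a) = k * n + a by rw [h1]; ring]
        obtain ⟨h7, h8⟩ := mem_filter.1 hp
        obtain ⟨h9, h10⟩ := mem_PP.1 h7
        obtain ⟨m, hm⟩ := h5
        have hγ : γ = 1 ∨ γ = 2 := h.ga.imp id And.left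
        have hγ0 : (γ : ℤ) ≠ 0 := by rcases hγ with e | e <;> simp [e]
        rw [hm, Int.mul_ediv_cancel_left _ hγ0] at h6
        have hm0 : (m.toNat : ℤ) = m := Int.toNat_of_nonneg (by
          have := h6.pos
          omega)
        have h11 := (h.sz n h4).1
        have h12 : (1 : ℝ) ≤ |(k : ℝ)| := by exact_mod_cast Int.one_le_abs h.k0
        rw [hm, ← hm0] at h11 ⊢
        rw [← Nat.cast_mul, Int.natCast_dvd_natCast, h9.dvd_mul, Nat.prime_dvd_prime_iff_eq h9 h6]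
        rintro (e | e)
        · refine h8 (Dvd.dvd.mul_right (Int.natCast_dvd_natCast.2 (e.trans ?_) : _ ∣ ((2 : ℕ) : ℤ)) k)
          rcases hγ with e | e <;> simp [e]
        · rw [← e, Int.cast_mul, Int.cast_natCast, Int.cast_natCast] at h11
          have h13 : (γ : ℝ) ≤ 2 := by rcases hγ with e | e <;> simp [e]
          nlinarith [mul_le_mul h13 h10 (by positivity) (by norm_num),
            mul_le_mul_of_nonneg_right h12 (by positivity : (0 : ℝ) ≤ y)]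
      · rw [show (u : ℤ) * ((n - n0) / u : ℕ) + (n0 + x) = n + x by rw [h1]; ring]
        exact h3 p (mem_filter.1 hp).1
    · have h1 := hdiv n hn
      rw [show (n - n0) / u = (n' - n0) / u from e, ← hdiv n' hn'] at h1
      exact_mod_cast h1
  · obtain ⟨h1, h2⟩ := mem_filter.1 hp
    obtain ⟨h3, h4⟩ := mem_PP.1 h1
    exact ⟨h3, h4, fun h5 => ((Nat.prime_iff_prime_int.1 h3).dvd_or_dvd h5).elim
      (fun e => h2 (e.mul_left 2)) (hpu p h3 h4)⟩
  · obtain ⟨h1, h2⟩ := mem_filter.1 hp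
    exact ⟨(h.hE p h1).1, not_lt.1 h2, hpu p (h.hE p h1).1 (not_lt.1 h2)⟩
  · obtain ⟨h1, h2⟩ := mem_filter.1 hp
    obtain ⟨h3, h4⟩ := mem_PP.1 h1
    refine ⟨?_, fun h5 => ?_⟩
    · have := h3.two_le
      by_contra h5
      exact h2 (by rw [show p = 2 by omega]; exact dvd_mul_right _ _)
    · rw [show k * u * (n0 + x) - u * (k * n0 + a) = -(u * (a - k * x)) by ring, dvd_neg] at h5
      exact ((Nat.prime_iff_prime_int.1 h3).dvd_or_dvd h5).elim (hpu p h3 h4)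
        (h.hE p (mem_filter.1 hp').1).2

theorem ic_ar {y u : ℕ} {s J C K A A' D κ : ℝ} (h1 : 1 ≤ y) (hu : 0 < u) (hs1 : 1 ≤ s)
    (hs2 : s * (100 * J) = L y) (hs3 : 300 * s ≤ L y) (hJ : 0 ≤ J) (p1 : 1 ≤ A) (p2 : 1 ≤ A')
    (p3 : 1 ≤ D) (c2 : s * exp (-(2 * C)) ≤ A * (2 * κ)) (c3 : D ≤ A' * exp K)
    (h5 : 4 * 4 ^ 32 * L y ^ 1 ≤ (y : ℝ) ^ (0.29 : ℝ)) :
    (4 * ((y / u + 1 : ℕ) : ℝ) / (A * A') + (4 * exp s) ^ 32) * (2 * L y) ≤
      1600 * J * exp (2 * C) * exp K * y * κ / (u * D) + (y : ℝ) ^ (0.4 : ℝ) := by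
  have hu0 : (0 : ℝ) < u := by exact_mod_cast hu
  have e1 : 4 * ((y / u + 1 : ℕ) : ℝ) / (A * A') ≤ 4 * (y / u) / (A * A') + 4 := by
    rw [Nat.cast_succ, mul_add, add_div]
    refine add_le_add (div_le_div_of_nonneg_right (mul_le_mul_of_nonneg_left Nat.cast_div_le
      (by norm_num)) (by positivity)) ?_
    rw [mul_one]
    exact div_le_self (by norm_num) (one_le_mul_of_one_le_of_one_le p1 p2)
  have e2 : 4 * (y / u) / (A * A') * (2 * L y) ≤
      1600 * J * exp (2 * C) * exp K * y * κ / (u * D) := by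
    have h6 : s ≤ A * (2 * κ) * exp (2 * C) := by
      rwa [exp_neg, ← div_eq_mul_inv, div_le_iff₀ (exp_pos _)] at c2
    rw [div_mul_eq_mul_div, div_le_div_iff₀ (by positivity) (by positivity), ← hs2]
    calc _ = 800 * J * y * (s * D) := by field_simp; ring
      _ ≤ 800 * J * y * (A * (2 * κ) * exp (2 * C) * (A' * exp K)) :=
          mul_le_mul_of_nonneg_left (mul_le_mul h6 c3 (by linarith) (by linarith)) (by positivity)
      _ = _ := by ring
  have e3 : (4 + (4 * exp s) ^ 32) * (2 * L y) ≤ (y : ℝ) ^ (0.4 : ℝ) := by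
    have h6 : exp s ^ 32 ≤ (y : ℝ) ^ (0.11 : ℝ) := by
      rw [rpow_eq h1, ← exp_nat_mul]
      exact exp_le_exp.2 (by push_cast; linarith)
    have h7 : 1 ≤ exp s ^ 32 := one_le_pow₀ (one_le_exp (by linarith))
    rw [show (0.4 : ℝ) = 0.29 + 0.11 by norm_num, rpow_add (by exact_mod_cast h1), mul_pow]
    refine le_trans ?_ (mul_le_mul h5 h6 (by positivity) (by positivity))
    linarith [mul_le_mul_of_nonneg_right h7 (by linarith : 0 ≤ L y),
      mul_nonneg (by linarith : 0 ≤ exp s ^ 32) (by linarith : 0 ≤ L y)]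
  linarith [mul_le_mul_of_nonneg_right e1 (by linarith : 0 ≤ 2 * L y)]

theorem s_Ic (hUp : S_Up) (hM : S_M) : S_Ic := by
  intro J hJ
  obtain ⟨C, hC, -, m2, -, m4, m5⟩ := hM
  have hJ' : (3 : ℝ) ≤ J := by exact_mod_cast hJ
  refine ⟨1600 * J * exp (2 * C) * exp (log 100 + C), by positivity, ?_⟩
  filter_upwards [eventually_ge_atTop 1, ev_L (100 * J), ev_kap_T 400, ev_T_pow 1 2 one_pos,
    ev_L_pow (4 * 4 ^ 32) 1 (e := 0.29) (by norm_num)] with y h1 h2 h3 h4 h5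
    x k a γ n1 M E h hE u hu huy
  obtain ⟨s, hs⟩ : ∃ s, s = L y / (100 * J) := ⟨_, rfl⟩
  have hs1 : 1 ≤ s := by rw [hs, le_div_iff₀ (by positivity)]; linarith
  have hs2 : s * (100 * J) = L y := by rw [hs]; field_simp
  have hs3 : 300 * s ≤ L y := by nlinarith
  have hv : (y : ℝ) ^ (1 / (J : ℝ)) = exp (100 * s) := by
    rw [rpow_eq h1, ← hs2]
    congr 1
    field_simp
  rw [hv] at hE huy
  have hw : 2 ≤ exp s := by linarith [add_one_le_exp s]
  have hwv : exp s ≤ exp (100 * s) := exp_le_exp.2 (by linarith)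
  have hy : exp (L y / 2) * exp (L y / 2) = y := by rw [← exp_add, add_halves, exp_L h1]
  have h9 : 9 ≤ exp (L y / 2) := by linarith [add_one_le_exp (L y / 2)]
  have h10 : exp s ≤ exp (L y / 2) := exp_le_exp.2 (by linarith)
  have c1 := ic_card hUp h hu (by linarith : 1 ≤ exp s) (hwv.trans_lt huy) (by nlinarith)
  have c2 := (ic_low (by linarith) (m4 _ hw) (m5 _)).trans (ic_P1 (exp s) h.k0)
  have c3 := ic_P2 (C := log 100 + C) (w := exp s) hE (by
    have h6 := (abs_le.1 (m2 _ _ hw hwv)).2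
    rw [log_exp, log_exp, mul_div_cancel_right₀ _ (by linarith : s ≠ 0)] at h6
    linarith [div_le_self hC.le (one_le_pow₀ hs1 : 1 ≤ s ^ 2)])
  have hPW : PW y ^ 2 ≤ exp (L y / 2) := by
    rw [PW, ← pow_mul, G_pow]
    rw [rpow_one] at h4
    exact exp_le_exp.2 (by push_cast; linarith)
  have hwt : ∀ n ∈ PS k a γ n1 M, wt k a γ n ≤ 2 * L y := fun n hn => by
    obtain ⟨h6, h7⟩ := h.sz n (mem_filter.1 hn).1
    have h8 : (1 : ℝ) ≤ γ := by rcases h.ga with e | ⟨e, -⟩ <;> simp [e]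
    have h11 : (1 : ℝ) ≤ |(k : ℝ)| := by exact_mod_cast Int.one_le_abs h.k0
    have h12 : (1 : ℝ) ≤ y := by exact_mod_cast h1
    have h13 : (0 : ℝ) < (k * n + a : ℤ) := lt_of_lt_of_le (by positivity) h6
    rw [wt, log_le_iff_le_exp (by positivity), two_mul, exp_add, exp_L h1]
    refine (div_le_self h13.le h8).trans (h7.trans ?_)
    nlinarith [mul_le_mul_of_nonneg_left (show 2 * PW y ^ 2 ≤ y by nlinarith) (by linarith : (0 : ℝ) ≤ y)]
  rw [log_exp] at c2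
  have p1 := ic_pos ((PP (exp s)).filter (fun p : ℕ => ¬ (p : ℤ) ∣ 2 * k))
  have p2 := ic_pos (E.filter (fun p : ℕ => ¬ exp s < p))
  have p3 := ic_pos E
  refine (sum_le_card_nsmul _ _ _ fun n hn => hwt n (mem_filter.1 hn).1).trans ?_
  rw [nsmul_eq_mul]
  refine (mul_le_mul_of_nonneg_right c1 (by linarith)).trans ?_
  exact ic_ar h1 hu.pos hs1 hs2 hs3 (by linarith) p1 p2 p3 c2 c3 h5

end Jac
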