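import Vale.Agent.P013.Gro

/-! Good chains stay good when a prime is moved inside its box. -/

noncomputable section
namespace Jac
open Finset Real Filter
open scoped Classical

section
variable {y : ℕ} {S : Finset ℕ} {σ : ℕ → ℕ}

theorem inv_inj (ho : ∀ p ∈ S, ∀ p' ∈ S, p ≤ p' ↔ σ p ≤ σ p') {A : Finset ℕ} (hA : A ⊆ S) :
    Set.InjOn σ A := fun p hp p' hp' e =>
  le_antisymm ((ho p (hA hp) p' (hA hp')).2 e.le) ((ho p' (hA hp') p (hA hp)).2 e.ge)

theorem inv_sum (hb : ∀ p ∈ S, be y (σ p) = be y p)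
    (ho : ∀ p ∈ S, ∀ p' ∈ S, p ≤ p' ↔ σ p ≤ σ p') {A : Finset ℕ} (hA : A ⊆ S) :
    ∑ p ∈ A.image σ, be y p = ∑ p ∈ A, be y p := by
  rw [sum_image (inv_inj ho hA)]
  exact sum_congr rfl fun p hp => hb p (hA hp)

theorem inv_up (ho : ∀ p ∈ S, ∀ p' ∈ S, p ≤ p' ↔ σ p ≤ σ p') {p : ℕ} (hp : p ∈ S) :
    up (S.image σ) (σ p) = (up S p).image σ := by
  rw [up, up, filter_image]
  congr 1
  exact filter_congr fun p' hp' => (ho p hp p' hp').symm

theorem inv_alive (hb : ∀ p ∈ S, be y (σ p) = be y p)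
    (ho : ∀ p ∈ S, ∀ p' ∈ S, p ≤ p' ↔ σ p ≤ σ p') {ε m : ℕ} (h : Alive ε (C1 y m) S) :
    Alive ε (C1 y m) (S.image σ) := by
  intro p' hp' hc
  obtain ⟨p, hp, rfl⟩ := mem_image.1 hp'
  have hA : up S p ⊆ S := filter_subset _ _
  rw [inv_up ho hp] at hc ⊢
  rw [card_image_of_injOn (inv_inj ho hA)] at hc
  have h1 := h p hp hc
  unfold C1 at h1 ⊢
  rwa [inv_sum hb ho hA, hb p hp]

theorem inv_bad (hb : ∀ p ∈ S, be y (σ p) = be y p)
    (ho : ∀ p ∈ S, ∀ p' ∈ S, p ≤ p' ↔ σ p ≤ σ p') (h : Bad y (S.image σ)) : Bad y S := by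
  rcases h with ⟨i, hi, h⟩ | ⟨p', hp', q', hq', h1, h2, h3⟩ | h
  · exact Or.inl ⟨i, hi, fun p hp => by rw [← hb p hp]; exact h _ (mem_image_of_mem σ hp)⟩
  · obtain ⟨p, hp, rfl⟩ := mem_image.1 hp'
    obtain ⟨q, hq, rfl⟩ := mem_image.1 hq'
    rw [hb p hp] at h2 h3
    rw [hb q hq] at h2
    exact Or.inr (Or.inl ⟨p, hp, q, hq, fun e => h1 (by rw [e]), h2, h3⟩)
  · refine Or.inr (Or.inr ?_)
    rw [filter_image, inv_sum hb ho (filter_subset _ _)] at h
    rwa [filter_congr (q := fun q => be y (σ q) ≤ aa y 0) fun p hp => by rw [hb p hp]]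

end

theorem s_Inv (hGeo : S_Geo) : S_Inv := by
  intro J hJ
  filter_upwards [hGeo J hJ, ev_B_r (e := 1 / 2) (by norm_num),
    ev_L_rpow (16 * J) (a := 1 / 2) (b := 1) (by norm_num), ev_L 0] with y hG hB hL hL0
  intro g hg N S hS q hq q' hq' hbe h0 h1
  obtain ⟨hS1, hbad⟩ := mem_filter.1 hS
  obtain ⟨hS2, hmu⟩ := mem_filter.1 hS1
  obtain ⟨hsub, hal⟩ := mem_Fam.1 hS2
  have hpr : ∀ p ∈ S, p.Prime := fun p hp => (mem_PP.1 (hsub hp)).1
  have hne : ∀ p ∈ S, p ≠ q → be y p ≠ be y q := fun p hp e h =>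
    hbad (Or.inr (Or.inl ⟨p, hp, q, hq, e, h, by rw [h]; exact h0⟩))
  obtain ⟨σ, hσ⟩ : ∃ σ : ℕ → ℕ, σ = fun p => if p = q then q' else p := ⟨_, rfl⟩
  have hσ1 : σ q = q' := by simp [hσ]
  have hσ2 : ∀ p, p ≠ q → σ p = p := fun p h => by simp [hσ, h]
  have hb : ∀ p ∈ S, be y (σ p) = be y p := fun p _ => by
    by_cases h : p = q
    · rw [h, hσ1, hbe]
    · rw [hσ2 p h]
  have hσp : ∀ p ∈ S, (σ p).Prime := fun p hp => by
    by_cases h : p = q
    · rwa [h, hσ1]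
    · rw [hσ2 p h]
      exact hpr p hp
  have hlt : ∀ a b : ℕ, 1 ≤ b → be y a < be y b → a < b ∨ a = 0 := fun a b hb1 h => by
    by_contra hn
    have h2 : b ≤ a := by omega
    exact absurd (be_mono y hb1 h2) (by omega)
  have ho : ∀ p ∈ S, ∀ p' ∈ S, p ≤ p' ↔ σ p ≤ σ p' := by
    intro p hp p' hp'
    by_cases h : p = p'
    · simp [h]
    by_cases h2 : p ≠ q ∧ p' ≠ q
    · rw [hσ2 p h2.1, hσ2 p' h2.2]
    have h3 : be y p ≠ be y p' := by
      by_cases h4 : p = q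
      · rw [h4]
        exact (hne p' hp' (fun e => h (h4.trans e.symm))).symm
      · have h5 : p' = q := by
          by_contra h5
          exact h2 ⟨h4, h5⟩
        rw [h5]
        exact hne p hp h4
    have a1 := (hpr p hp).one_lt
    have a2 := (hpr p' hp').one_lt
    have a3 := (hσp p hp).one_lt
    have a4 := (hσp p' hp').one_lt
    have b1 := hb p hp
    have b2 := hb p' hp'
    rcases lt_or_gt_of_ne h3 with h4 | h4
    · have c1 := hlt p p' a2.le h4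
      have c2 := hlt (σ p) (σ p') a4.le (by omega)
      omega
    · have c1 := hlt p' p a1.le h4
      have c2 := hlt (σ p') (σ p) a3.le (by omega)
      omega
  have himg : insert q' (S.erase q) = S.image σ := by
    conv_rhs => rw [← insert_erase hq, image_insert, hσ1]
    congr 1
    rw [image_congr (g := id) fun p hp => hσ2 p (ne_of_mem_erase (mem_coe.1 hp)), image_id]
  have hq'le : (q' : ℝ) ≤ exp (lo y J g) := by
    have hD : (0 : ℝ) < DD y := by exact_mod_cast DD_pos y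
    have hJ' : (3 : ℝ) ≤ J := by exact_mod_cast hJ
    have a1 := be_ge y q'
    have a2 : (be y q' : ℝ) ≤ aa y (r y + 1) := by rw [hbe]; exact_mod_cast h1
    have a3 : log q' ≤ (B y : ℝ) ^ (r y + 2) := by
      rw [← aa_div y (r y + 1), le_div_iff₀ hD]
      linarith
    have a4 := (hG.2 g hg).1
    rw [← log_le_iff_le_exp (by exact_mod_cast hq'.pos)]
    refine a3.trans (hB.trans ?_)
    rw [rpow_one] at hL
    have a5 : L y ^ (1 / 2 : ℝ) ≤ L y / (8 * J) / 2 := by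
      rw [div_div, le_div_iff₀ (by positivity)]
      linarith
    have a6 : 1 / (4 * (J : ℝ)) ≤ 1 / 2 := one_div_le_one_div_of_le (by norm_num) (by linarith)
    have a7 : 0 ≤ L y / (8 * J) := by positivity
    unfold lo
    nlinarith
  rw [himg]
  refine mem_filter.2 ⟨mem_filter.2 ⟨mem_Fam.2 ⟨?_, inv_alive hb ho hal⟩, ?_⟩,
    fun h => hbad (inv_bad hb ho h)⟩
  · intro p' hp'
    obtain ⟨p, hp, rfl⟩ := mem_image.1 hp'
    by_cases h : p = q
    · rw [h, hσ1]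
      exact mem_PP.2 ⟨hq', hq'le⟩
    · rw [hσ2 p h]
      exact hsub hp
  · rwa [inv_sum hb ho Subset.rfl]

end Jac
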