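import Vale.Agent.P013.Gro

/-! The bound of Johnson, common primes of two rationals, and primes without uniqueness. -/

noncomputable section
namespace Jac
open Finset Real Filter
open scoped Classical

theorem s_John : S_John := by
  intro Ω I F V τ l hτ hl hV hVl hF hFF
  set g : ℚ → ℕ → ℝ := fun i w => if w ∈ F i then 1 else 0 with hg
  have hV0 : 0 ≤ V := le_trans (by positivity) hV
  have h1 : ∀ i ∈ I, ∀ j ∈ I, ∑ w ∈ Ω, g i w * g j w = ((F i ∩ F j).card : ℝ) := by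
    intro i hi j hj
    have : ∀ w, g i w * g j w = if w ∈ F i ∩ F j then (1 : ℝ) else 0 := by
      intro w
      simp only [hg, mem_inter]
      by_cases a : w ∈ F i <;> by_cases b : w ∈ F j <;> simp [a, b]
    simp only [this]
    rw [sum_ite_mem, sum_const, nsmul_eq_mul, mul_one,
      inter_eq_right.2 (inter_subset_left.trans (hF i hi).1)]
  have h2 : ∀ i ∈ I, ∑ w ∈ Ω, g i w = ((F i).card : ℝ) := by
    intro i hi
    simp only [hg]
    rw [sum_ite_mem, sum_const, nsmul_eq_mul, mul_one, inter_eq_right.2 (hF i hi).1]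
  set s : ℝ := ∑ i ∈ I, ((F i).card : ℝ) with hs
  have h3 : s = ∑ w ∈ Ω, ∑ i ∈ I, g i w := by
    rw [sum_comm]; exact sum_congr rfl fun i hi => (h2 i hi).symm
  have h4 : ∑ w ∈ Ω, (∑ i ∈ I, g i w) ^ 2 ≤ s + (I.card : ℝ) ^ 2 * l := by
    have : ∑ w ∈ Ω, (∑ i ∈ I, g i w) ^ 2 = ∑ i ∈ I, ∑ j ∈ I, ((F i ∩ F j).card : ℝ) := by
      simp only [sq, sum_mul_sum]
      rw [sum_comm]
      refine sum_congr rfl fun i hi => ?_
      rw [sum_comm]
      exact sum_congr rfl fun j hj => h1 i hi j hj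
    rw [this]
    have h5 : ∀ i ∈ I, ∑ j ∈ I, ((F i ∩ F j).card : ℝ) ≤ (F i).card + I.card * l := by
      intro i hi
      have h6 : ∀ j ∈ I, ((F i ∩ F j).card : ℝ) ≤ (if j = i then ((F i).card : ℝ) else 0) + l := by
        intro j hj
        by_cases e : j = i
        · simp [e, hl]
        · simpa [e] using hFF i hi j hj (Ne.symm e)
      refine (sum_le_sum h6).trans ?_
      rw [sum_add_distrib, sum_ite_eq' I i, if_pos hi, sum_const, nsmul_eq_mul]
    refine (sum_le_sum h5).trans ?_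
    rw [sum_add_distrib, sum_const, nsmul_eq_mul, ← hs]
    linarith [sq (I.card : ℝ)]
  have h7 : s ^ 2 ≤ V * (s + (I.card : ℝ) ^ 2 * l) := by
    have h8 : s ^ 2 ≤ Ω.card * ∑ w ∈ Ω, (∑ i ∈ I, g i w) ^ 2 := by
      rw [h3]; exact sq_sum_le_card_mul_sum_sq
    refine h8.trans (mul_le_mul hV h4 (sum_nonneg fun _ _ => sq_nonneg _) hV0)
  have h9 : (I.card : ℝ) * τ ≤ s := by
    rw [← nsmul_eq_mul]; exact card_nsmul_le_sum _ _ _ fun i hi => (hF i hi).2
  have h10 : 0 ≤ (I.card : ℝ) * τ := by positivity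
  have h11 : 2 * (V * ((I.card : ℝ) ^ 2 * l)) ≤ s ^ 2 := by
    calc 2 * (V * ((I.card : ℝ) ^ 2 * l)) = (I.card : ℝ) ^ 2 * (2 * V * l) := by ring
      _ ≤ (I.card : ℝ) ^ 2 * τ ^ 2 := mul_le_mul_of_nonneg_left hVl (by positivity)
      _ = ((I.card : ℝ) * τ) ^ 2 := by ring
      _ ≤ s ^ 2 := pow_le_pow_left₀ h10 h9 2
  rw [le_div_iff₀ hτ]
  by_contra hc
  have h12 : 2 * V < s := by linarith [not_le.1 hc]
  nlinarith

theorem s_Com : S_Com := by
  intro y x ρ ρ' A hy h1 h2 hne hA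
  set N : ℤ := (ρ.den : ℤ) * ρ'.num - (ρ'.den : ℤ) * ρ.num with hN
  have hN0 : N ≠ 0 := by
    intro e
    apply hne
    rw [Rat.eq_iff_mul_eq_mul]
    linarith
  have hd : (pr A : ℤ) ∣ N := by
    rw [pr_dvd_iff fun p hp => (hA p hp).1]
    intro p hp
    obtain ⟨-, a, b⟩ := hA p hp
    have : N = (ρ'.den : ℤ) * ((ρ.den : ℤ) * x - ρ.num) - (ρ.den : ℤ) * ((ρ'.den : ℤ) * x - ρ'.num) := by
      rw [hN]; ring
    rw [this]
    exact dvd_sub (Dvd.dvd.mul_left a _) (Dvd.dvd.mul_left b _)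
  have hle : (pr A : ℤ) ≤ |N| := Int.le_of_dvd (abs_pos.2 hN0) ((dvd_abs _ _).2 hd)
  have hb : |N| ≤ 2 * (y : ℤ) ^ 6 := by
    have a1 : (ρ.den : ℤ) ≤ (y : ℤ) ^ 3 := by exact_mod_cast h1.2
    have a2 : (ρ'.den : ℤ) ≤ (y : ℤ) ^ 3 := by exact_mod_cast h2.2
    have a3 : |(ρ.den : ℤ) * ρ'.num| ≤ (y : ℤ) ^ 3 * (y : ℤ) ^ 3 := by
      rw [abs_mul, abs_of_nonneg (by positivity : (0 : ℤ) ≤ ρ.den)]
      exact mul_le_mul a1 h2.1 (abs_nonneg _) (by positivity)
    have a4 : |(ρ'.den : ℤ) * ρ.num| ≤ (y : ℤ) ^ 3 * (y : ℤ) ^ 3 := by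
      rw [abs_mul, abs_of_nonneg (by positivity : (0 : ℤ) ≤ ρ'.den)]
      exact mul_le_mul a2 h1.1 (abs_nonneg _) (by positivity)
    have a5 := abs_sub ((ρ.den : ℤ) * ρ'.num) ((ρ'.den : ℤ) * ρ.num)
    have : (y : ℤ) ^ 6 = (y : ℤ) ^ 3 * (y : ℤ) ^ 3 := by ring
    rw [this]; linarith
  have h3 : 2 ^ A.card ≤ pr A := by
    rw [pr]; exact pow_card_le_prod _ _ _ fun p hp => (hA p hp).1.two_le
  have h4 : (2 : ℝ) ^ A.card ≤ 2 * (y : ℝ) ^ 6 := by
    have : (2 : ℤ) ^ A.card ≤ 2 * (y : ℤ) ^ 6 := le_trans (by exact_mod_cast h3) (hle.trans hb)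
    exact_mod_cast this
  have hy' : (3 : ℝ) ≤ y := by exact_mod_cast hy
  have h5 := log_le_log (by positivity) h4
  rw [log_mul (by norm_num) (by positivity), log_pow, log_pow] at h5
  have h6 : 1 ≤ log (y : ℝ) := by
    rw [le_log_iff_exp_le (by linarith)]
    exact exp_one_lt_three.le.trans hy'
  have h7 := log_two_gt_d9
  have h8 := log_two_lt_d9
  rw [L]
  push_cast at h5
  by_contra hc
  have h9 := not_le.1 hc
  nlinarith

/-- few rationals are rich in a given box -/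
theorem rich_box (hJohn : S_John) (hCom : S_Com) {y b : ℕ} (x : ℤ) (hy : 3 ≤ y)
    (hD : (DD y : ℝ) ≤ Qb y b) (hL : 60 * L y ≤ DD y) (R : Finset ℚ)
    (hR : ∀ ρ ∈ R, Ht y ρ ∧ Qb y b ^ (0.7 : ℝ) ≤ (((box y b).filter (Hit x ρ)).card : ℝ)) :
    (R.card : ℝ) ≤ 6 * Qb y b / DD y := by
  have hQ := Qb_pos y b
  have hD1 : (1 : ℝ) ≤ DD y := by exact_mod_cast DD_pos y
  have hQ1 : 1 ≤ Qb y b := hD1.trans hD
  have hL0 : 0 ≤ L y := log_natCast_nonneg y
  have hτ1 : 1 ≤ Qb y b ^ (0.7 : ℝ) := one_le_rpow hQ1 (by norm_num)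
  have h1 := hJohn (box y b) R (fun ρ => (box y b).filter (Hit x ρ)) (Vb y b) (Qb y b ^ (0.7 : ℝ))
    (10 * L y) (by linarith) (by linarith) (card_box hD) ?_
    (fun ρ hρ => ⟨filter_subset _ _, (hR ρ hρ).2⟩) ?_
  · refine h1.trans ?_
    rw [div_le_iff₀ (by linarith), Vb]
    have : 0 ≤ 6 * Qb y b / DD y := by positivity
    have h2 : 2 * (3 * Qb y b / DD y) = 6 * Qb y b / DD y := by ring
    rw [h2]
    exact le_mul_of_one_le_right this hτ1
  · have h2 : Qb y b ≤ (Qb y b ^ (0.7 : ℝ)) ^ 2 := by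
      rw [← rpow_natCast, ← rpow_mul hQ.le]
      calc Qb y b = Qb y b ^ (1 : ℝ) := (rpow_one _).symm
        _ ≤ _ := rpow_le_rpow_of_exponent_le hQ1 (by norm_num)
    refine le_trans ?_ h2
    have h3 : 2 * Vb y b * (10 * L y) = Qb y b * (60 * L y / DD y) := by rw [Vb]; ring
    rw [h3]
    exact mul_le_of_le_one_right hQ.le ((div_le_one (by linarith)).2 hL)
  · intro i hi j hj hij
    refine hCom y x i j _ hy (hR i hi).1 (hR j hj).1 hij fun p hp => ?_
    obtain ⟨a, c⟩ := mem_inter.1 hp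
    exact ⟨(mem_box.1 (mem_filter.1 a).1).1, (mem_filter.1 a).2, (mem_filter.1 c).2⟩

/-- few rationals are rich -/
theorem rich_card (hJohn : S_John) (hCom : S_Com) : ∀ᶠ y : ℕ in atTop, ∀ (x : ℤ) (R : Finset ℚ),
    (∀ ρ ∈ R, Rich y x ρ) → (R.card : ℝ) ≤ exp (4 * (B y : ℝ) ^ (r y + 2)) := by
  filter_upwards [eventually_ge_atTop 3, ev_L_G 60 1, ev_L 1, ev_G_B 5, ev_logB] with y hy h1 h2 h3 h4
  intro x R hR
  rw [pow_one] at h1
  have hB : (2 : ℝ) ≤ B y := by exact_mod_cast h4.1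
  have hG : 2 ≤ G y := by linarith
  have hD0 : (0 : ℝ) < DD y := by exact_mod_cast DD_pos y
  have hG4 : G y ≤ G y ^ 4 := le_self_pow₀ (by linarith) (by norm_num)
  have hL : 60 * L y ≤ DD y := h1.trans (hG4.trans (DD_ge y))
  have hDG : (DD y : ℝ) ≤ G y ^ 5 := by
    have := DD_le y
    rw [pow_succ]; nlinarith
  set W : ℝ := (B y : ℝ) ^ (r y + 2) with hW
  have hW1 : 1 ≤ W := one_le_pow₀ (by linarith)
  set Rb : ℕ → Finset ℚ := fun b => R.filter (fun ρ => Ht y ρ ∧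
    Qb y b ^ (0.7 : ℝ) ≤ (((box y b).filter (Hit x ρ)).card : ℝ)) with hRb
  have hsub : R ⊆ (Ioc (aa y (r y)) (aa y (r y + 1))).biUnion Rb := by
    intro ρ hρ
    obtain ⟨a, b, c, d⟩ := hR ρ hρ
    exact mem_biUnion.2 ⟨b, mem_Ioc.2 c, mem_filter.2 ⟨hρ, a, d⟩⟩
  have h5 : ∀ b ∈ Ioc (aa y (r y)) (aa y (r y + 1)), ((Rb b).card : ℝ) ≤ 6 * exp W / DD y := by
    intro b hb
    have hw : Win y (r y) b := mem_Ioc.1 hb
    obtain ⟨a, c⟩ := win_Qb hw
    have hD : (DD y : ℝ) ≤ Qb y b := by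
      refine hDG.trans (h3.trans (le_trans (exp_le_exp.2 ?_) a))
      have := le_self_pow₀ (by linarith : (1 : ℝ) ≤ B y) (by omega : r y + 1 ≠ 0)
      linarith
    refine (rich_box hJohn hCom x hy hD hL (Rb b) fun ρ hρ => (mem_filter.1 hρ).2).trans ?_
    refine div_le_div_of_nonneg_right ?_ hD0.le
    have : Qb y b ≤ exp ((b : ℝ) / DD y) :=
      exp_le_exp.2 (div_le_div_of_nonneg_right (by linarith) hD0.le)
    linarith
  have h6 : (R.card : ℝ) ≤ ∑ b ∈ Ioc (aa y (r y)) (aa y (r y + 1)), ((Rb b).card : ℝ) := by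
    exact_mod_cast (card_le_card hsub).trans card_biUnion_le
  refine h6.trans ((sum_le_card_nsmul _ _ _ h5).trans ?_)
  rw [nsmul_eq_mul]
  have h7 : ((Ioc (aa y (r y)) (aa y (r y + 1))).card : ℝ) ≤ DD y * W := by
    have : (Ioc (aa y (r y)) (aa y (r y + 1))).card ≤ aa y (r y + 1) := by
      rw [Nat.card_Ioc]; omega
    have h8 : (aa y (r y + 1) : ℝ) = DD y * W := by rw [aa, hW]; push_cast; ring
    rw [← h8]; exact_mod_cast this
  refine (mul_le_mul_of_nonneg_right h7 (by positivity)).trans ?_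
  have h9 : DD y * W * (6 * exp W / DD y) = 6 * W * exp W := by field_simp
  have h10 : W ≤ exp W := by linarith [add_one_le_exp W]
  have h11 : 2 ≤ exp W := by linarith [add_one_le_exp W]
  have h12 : exp (4 * W) = exp W * exp W * exp W * exp W := by
    rw [← exp_add, ← exp_add, ← exp_add]; ring_nf
  have h13 : 2.5 ≤ exp W := by
    have := exp_one_gt_d9
    have := exp_le_exp.2 hW1
    linarith
  rw [h9, h12]
  have h14 : 6 ≤ exp W * exp W := by nlinarith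
  have h15 : 6 * W ≤ exp W * exp W * exp W := mul_le_mul h14 h10 (by linarith) (by positivity)
  exact mul_le_mul_of_nonneg_right h15 (exp_pos _).le

theorem s_NU (hJohn : S_John) (hCom : S_Com) : S_NU := by
  filter_upwards [rich_card hJohn hCom, eventually_ge_atTop 3, ev_B_r (e := 0.1) (by norm_num),
    ev_L_rpow 16 (a := 0.1) (b := 1 / 2) (by norm_num), ev_L 3840] with y h1 hy h2 h3 h4
  intro x A hA
  have hex : ∀ p : ℕ, ∃ q : ℚ × ℚ, p ∈ A → Rich y x q.1 ∧ Rich y x q.2 ∧ Hit x q.1 p ∧ Hit x q.2 p ∧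
      q.1 ≠ q.2 := by
    intro p
    by_cases hp : p ∈ A
    · have := (hA p hp).2
      simp only [Uniq, not_forall] at this
      obtain ⟨ρ, ρ', a, b, c, d, e⟩ := this
      exact ⟨(ρ, ρ'), fun _ => ⟨a, b, c, d, e⟩⟩
    · exact ⟨(0, 0), fun h => absurd h hp⟩
  choose f hf using hex
  set R : Finset ℚ := A.image (fun p => (f p).1) ∪ A.image (fun p => (f p).2) with hR
  have hRR : ∀ ρ ∈ R, Rich y x ρ := by
    intro ρ hρ
    rcases mem_union.1 hρ with a | a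
    · obtain ⟨p, hp, rfl⟩ := mem_image.1 a; exact (hf p hp).1
    · obtain ⟨p, hp, rfl⟩ := mem_image.1 a; exact (hf p hp).2.1
  have h5 := h1 x R hRR
  set Ab : ℚ × ℚ → Finset ℕ := fun q => A.filter (fun p => f p = q) with hAb
  have hsub : A ⊆ (R ×ˢ R).biUnion Ab := by
    intro p hp
    refine mem_biUnion.2 ⟨f p, mem_product.2 ⟨?_, ?_⟩, mem_filter.2 ⟨hp, rfl⟩⟩
    · exact mem_union_left _ (mem_image_of_mem _ hp)
    · exact mem_union_right _ (mem_image_of_mem _ hp)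
  have hL0 : 0 ≤ L y := by linarith
  have h6 : ∀ q ∈ R ×ˢ R, ((Ab q).card : ℝ) ≤ 10 * L y := by
    intro q hq
    rcases (Ab q).eq_empty_or_nonempty with e | ⟨p, hp⟩
    · rw [e]; simp only [card_empty, Nat.cast_zero]; linarith
    obtain ⟨hp1, rfl⟩ := mem_filter.1 hp
    obtain ⟨a, b, -, -, e⟩ := hf p hp1
    refine hCom y x (f p).1 (f p).2 _ hy a.1 b.1 e fun p' hp' => ?_
    obtain ⟨hp2, e'⟩ := mem_filter.1 hp'
    obtain ⟨-, -, c, d, -⟩ := hf p' hp2
    rw [e'] at c d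
    exact ⟨(hA p' hp2).1, c, d⟩
  have h7 : (A.card : ℝ) ≤ ∑ q ∈ R ×ˢ R, ((Ab q).card : ℝ) := by
    exact_mod_cast (card_le_card hsub).trans card_biUnion_le
  refine h7.trans ((sum_le_card_nsmul _ _ _ h6).trans ?_)
  rw [nsmul_eq_mul, card_product, Nat.cast_mul]
  rw [← sqrt_eq_rpow] at h3
  have h8 : (R.card : ℝ) * R.card ≤ exp (√(L y) / 2) := by
    refine (mul_le_mul h5 h5 (by positivity) (exp_pos _).le).trans ?_
    rw [← exp_add]; exact exp_le_exp.2 (by linarith)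
  have h9 : 10 * L y ≤ exp (√(L y) / 2) := by
    have h10 := pow_div_factorial_le_exp (√(L y) / 2) (by positivity) 4
    have h11 : (√(L y) / 2) ^ 4 = L y ^ 2 / 16 := by
      rw [div_pow, show 4 = 2 * 2 by norm_num, pow_mul, sq_sqrt hL0]; norm_num
    rw [h11] at h10
    have h12 : ((Nat.factorial 4 : ℕ) : ℝ) = 24 := by norm_num [Nat.factorial]
    rw [h12] at h10
    nlinarith
  calc (R.card : ℝ) * R.card * (10 * L y) ≤ exp (√(L y) / 2) * exp (√(L y) / 2) :=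
        mul_le_mul h8 h9 (by positivity) (exp_pos _).le
    _ = exp √(L y) := by rw [← exp_add]; ring_nf

end Jac
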