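import Vale.Agent.P013.Gro

/-! The remainder terms of low level. -/

noncomputable section
namespace Jac
open Finset Real Filter
open scoped Classical

theorem low_A {y u d : ℕ} {x : ℤ} (hu : Uniq y x u) (hd : u ∣ d) (hK : 1 ≤ H y) :
    |A1 y x d - A0 (H y) x d| ≤ 1 := by
  have hK' : (0 : ℝ) < H y := by exact_mod_cast hK
  rw [A1, A0, av, av, ← sub_div, ← sum_sub_distrib, abs_div, abs_of_pos hK', div_le_one hK']
  refine (abs_sum_le_sum_abs _ _).trans ((sum_le_card_nsmul _ _ 1 fun a _ => ?_).trans (by simp))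
  rw [← sum_sub_distrib]
  refine (abs_sum_le_sum_abs _ _).trans ?_
  have h1 : ((range (H y)).filter
      (fun b : ℕ => (d : ℤ) ∣ ((a + b : ℕ) : ℤ) + x ∧ Sp y x (a + b))).card ≤ 1 := by
    refine card_le_one.2 fun b hb b' hb' => ?_
    have h2 : ∀ n : ℕ, (d : ℤ) ∣ (n : ℤ) + x → Hit x (-(n : ℚ)) u := fun n hn => by
      have h3 := (Int.natCast_dvd_natCast.2 hd).trans hn
      simpa [Hit, add_comm] using h3
    obtain ⟨h3, h4⟩ := (mem_filter.1 hb).2
    obtain ⟨h5, h6⟩ := (mem_filter.1 hb').2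
    have h7 := hu _ _ h4 h6 (h2 _ h3) (h2 _ h5)
    have h8 : a + b = a + b' := by exact_mod_cast neg_injective h7
    omega
  refine le_trans (le_of_eq ?_) (show ((_ : ℕ) : ℝ) ≤ 1 by exact_mod_cast h1)
  rw [card_filter]
  push_cast
  refine sum_congr rfl fun b _ => ?_
  by_cases h2 : (d : ℤ) ∣ (a : ℤ) + b + x <;> by_cases h3 : Sp y x (a + b) <;> simp [h2, h3]

theorem low_pr (hRem : S_Rem) {ε : ℕ} {l : ℝ} {S : Finset ℕ} (hε : ε ≤ 1) (hl : 0 ≤ l)
    (hS : ∀ q ∈ S, q.Prime) (h1 : ∀ p, S = {p} → log p ≤ l) (ha : Alive ε (C0 l) S) :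
    log (pr S) ≤ l := by
  rcases S.eq_empty_or_nonempty with rfl | hne
  · simpa [pr] using hl
  by_cases hc : S.card = 1
  · obtain ⟨p, rfl⟩ := card_eq_one.1 hc
    simpa [pr] using h1 p rfl
  · have h2 := (hRem ε l S hε hS (fun h => absurd h hc) ha _ (S.min'_mem hne)
      fun q hq => S.min'_le q hq).1
    linarith [log_natCast_nonneg (S.min' hne)]

theorem low_term (hFour : S_Four) {y d : ℕ} (x : ℤ) (hK : 1 ≤ H y) (hd : 1 ≤ d)
    (hX : exp (l0 y) ≤ H y) (h : log d ≤ l0 y) :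
    (d : ℝ) ≤ exp (l0 y) ∧ |A0 (H y) x d - (H y : ℝ) / d| ≤ 1 := by
  have h1 : (d : ℝ) ≤ exp (l0 y) := (log_le_iff_le_exp (by exact_mod_cast hd)).1 h
  refine ⟨h1, (hFour _ _ x hK hd).1.trans ?_⟩
  rw [div_le_one (by exact_mod_cast hK)]
  exact h1.trans hX

theorem low_nsum (hFour : S_Four) {y J : ℕ} {x : ℤ} {E : Finset ℕ} (hE : EE y J x E)
    (F : ℕ → Finset ℕ → Finset (Finset ℕ)) (hK : 1 ≤ H y) (hX : exp (l0 y) ≤ H y) {c₁ c₂ : ℝ}
    (h1 : ∑ u ∈ E, 1 / (u : ℝ) ≤ c₁)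
    (h2 : ∀ u ∈ E, ∑ N ∈ Nd y J x (gg u), 1 / (pr N : ℝ) ≤ 1)
    (h3 : ∏ p ∈ PP y, (1 + 1 / (p : ℝ)) ≤ c₂)
    (hF : ∀ u ∈ E, ∀ N ∈ Nd y J x (gg u), ∀ S ∈ F u N, S ⊆ PP y ∧
      log (pr S) ≤ l0 y - log u - log (pr N)) :
    nsum y J x E F (fun _ d => |A1 y x d - (H y : ℝ) / d|) ≤ 2 * exp (l0 y) * c₂ * c₁ := by
  have hc : 0 ≤ c₂ := le_trans (prod_nonneg fun _ _ => by positivity) h3
  refine le_trans (sum_le_sum fun u hu => ?_ : _ ≤ ∑ u ∈ E, 2 * exp (l0 y) * c₂ * (1 / (u : ℝ))) ?_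
  · obtain ⟨hp, -, -, hq⟩ := hE.1 u hu
    have hu0 : (0 : ℝ) < u := by exact_mod_cast hp.pos
    refine le_trans (sum_le_sum fun N hN => ?_ : _ ≤ ∑ N ∈ Nd y J x (gg u),
      2 * exp (l0 y) * c₂ * (1 / (u : ℝ)) * (1 / (pr N : ℝ))) ?_
    · have hN0 : 0 < pr N := pr_pos fun p hp' =>
        (mem_PP.1 (mem_filter.1 ((mem_powersetCard.1 hN).1 hp')).1).1
      have hN1 : (0 : ℝ) < pr N := by exact_mod_cast hN0
      refine le_trans (sum_le_sum fun S hS => ?_ : _ ≤ ∑ S ∈ F u N,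
        2 * exp (l0 y) * (1 / (u : ℝ)) * (1 / (pr N : ℝ)) * (1 ^ S.card / (pr S : ℝ))) ?_
      · obtain ⟨h4, h5⟩ := hF u hu N hN S hS
        have hS0 : 0 < pr S := pr_pos fun p hp' => (mem_PP.1 (h4 hp')).1
        have hS1 : (0 : ℝ) < pr S := by exact_mod_cast hS0
        obtain ⟨h6, h7⟩ := low_term hFour (d := u * pr N * pr S) x hK
          (Nat.mul_pos (Nat.mul_pos hp.pos hN0) hS0) hX (by
            push_cast
            rw [log_mul (by positivity) hS1.ne', log_mul hu0.ne' hN1.ne']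
            linarith)
        have h8 := low_A (d := u * pr N * pr S) hq ((dvd_mul_right _ _).mul_right _) hK
        have h9 := abs_sub_le (A1 y x (u * pr N * pr S)) (A0 (H y) x (u * pr N * pr S))
          ((H y : ℝ) / (u * pr N * pr S : ℕ))
        have h10 : 1 ≤ exp (l0 y) / (u * pr N * pr S) := by
          rw [one_le_div (by positivity)]
          exact_mod_cast h6
        calc _ ≤ 2 * (exp (l0 y) / (u * pr N * pr S)) := by linarith
          _ = _ := by rw [one_pow]; field_simp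
      · rw [← mul_sum]
        have h4 : ∑ S ∈ F u N, 1 ^ S.card / (pr S : ℝ) ≤ c₂ := by
          refine le_trans (sum_le_sum_of_subset_of_nonneg
            (fun S hS => mem_powerset.2 (hF u hu N hN S hS).1) fun _ _ _ => by positivity) ?_
          rw [sum_inv_pr]
          exact h3
        calc _ ≤ 2 * exp (l0 y) * (1 / (u : ℝ)) * (1 / (pr N : ℝ)) * c₂ := by gcongr
          _ = _ := by ring
    · rw [← mul_sum]
      exact mul_le_of_le_one_right (by positivity) (h2 u hu)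
  · rw [← mul_sum]
    gcongr

theorem low_first (hFour : S_Four) (hRem : S_Rem) {y : ℕ} (x : ℤ) (hK : 1 ≤ H y)
    (hX : exp (l0 y) ≤ H y) (hl : 0 ≤ l0 y) (hz : z y ≤ exp (l0 y)) :
    ∑ S ∈ Fam 0 (C0 (l0 y)) (PP (z y)), |A0 (H y) x (pr S) - (H y : ℝ) / pr S| ≤ exp (l0 y) := by
  have hp : ∀ S ∈ Fam 0 (C0 (l0 y)) (PP (z y)), ∀ q ∈ S, q.Prime := fun S hS q hq =>
    (mem_PP.1 ((mem_Fam.1 hS).1 hq)).1
  have h1 : ∀ S ∈ Fam 0 (C0 (l0 y)) (PP (z y)), (pr S : ℝ) ≤ exp (l0 y) ∧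
      |A0 (H y) x (pr S) - (H y : ℝ) / pr S| ≤ 1 := fun S hS =>
    low_term hFour x hK (pr_pos (hp S hS)) hX (low_pr hRem zero_le_one hl (hp S hS) (fun p e => by
      obtain ⟨h2, h3⟩ := mem_PP.1 ((mem_Fam.1 hS).1 (e ▸ mem_singleton_self p))
      exact (log_le_iff_le_exp (by exact_mod_cast h2.pos)).2 (h3.trans hz)) (mem_Fam.1 hS).2)
  refine (sum_le_card_nsmul _ _ 1 fun S hS => (h1 S hS).2).trans ?_
  have h2 : (Fam 0 (C0 (l0 y)) (PP (z y))).card ≤ (Icc 1 ⌊exp (l0 y)⌋₊).card :=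
    card_le_card_of_injOn pr
      (fun S hS => mem_coe.2 (mem_Icc.2 ⟨pr_pos (hp S hS), Nat.le_floor (h1 S hS).1⟩))
      fun S hS S' hS' e => pr_inj (hp S hS) (hp S' hS') e
  rw [Nat.card_Icc, Nat.add_sub_cancel] at h2
  rw [nsmul_eq_mul, mul_one]
  exact (Nat.cast_le.2 h2).trans (Nat.floor_le (exp_pos _).le)

theorem s_Low (hFour : S_Four) (hRem : S_Rem) (hGeo : S_Geo) (hMass : S_Mass) (hM : S_M)
    (hRule : S_Rule) : S_Low := by
  intro J hJ
  obtain ⟨C, hC, -, hM2, -, hM4, -⟩ := hM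
  obtain ⟨c, -, hMs⟩ := hMass J hJ
  have hJ0 : (3 : ℝ) ≤ J := by exact_mod_cast hJ
  filter_upwards [hGeo J hJ, hMs, ev_L (max 3 J), ev_T (1 + 4 * exp C * (log J + C)), ev_T 3,
    ev_TlogT 1, ev_kap_T 1, ev_T_pow 4 2 one_pos, eventually_ge_atTop 3]
    with y ⟨hG1, hG2⟩ hMs hL hT hT3 h1 h2 h3 hy x E hE
  have hL3 : 3 ≤ L y := (le_max_left _ _).trans hL
  have hLJ : (J : ℝ) ≤ L y := (le_max_right _ _).trans hL
  rw [rpow_one] at h3
  have hy1 : 1 ≤ y := by omega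
  have hy3 : (3 : ℝ) ≤ y := by exact_mod_cast hy
  have hX : exp (l0 y) = y / L y ^ 3 := by
    rw [l0, exp_sub, exp_L hy1, show 3 * T y = (3 : ℕ) * T y by norm_num, exp_nat_mul,
      exp_T (by linarith)]
  have hK : 1 ≤ H y := by unfold H; omega
  have hXH : exp (l0 y) ≤ H y := by
    have h4 : (y : ℝ) ≤ 3 * H y := by exact_mod_cast (by unfold H; omega : y ≤ 3 * H y)
    have h5 : (3 : ℝ) ≤ L y ^ 3 := hL3.trans (le_self_pow₀ (by linarith) (by norm_num))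
    rw [hX, div_le_iff₀ (by positivity)]
    nlinarith [(by positivity : (0 : ℝ) ≤ H y)]
  have hl : 0 ≤ l0 y := by unfold l0; nlinarith
  have hz : z y ≤ exp (l0 y) := by
    rw [z, sqrt_eq_rpow, rpow_eq hy1, ← exp_add]
    refine exp_le_exp.2 ?_
    unfold l0
    nlinarith
  have hzy : exp (l0 y) ≤ y := by
    rw [← exp_L hy1]
    exact exp_le_exp.2 (by unfold l0; linarith)
  have hs : 1 ≤ 1 / (J : ℝ) * L y := by
    rw [one_div, inv_mul_eq_div, one_le_div (by linarith)]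
    exact hLJ
  have hE1 : ∑ u ∈ E, 1 / (u : ℝ) ≤ log J + C := by
    have h4 := hM2 ((y : ℝ) ^ (1 / (J : ℝ))) y (by
      rw [rpow_eq hy1]
      linarith [add_one_le_exp (1 / (J : ℝ) * L y)]) (by
      refine rpow_le_self_of_one_le (by linarith) ?_
      rw [div_le_one (by linarith)]
      linarith)
    refine le_trans (sum_le_sum_of_subset_of_nonneg (fun u hu => ?_) fun _ _ _ => by positivity)
      ((sub_le_iff_le_add'.1 (abs_le.1 h4).2).trans ?_)
    · obtain ⟨h5, h6, h7, -⟩ := hE.1 u hu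
      exact mem_filter.2 ⟨mem_PP.2 ⟨h5, h7.trans (hz.trans hzy)⟩, h6⟩
    · rw [rpow_eq hy1, log_exp]
      have h5 : log y / (1 / (J : ℝ) * L y) = J := by
        change L y / _ = _
        field_simp
      rw [h5]
      exact add_le_add_right (div_le_self hC.le (one_le_pow₀ hs)) _
  have hP : ∏ p ∈ PP y, (1 + 1 / (p : ℝ)) ≤ exp C * L y := by
    have h4 := (abs_le.1 (hM4 y (by linarith))).2
    rw [← exp_T (y := y) (by linarith), ← exp_add]
    refine le_trans (prod_le_prod (fun _ _ => by positivity) fun p _ => ?_ :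
      _ ≤ ∏ p ∈ PP y, exp (1 / (p : ℝ))) ?_
    · linarith [add_one_le_exp (1 / (p : ℝ))]
    · rw [← exp_sum]
      refine exp_le_exp.2 ?_
      change _ - T y ≤ _ at h4
      linarith
  have hgeo : ∀ u ∈ E, log u ≤ gg u ∧ Un y J (gg u) ⊆ PP y ∧
      ∀ N ∈ Nd y J x (gg u), 0 ≤ l0 y - gg u - log (pr N) := fun u hu => by
    obtain ⟨-, h5, h6, -⟩ := hE.1 u hu
    obtain ⟨h7, -, h8⟩ := hG1 u h5 h6
    obtain ⟨h9, h10, h11, h12⟩ := hG2 _ h7
    have hv : 0 ≤ vv y J (gg u) := le_trans (by positivity) h9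
    refine ⟨h8, fun p hp => ?_, fun N hN => by linarith [(h12 x N hN).1]⟩
    refine mem_PP.2 ⟨(mem_PP.1 hp).1, (mem_PP.1 hp).2.trans ?_⟩
    rw [← exp_L hy1]
    refine exp_le_exp.2 ?_
    have h13 : 0 ≤ 1 / (4 * (J : ℝ)) * vv y J (gg u) := by positivity
    unfold lo
    linarith
  have hN : ∀ u ∈ E, ∑ N ∈ Nd y J x (gg u), 1 / (pr N : ℝ) ≤ 1 := fun u hu =>
    (hMs x _ (hG1 u (hE.1 u hu).2.1 (hE.1 u hu).2.2.1).1).2
  have a1 := low_first hFour hRem x hK hXH hl hz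
  have a2 := low_nsum hFour hE (U0 y J) hK hXH hE1 hN hP fun u hu N hN S hS => by
    obtain ⟨h5, h6, h7⟩ := hgeo u hu
    obtain ⟨h8, h9⟩ := mem_Fam.1 hS
    have hp : ∀ q ∈ S, q.Prime := fun q hq => (mem_PP.1 (h8 hq)).1
    refine ⟨h8.trans h6, low_pr hRem le_rfl (by linarith [h7 N hN]) hp (fun p e => ?_) h9⟩
    subst e
    have h10 : up {p} p = {p} := by simp [up]
    have h11 := h9 p (mem_singleton_self p) (by rw [h10]; rfl)
    have h12 : (1 : ℝ) ≤ p := by exact_mod_cast (hp p (mem_singleton_self p)).pos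
    rw [h10, C0, pr, prod_singleton] at h11
    exact (log_le_iff_le_exp (by linarith)).2
      ((le_mul_of_one_le_right (by linarith) (one_le_pow₀ h12)).trans h11)
  have a3 := low_nsum hFour hE (fun u => Lo y J (gg u)) hK hXH hE1 hN hP fun u hu N hN S hS => by
    obtain ⟨h5, h6, h7⟩ := hgeo u hu
    obtain ⟨h8, h9⟩ := mem_filter.1 hS
    have h10 := (mem_Fam.1 h8).1
    have hD : (0 : ℝ) < DD y := by exact_mod_cast DD_pos y
    refine ⟨h10.trans h6, ?_⟩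
    have h11 : ((∑ q ∈ S, be y q : ℕ) : ℝ) ≤ DD y * (l0 y - gg u - log (pr N)) :=
      (Nat.cast_le.2 (not_lt.1 h9)).trans (Nat.floor_le (mul_nonneg hD.le (h7 N hN)))
    have h12 : DD y * log (pr S) ≤ ((∑ q ∈ S, be y q : ℕ) : ℝ) := by
      rw [log_pr fun q hq => (mem_PP.1 (h10 hq)).1, mul_sum, Nat.cast_sum]
      exact sum_le_sum fun q _ => be_ge y q
    linarith [le_of_mul_le_mul_left (h12.trans h11) hD]
  have e1 : exp (l0 y) * L y = y / L y ^ 2 := by rw [hX]; field_simp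
  have e2 : exp (l0 y) ≤ y / L y ^ 2 := e1 ▸ le_mul_of_one_le_right (exp_pos _).le (by linarith)
  have e3 : y / L y ^ 2 * (1 + 4 * exp C * (log J + C)) ≤ y / L y ^ 2 * T y := by gcongr
  have e4 : 2 * exp (l0 y) * (exp C * L y) * (log J + C) =
      2 * (y / L y ^ 2) * exp C * (log J + C) := by rw [← e1]; ring
  rw [mul_div_right_comm]
  linarith

end Jac
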