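import Vale.Agent.P013.Gro

/-! Estimates of Mertens type, with error terms from the prime number theorem. -/

noncomputable section
namespace Jac
open Finset Real Filter MeasureTheory
open scoped Classical

/-- logarithm on primes -/
def mlg (k : ℕ) : ℝ := if k.Prime then log k else 0

theorem m_theta (hP : PNTAP) : ∃ c : ℝ, 0 < c ∧ ∃ C : ℝ, 0 < C ∧ ∀ u : ℝ, 1 ≤ u →
    |∑ k ∈ Icc 0 ⌊u⌋₊, mlg k - u| ≤ C * u ^ (1 - c) := by
  obtain ⟨c, hc, C, h⟩ := hP
  refine ⟨min c 1, lt_min hc one_pos, |C| + 1, by positivity, fun u hu => ?_⟩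
  have h1 : 1 ≤ ⌊u⌋₊ := (Nat.one_le_floor_iff _).2 hu
  have h2 := h ⌊u⌋₊ 1 1 le_rfl h1 (by simp)
  have e : ∑ p ∈ (Icc 1 ⌊u⌋₊).filter (fun p => p.Prime ∧ p ≡ 1 [MOD 1]), Real.log p =
      ∑ k ∈ Icc 0 ⌊u⌋₊, mlg k := by
    unfold mlg
    rw [← sum_filter]
    refine sum_congr ?_ fun _ _ => rfl
    ext p
    simp only [mem_filter, mem_Icc, Nat.modEq_one, and_true, zero_le, true_and]
    exact ⟨fun h => ⟨h.1.2, h.2⟩, fun h => ⟨⟨h.2.pos, h.1⟩, h.2⟩⟩
  rw [e] at h2
  simp only [Nat.totient_one, Nat.cast_one, div_one] at h2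
  have h1' : (1 : ℝ) ≤ ⌊u⌋₊ := by exact_mod_cast h1
  have hf : (⌊u⌋₊ : ℝ) ≤ u := Nat.floor_le (by linarith)
  have hf' : u < ⌊u⌋₊ + 1 := Nat.lt_floor_add_one u
  have hm : 0 ≤ 1 - min c 1 := by linarith [min_le_right c 1]
  have h3 : (⌊u⌋₊ : ℝ) ^ (1 - c) ≤ u ^ (1 - min c 1) :=
    (rpow_le_rpow_of_exponent_le h1' (by linarith [min_le_left c 1])).trans
      (rpow_le_rpow (by linarith) hf hm)
  have h4 : 1 ≤ u ^ (1 - min c 1) := one_le_rpow hu hm
  have h5 : C * (⌊u⌋₊ : ℝ) ^ (1 - c) ≤ |C| * u ^ (1 - min c 1) :=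
    mul_le_mul (le_abs_self C) h3 (by positivity) (abs_nonneg C)
  rw [abs_le] at h2 ⊢
  constructor <;> nlinarith [h2.1, h2.2]

theorem m_sum (f : ℝ → ℝ) {s t : ℝ} (hs : 0 ≤ s) :
    ∑ k ∈ Ioc ⌊s⌋₊ ⌊t⌋₊, f k * mlg k = ∑ p ∈ (PP t).filter (fun p : ℕ => s < p), f p * log p := by
  unfold mlg
  simp only [mul_ite, mul_zero]
  rw [← sum_filter]
  refine sum_congr ?_ fun _ _ => rfl
  ext p
  simp only [PP, mem_filter, mem_Ioc, mem_range, Nat.lt_succ_iff, Nat.floor_lt hs]
  tauto

theorem m_int {c s t : ℝ} (hc : 0 < c) (hs : 1 ≤ s) (hst : s ≤ t) :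
    ∫ u in s..t, u ^ (-1 - c) ≤ s ^ (-c) / c := by
  rw [integral_rpow (Or.inr ⟨by linarith, by
    rw [Set.uIcc_of_le hst]; intro h; linarith [h.1]⟩)]
  have e : -1 - c + 1 = -c := by ring
  rw [e]
  have h1 : 0 ≤ t ^ (-c) := rpow_nonneg (by linarith) _
  have e2 : (t ^ (-c) - s ^ (-c)) / -c = (s ^ (-c) - t ^ (-c)) / c := by
    rw [div_neg, ← neg_div, neg_sub]
  rw [e2]
  gcongr
  linarith

/-- Summation by parts with the error term of the prime number theorem. -/
theorem m_abel {c C : ℝ} (hc : 0 < c) (hC : 0 < C)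
    (hθ : ∀ u : ℝ, 1 ≤ u → |∑ k ∈ Icc 0 ⌊u⌋₊, mlg k - u| ≤ C * u ^ (1 - c))
    (f f' F : ℝ → ℝ) {s t K : ℝ} (hs : 1 ≤ s) (hst : s ≤ t)
    (hf : ∀ u ∈ Set.Icc s t, HasDerivAt f (f' u) u)
    (hF : ∀ u ∈ Set.Icc s t, HasDerivAt F (f u) u)
    (hf' : ContinuousOn f' (Set.Icc s t))
    (h0 : ∀ u ∈ Set.Icc s t, |f u| ≤ K / u) (h1 : ∀ u ∈ Set.Icc s t, |f' u| ≤ K / u ^ 2) :
    |∑ p ∈ (PP t).filter (fun p : ℕ => s < p), f p * log p - (F t - F s)| ≤
      C * K * s ^ (-c) * (2 + 1 / c) := by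
  have hs0 : 0 < s := by linarith
  have hK : 0 ≤ K := by
    have := (abs_nonneg _).trans (h0 s ⟨le_rfl, hst⟩)
    exact (div_nonneg_iff.1 this).elim (fun h => h.1) fun h => absurd h.2 (by linarith)
  have hd : ∀ u ∈ Set.Icc s t, deriv f u = f' u := fun u hu => (hf u hu).deriv
  have hi : IntegrableOn f' (Set.Icc s t) := hf'.integrableOn_Icc
  have hi' : IntegrableOn (deriv f) (Set.Icc s t) :=
    hi.congr_fun (fun u hu => (hd u hu).symm) measurableSet_Icc
  have hA := sum_mul_eq_sub_sub_integral_mul mlg hs0.le hst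
    (fun u hu => (hf u hu).differentiableAt) hi'
  rw [m_sum f hs0.le, setIntegral_congr_fun measurableSet_Ioc
    (g := fun u => f' u * ∑ k ∈ Icc 0 ⌊u⌋₊, mlg k)
    (fun u hu => by simp only [hd u (Set.Ioc_subset_Icc_self hu)]),
    ← intervalIntegral.integral_of_le hst] at hA
  set θ : ℝ → ℝ := fun u => ∑ k ∈ Icc 0 ⌊u⌋₊, mlg k with hθd
  have hiθ : IntervalIntegrable (fun u => f' u * θ u) volume s t :=
    (intervalIntegrable_iff_integrableOn_Icc_of_le hst).2 (integrableOn_mul_sum_Icc mlg hs0.le hi)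
  have hiu : IntervalIntegrable (fun u => f' u * u) volume s t :=
    (hf'.mul continuousOn_id).intervalIntegrable_of_Icc hst
  have hB : ∫ u in s..t, f' u * u = (f t * t - F t) - (f s * s - F s) := by
    refine intervalIntegral.integral_eq_sub_of_hasDerivAt (f := fun u => f u * u - F u)
      (fun u hu => ?_) hiu
    rw [Set.uIcc_of_le hst] at hu
    refine (((hf u hu).mul (hasDerivAt_id u)).sub (hF u hu)).congr_deriv ?_
    simp
  have hE : ∫ u in s..t, f' u * (θ u - u) = (∫ u in s..t, f' u * θ u) - ∫ u in s..t, f' u * u := by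
    rw [← intervalIntegral.integral_sub hiθ hiu]
    simp only [mul_sub]
  have key : ∑ p ∈ (PP t).filter (fun p : ℕ => s < p), f p * log p - (F t - F s) =
      f t * (θ t - t) - f s * (θ s - s) - ∫ u in s..t, f' u * (θ u - u) := by
    rw [hA, hE, hB]; ring
  have hb : ∀ u ∈ Set.Icc s t, |f u * (θ u - u)| ≤ C * K * s ^ (-c) := by
    intro u hu
    have hu1 : 1 ≤ u := hs.trans hu.1
    have hu0 : 0 < u := by linarith
    rw [abs_mul]
    calc |f u| * |θ u - u| ≤ K / u * (C * u ^ (1 - c)) :=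
          mul_le_mul (h0 u hu) (hθ u hu1) (abs_nonneg _) (by positivity)
      _ = C * K * u ^ (-c) := by
          rw [show 1 - c = -c + 1 by ring, rpow_add_one hu0.ne']; field_simp
      _ ≤ C * K * s ^ (-c) := by
          gcongr ?_ * ?_
          exact rpow_le_rpow_of_nonpos hs0 hu.1 (by linarith)
  have hI : |∫ u in s..t, f' u * (θ u - u)| ≤ C * K * (s ^ (-c) / c) := by
    have hr : IntervalIntegrable (fun u : ℝ => C * K * u ^ (-1 - c)) volume s t := by
      refine (intervalIntegral.intervalIntegrable_rpow (Or.inr ?_)).const_mul _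
      rw [Set.uIcc_of_le hst]; intro h; linarith [h.1]
    have := intervalIntegral.norm_integral_le_of_norm_le (f := fun u => f' u * (θ u - u)) hst
      (Eventually.of_forall fun u hu => ?_) hr
    · rw [intervalIntegral.integral_const_mul, Real.norm_eq_abs] at this
      refine this.trans ?_
      gcongr
      exact m_int hc hs hst
    · have hu' := Set.Ioc_subset_Icc_self hu
      have hu1 : 1 ≤ u := hs.trans hu'.1
      have hu0 : 0 < u := by linarith
      rw [Real.norm_eq_abs, abs_mul]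
      calc |f' u| * |θ u - u| ≤ K / u ^ 2 * (C * u ^ (1 - c)) :=
            mul_le_mul (h1 u hu') (hθ u hu1) (abs_nonneg _) (by positivity)
        _ = C * K * u ^ (-1 - c) := by
            rw [show 1 - c = (-1 - c) + (2 : ℕ) by push_cast; ring, rpow_add_natCast hu0.ne']
            field_simp
  rw [key]
  have a1 := hb t ⟨hst, le_rfl⟩
  have a2 := hb s ⟨le_rfl, hst⟩
  have e : C * K * s ^ (-c) * (2 + 1 / c) =
      C * K * s ^ (-c) + C * K * s ^ (-c) + C * K * (s ^ (-c) / c) := by ring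
  rw [e]
  rw [abs_le] at a1 a2 hI ⊢
  constructor <;> linarith [a1.1, a1.2, a2.1, a2.2, hI.1, hI.2]

theorem m_log_two : (1 : ℝ) / 2 < log 2 := by linarith [log_two_gt_d9]

theorem m_filter_one (t : ℝ) : (PP t).filter (fun p : ℕ => (1 : ℝ) < p) = PP t :=
  filter_true_of_mem fun p hp => by exact_mod_cast (mem_PP.1 hp).1.one_lt

theorem m_split (g : ℕ → ℝ) {t : ℝ} (ht : 2 ≤ t) :
    ∑ p ∈ PP t, g p = g 2 + ∑ p ∈ (PP t).filter (fun p : ℕ => (2 : ℝ) < p), g p := by
  have h : PP t = insert 2 ((PP t).filter (fun p : ℕ => (2 : ℝ) < p)) := by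
    ext p
    simp only [mem_insert, mem_filter, mem_PP]
    constructor
    · intro h
      rcases h.1.two_le.eq_or_lt with e | e
      · exact Or.inl e.symm
      · exact Or.inr ⟨h, by exact_mod_cast e⟩
    · rintro (rfl | h)
      · exact ⟨Nat.prime_two, by exact_mod_cast ht⟩
      · exact h.1
  conv_lhs => rw [h]
  rw [sum_insert (by simp)]

theorem m_part1 {c C : ℝ} (hc : 0 < c) (hC : 0 < C)
    (hθ : ∀ u : ℝ, 1 ≤ u → |∑ k ∈ Icc 0 ⌊u⌋₊, mlg k - u| ≤ C * u ^ (1 - c))
    (t : ℝ) (ht : 1 ≤ t) : |∑ p ∈ PP t, log p / p - log t| ≤ C * (2 + 1 / c) := by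
  have h := m_abel hc hC hθ (fun u => u⁻¹) (fun u => -(u ^ 2)⁻¹) log (K := 1) le_rfl ht
    (fun u hu => hasDerivAt_inv (by linarith [hu.1]))
    (fun u hu => hasDerivAt_log (by linarith [hu.1]))
    (ContinuousOn.neg (ContinuousOn.inv₀ (by fun_prop) fun u hu => by
      have : 0 < u := by linarith [hu.1]
      positivity))
    (fun u hu => by
      have : 0 < u := by linarith [hu.1]
      rw [abs_of_pos (by positivity), one_div])
    (fun u hu => by
      have : 0 < u := by linarith [hu.1]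
      rw [abs_neg, abs_of_pos (by positivity), one_div])
  rw [m_filter_one] at h
  simp only [log_one, sub_zero, one_rpow, mul_one] at h
  simpa only [div_eq_inv_mul] using h

theorem m_part2 {c C : ℝ} (hc : 0 < c) (hC : 0 < C)
    (hθ : ∀ u : ℝ, 1 ≤ u → |∑ k ∈ Icc 0 ⌊u⌋₊, mlg k - u| ≤ C * u ^ (1 - c))
    (s t : ℝ) (hs : 2 ≤ s) (hst : s ≤ t) :
    |∑ p ∈ (PP t).filter (fun p : ℕ => s < p), 1 / (p : ℝ) - log (log t / log s)| ≤
      (3 * C * (2 + 1 / c) / c) / log s ^ 2 := by
  have hl : ∀ u ∈ Set.Icc s t, 0 < u ∧ log s ≤ log u := fun u hu =>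
    ⟨by linarith [hu.1], log_le_log (by linarith) hu.1⟩
  have hs2 : 1 / 2 < log s := m_log_two.trans_le (log_le_log (by norm_num) hs)
  have hs0 : 0 < log s := by linarith
  have h := m_abel hc hC hθ (fun u => (u * log u)⁻¹) (fun u => -(log u + 1) / (u * log u) ^ 2)
    (fun u => log (log u)) (K := 3 / log s) (by linarith) hst
    (fun u hu => by
      obtain ⟨h0, h1⟩ := hl u hu
      have hlu : 0 < log u := by linarith
      have := ((hasDerivAt_id u).mul (hasDerivAt_log h0.ne')).inv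
        (mul_pos h0 hlu).ne'
      refine this.congr_deriv ?_
      simp only [id, Pi.mul_apply]
      field_simp)
    (fun u hu => by
      obtain ⟨h0, h1⟩ := hl u hu
      have hlu : 0 < log u := by linarith
      refine ((hasDerivAt_log h0.ne').log hlu.ne').congr_deriv ?_
      field_simp)
    (by
      have hc : ContinuousOn log (Set.Icc s t) :=
        continuousOn_log.mono fun u hu => (hl u hu).1.ne'
      refine ContinuousOn.div (hc.add continuousOn_const).neg ((continuousOn_id.mul hc).pow 2)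
        fun u hu => ?_
      obtain ⟨h0, h1⟩ := hl u hu
      have hlu : 0 < log u := by linarith
      positivity)
    (fun u hu => by
      obtain ⟨h0, h1⟩ := hl u hu
      have hlu : 0 < log u := by linarith
      rw [abs_of_pos (by positivity), div_div, inv_eq_one_div,
        div_le_div_iff₀ (by positivity) (by positivity)]
      nlinarith [mul_le_mul_of_nonneg_left h1 h0.le, mul_pos h0 hlu])
    (fun u hu => by
      obtain ⟨h0, h1⟩ := hl u hu
      have hlu : 0 < log u := by linarith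
      rw [neg_div, abs_neg, abs_of_pos (by positivity), div_div, mul_pow,
        div_le_div_iff₀ (by positivity) (by positivity)]
      have a : (log u + 1) * log s ≤ 3 * log u ^ 2 := by nlinarith
      nlinarith [mul_le_mul_of_nonneg_left a (sq_nonneg u)])
  have e : ∑ p ∈ (PP t).filter (fun p : ℕ => s < p), ((p : ℝ) * log p)⁻¹ * log p =
      ∑ p ∈ (PP t).filter (fun p : ℕ => s < p), 1 / (p : ℝ) := by
    refine sum_congr rfl fun p hp => ?_
    have h1 : (1 : ℝ) < p := by exact_mod_cast (mem_PP.1 (mem_filter.1 hp).1).1.one_lt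
    have := log_pos h1
    field_simp
  have ht0 : 0 < log t := hs0.trans_le (log_le_log (by linarith) hst)
  rw [e, ← log_div ht0.ne' hs0.ne'] at h
  refine h.trans ?_
  have hr : s ^ (-c) ≤ 1 / (c * log s) := by
    rw [rpow_neg (by linarith), inv_eq_one_div]
    refine one_div_le_one_div_of_le (by positivity) ?_
    rw [rpow_def_of_pos (by linarith)]
    have := add_one_le_exp (log s * c)
    linarith
  calc C * (3 / log s) * s ^ (-c) * (2 + 1 / c)
      ≤ C * (3 / log s) * (1 / (c * log s)) * (2 + 1 / c) := by gcongr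
    _ = _ := by field_simp

theorem m_part3 (t : ℝ) (ht : 2 ≤ t) : ((PP t).card : ℝ) ≤ 5 * t / log t := by
  have h := Chebyshev.pi_le_log4_mul_div (x := t) (by linarith)
  have e : (PP t).card = Nat.primeCounting ⌊t⌋₊ := by
    simp only [PP, Nat.primeCounting, Nat.primeCounting', Nat.count_eq_card_filter_range]
  rw [e]
  refine h.trans ?_
  have h0 : 0 < log t := log_pos (by linarith)
  have hs : 0 < √t := sqrt_pos.2 (by linarith)
  have h4 : log 4 ≤ 3 / 2 := by
    rw [show (4 : ℝ) = 2 ^ 2 by norm_num, log_pow]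
    have := log_two_lt_d9
    push_cast
    linarith
  have h5 : log t ≤ 2 * √t := by
    have := log_le_sub_one_of_pos hs
    rw [log_sqrt (by linarith)] at this
    linarith
  have h6 : √t ≤ 2 * t / log t := by
    rw [le_div_iff₀ h0]
    have := mul_self_sqrt (show 0 ≤ t by linarith)
    nlinarith
  have h7 : log 4 * t / log √t ≤ 3 * t / log t := by
    rw [log_sqrt (by linarith), div_le_div_iff₀ (by positivity) h0]
    have : 0 ≤ t * log t := by positivity
    nlinarith
  have : 5 * t / log t = 3 * t / log t + 2 * t / log t := by ring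
  linarith

theorem m_part5 {c C : ℝ} (hc : 0 < c) (hC : 0 < C)
    (hθ : ∀ u : ℝ, 1 ≤ u → |∑ k ∈ Icc 0 ⌊u⌋₊, mlg k - u| ≤ C * u ^ (1 - c))
    (t : ℝ) : ∑ p ∈ PP t, 1 / ((p : ℝ) * log p) ≤ 3 + C * 20 * (2 + 1 / c) := by
  rcases lt_or_ge t 2 with ht | ht
  · rw [sum_eq_zero]
    · positivity
    · intro p hp
      have h := mem_PP.1 hp
      have : (2 : ℝ) ≤ p := by exact_mod_cast h.1.two_le
      linarith [h.2]
  have hl : ∀ u ∈ Set.Icc 2 t, 0 < u ∧ 1 / 2 < log u := fun u hu =>
    ⟨by linarith [hu.1], m_log_two.trans_le (log_le_log (by norm_num) hu.1)⟩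
  have h := m_abel hc hC hθ (fun u => (u * log u ^ 2)⁻¹)
    (fun u => -(log u + 2) / (u ^ 2 * log u ^ 3))
    (fun u => -(log u)⁻¹) (K := 20) (s := 2) (by linarith) ht
    (fun u hu => by
      obtain ⟨h0, h1⟩ := hl u hu
      have hlu : 0 < log u := by linarith
      have := ((hasDerivAt_id u).mul ((hasDerivAt_log h0.ne').pow 2)).inv
        (mul_pos h0 (pow_pos hlu 2)).ne'
      refine this.congr_deriv ?_
      simp only [id, Pi.mul_apply, Pi.pow_apply]
      norm_num
      field_simp)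
    (fun u hu => by
      obtain ⟨h0, h1⟩ := hl u hu
      have hlu : 0 < log u := by linarith
      refine ((hasDerivAt_log h0.ne').inv hlu.ne').neg.congr_deriv ?_
      field_simp)
    (by
      have hc : ContinuousOn log (Set.Icc 2 t) :=
        continuousOn_log.mono fun u hu => (hl u hu).1.ne'
      refine ContinuousOn.div (hc.add continuousOn_const).neg
        ((continuousOn_id.pow 2).mul (hc.pow 3)) fun u hu => ?_
      obtain ⟨h0, h1⟩ := hl u hu
      have hlu : 0 < log u := by linarith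
      positivity)
    (fun u hu => by
      obtain ⟨h0, h1⟩ := hl u hu
      have hlu : 0 < log u := by linarith
      rw [abs_of_pos (by positivity), inv_eq_one_div,
        div_le_div_iff₀ (by positivity) (by positivity)]
      have a : 1 ≤ 20 * log u ^ 2 := by nlinarith
      nlinarith [mul_le_mul_of_nonneg_left a h0.le])
    (fun u hu => by
      obtain ⟨h0, h1⟩ := hl u hu
      have hlu : 0 < log u := by linarith
      rw [neg_div, abs_neg, abs_of_pos (by positivity),
        div_le_div_iff₀ (by positivity) (by positivity)]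
      have b : 1 / 4 ≤ log u ^ 2 := by nlinarith
      have a : log u + 2 ≤ 20 * log u ^ 3 := by nlinarith
      nlinarith [mul_le_mul_of_nonneg_left a (sq_nonneg u)])
  have e : ∑ p ∈ (PP t).filter (fun p : ℕ => (2 : ℝ) < p), ((p : ℝ) * log p ^ 2)⁻¹ * log p =
      ∑ p ∈ (PP t).filter (fun p : ℕ => (2 : ℝ) < p), 1 / ((p : ℝ) * log p) := by
    refine sum_congr rfl fun p hp => ?_
    have h1 : (1 : ℝ) < p := by exact_mod_cast (mem_PP.1 (mem_filter.1 hp).1).1.one_lt
    have := log_pos h1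
    field_simp
  rw [e] at h
  rw [m_split _ ht]
  have h2 := m_log_two
  have a1 : (log 2)⁻¹ ≤ 2 := by
    rw [inv_le_comm₀ (by linarith) (by norm_num)]; linarith
  have a2 : 0 ≤ (log t)⁻¹ := inv_nonneg.2 (log_nonneg (by linarith))
  have a3 : 1 / (((2 : ℕ) : ℝ) * log ((2 : ℕ) : ℝ)) ≤ 1 := by
    push_cast
    rw [div_le_one (by linarith)]; linarith
  have a4 : C * 20 * (2 : ℝ) ^ (-c) * (2 + 1 / c) ≤ C * 20 * 1 * (2 + 1 / c) := by
    gcongr
    exact rpow_le_one_of_one_le_of_nonpos (by norm_num) (by linarith)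
  have a5 := (abs_le.1 h).2
  linarith

theorem s_M (hP : PNTAP) : S_M := by
  obtain ⟨c, hc, C, hC, hθ⟩ := m_theta hP
  have p1 : 0 < C * (2 + 1 / c) := by positivity
  have p2 : 0 < 3 * C * (2 + 1 / c) / c := by positivity
  have p5 : 0 < C * 20 * (2 + 1 / c) := by positivity
  obtain ⟨D, hD0, hD1, hD2, hD3, hD4, hD5⟩ : ∃ D : ℝ, 0 < D ∧ C * (2 + 1 / c) ≤ D ∧
      3 * C * (2 + 1 / c) / c ≤ D ∧ 5 ≤ D ∧ 4 * (3 * C * (2 + 1 / c) / c) + 2 ≤ D ∧
      3 + C * 20 * (2 + 1 / c) ≤ D :=
    ⟨5 + C * (2 + 1 / c) + 4 * (3 * C * (2 + 1 / c) / c) + C * 20 * (2 + 1 / c),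
      by linarith, by linarith, by linarith, by linarith, by linarith, by linarith⟩
  refine ⟨D, hD0, fun t ht => (m_part1 hc hC hθ t ht).trans hD1, fun s t hs hst => ?_,
    fun t ht => ?_, fun t ht => ?_, fun t => (m_part5 hc hC hθ t).trans hD5⟩
  · refine (m_part2 hc hC hθ s t hs hst).trans ?_
    gcongr
  · refine (m_part3 t ht).trans ?_
    have : 0 ≤ log t := log_nonneg (by linarith)
    gcongr
  · have h := m_part2 hc hC hθ 2 t le_rfl ht
    have h2 := m_log_two
    have ht0 : 0 < log t := log_pos (by linarith)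
    rw [log_div ht0.ne' (by linarith)] at h
    rw [m_split _ ht]
    have a1 : 3 * C * (2 + 1 / c) / c / log 2 ^ 2 ≤ 4 * (3 * C * (2 + 1 / c) / c) := by
      rw [div_le_iff₀ (by positivity)]
      have : 1 ≤ 4 * log 2 ^ 2 := by nlinarith
      nlinarith
    have a2 : log (log 2) ≤ 0 := log_nonpos (by linarith) (by linarith [log_two_lt_d9])
    have a3 : -1 ≤ log (log 2) := by
      have := log_le_log (by norm_num) h2.le
      rw [one_div, log_inv] at this
      linarith [log_two_lt_d9]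
    push_cast
    rw [abs_le] at h ⊢
    constructor <;> linarith [h.1, h.2]

end Jac
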