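import Vale.Agent.P013.Gro

/-! The mass of the nodes and the total main term. -/

noncomputable section
namespace Jac
open Finset Real Filter
open scoped Classical

theorem mass_step (P : Finset ℕ) (φ : ℕ → ℝ) (k : ℕ) :
    (k + 1 : ℝ) * ∑ N ∈ powersetCard (k + 1) P, ∏ p ∈ N, φ p =
      ∑ N ∈ powersetCard k P, (∏ p ∈ N, φ p) * ∑ q ∈ P \ N, φ q := by
  have h1 : (k + 1 : ℝ) * ∑ N ∈ powersetCard (k + 1) P, ∏ p ∈ N, φ p =
      ∑ N ∈ powersetCard (k + 1) P, ∑ _q ∈ N, ∏ p ∈ N, φ p := by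
    rw [mul_sum]
    refine sum_congr rfl fun N hN => ?_
    rw [sum_const, (mem_powersetCard.1 hN).2, nsmul_eq_mul]
    push_cast
    rfl
  rw [h1, sum_comm' (t' := P) (s' := fun q => (powersetCard (k + 1) P).filter (fun N => q ∈ N))
    fun N q => by
      simp only [mem_filter]
      exact ⟨fun h => ⟨h, (mem_powersetCard.1 h.1).1 h.2⟩, fun h => h.1⟩]
  simp only [mul_sum]
  rw [sum_comm' (s := powersetCard k P) (t' := P)
    (s' := fun q => (powersetCard k P).filter (fun N => q ∉ N))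
    fun N q => by
      simp only [mem_filter, Finset.mem_sdiff]
      exact ⟨fun h => ⟨⟨h.1, h.2.2⟩, h.2.1⟩, fun h => ⟨h.1.1, h.2, h.1.2⟩⟩]
  refine sum_congr rfl fun q hq => ?_
  refine sum_nbij' (fun N => N.erase q) (fun N => insert q N) ?_ ?_ ?_ ?_ ?_
  · intro N hN
    obtain ⟨a1, a2⟩ := mem_filter.1 hN
    obtain ⟨a3, a4⟩ := mem_powersetCard.1 a1
    have := card_erase_add_one a2
    exact mem_filter.2 ⟨mem_powersetCard.2 ⟨(erase_subset _ _).trans a3, by omega⟩,
      notMem_erase _ _⟩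
  · intro N hN
    obtain ⟨a1, a2⟩ := mem_filter.1 hN
    obtain ⟨a3, a4⟩ := mem_powersetCard.1 a1
    exact mem_filter.2 ⟨mem_powersetCard.2 ⟨insert_subset hq a3,
      by rw [card_insert_of_notMem a2, a4]⟩, mem_insert_self _ _⟩
  · exact fun N hN => insert_erase (mem_filter.1 hN).2
  · exact fun N hN => erase_insert (mem_filter.1 hN).2
  · exact fun N hN => (prod_erase_mul N φ (mem_filter.1 hN).2).symm

theorem s_Esym : S_Esym := by
  intro P φ M k hM h
  have hσ : 0 ≤ ∑ p ∈ P, φ p := sum_nonneg fun p hp => (h p hp).1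
  have hpos : ∀ k, ∀ N ∈ powersetCard k P, 0 ≤ ∏ p ∈ N, φ p := fun k N hN =>
    prod_nonneg fun p hp => (h p ((mem_powersetCard.1 hN).1 hp)).1
  induction k with
  | zero => simp
  | succ k ih =>
    have hk : (0 : ℝ) < k + 1 := by positivity
    have hf : (0 : ℝ) < k.factorial := by exact_mod_cast k.factorial_pos
    have e1 : ∀ t : ℝ, t ^ (k + 1) / ((k + 1).factorial : ℝ) =
        t ^ k / k.factorial * t / (k + 1) := fun t => by
      rw [Nat.factorial_succ]
      push_cast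
      field_simp
      ring
    have hs := mass_step P φ k
    constructor
    · rw [e1, le_div_iff₀ hk, mul_comm, hs]
      refine le_trans ?_ (mul_le_mul_of_nonneg_right ih.1 hσ)
      rw [sum_mul]
      refine sum_le_sum fun N hN => mul_le_mul_of_nonneg_left ?_ (hpos k N hN)
      exact sum_le_sum_of_subset_of_nonneg sdiff_subset fun p hp _ => (h p hp).1
    · intro hc
      push_cast at hc ⊢
      have h0 : 0 ≤ ∑ p ∈ P, φ p - (k + 1) * M := by linarith
      have h1 := ih.2 (by linarith)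
      have h2 : (∑ p ∈ P, φ p - (k + 1) * M) ^ k / k.factorial ≤
          ∑ N ∈ powersetCard k P, ∏ p ∈ N, φ p :=
        (div_le_div_of_nonneg_right (pow_le_pow_left₀ h0 (by linarith) k) hf.le).trans h1
      rw [e1, div_le_iff₀ hk, mul_comm _ (k + 1 : ℝ), hs]
      refine (mul_le_mul_of_nonneg_right h2 h0).trans ?_
      rw [sum_mul]
      refine sum_le_sum fun N hN => mul_le_mul_of_nonneg_left ?_ (hpos k N hN)
      obtain ⟨a1, a2⟩ := mem_powersetCard.1 hN
      have a3 := sum_sdiff (f := φ) a1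
      have a4 := sum_le_card_nsmul N φ M fun p hp => (h p (a1 hp)).2
      rw [a2, nsmul_eq_mul] at a4
      linarith

theorem s_Mass (hGeo : S_Geo) (hEsym : S_Esym) (hM : S_M) (hNU : S_NU) : S_Mass := by
  intro J hJ
  have hJ' : (3 : ℝ) ≤ J := by exact_mod_cast hJ
  obtain ⟨C, hC, -, hM, -⟩ := hM
  refine ⟨(1 / (8 * J)) ^ (2 * J) / (2 * J).factorial, by positivity, ?_⟩
  filter_upwards [hGeo J hJ, hNU, ev_L (16 * J * (16 * J * C + 1)), ev_L (32 * J * (32 * J)),
    ev_L_rpow (32 * J) (a := 1 / 2) (b := 1) (by norm_num)] with y a1 a2 a3 a4 a5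
  intro x g hg
  rw [rpow_one, ← sqrt_eq_rpow] at a5
  obtain ⟨v1, -⟩ := a1.2 g hg
  have hL : 0 < L y := lt_of_lt_of_le (by positivity) a4
  have v0 : 0 < vv y J g := lt_of_lt_of_le (by positivity) v1
  have j1 : 1 / (4 * (J : ℝ)) ≤ 1 / 12 := one_div_le_one_div_of_le (by norm_num) (by linarith)
  have j0 : 0 < 1 / (4 * (J : ℝ)) := by positivity
  have e0 : L y / (8 * J) = 2 * (L y / (16 * J)) := by
    field_simp
    ring
  have elo : lo y J g = (1 - 1 / (4 * (J : ℝ))) * vv y J g := rfl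
  have l1 : L y / (16 * J) ≤ lo y J g := by nlinarith
  have l2 : lo y J g ≤ vv y J g := by nlinarith
  have l3 : 16 * J * C + 1 ≤ lo y J g := by
    refine le_trans ?_ l1
    rw [le_div_iff₀ (by positivity)]
    linarith
  have l4 : 0 ≤ 16 * J * C := by positivity
  have m1 := abs_le.1 (hM (exp (lo y J g)) (exp (vv y J g))
    (by linarith [add_one_le_exp (lo y J g)]) (exp_le_exp.2 l2))
  rw [log_exp, log_exp] at m1
  have e1 : vv y J g / lo y J g = (1 - 1 / (4 * (J : ℝ)))⁻¹ := by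
    rw [elo, div_mul_cancel_right₀ v0.ne']
  have m2 : 1 / (4 * (J : ℝ)) ≤ log (vv y J g / lo y J g) := by
    rw [e1, log_inv]
    linarith [log_le_sub_one_of_pos (x := 1 - 1 / (4 * (J : ℝ))) (by linarith)]
  have m3 : log (vv y J g / lo y J g) ≤ 1 / 2 := by
    refine (log_le_sub_one_of_pos (div_pos v0 (by linarith))).trans ?_
    rw [sub_le_iff_le_add, div_le_iff₀ (by linarith)]
    nlinarith
  have m4 : C / lo y J g ^ 2 ≤ 1 / (16 * J) := by
    rw [div_le_div_iff₀ (pow_pos (by linarith) 2) (by positivity)]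
    nlinarith
  have m5 : (exp √(L y) + 2 * J) * (1 / exp (lo y J g)) ≤ 1 / (16 * J) := by
    rw [mul_one_div, div_le_div_iff₀ (exp_pos _) (by positivity), one_mul]
    have c1 : exp √(L y) ≤ exp (L y / (32 * J)) := by
      refine exp_le_exp.2 ?_
      rw [le_div_iff₀ (by positivity)]
      linarith
    have c2 : 32 * J ≤ exp (L y / (32 * J)) := by
      have : 32 * J ≤ L y / (32 * J) := by rwa [le_div_iff₀ (by positivity)]
      linarith [add_one_le_exp (L y / (32 * J))]
    have c3 : exp (L y / (32 * J)) * exp (L y / (32 * J)) ≤ exp (lo y J g) := by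
      rw [← exp_add]
      refine exp_le_exp.2 (le_trans (le_of_eq ?_) l1)
      field_simp
      ring
    have c4 : (exp √(L y) + 2 * J) * (16 * J) ≤ 2 * exp (L y / (32 * J)) * (16 * J) :=
      mul_le_mul_of_nonneg_right (by linarith) (by positivity)
    nlinarith
  have j2 : 1 / (4 * (J : ℝ)) = 4 * (1 / (16 * J)) := by
    field_simp
    ring
  have j3 : 1 / (8 * (J : ℝ)) = 2 * (1 / (16 * J)) := by
    field_simp
    ring
  obtain ⟨R, hR⟩ : ∃ R, R = (PP (exp (vv y J g))).filter (fun p : ℕ => exp (lo y J g) < p) :=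
    ⟨_, rfl⟩
  have hRg : Rg y J x g = R.filter (Uniq y x) := by rw [hR, filter_filter, Rg]
  rw [← hR] at m1
  have hRm : ∀ p ∈ R, p.Prime ∧ 1 / (p : ℝ) ≤ 1 / exp (lo y J g) := fun p hp => by
    rw [hR] at hp
    exact ⟨(mem_PP.1 (mem_filter.1 hp).1).1,
      one_div_le_one_div_of_le (exp_pos _) (mem_filter.1 hp).2.le⟩
  have s1 := sum_filter_add_sum_filter_not R (Uniq y x) (fun u : ℕ => 1 / (u : ℝ))
  have s2 := a2 x (R.filter (fun u => ¬ Uniq y x u)) fun p hp =>
    ⟨(hRm p (mem_filter.1 hp).1).1, (mem_filter.1 hp).2⟩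
  have s3 := sum_le_card_nsmul (R.filter (fun u => ¬ Uniq y x u)) (fun u : ℕ => 1 / (u : ℝ)) _
    fun p hp => (hRm p (mem_filter.1 hp).1).2
  rw [nsmul_eq_mul] at s3
  have s4 := mul_le_mul_of_nonneg_right s2 (by positivity : 0 ≤ 1 / exp (lo y J g))
  have s5 : 0 ≤ ∑ u ∈ R.filter (fun u => ¬ Uniq y x u), 1 / (u : ℝ) :=
    sum_nonneg fun _ _ => by positivity
  have s6 : 0 ≤ ∑ u ∈ R.filter (Uniq y x), 1 / (u : ℝ) := sum_nonneg fun _ _ => by positivity
  obtain ⟨b1, b2⟩ := hEsym (R.filter (Uniq y x)) (fun p => 1 / (p : ℝ)) (1 / exp (lo y J g)) (2 * J)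
    (by positivity) fun p hp => ⟨by positivity, (hRm p (mem_filter.1 hp).1).2⟩
  have e2 : ∑ N ∈ Nd y J x g, 1 / (pr N : ℝ) =
      ∑ N ∈ powersetCard (2 * J) (R.filter (Uniq y x)), ∏ p ∈ N, 1 / (p : ℝ) := by
    rw [Nd, hRg]
    exact sum_congr rfl fun N _ => by rw [prod_div_distrib, prod_const_one, pr, Nat.cast_prod]
  rw [e2]
  have b3 : 1 / (8 * (J : ℝ)) ≤
      ∑ u ∈ R.filter (Uniq y x), 1 / (u : ℝ) - ((2 * J : ℕ) : ℝ) * (1 / exp (lo y J g)) := by
    push_cast
    linarith [m1.1]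
  constructor
  · refine le_trans ?_ (b2 (by linarith [show 0 < 1 / (8 * (J : ℝ)) by positivity]))
    exact div_le_div_of_nonneg_right (pow_le_pow_left₀ (by positivity) b3 _) (by positivity)
  · refine b1.trans ?_
    have hf : (1 : ℝ) ≤ (2 * J).factorial := by exact_mod_cast (2 * J).factorial_pos
    rw [div_le_one (by linarith)]
    exact (pow_le_one₀ s6 (by linarith [m1.2])).trans hf

theorem s_Main (hTop : S_Top) (hGain : S_Gain) (hMass : S_Mass) (hGeo : S_Geo) : S_Main := by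
  intro J hJ w0 hw0
  obtain ⟨C, hC, hTop⟩ := hTop
  obtain ⟨c, hc, hMass⟩ := hMass J hJ
  refine ⟨w0 * c / 4, by positivity, ?_⟩
  filter_upwards [hTop, hGain J hJ, hMass, hGeo J hJ, ev_TlogT (4 * C / (w0 * c)), ev_T 0, ev_L 1]
    with y a1 a2 a3 a4 a5 a6 a7
  intro x E hE hw
  have hk : 0 ≤ kap y / (2 * L y ^ 2) := by unfold kap; positivity
  have h1 : ∑ u ∈ E, 1 / (u : ℝ) * (c * (kap y / (2 * L y ^ 2))) ≤
      nsum y J x E (U0 y J) (fun S d => sg S / d) -
        nsum y J x E (fun u => U1 y J (gg u)) (fun S d => sg S / d) := by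
    unfold nsum
    rw [← sum_sub_distrib]
    refine sum_le_sum fun u hu => ?_
    obtain ⟨-, b2, b3, -⟩ := hE.1 u hu
    have b4 := (a3 x (gg u) (a4.1 u b2 b3).1).1
    refine (mul_le_mul_of_nonneg_left (mul_le_mul_of_nonneg_right b4 hk) (by positivity)).trans ?_
    rw [← sum_sub_distrib, sum_mul, mul_sum]
    refine sum_le_sum fun N hN => ?_
    have e1 : ∀ F : Finset (Finset ℕ), ∑ S ∈ F, sg S / ((u * pr N * pr S : ℕ) : ℝ) =
        1 / (u : ℝ) * (1 / (pr N : ℝ) * ∑ S ∈ F, sg S / pr S) := fun F => by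
      rw [mul_sum, mul_sum]
      refine sum_congr rfl fun S _ => ?_
      push_cast
      ring
    rw [e1, e1, ← mul_sub, ← mul_sub]
    exact mul_le_mul_of_nonneg_left
      (mul_le_mul_of_nonneg_left (a2 x u b2 b3 N hN) (by positivity)) (by positivity)
  rw [← sum_mul] at h1
  have h2 := mul_le_mul_of_nonneg_right hw (mul_nonneg hc.le hk)
  have h3 : C * (T y * log (T y)) / L y ^ 2 ≤ w0 * c / 4 * kap y / L y ^ 2 := by
    refine div_le_div_of_nonneg_right ?_ (by positivity)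
    rw [div_mul_eq_mul_div, div_le_iff₀ (by positivity)] at a5
    linarith
  have e2 : w0 * (c * (kap y / (2 * L y ^ 2))) = 2 * (w0 * c / 4 * kap y / L y ^ 2) := by
    field_simp
    ring
  linarith

end Jac
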