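import Vale.Agent.P013.Gro

/-! The combinatorial inequality behind the lower bound for the number of survivors. -/

noncomputable section
namespace Jac
open Finset Real Filter
open scoped Classical

theorem master_av_sum {ι : Type} (K : ℕ) (s : Finset ι) (F : ι → ℕ → ℝ) :
    ∑ i ∈ s, av K (F i) = av K (fun n => ∑ i ∈ s, F i n) := by
  simp only [av, ← sum_div]
  congr 1
  rw [sum_comm]
  exact sum_congr rfl fun a _ => sum_comm

theorem master_av_mul (K : ℕ) (c : ℝ) (F : ℕ → ℝ) : c * av K F = av K (fun n => c * F n) := by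
  simp only [av, ← mul_sum, mul_div_assoc]

theorem master_av_add (K : ℕ) (F F1 F2 : ℕ → ℝ) :
    av K F + av K F1 - av K F2 = av K (fun n => F n + F1 n - F2 n) := by
  simp only [av, sum_add_distrib, sum_sub_distrib, add_div, sub_div]

theorem master_av_le (y : ℕ) (x : ℤ) (F : ℕ → ℝ)
    (h : ∀ n : ℕ, F n ≤ if ∀ p ∈ PP (z y), ¬ (p : ℤ) ∣ (n : ℤ) + x then 1 else 0) :
    av (H y) F ≤ Cnt y x := by
  have h1 : ∀ a ∈ range (H y), ∑ b ∈ range (H y), F (a + b) ≤ Cnt y x := fun a ha => by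
    refine (sum_le_sum fun b _ => h (a + b)).trans ?_
    rw [sum_boole, Nat.cast_le, Cnt]
    refine card_le_card_of_injOn (fun b => a + b) (fun b hb => ?_) fun b _ c _ e => by simpa using e
    obtain ⟨h2, h3⟩ := mem_filter.1 (mem_coe.1 hb)
    refine mem_coe.2 (mem_filter.2 ⟨mem_range.2 ?_, h3⟩)
    have h4 := mem_range.1 ha
    have h5 := mem_range.1 h2
    unfold H at h4 h5
    change a + b < y
    omega
  have h2 := sum_le_card_nsmul _ _ _ h1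
  rw [card_range, nsmul_eq_mul] at h2
  rw [av]
  exact div_le_of_le_mul₀ (Nat.cast_nonneg _) (Nat.cast_nonneg _) (h2.trans_eq (mul_comm _ _))

theorem master_fam (ε : ℕ) (C : Finset ℕ → ℕ → Prop) {Q : Finset ℕ} (hQ : ∀ p ∈ Q, p.Prime)
    (m : ℤ) : ∑ S ∈ Fam ε C Q, sg S * (if (pr S : ℤ) ∣ m then 1 else 0)
      = ∑ S ∈ Fam ε C (Q.filter fun p : ℕ => (p : ℤ) ∣ m), sg S := by
  simp only [mul_ite, mul_one, mul_zero]
  rw [← sum_filter]
  refine sum_congr (Finset.ext fun S => ?_) fun _ _ => rfl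
  rw [mem_filter, mem_Fam, mem_Fam]
  constructor
  · rintro ⟨⟨h1, h2⟩, h3⟩
    exact ⟨fun p hp => mem_filter.2 ⟨h1 hp, (pr_dvd_iff (fun q hq => hQ q (h1 hq)) m).1 h3 p hp⟩, h2⟩
  · rintro ⟨h1, h2⟩
    have h3 := h1.trans (filter_subset _ _)
    exact ⟨⟨h3, h2⟩, (pr_dvd_iff (fun q hq => hQ q (h3 hq)) m).2 fun p hp => (mem_filter.1 (h1 hp)).2⟩

theorem master_node (C : Finset ℕ → ℕ → Prop) {t : ℝ} {u : ℕ} {N : Finset ℕ} (hu : u ∉ N)
    (hN : ∀ p ∈ insert u N, p.Prime ∧ t < p) (m : ℤ) (s : Prop) :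
    ∑ S ∈ Fam 1 C (PP t), sg S * (if ((u * pr N * pr S : ℕ) : ℤ) ∣ m ∧ ¬ s then 1 else 0)
      = if (∀ p ∈ insert u N, (p : ℤ) ∣ m) ∧ ¬ s then
        ∑ S ∈ Fam 1 C ((PP t).filter fun p : ℕ => (p : ℤ) ∣ m), sg S else 0 := by
  have h1 : ∀ S ∈ Fam 1 C (PP t), (((u * pr N * pr S : ℕ) : ℤ) ∣ m ↔
      (∀ p ∈ insert u N, (p : ℤ) ∣ m) ∧ (pr S : ℤ) ∣ m) := fun S hS => by
    have h2 : ∀ p ∈ S, p.Prime ∧ (p : ℝ) ≤ t := fun p hp => mem_PP.1 ((mem_Fam.1 hS).1 hp)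
    have h3 : Disjoint (insert u N) S :=
      disjoint_left.2 fun p hp hp' => absurd (h2 p hp').2 (not_le.2 (hN p hp).2)
    rw [← pr_insert hu, ← pr_union h3, pr_dvd_iff (fun p hp => (mem_union.1 hp).elim
      (fun h => (hN p h).1) fun h => (h2 p h).1), pr_dvd_iff fun p hp => (h2 p hp).1]
    exact forall_mem_union
  split_ifs with h
  · rw [← master_fam 1 C fun p hp => (mem_PP.1 hp).1]
    refine sum_congr rfl fun S hS => ?_
    simp only [h1 S hS, h.2, not_false_eq_true, and_true, and_iff_right h.1]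
  · refine sum_eq_zero fun S hS => ?_
    rw [if_neg fun h' => h ⟨((h1 S hS).1 h'.1).1, h'.2⟩, mul_zero]

theorem master_pt (hId : S_Id) (hSplit : S_Split) (l w : ℝ) (E : Finset ℕ)
    (Nd : ℕ → Finset (Finset ℕ)) (t : ℕ → ℝ) (C' : ℕ → Finset ℕ → Finset ℕ → ℕ → Prop) (m : ℤ)
    (s : Prop) (hE : ∀ u ∈ E, u.Prime ∧ (u : ℝ) ≤ w ∧ t u < u ∧ ∀ N ∈ Nd u,
      (∀ p ∈ N, p.Prime ∧ t u < p ∧ p < u) ∧ N.card % 2 = 0 ∧ Alive 0 (C0 l) (insert u N)) :
    ∑ S ∈ Fam 0 (C0 l) ((PP w).filter fun p : ℕ => (p : ℤ) ∣ m), sg S +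
      ∑ u ∈ E, ∑ N ∈ Nd u, ((if (∀ p ∈ insert u N, (p : ℤ) ∣ m) ∧ ¬ s then
        ∑ S ∈ Fam 1 (C0 (l - log u - log (pr N))) ((PP (t u)).filter fun p : ℕ => (p : ℤ) ∣ m), sg S
        else 0) - if (∀ p ∈ insert u N, (p : ℤ) ∣ m) ∧ ¬ s then
        ∑ S ∈ Fam 1 (C' u N) ((PP (t u)).filter fun p : ℕ => (p : ℤ) ∣ m), sg S else 0)
      ≤ if ∀ p ∈ PP w, ¬ (p : ℤ) ∣ m then 1 else 0 := by
  obtain ⟨P, hP⟩ : ∃ P, P = (PP w).filter fun p : ℕ => (p : ℤ) ∣ m := ⟨_, rfl⟩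
  obtain ⟨Q, hQ⟩ : ∃ Q : ℕ → Finset ℕ, ∀ u, Q u = (PP (t u)).filter fun p : ℕ => (p : ℤ) ∣ m :=
    ⟨_, fun _ => rfl⟩
  obtain ⟨St, hSt⟩ : ∃ St : ℕ → Finset ℕ → Finset (Finset ℕ), ∀ u N, St u N =
      (Q u).powerset.filter fun S =>
        ∃ p, Stop 1 (C0 (l - log u - log (pr N))) S p ∧ ∀ q ∈ Q u, p ≤ q := ⟨_, fun _ _ => rfl⟩
  have hQm : ∀ u p, p ∈ Q u ↔ (p.Prime ∧ (p : ℝ) ≤ t u) ∧ (p : ℤ) ∣ m := fun u p => by
    rw [hQ, mem_filter, mem_PP]
  have hPm : ∀ p, p ∈ P ↔ (p.Prime ∧ (p : ℝ) ≤ w) ∧ (p : ℤ) ∣ m := fun p => by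
    rw [hP, mem_filter, mem_PP]
  have h1 : ∑ u ∈ E, ∑ N ∈ Nd u, ((if (∀ p ∈ insert u N, (p : ℤ) ∣ m) ∧ ¬ s then
        ∑ S ∈ Fam 1 (C0 (l - log u - log (pr N))) (Q u), sg S else 0) -
        if (∀ p ∈ insert u N, (p : ℤ) ∣ m) ∧ ¬ s then ∑ S ∈ Fam 1 (C' u N) (Q u), sg S else 0)
      ≤ ((E.sigma fun u => ((Nd u).filter fun N : Finset ℕ => ∀ p : ℕ, p ∈ insert u N → (p : ℤ) ∣ m).sigma
        fun N => St u N).card : ℝ) := by
    rw [card_sigma, Nat.cast_sum]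
    refine sum_le_sum fun u _ => ?_
    rw [card_sigma, Nat.cast_sum, sum_filter]
    refine sum_le_sum fun N _ => ?_
    by_cases h : (∀ p ∈ insert u N, (p : ℤ) ∣ m) ∧ ¬ s
    · rw [if_pos h, if_pos h, if_pos h.1, hId 1 _ _ le_rfl, hId 1 _ _ le_rfl, hSt]
      simp
    · rw [if_neg h, if_neg h, sub_self]
      split_ifs <;> simp
  have h2 : (E.sigma fun u => ((Nd u).filter fun N : Finset ℕ => ∀ p : ℕ, p ∈ insert u N → (p : ℤ) ∣ m).sigma
      fun N => St u N).card ≤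
      (P.powerset.filter fun S => ∃ p, Stop 0 (C0 l) S p ∧ ∀ q ∈ P, p ≤ q).card := by
    have hS : ∀ u N S, S ∈ St u N → ∀ p ∈ S, p ∈ Q u := fun u N S hS p hp =>
      mem_powerset.1 (mem_filter.1 (hSt u N ▸ hS)).1 hp
    refine card_le_card_of_injOn (fun a => insert a.1 a.2.1 ∪ a.2.2) ?_ ?_
    · rintro ⟨u, N, S⟩ ha
      obtain ⟨hu, ha⟩ := mem_sigma.1 (mem_coe.1 ha)
      obtain ⟨hN, hS'⟩ := mem_sigma.1 ha
      obtain ⟨hN, hd⟩ := mem_filter.1 hN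
      obtain ⟨e1, e2, e3, e4⟩ := hE u hu
      obtain ⟨e5, e6, e7⟩ := e4 N hN
      have e8 : u ∉ N := fun h => lt_irrefl _ (e5 u h).2.2
      have e9 : ∀ p ∈ insert u N, p.Prime ∧ t u < p ∧ p ≤ u := fun p hp => by
        rcases mem_insert.1 hp with rfl | h
        · exact ⟨e1, e3, le_rfl⟩
        · exact ⟨(e5 p h).1, (e5 p h).2.1, (e5 p h).2.2.le⟩
      have e10 := hS u N S hS'
      obtain ⟨p, hp, hmin⟩ := (mem_filter.1 (hSt u N ▸ hS')).2
      have e11 : l - log u - log (pr N) = l - log (pr (insert u N)) := by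
        rw [pr_insert e8, Nat.cast_mul, log_mul (by exact_mod_cast e1.ne_zero)
          (by exact_mod_cast (pr_pos fun q hq => (e5 q hq).1).ne'), sub_sub]
      rw [e11] at hp
      refine mem_coe.2 (mem_filter.2 ⟨mem_powerset.2 fun q hq => (hPm q).2 ?_, p, ?_, ?_⟩)
      · rcases mem_union.1 hq with h | h
        · exact ⟨⟨(e9 q h).1, le_trans (by exact_mod_cast (e9 q h).2.2) e2⟩, hd q h⟩
        · obtain ⟨⟨k1, k2⟩, k3⟩ := (hQm u q).1 (e10 q h)
          exact ⟨⟨k1, by linarith⟩, k3⟩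
      · refine (hSplit l (insert u N) S (fun q hq => (e9 q hq).1)
          (by rw [card_insert_of_notMem e8]; omega) fun a ha q hq => ?_).2 p e7 hp
        exact_mod_cast ((hQm u a).1 (e10 a ha)).1.2.trans_lt (e9 q hq).2.1
      · intro q hq
        rcases le_total (q : ℝ) (t u) with h | h
        · exact hmin q ((hQm u q).2 ⟨⟨((hPm q).1 hq).1.1, h⟩, ((hPm q).1 hq).2⟩)
        · exact_mod_cast ((hQm u p).1 (e10 p hp.1)).1.2.trans h
    · have k0 : ∀ u N S, u ∈ E → N ∈ Nd u → S ∈ St u N → ∀ p ∈ insert u N ∪ S, p ≤ u := by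
        intro u N S hu hN hS' p hp
        rcases mem_union.1 hp with h | h
        · rcases mem_insert.1 h with rfl | h
          · exact le_rfl
          · exact (((hE u hu).2.2.2 N hN).1 p h).2.2.le
        · exact_mod_cast ((hQm u p).1 (hS u N S hS' p h)).1.2.trans (hE u hu).2.2.1.le
      have k1 : ∀ u N S N' S', u ∈ E → N ∈ Nd u → N' ∈ Nd u → S ∈ St u N → S' ∈ St u N' →
          insert u N ∪ S = insert u N' ∪ S' → N ⊆ N' ∧ S ⊆ S' := by
        intro u N S N' S' hu hN hN' h1 h2 e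
        refine ⟨fun p hp => ?_, fun p hp => ?_⟩
        · have h3 := ((hE u hu).2.2.2 N hN).1 p hp
          rcases mem_union.1 (e ▸ mem_union_left S (mem_insert_of_mem hp)) with h | h
          · exact (mem_insert.1 h).resolve_left h3.2.2.ne
          · exact absurd ((hQm u p).1 (hS u N' S' h2 p h)).1.2 (not_le.2 h3.2.1)
        · have h3 := ((hQm u p).1 (hS u N S h1 p hp)).1.2
          rcases mem_union.1 (e ▸ mem_union_right (insert u N) hp) with h | h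
          · rcases mem_insert.1 h with rfl | h
            · exact absurd h3 (not_le.2 (hE p hu).2.2.1)
            · exact absurd h3 (not_le.2 (((hE u hu).2.2.2 N' hN').1 p h).2.1)
          · exact h
      rintro ⟨u, N, S⟩ ha ⟨u', N', S'⟩ hb e
      obtain ⟨hu, ha⟩ := mem_sigma.1 (mem_coe.1 ha)
      obtain ⟨hN, h1⟩ := mem_sigma.1 ha
      obtain ⟨hu', hb⟩ := mem_sigma.1 (mem_coe.1 hb)
      obtain ⟨hN', h2⟩ := mem_sigma.1 hb
      replace hN := (mem_filter.1 hN).1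
      replace hN' := (mem_filter.1 hN').1
      replace e : insert u N ∪ S = insert u' N' ∪ S' := e
      obtain rfl : u = u' := le_antisymm
        (k0 u' N' S' hu' hN' h2 u (e ▸ mem_union_left S (mem_insert_self u N)))
        (k0 u N S hu hN h1 u' (e ▸ mem_union_left S' (mem_insert_self u' N')))
      have h3 := k1 u N S N' S' hu hN hN' h1 h2 e
      have h4 := k1 u N' S' N S hu hN' hN h2 h1 e.symm
      obtain rfl := Subset.antisymm h3.1 h4.1
      obtain rfl := Subset.antisymm h3.2 h4.2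
      rfl
  simp only [← hQ, ← hP]
  rw [hId 0 _ _ zero_le_one, pow_zero, one_mul]
  have h3 : (if P = ∅ then (1 : ℝ) else 0) = if ∀ p ∈ PP w, ¬ (p : ℤ) ∣ m then 1 else 0 := by
    simp only [hP, filter_eq_empty_iff]
  rw [h3]
  have h4 := h1.trans (Nat.cast_le.2 h2)
  linarith

theorem s_Master (hId : S_Id) (hSplit : S_Split) (hGeo : S_Geo) : S_Master := by
  intro J hJ
  filter_upwards [hGeo J hJ, ev_L 0] with y hy hL x E hE
  have hE' : ∀ u ∈ E, u.Prime ∧ (u : ℝ) ≤ z y ∧ exp (lo y J (gg u)) < u ∧ ∀ N ∈ Nd y J x (gg u),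
      (∀ p ∈ N, p.Prime ∧ exp (lo y J (gg u)) < p ∧ p < u) ∧ N.card % 2 = 0 ∧
        Alive 0 (C0 (l0 y)) (insert u N) := fun u hu => by
    obtain ⟨h1, h2, h3, -⟩ := hE.1 u hu
    obtain ⟨h4, h5, -⟩ := hy.1 u h2 h3
    obtain ⟨h6, h7, -, h8⟩ := hy.2 _ h4
    have h9 : exp (vv y J (gg u)) < u := by
      rw [← lt_log_iff_exp_lt (by exact_mod_cast h1.pos)]
      linarith
    have h10 : lo y J (gg u) ≤ vv y J (gg u) :=
      mul_le_of_le_one_left (le_trans (by positivity) h6) (sub_le_self _ (by positivity))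
    refine ⟨h1, h3, (exp_le_exp.2 h10).trans_lt h9, fun N hN => ⟨fun p hp => ?_, ?_,
      ((h8 x N hN).2.2 u h1 rfl).2⟩⟩
    · obtain ⟨k1, k2⟩ := mem_filter.1 ((mem_powersetCard.1 hN).1 hp)
      exact ⟨(mem_PP.1 k1).1, k2.1, by exact_mod_cast (mem_PP.1 k1).2.trans_lt h9⟩
    · rw [(mem_powersetCard.1 hN).2]
      omega
  simp only [nsum, A0, A1, master_av_mul, master_av_sum, master_av_add]
  refine master_av_le y x _ fun n => ?_
  refine le_trans (le_of_eq ?_) (master_pt hId hSplit (l0 y) (z y) E (fun u => Nd y J x (gg u))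
    (fun u => exp (lo y J (gg u))) (fun u N => C1 y (lam y (gg u) N)) (n + x) (Sp y x n) hE')
  rw [master_fam 0 _ fun p hp => (mem_PP.1 hp).1, add_sub_assoc, ← sum_sub_distrib]
  refine congrArg _ (sum_congr rfl fun u hu => ?_)
  rw [← sum_sub_distrib]
  refine sum_congr rfl fun N hN => ?_
  obtain ⟨h1, -, h2, h3⟩ := hE' u hu
  have h4 := (h3 N hN).1
  have h5 : u ∉ N := fun h => lt_irrefl _ (h4 u h).2.2
  have h6 : ∀ p ∈ insert u N, p.Prime ∧ exp (lo y J (gg u)) < p := fun p hp => by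
    rcases mem_insert.1 hp with rfl | h
    · exact ⟨h1, h2⟩
    · exact ⟨(h4 p h).1, (h4 p h).2.1⟩
  rw [← master_node _ h5 h6, ← master_node _ h5 h6]
  rfl

end Jac
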