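import Vale.Agent.P013.Gro

/-! The main terms of the sieve in the two model cases. -/

noncomputable section
namespace Jac
open Finset Real Filter
open scoped Classical

namespace ModX

theorem PP_mono {a b : ℝ} (h : a ≤ b) : PP a ⊆ PP b := fun _ hp =>
  mem_PP.2 ⟨(mem_PP.1 hp).1, (mem_PP.1 hp).2.trans h⟩

theorem liou_cases (n : ℕ) : liou n = 1 ∨ liou n = -1 := neg_one_pow_eq_or ℝ _

theorem fam_eq {l w : ℝ} {R : Finset ℕ → ℕ → Prop} (hR : Rule 1 l R) (hw : exp (l / 3) ≤ w) :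
    Fam 1 R (PP w) = Fam 1 R (PP (exp (l / 3))) := by
  ext S
  rw [mem_Fam, mem_Fam]
  refine ⟨fun h => ⟨fun q hq => ?_, h.2⟩, fun h => ⟨h.1.trans (PP_mono hw), h.2⟩⟩
  have hS : ∀ q ∈ S, q.Prime := fun q hq => (mem_PP.1 (h.1 hq)).1
  have hne : S.Nonempty := ⟨q, hq⟩
  have e : up S (S.max' hne) = {S.max' hne} := by
    ext t; simp only [up, mem_filter, mem_singleton]
    exact ⟨fun a => le_antisymm (le_max' _ _ a.1) a.2, fun a => by rw [a]; exact ⟨max'_mem _ _, le_rfl⟩⟩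
  have h1 := hR.alive hS h.2 _ (max'_mem _ hne) (by rw [e]; simp)
  rw [e, C0, pr, prod_singleton] at h1
  refine mem_PP.2 ⟨hS q hq, le_trans (Nat.cast_le.2 (le_max' _ _ hq)) ?_⟩
  by_contra hc
  have h2 := pow_lt_pow_left₀ (not_le.1 hc) (exp_pos _).le (n := 3) (by norm_num)
  rw [← exp_nat_mul, show ((3 : ℕ) : ℝ) * (l / 3) = l by push_cast; ring] at h2
  nlinarith

theorem rough {l : ℝ} {X n : ℕ} (hX : (X : ℝ) < exp l) (hn : n ∈ Icc 1 X)
    (h : ∀ p ∈ PP (exp (l / 3)), ¬ p ∣ n) : 1 + (-1) ^ 1 * liou n = if n.Prime then 2 else 0 := by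
  obtain ⟨n1, n2⟩ := mem_Icc.1 hn
  have h1 : ∀ p ∈ n.primeFactorsList, ⌊exp (l / 3)⌋₊ + 1 ≤ p := by
    intro p hp
    have hp1 := Nat.prime_of_mem_primeFactorsList hp
    have hp2 := Nat.dvd_of_mem_primeFactorsList hp
    by_contra hc
    refine h p (mem_PP.2 ⟨hp1, ?_⟩) hp2
    exact (Nat.cast_le.2 (by omega)).trans (Nat.floor_le (exp_pos (l / 3)).le)
  have h2 := List.pow_card_le_prod _ _ h1
  rw [Nat.prod_primeFactorsList (by omega), ← ArithmeticFunction.cardFactors_apply] at h2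
  have h3 : ArithmeticFunction.cardFactors n ≤ 2 := by
    by_contra hc
    have h4 : (⌊exp (l / 3)⌋₊ + 1) ^ 3 ≤ X :=
      ((Nat.pow_le_pow_right (by omega) (by omega)).trans h2).trans n2
    have h5 : ((⌊exp (l / 3)⌋₊ : ℝ) + 1) ^ 3 ≤ X := by exact_mod_cast h4
    have h6 := pow_le_pow_left₀ (exp_pos _).le (Nat.lt_floor_add_one (exp (l / 3))).le 3
    rw [← exp_nat_mul, show ((3 : ℕ) : ℝ) * (l / 3) = l by push_cast; ring] at h6
    linarith
  simp only [← ArithmeticFunction.cardFactors_eq_one_iff_prime, liou]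
  generalize ArithmeticFunction.cardFactors n = k at h3
  interval_cases k <;> norm_num

/-- the sum over the integers without small prime factor -/
def rs (ε : ℕ) (w : ℝ) (X : ℕ) : ℝ := ∑ n ∈ Icc 1 X, if ∀ p ∈ PP w, ¬ p ∣ n then
  ((X / n % 2 : ℕ) : ℝ) * (1 + (-1) ^ ε * liou n) else 0

theorem rs_nonneg (w : ℝ) (X : ℕ) : 0 ≤ rs 0 w X := by
  refine sum_nonneg fun n _ => ?_
  split_ifs
  · refine mul_nonneg (Nat.cast_nonneg _) ?_
    rcases liou_cases n with h | h <;> rw [h] <;> norm_num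
  · exact le_rfl

theorem rough_sum {l : ℝ} {X : ℕ} (hX : (X : ℝ) < exp l) :
    |rs 1 (exp (l / 3)) X -
      2 * ∑ p ∈ (Icc 1 X).filter Nat.Prime, ((X / p % 2 : ℕ) : ℝ)| ≤ 2 * exp (l / 3) := by
  set A := (Icc 1 X).filter (fun n => n.Prime ∧ ¬ ∀ p ∈ PP (exp (l / 3)), ¬ p ∣ n) with hA
  have e1 : rs 1 (exp (l / 3)) X -
      2 * ∑ p ∈ (Icc 1 X).filter Nat.Prime, ((X / p % 2 : ℕ) : ℝ) =
      -(2 * ∑ n ∈ A, ((X / n % 2 : ℕ) : ℝ)) := by
    rw [rs, hA, sum_filter, sum_filter, mul_sum, mul_sum, ← sum_sub_distrib, ← sum_neg_distrib]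
    refine sum_congr rfl fun n hn => ?_
    by_cases h : ∀ p ∈ PP (exp (l / 3)), ¬ p ∣ n
    · rw [if_pos h, rough hX hn h, if_neg (fun a : n.Prime ∧ ¬ _ => a.2 h)]
      split_ifs <;> ring
    · rw [if_neg h]
      by_cases h' : n.Prime
      · rw [if_pos h', if_pos ⟨h', h⟩]; ring
      · rw [if_neg h', if_neg (fun a : n.Prime ∧ ¬ _ => h' a.1)]; ring
  rw [e1]
  have h0 : 0 ≤ ∑ n ∈ A, ((X / n % 2 : ℕ) : ℝ) := sum_nonneg fun _ _ => Nat.cast_nonneg _
  have h1 : ∑ n ∈ A, ((X / n % 2 : ℕ) : ℝ) ≤ ∑ n ∈ A, (1 : ℝ) :=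
    sum_le_sum fun n _ => by exact_mod_cast (by omega : X / n % 2 ≤ 1)
  have h2 : A ⊆ Icc 1 ⌊exp (l / 3)⌋₊ := by
    intro n hn
    obtain ⟨-, a2, b⟩ := mem_filter.1 hn
    push Not at b
    obtain ⟨p, hp, hd⟩ := b
    rw [(Nat.prime_dvd_prime_iff_eq (mem_PP.1 hp).1 a2).1 hd] at hp
    exact mem_Icc.2 ⟨a2.pos, Nat.le_floor (mem_PP.1 hp).2⟩
  have h3 := card_le_card h2
  rw [Nat.card_Icc, Nat.add_sub_cancel] at h3
  have h4 : (A.card : ℝ) ≤ exp (l / 3) := (Nat.cast_le.2 h3).trans (Nat.floor_le (exp_pos _).le)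
  rw [sum_const, nsmul_eq_mul, mul_one] at h1
  rw [abs_le]; constructor <;> linarith

theorem err (hModK : S_ModK) (hModD : S_ModD) (hModR : S_ModR) : ∃ C : ℝ, 0 < C ∧
    ∀ᶠ l : ℝ in atTop, ∀ (ε : ℕ) (w : ℝ) (R : Finset ℕ → ℕ → Prop) (X : ℕ), ε ≤ 1 → Rule ε l R →
      (X : ℝ) < exp (l - 1) → w ≤ exp (l / 2) →
      |X * log 2 * Tm ε R (PP w) - rs ε w X| ≤ C * exp l * log l / l ^ 2 := by
  obtain ⟨K, hK, h1⟩ := hModK
  obtain ⟨C, hC, h2⟩ := hModD
  obtain ⟨D, hD, h3⟩ := hModR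
  refine ⟨2 * C + K * D, by positivity, ?_⟩
  filter_upwards [h2, h3] with l h2 h3 ε w R X hε hR hX hw
  have hX' : (X : ℝ) ≤ exp l := hX.le.trans (exp_le_exp.2 (by linarith))
  have h4 := h1 ε l w R X hε hR hX
  rw [sum_filter] at h4
  refine le_trans (le_of_eq ?_) (h4.trans ?_)
  · rw [rs]
  have a : (((PP w).powerset.filter (fun S => (∃ p, Stop ε R S p) ∧ pr S ≤ X)).card : ℝ) ≤
      C * exp l * log l / l ^ 2 := by
    refine le_trans (Nat.cast_le.2 (card_le_card fun S hS => ?_)) (h2 ε hε)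
    obtain ⟨s1, ⟨p, hp⟩, s2⟩ := mem_filter.1 hS
    have s3 := mem_powerset.1 s1
    refine mem_filter.2 ⟨mem_powerset.2 (s3.trans (PP_mono hw)), ⟨p, hp.1, hp.2.1, hp.2.2.1,
      hR.alive (fun q hq => (mem_PP.1 (s3 (mem_of_mem_erase hq))).1) hp.2.2.2.2⟩,
      (Nat.cast_le.2 s2).trans hX'⟩
  have b : ∑ S ∈ Fam ε R (PP w), (√((X : ℝ) / pr S) + 1) ≤ D * exp l * log l / l ^ 2 := by
    refine le_trans ((sum_le_sum fun S _ => ?_).trans
      (sum_le_sum_of_subset_of_nonneg (fun S hS => ?_) fun _ _ _ => by positivity)) (h3 ε hε)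
    · gcongr
    · obtain ⟨s1, s2⟩ := mem_Fam.1 hS
      exact mem_Fam.2 ⟨s1.trans (PP_mono hw), hR.alive (fun q hq => (mem_PP.1 (s1 hq)).1) s2⟩
  have c := mul_le_mul_of_nonneg_left b hK.le
  have e : (2 * C + K * D) * exp l * log l / l ^ 2 =
      2 * (C * exp l * log l / l ^ 2) + K * (D * exp l * log l / l ^ 2) := by ring
  linarith

theorem par (l : ℝ) (hl : 6 ≤ l) : ∃ X : ℕ, (X : ℝ) < exp (l - 1) ∧ exp l ≤ 4 * X ∧
    exp (l - 2) ≤ X ∧ (5 : ℝ) ≤ X := by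
  set X := ⌈exp (l - 1)⌉₊ - 1 with hX
  have e5 : (6 : ℝ) ≤ exp (l - 1) := by linarith [add_one_le_exp (l - 1)]
  have c1 : 1 ≤ ⌈exp (l - 1)⌉₊ := Nat.ceil_pos.2 (exp_pos _)
  have X0 : (X : ℝ) = ⌈exp (l - 1)⌉₊ - 1 := by rw [hX, Nat.cast_sub c1, Nat.cast_one]
  have X1 : (X : ℝ) < exp (l - 1) := by
    have := Nat.ceil_lt_add_one (exp_pos (l - 1)).le; linarith
  have X2 : exp (l - 1) - 1 ≤ X := by have := Nat.le_ceil (exp (l - 1)); linarith
  have e1 : exp l = exp (l - 1) * exp 1 := by rw [← exp_add]; congr 1; ring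
  refine ⟨X, X1, ?_, ?_, by linarith⟩
  · have := exp_one_lt_d9
    nlinarith
  · have a : exp (l - 1) = exp (l - 2) * exp 1 := by rw [← exp_add]; congr 1; ring
    have := exp_one_gt_d9
    have := exp_pos (l - 2)
    nlinarith

theorem d1 {D X l g q : ℝ} (hD : 0 < D) (hX : 0 < X) (hl : 6 ≤ l) (g1 : l - 2 ≤ g)
    (q1 : 1 / l ^ 2 ≤ q) : D * X / g ^ 2 ≤ X * log 2 * (8 * D * q) := by
  have l2 : 1 / 2 ≤ log 2 := by have := log_two_gt_d9; linarith
  have l0 : 0 < l ^ 2 := by positivity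
  have g0 : 0 < g := by linarith
  have q0 : 0 < q := lt_of_lt_of_le (by positivity) q1
  have t1 : 1 / g ^ 2 ≤ 4 * (1 / l ^ 2) := by
    rw [mul_one_div, div_le_div_iff₀ (by positivity) l0]; nlinarith
  have t2 : D * X / g ^ 2 = D * X * (1 / g ^ 2) := by ring
  have t3 : D * X * (1 / g ^ 2) ≤ D * X * (4 * q) :=
    mul_le_mul_of_nonneg_left (by linarith) (by positivity)
  have t4 : 0 < D * X * q := by positivity
  nlinarith

theorem d3 {l g q : ℝ} (hl : 6 ≤ l) (g1 : l - 2 ≤ g) (g2 : g ≤ l) (q1 : 1 / l ^ 2 ≤ q) :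
    |2 / g - 2 / l| ≤ 8 * q := by
  have g0 : 0 < g := by linarith
  have l1 : 0 < l := by linarith
  have t1 : 2 / g - 2 / l = 2 * (l - g) / (g * l) := by field_simp
  rw [t1, abs_of_nonneg (div_nonneg (by linarith) (by positivity))]
  refine le_trans ?_ (mul_le_mul_of_nonneg_left q1 (by norm_num))
  rw [mul_one_div, div_le_div_iff₀ (by positivity) (by positivity)]
  have a : 2 * (l - g) * l ^ 2 ≤ 4 * l ^ 2 := mul_le_mul_of_nonneg_right (by linarith) (by positivity)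
  nlinarith

theorem d4 {Z t r s g E F G a b c : ℝ} (hZ : 0 < Z) (h1 : |Z * t - r| ≤ E) (h2 : |r - 2 * s| ≤ 2 * F)
    (h3 : |s - Z / g| ≤ G) (e1 : E ≤ Z * a) (e2 : F ≤ Z * b) (e3 : G ≤ Z * c) :
    |t - 2 / g| ≤ a + 2 * b + 2 * c := by
  refine le_of_mul_le_mul_left ?_ hZ
  rw [← abs_of_pos hZ, ← abs_mul, abs_of_pos hZ]
  have t : Z * (t - 2 / g) = Z * t - 2 * (Z / g) := by ring
  rw [t]
  rw [abs_le] at h1 h2 h3 ⊢
  constructor <;> linarith [h1.1, h1.2, h2.1, h2.2, h3.1, h3.2]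

end ModX

theorem s_Mod (hModK : S_ModK) (hModD : S_ModD) (hModR : S_ModR) (hW : S_W) (hM : S_M) : S_Mod := by
  obtain ⟨C, hC, h1⟩ := ModX.err hModK hModD hModR
  obtain ⟨D, hD, -, -, h2⟩ := hW
  refine ⟨16 * C + 16 * D + 48, by positivity, ?_⟩
  filter_upwards [h1, eventually_ge_atTop 6, ev_pow_exp 1 2 (e := 2 / 3) (by norm_num)]
    with l h1 hl hp
  obtain ⟨X, X1, e2, e3, X3⟩ := ModX.par l hl
  have l2 : 1 / 2 ≤ log 2 := by have := log_two_gt_d9; linarith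
  have ll : 1 ≤ log l := by
    rw [le_log_iff_exp_le (by linarith)]; have := exp_one_lt_d9; linarith
  have l0 : 0 < l ^ 2 := by positivity
  have q1 : 1 / l ^ 2 ≤ log l / l ^ 2 := div_le_div_of_nonneg_right ll l0.le
  have fin : (16 * C + 16 * D + 48) * log l / l ^ 2 = (16 * C + 16 * D + 48) * (log l / l ^ 2) := by
    ring
  have fin2 : C * exp l * log l / l ^ 2 = exp l * (C * (log l / l ^ 2)) := by ring
  rw [fin]
  rw [fin2] at h1
  generalize log l / l ^ 2 = q at q1 h1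
  have q0 : 0 < q := lt_of_lt_of_le (by positivity) q1
  have Z : 0 < (X : ℝ) * log 2 := by positivity
  have Z1 : exp l ≤ 8 * (X * log 2) := by nlinarith
  have Cq := mul_pos hC q0
  have Dq := mul_pos hD q0
  have E1 : exp l * (C * q) ≤ X * log 2 * (8 * C * q) := by nlinarith
  constructor
  · have a := h1 0 (exp (l / 2)) (C0 l) X (by norm_num) (rule_C0 0 l) X1 le_rfl
    have b := ModX.rs_nonneg (exp (l / 2)) X
    have c := (abs_le.1 a).1
    have d : X * log 2 * (-(8 * C * q)) ≤ X * log 2 * Tm 0 (C0 l) (PP (exp (l / 2))) := by linarith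
    have e := le_of_mul_le_mul_left d Z
    linarith
  · intro R w hR hw
    rw [Tm, ModX.fam_eq hR hw, ← Tm]
    have a := h1 1 (exp (l / 3)) R X le_rfl hR X1 (exp_le_exp.2 (by linarith))
    have b := ModX.rough_sum (l := l) (X := X) (X1.trans (exp_lt_exp.2 (by linarith)))
    have c := h2 X (by exact_mod_cast (by linarith : (2 : ℝ) ≤ X))
    have g1 : l - 2 ≤ log X := (le_log_iff_exp_le (by linarith)).2 e3
    have g2 : log X ≤ l := (log_le_iff_le_exp (by linarith)).2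
      (X1.le.trans (exp_le_exp.2 (by linarith)))
    have d2 : exp (l / 3) ≤ X * log 2 * (8 * q) := by
      have t1 : exp l = exp (l / 3) * exp (2 / 3 * l) := by rw [← exp_add]; congr 1; ring
      have t2 : exp (l / 3) ≤ exp l * (1 / l ^ 2) := by
        rw [mul_one_div, le_div_iff₀ l0, t1]
        exact mul_le_mul_of_nonneg_left (by linarith) (exp_pos _).le
      have t3 : exp l * (1 / l ^ 2) ≤ 8 * (X * log 2) * q :=
        mul_le_mul Z1 q1 (by positivity) (by positivity)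
      linarith
    have d3 := ModX.d3 hl g1 g2 q1
    have d4 := ModX.d4 Z a b c E1 d2 (ModX.d1 hD (by linarith) hl g1 q1)
    rw [abs_le] at d3 d4 ⊢
    constructor <;> linarith [d3.1, d3.2, d4.1, d4.2]

end Jac
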