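import Vale.Agent.P013.Gro

/-! The number of stopped chains. -/

noncomputable section
namespace Jac
open Finset Real Filter
open scoped Classical

/-- the chains that can be continued by `p` -/
def modD_M (ε : ℕ) (l : ℝ) (p : ℕ) : Finset (Finset ℕ) :=
  (Fam ε (C0 l) ((PP (exp (l / 2))).filter fun q => p < q)).filter fun m =>
    m.Nonempty ∧ (m.card + 1) % 2 = ε ∧ log p ≤ l - log (pr m)

theorem modD_card (hRem : S_Rem) {ε : ℕ} {l : ℝ} (hε : ε ≤ 1) {m : Finset ℕ}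
    (h : ∀ q ∈ m, q.Prime ∧ l / 4 < log q ∧ (q : ℝ) ≤ exp (l / 2)) (ha : Alive ε (C0 l) m) :
    m.card ≤ 2 := by
  by_contra hc
  have hne : m.Nonempty := card_pos.1 (by omega)
  have h1 := (hRem ε l m hε (fun q hq => (h q hq).1) (fun _ q hq => (h q hq).2.2) ha _
    (m.min'_mem hne) fun q hq => m.min'_le q hq).1
  have h2 := (h _ (m.min'_mem hne)).2.1
  rw [log_pr fun q hq => (h q hq).1] at h1
  have h3 := card_nsmul_le_sum m (fun q : ℕ => log q) (log (m.min' hne)) fun q hq =>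
    log_le_log (by exact_mod_cast (h _ (m.min'_mem hne)).1.pos) (by exact_mod_cast m.min'_le q hq)
  rw [nsmul_eq_mul] at h3
  have h4 : (3 : ℝ) ≤ m.card := by exact_mod_cast (by omega : 3 ≤ m.card)
  have h5 : 0 ≤ log (m.min' hne) := log_natCast_nonneg _
  nlinarith

theorem modD_top {l : ℝ} {m : Finset ℕ} (ha : Alive 1 (C0 l) m) {q : ℕ} (hq : q ∈ m) :
    (q : ℝ) ≤ exp (l / 3) := by
  have hne : m.Nonempty := ⟨q, hq⟩
  have h1 : up m (m.max' hne) = {m.max' hne} := by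
    ext r
    simp only [up, mem_filter, mem_singleton]
    exact ⟨fun h => le_antisymm (m.le_max' r h.1) h.2, fun h => by
      rw [h]; exact ⟨m.max'_mem hne, le_rfl⟩⟩
  have h2 := ha _ (m.max'_mem hne) (by rw [h1]; simp)
  rw [h1, C0, pr, prod_singleton] at h2
  have h3 : (q : ℝ) ≤ m.max' hne := by exact_mod_cast m.le_max' q hq
  refine h3.trans (le_of_pow_le_pow_left₀ three_ne_zero (exp_pos _).le ?_)
  rw [← exp_nat_mul, show ((3 : ℕ) : ℝ) * (l / 3) = l by push_cast; ring]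
  linarith

theorem modD_sub (hRem : S_Rem) {ε : ℕ} {l : ℝ} (hε : ε ≤ 1) :
    (PP (exp (l / 2))).powerset.filter (fun S => (∃ p ∈ S, (∀ q ∈ S, p ≤ q) ∧ S.card % 2 = ε ∧
      Alive ε (C0 l) (S.erase p)) ∧ (pr S : ℝ) ≤ exp l) ⊆
    powersetCard 1 (PP (exp (l / 2))) ∪ powersetCard 2 (PP (exp (l / 2))) ∪
      powersetCard 3 (PP (exp (l / 3))) ∪
      ((PP (exp (l / 2))).filter fun p : ℕ => ((p + 1 : ℕ) : ℝ) ≤ exp (l / 4)).biUnion
        fun p => (modD_M ε l p).image (insert p) := by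
  intro S hS
  obtain ⟨hS, ⟨p, hp, hmin, hc, ha⟩, hpr⟩ := mem_filter.1 hS
  rw [mem_powerset] at hS
  have hcard := card_erase_add_one hp
  have hlt : ∀ q ∈ S.erase p, p < q := fun q hq =>
    lt_of_le_of_ne (hmin q (mem_of_mem_erase hq)) (ne_of_mem_erase hq).symm
  have hP : ∀ q ∈ S, q.Prime ∧ (q : ℝ) ≤ exp (l / 2) := fun q hq => mem_PP.1 (hS hq)
  simp only [mem_union, mem_powersetCard]
  by_cases h1 : S.card = 1
  · exact Or.inl (Or.inl (Or.inl ⟨hS, h1⟩))
  by_cases h2 : S.card = 2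
  · exact Or.inl (Or.inl (Or.inr ⟨hS, h2⟩))
  have hne : (S.erase p).Nonempty := card_pos.1 (by omega)
  by_cases h3 : ((p + 1 : ℕ) : ℝ) ≤ exp (l / 4)
  · refine Or.inr (mem_biUnion.2 ⟨p, mem_filter.2 ⟨hS hp, h3⟩, mem_image.2 ⟨S.erase p,
      mem_filter.2 ⟨mem_Fam.2 ⟨fun q hq => mem_filter.2 ⟨hS (mem_of_mem_erase hq), hlt q hq⟩, ha⟩,
        hne, by rw [hcard, hc], ?_⟩, insert_erase hp⟩⟩)
    have a1 : (0 : ℝ) < pr (S.erase p) := by
      exact_mod_cast pr_pos fun q hq => (hP q (mem_of_mem_erase hq)).1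
    have a2 : (0 : ℝ) < p := by exact_mod_cast (hP p hp).1.pos
    rw [← insert_erase hp, pr_insert (notMem_erase p S), Nat.cast_mul,
      ← log_le_iff_le_exp (by positivity), log_mul a2.ne' a1.ne'] at hpr
    linarith
  · have a1 := modD_card hRem hε (m := S.erase p) (fun q hq => by
      refine ⟨(hP q (mem_of_mem_erase hq)).1, ?_, (hP q (mem_of_mem_erase hq)).2⟩
      have b1 : ((p + 1 : ℕ) : ℝ) ≤ q := by exact_mod_cast hlt q hq
      exact (lt_log_iff_exp_lt ((exp_pos _).trans ((not_le.1 h3).trans_le b1))).2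
        ((not_le.1 h3).trans_le b1)) ha
    have a2 : S.card = 3 := by omega
    obtain rfl : ε = 1 := by omega
    refine Or.inl (Or.inr ⟨fun q hq => mem_PP.2 ⟨(hP q hq).1, ?_⟩, a2⟩)
    by_cases e : q = p
    · obtain ⟨r, hr⟩ := hne
      have b1 : (q : ℝ) ≤ r := by rw [e]; exact_mod_cast (hlt r hr).le
      exact b1.trans (modD_top ha hr)
    · exact modD_top ha (mem_erase.2 ⟨e, hq⟩)

theorem modD_fib {ε : ℕ} {l : ℝ} {p : ℕ} (hp : p.Prime) (j : ℕ) :
    (((modD_M ε l p).filter fun m => ⌊l - log (pr m) - log p⌋₊ = j).card : ℝ) ≤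
      exp l / p * exp (-j) *
        nm ε l ((PP (exp (l / 2))).filter fun q => p < q) 1 1 (log p + (j + 1)) := by
  have h0 : (0 : ℝ) < p := by exact_mod_cast hp.pos
  rw [nm, mul_sum, card_eq_sum_ones, Nat.cast_sum]
  have key : ∀ m ∈ (modD_M ε l p).filter fun m => ⌊l - log (pr m) - log p⌋₊ = j,
      (j : ℝ) ≤ l - log (pr m) - log p ∧ l - log (pr m) - log p < j + 1 := by
    intro m hm
    obtain ⟨a1, a2⟩ := mem_filter.1 hm
    exact (Nat.floor_eq_iff (by linarith [(mem_filter.1 a1).2.2.2])).1 a2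
  have hP : ∀ m ∈ modD_M ε l p, ∀ q ∈ m, q.Prime := fun m hm q hq =>
    (mem_PP.1 (mem_filter.1 ((mem_Fam.1 (mem_filter.1 hm).1).1 hq)).1).1
  refine (sum_le_sum fun m hm => ?_).trans (sum_le_sum_of_subset_of_nonneg (fun m hm => ?_)
    fun m _ _ => by positivity)
  · have a1 : (0 : ℝ) < pr m := by exact_mod_cast pr_pos (hP m (mem_filter.1 hm).1)
    have a2 : log (pr m) ≤ l - log p + -j := by linarith [(key m hm).1]
    rw [log_le_iff_le_exp a1, exp_add, exp_sub, exp_log h0] at a2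
    rw [Nat.cast_one, mul_one_div, le_div_iff₀ a1, one_mul]
    exact a2
  · obtain ⟨a1, a2⟩ := key m hm
    have a3 := (mem_filter.1 hm).1
    obtain ⟨a4, ⟨q, hq⟩, a5, -⟩ := mem_filter.1 a3
    exact mem_filter.2 ⟨a4, ⟨q, hq, (hP m a3 q hq).one_lt⟩, a5, by linarith, by linarith⟩

theorem modD_one (hNB : S_NB) : ∃ C : ℝ, 0 < C ∧ ∀ᶠ l : ℝ in atTop, ∀ ε ≤ 1, ∀ p : ℕ, p.Prime →
    ((p + 1 : ℕ) : ℝ) ≤ exp (l / 4) →
    ((modD_M ε l p).card : ℝ) ≤ C * (exp l * log l / l ^ 2) * (1 / (p * log p)) := by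
  obtain ⟨C, hC, h⟩ := hNB
  have hs := (summable_nat_add_iff 1).2 (summable_pow_mul_exp_neg_nat_mul 2 one_pos)
  set K := ∑' j : ℕ, ((j + 1 : ℕ) : ℝ) ^ 2 * exp (-1 * ((j + 1 : ℕ) : ℝ)) with hK
  have hK0 : 0 ≤ K := tsum_nonneg fun j => by positivity
  refine ⟨2 * C * 3 * (K + 1), by positivity, ?_⟩
  filter_upwards [h, eventually_ge_atTop 3] with l hl hl3 ε hε p hp hp4
  have h0 : (2 : ℝ) ≤ p := by exact_mod_cast hp.two_le
  have hlp : 0 < log p := log_pos (by linarith)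
  have hll : 1 ≤ log l := by
    rw [le_log_iff_exp_le (by linarith)]; linarith [exp_one_lt_three]
  rw [card_eq_sum_card_image fun m => ⌊l - log (pr m) - log p⌋₊, Nat.cast_sum]
  have h1 : ∀ j : ℕ,
      (((modD_M ε l p).filter fun m => ⌊l - log (pr m) - log p⌋₊ = j).card : ℝ) ≤
        2 * C * 3 * (exp l * log l / l ^ 2) * (1 / (p * log p)) *
          (((j + 1 : ℕ) : ℝ) ^ 2 * exp (-1 * ((j + 1 : ℕ) : ℝ))) := by
    intro j
    have a1 := hl ε ((PP (exp (l / 2))).filter fun q => p < q) (p + 1) 1 1 (log p + (j + 1)) hε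
      le_rfl (by linarith [hp.two_le]) hp4 (by rw [Nat.cast_one]; exact one_le_exp (by linarith))
      fun q hq => ⟨(mem_PP.1 (mem_filter.1 hq).1).1, (mem_filter.1 hq).2,
        (mem_PP.1 (mem_filter.1 hq).1).2⟩
    rw [Icc_eq_empty (by linarith [hp.two_le]), filter_empty, prod_empty, div_one] at a1
    have a2 : log p ≤ log ((p + 1 : ℕ) : ℝ) := log_le_log (by linarith) (by push_cast; linarith)
    have a3 : log ((p + 1 : ℕ) : ℝ) ≤ log p + 1 := by
      rw [log_le_iff_le_exp (by positivity), exp_add, exp_log (by linarith)]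
      push_cast
      nlinarith [exp_one_gt_two]
    have hj : (0 : ℝ) ≤ j := by positivity
    have a4 : (log p + (j + 1) - log ((p + 1 : ℕ) : ℝ)) ^ 2 ≤ ((j : ℝ) + 1) ^ 2 :=
      pow_le_pow_left₀ (by linarith) (by linarith) 2
    have a5 : (log p + (j + 1) - log ((p + 1 : ℕ) : ℝ)) ^ 2 + log l
        ≤ 2 * log l * ((j : ℝ) + 1) ^ 2 := by
      have b1 : 1 ≤ ((j : ℝ) + 1) ^ 2 := one_le_pow₀ (by linarith)
      nlinarith
    have a6 : exp (-(j : ℝ)) ≤ 3 * exp (-1 * ((j : ℝ) + 1)) := by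
      rw [show -(j : ℝ) = 1 + -1 * ((j : ℝ) + 1) by ring, exp_add]
      exact mul_le_mul_of_nonneg_right exp_one_lt_three.le (exp_pos _).le
    refine (modD_fib hp j).trans ((mul_le_mul_of_nonneg_left a1 (by positivity)).trans ?_)
    calc _ ≤ exp l / p * (3 * exp (-1 * ((j : ℝ) + 1))) *
          (C * (2 * log l * ((j : ℝ) + 1) ^ 2) / (l ^ 2 * log p)) := by gcongr
      _ = _ := by push_cast; field_simp
  refine (sum_le_sum fun j _ => h1 j).trans ?_
  rw [← mul_sum]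
  have h2 := hs.sum_le_tsum ((modD_M ε l p).image fun m => ⌊l - log (pr m) - log p⌋₊)
    fun j _ => by positivity
  have h3 : 0 ≤ 2 * C * 3 * (exp l * log l / l ^ 2) * (1 / (p * log p)) := by positivity
  calc _ ≤ 2 * C * 3 * (exp l * log l / l ^ 2) * (1 / (p * log p)) * (K + 1) :=
        mul_le_mul_of_nonneg_left (by linarith) h3
    _ = _ := by ring

theorem s_ModD (hNB : S_NB) (hRem : S_Rem) (hM : S_M) : S_ModD := by
  obtain ⟨C1, hC1, h1⟩ := modD_one hNB
  obtain ⟨C, hC, -, -, h2, -, h3⟩ := hM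
  refine ⟨8 * C ^ 2 + 27 * C ^ 3 + C1 * C, by positivity, ?_⟩
  filter_upwards [h1, eventually_ge_atTop 3] with l hl hl3 ε hε
  have hll : 1 ≤ log l := by
    rw [le_log_iff_exp_le (by linarith)]; linarith [exp_one_lt_three]
  have he : ∀ t : ℝ, 1 ≤ t → 2 ≤ exp t := fun t ht => by linarith [add_one_le_exp t]
  have a1 := h2 _ (he (l / 2) (by linarith))
  have a2 := h2 _ (he (l / 3) (by linarith))
  rw [log_exp] at a1 a2
  have b0 : exp l / l ^ 2 ≤ exp l * log l / l ^ 2 := by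
    gcongr
    exact le_mul_of_one_le_right (exp_pos _).le hll
  have b1 : ((PP (exp (l / 2))).card : ℝ) ^ 2 ≤ 4 * C ^ 2 * (exp l * log l / l ^ 2) := by
    have c1 : exp l = exp (l / 2) ^ 2 := by rw [← exp_nat_mul]; congr 1; push_cast; ring
    calc _ ≤ (C * exp (l / 2) / (l / 2)) ^ 2 := by gcongr
      _ = 4 * C ^ 2 * (exp l / l ^ 2) := by rw [c1]; field_simp; ring
      _ ≤ _ := by gcongr
  have b2 : ((PP (exp (l / 3))).card : ℝ) ^ 3 ≤ 27 * C ^ 3 * (exp l * log l / l ^ 2) := by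
    have c1 : exp l = exp (l / 3) ^ 3 := by rw [← exp_nat_mul]; congr 1; push_cast; ring
    have c2 : exp l / l ^ 3 ≤ exp l / l ^ 2 := by gcongr <;> linarith
    calc _ ≤ (C * exp (l / 3) / (l / 3)) ^ 3 := by gcongr
      _ = 27 * C ^ 3 * (exp l / l ^ 3) := by rw [c1]; field_simp; ring
      _ ≤ _ := mul_le_mul_of_nonneg_left (c2.trans b0) (by positivity)
  have b3 : ((((PP (exp (l / 2))).filter fun p : ℕ => ((p + 1 : ℕ) : ℝ) ≤ exp (l / 4)).biUnion
      fun p => (modD_M ε l p).image (insert p)).card : ℝ) ≤ C1 * C * (exp l * log l / l ^ 2) := by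
    refine (Nat.cast_le.2 card_biUnion_le).trans ?_
    rw [Nat.cast_sum]
    refine (sum_le_sum fun p hp => (Nat.cast_le.2 card_image_le).trans
      (hl ε hε p (mem_PP.1 (mem_filter.1 hp).1).1 (mem_filter.1 hp).2)).trans ?_
    rw [← mul_sum]
    have c1 := (sum_le_sum_of_subset_of_nonneg (filter_subset
      (fun p : ℕ => ((p + 1 : ℕ) : ℝ) ≤ exp (l / 4)) (PP (exp (l / 2)))) fun p _ _ =>
        one_div_nonneg.2 (mul_nonneg (Nat.cast_nonneg p) (log_natCast_nonneg p))).trans (h3 _)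
    have c2 : 0 ≤ C1 * (exp l * log l / l ^ 2) := by positivity
    calc _ ≤ C1 * (exp l * log l / l ^ 2) * C := mul_le_mul_of_nonneg_left c1 c2
      _ = _ := by ring
  have b4 := (card_le_card (modD_sub hRem (l := l) hε)).trans ((card_union_le _ _).trans
    (add_le_add_left ((card_union_le _ _).trans (add_le_add_left (card_union_le _ _) _)) _))
  rw [card_powersetCard, card_powersetCard, card_powersetCard, Nat.choose_one_right] at b4
  have b5 := b4.trans (add_le_add_left (add_le_add (add_le_add (Nat.le_self_pow two_ne_zero _)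
    (Nat.choose_le_pow _ 2)) (Nat.choose_le_pow _ 3)) _)
  have b6 := (Nat.cast_le (α := ℝ)).2 b5
  push_cast at b6 b3
  calc _ ≤ (8 * C ^ 2 + 27 * C ^ 3 + C1 * C) * (exp l * log l / l ^ 2) := by linarith
    _ = _ := by ring

end Jac
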