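import Vale.Agent.P013.Gro

/-! The comparison of the sieve with the model sequences. -/

noncomputable section
namespace Jac
open Finset Real Filter
open scoped Classical

def mkW (ε X n : ℕ) : ℝ := ((X / n % 2 : ℕ) : ℝ) * (1 + (-1) ^ ε * liou n)

theorem mk_omega {S : Finset ℕ} (h : ∀ p ∈ S, p.Prime) :
    ArithmeticFunction.cardFactors (pr S) = S.card := by
  induction S using Finset.induction_on with
  | empty => simp [pr]
  | insert a s ha ih =>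
    have hs : ∀ p ∈ s, p.Prime := fun p hp => h p (mem_insert_of_mem hp)
    have h1 := h a (mem_insert_self a s)
    rw [pr_insert ha, ArithmeticFunction.cardFactors_mul h1.ne_zero (pr_pos hs).ne',
      ArithmeticFunction.cardFactors_apply_prime h1, ih hs, card_insert_of_notMem ha, add_comm]

theorem mk_liou {S : Finset ℕ} (h : ∀ p ∈ S, p.Prime) {m : ℕ} (hm : m ≠ 0) :
    liou (pr S * m) = sg S * liou m := by
  rw [liou, ArithmeticFunction.cardFactors_mul (pr_pos h).ne' hm, mk_omega h, pow_add]; rfl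

theorem mk_dvd {S : Finset ℕ} (h : ∀ p ∈ S, p.Prime) (n : ℕ) : pr S ∣ n ↔ ∀ p ∈ S, p ∣ n := by
  have := pr_dvd_iff h n
  simpa only [Int.natCast_dvd_natCast] using this

theorem mkW_bd (ε X n : ℕ) : 0 ≤ mkW ε X n ∧ mkW ε X n ≤ 2 := by
  have h1 : ((X / n % 2 : ℕ) : ℝ) ≤ 1 := by
    have : X / n % 2 ≤ 1 := by omega
    exact_mod_cast this
  have h2 : (0 : ℝ) ≤ ((X / n % 2 : ℕ) : ℝ) := Nat.cast_nonneg _
  have h3 : |(-1 : ℝ) ^ ε * liou n| = 1 := by simp [liou, abs_mul]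
  obtain ⟨h4, h5⟩ := abs_le.1 h3.le
  unfold mkW
  constructor <;> nlinarith

theorem mk_sum_dvd (X d : ℕ) (hd : 0 < d) (f : ℕ → ℝ) :
    ∑ n ∈ (Icc 1 X).filter (fun n => d ∣ n), f n = ∑ m ∈ Icc 1 (X / d), f (d * m) := by
  symm
  refine sum_nbij' (fun m => d * m) (fun n => n / d) ?_ ?_ ?_ ?_ ?_
  · intro m hm
    obtain ⟨h1, h2⟩ := mem_Icc.1 hm
    refine mem_filter.2 ⟨mem_Icc.2 ⟨Nat.mul_pos hd h1, ?_⟩, dvd_mul_right _ _⟩
    rw [mul_comm]; exact (Nat.le_div_iff_mul_le hd).1 h2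
  · intro n hn
    obtain ⟨h1, h2⟩ := mem_filter.1 hn
    obtain ⟨h3, h4⟩ := mem_Icc.1 h1
    exact mem_Icc.2 ⟨Nat.div_pos (Nat.le_of_dvd h3 h2) hd, Nat.div_le_div_right h4⟩
  · intro m _
    exact Nat.mul_div_cancel_left m hd
  · intro n hn
    exact Nat.mul_div_cancel' (mem_filter.1 hn).2
  · intro m _
    rfl

theorem mk_A {C : ℝ} (hC : 0 < C)
    (h1 : ∀ Y : ℕ, |∑ m ∈ Icc 1 Y, ((Y / m % 2 : ℕ) : ℝ) - Y * log 2| ≤ C * √Y)
    (h2 : ∀ Y : ℕ, |∑ m ∈ Icc 1 Y, ((Y / m % 2 : ℕ) : ℝ) * liou m| ≤ C * √Y)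
    (ε X : ℕ) {S : Finset ℕ} (hS : ∀ p ∈ S, p.Prime) :
    |∑ n ∈ (Icc 1 X).filter (fun n => pr S ∣ n), mkW ε X n - X * log 2 / pr S| ≤
      (2 * C + 1) * (√((X : ℝ) / pr S) + 1) := by
  have hd := pr_pos hS
  have hd' : (0 : ℝ) < pr S := by exact_mod_cast hd
  rw [mk_sum_dvd X _ hd]
  set Y := X / pr S with hY
  have h3 : ∑ m ∈ Icc 1 Y, mkW ε X (pr S * m) = ∑ m ∈ Icc 1 Y, ((Y / m % 2 : ℕ) : ℝ)
      + (-1) ^ ε * sg S * ∑ m ∈ Icc 1 Y, ((Y / m % 2 : ℕ) : ℝ) * liou m := by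
    rw [mul_sum, ← sum_add_distrib]
    refine sum_congr rfl fun m hm => ?_
    have := (mem_Icc.1 hm).1
    rw [mkW, mk_liou hS (by omega), ← Nat.div_div_eq_div_mul]
    ring
  have h4 : (Y : ℝ) ≤ X / pr S := Nat.cast_div_le
  have h5 : (X : ℝ) / pr S < Y + 1 := by
    rw [div_lt_iff₀ hd']
    have := Nat.lt_mul_div_succ X hd
    rw [mul_comm]
    exact_mod_cast this
  have h6 : √(Y : ℝ) ≤ √((X : ℝ) / pr S) := sqrt_le_sqrt h4
  have h7 : |(-1 : ℝ) ^ ε * sg S * ∑ m ∈ Icc 1 Y, ((Y / m % 2 : ℕ) : ℝ) * liou m| ≤ C * √Y := by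
    rw [abs_mul, abs_mul, sg]
    simpa using h2 Y
  have h8 := log_two_gt_d9
  have h9 := log_two_lt_d9
  obtain ⟨h10, h11⟩ := abs_le.1 h7
  obtain ⟨h12, h13⟩ := abs_le.1 (h1 Y)
  have h14 := mul_le_mul_of_nonneg_left h6 hC.le
  have h15 := sqrt_nonneg ((X : ℝ) / pr S)
  rw [h3, mul_div_right_comm, abs_le]
  constructor <;> nlinarith

theorem mk_swap (ε X : ℕ) (C : Finset ℕ → ℕ → Prop) (P : Finset ℕ) (hP : ∀ p ∈ P, p.Prime) :
    ∑ S ∈ Fam ε C P, sg S * ∑ n ∈ (Icc 1 X).filter (fun n => pr S ∣ n), mkW ε X n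
      = ∑ n ∈ Icc 1 X, mkW ε X n * ∑ S ∈ Fam ε C (P.filter fun p => p ∣ n), sg S := by
  simp only [mul_sum]
  rw [sum_comm' (t' := Icc 1 X) (s' := fun n => Fam ε C (P.filter fun p => p ∣ n))]
  · exact sum_congr rfl fun n _ => sum_congr rfl fun S _ => mul_comm _ _
  · intro S n
    simp only [mem_Fam, mem_filter]
    constructor
    · rintro ⟨⟨h1, h2⟩, h3, h4⟩
      exact ⟨⟨fun p hp => mem_filter.2 ⟨h1 hp, (mk_dvd (fun q hq => hP q (h1 hq)) n).1 h4 p hp⟩,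
        h2⟩, h3⟩
    · rintro ⟨⟨h1, h2⟩, h3⟩
      have h4 : S ⊆ P := h1.trans (filter_subset _ _)
      exact ⟨⟨h4, h2⟩, h3, (mk_dvd (fun q hq => hP q (h4 hq)) n).2 fun p hp =>
        (mem_filter.1 (h1 hp)).2⟩

theorem mk_one {m p : ℕ} (hm : m ≠ 0) (h1 : m < p ^ 2) (h2 : ∀ q, q.Prime → q ∣ m → p ≤ q)
    (h3 : ArithmeticFunction.cardFactors m % 2 = 0) : m = 1 := by
  by_contra h
  have hq := Nat.minFac_prime h
  obtain ⟨k, hk⟩ := Nat.minFac_dvd m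
  have hk0 : k ≠ 0 := fun h0 => hm (by rw [hk, h0, mul_zero])
  have h4 : ArithmeticFunction.cardFactors m = 1 + ArithmeticFunction.cardFactors k := by
    conv_lhs => rw [hk]
    rw [ArithmeticFunction.cardFactors_mul hq.ne_zero hk0,
      ArithmeticFunction.cardFactors_apply_prime hq]
  have hk1 : k ≠ 1 := fun h0 => by
    rw [h0, ArithmeticFunction.cardFactors_one] at h4
    omega
  have h5 := h2 _ hq (Nat.minFac_dvd m)
  have h6 := (h2 _ (Nat.minFac_prime hk1) ((Nat.minFac_dvd k).trans (Dvd.intro_left _ hk.symm))).trans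
    (Nat.minFac_le (Nat.pos_of_ne_zero hk0))
  have h7 := Nat.mul_le_mul h5 h6
  rw [← hk, ← sq] at h7
  omega

theorem mk_stop {ε : ℕ} {l w : ℝ} {C : Finset ℕ → ℕ → Prop} {X n p : ℕ} {S : Finset ℕ}
    (hR : Rule ε l C) (hX : (X : ℝ) < exp (l - 1)) (hn : n ∈ Icc 1 X) (hW : mkW ε X n ≠ 0)
    (hS : S ⊆ (PP w).filter fun p => p ∣ n) (hp : Stop ε C S p)
    (hq : ∀ q ∈ (PP w).filter fun p => p ∣ n, p ≤ q) : pr S = n := by
  obtain ⟨hn1, hn2⟩ := mem_Icc.1 hn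
  have hSp : ∀ q ∈ S, q.Prime := fun q hq => (mem_PP.1 (mem_filter.1 (hS hq)).1).1
  obtain ⟨m, hm⟩ := (mk_dvd hSp n).2 fun q hq => (mem_filter.1 (hS hq)).2
  have hm0 : m ≠ 0 := fun h0 => by rw [h0, mul_zero] at hm; omega
  have h1 := (hR S p hSp hp.1).2 hp
  have h2 : m < p ^ 2 := by
    have h3 : (n : ℝ) ≤ X := by exact_mod_cast hn2
    have h4 : (n : ℝ) < pr S * (p : ℝ) ^ 2 := by linarith
    have h5 : n < pr S * p ^ 2 := by exact_mod_cast h4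
    rw [hm] at h5
    exact lt_of_mul_lt_mul_left h5 (Nat.zero_le _)
  have h3 : ∀ q, q.Prime → q ∣ m → p ≤ q := fun q h3 h4 => by
    by_contra h5
    have h6 : (q : ℝ) ≤ p := by exact_mod_cast (not_le.1 h5).le
    exact h5 (hq q (mem_filter.2 ⟨mem_PP.2 ⟨h3, h6.trans (mem_PP.1 (mem_filter.1 (hS hp.1)).1).2⟩,
      hm ▸ h4.mul_left _⟩))
  have h4 : ArithmeticFunction.cardFactors m % 2 = 0 := by
    by_contra h4
    refine hW ?_
    have h5 : Odd (ε + S.card + ArithmeticFunction.cardFactors m) := by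
      have := hp.2.2.1
      rw [Nat.odd_iff]; omega
    have h6 : (-1 : ℝ) ^ ε * liou n = -1 := by
      rw [hm, mk_liou hSp hm0, sg, liou, ← pow_add, ← pow_add, ← add_assoc]
      exact h5.neg_one_pow
    rw [mkW, h6]; simp
  rw [hm, mk_one hm0 h2 h3 h4, mul_one]

theorem s_ModK (hId : S_Id) (hW : S_W) : S_ModK := by
  obtain ⟨C0, hC, h1, h2, -⟩ := hW
  refine ⟨2 * C0 + 1, by positivity, fun ε l w C X hε hR hX => ?_⟩
  have hP : ∀ p ∈ PP w, p.Prime := fun p hp => (mem_PP.1 hp).1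
  set Z := (PP w).powerset.filter (fun S => (∃ p, Stop ε C S p) ∧ pr S ≤ X) with hZ
  set St : ℕ → ℝ := fun n => ((((PP w).filter fun p => p ∣ n).powerset.filter
    (fun S => ∃ p, Stop ε C S p ∧ ∀ q ∈ (PP w).filter fun p => p ∣ n, p ≤ q)).card : ℝ) with hSt
  have h3 := mk_swap ε X C (PP w) hP
  have h4 : ∑ n ∈ Icc 1 X, mkW ε X n * ∑ S ∈ Fam ε C ((PP w).filter fun p => p ∣ n), sg S
      = ∑ n ∈ (Icc 1 X).filter (fun n => ∀ p ∈ PP w, ¬ p ∣ n), mkW ε X n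
        - (-1) ^ ε * ∑ n ∈ Icc 1 X, mkW ε X n * St n := by
    rw [sum_filter, mul_sum, ← sum_sub_distrib]
    refine sum_congr rfl fun n _ => ?_
    rw [hId ε C _ hε]
    simp only [filter_eq_empty_iff, hSt]
    split_ifs <;> ring
  have h5 : |∑ S ∈ Fam ε C (PP w), sg S * ∑ n ∈ (Icc 1 X).filter (fun n => pr S ∣ n), mkW ε X n
      - X * log 2 * Tm ε C (PP w)| ≤
      (2 * C0 + 1) * ∑ S ∈ Fam ε C (PP w), (√((X : ℝ) / pr S) + 1) := by
    rw [Tm, mul_sum, mul_sum, ← sum_sub_distrib]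
    refine (abs_sum_le_sum_abs _ _).trans (sum_le_sum fun S hS => ?_)
    have h6 := mk_A hC h1 h2 ε X fun p hp => hP p ((mem_Fam.1 hS).1 hp)
    have h7 : sg S * ∑ n ∈ (Icc 1 X).filter (fun n => pr S ∣ n), mkW ε X n
        - X * log 2 * (sg S / pr S) = sg S *
          (∑ n ∈ (Icc 1 X).filter (fun n => pr S ∣ n), mkW ε X n - X * log 2 / pr S) := by ring
    rw [h7, abs_mul, sg]
    simpa using h6
  have h6 : ∀ n ∈ Icc 1 X, mkW ε X n * St n ≤ 2 * ((Z.filter fun S => pr S = n).card : ℝ) := by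
    intro n hn
    by_cases h0 : mkW ε X n = 0
    · rw [h0, zero_mul]; positivity
    refine mul_le_mul (mkW_bd ε X n).2 (Nat.cast_le.2 (card_le_card fun S hS => ?_))
      (Nat.cast_nonneg _) (by norm_num)
    obtain ⟨h7, p, h8, h9⟩ := mem_filter.1 hS
    have h10 := mk_stop hR hX hn h0 (mem_powerset.1 h7) h8 h9
    exact mem_filter.2 ⟨mem_filter.2 ⟨mem_powerset.2 ((mem_powerset.1 h7).trans
      (filter_subset _ _)), ⟨p, h8⟩, h10 ▸ (mem_Icc.1 hn).2⟩, h10⟩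
  have h7 : ∑ n ∈ Icc 1 X, mkW ε X n * St n ≤ 2 * (Z.card : ℝ) := by
    refine (sum_le_sum h6).trans (le_of_eq ?_)
    rw [← mul_sum, card_eq_sum_card_fiberwise (f := pr) (s := Z) (t := Icc 1 X), Nat.cast_sum]
    intro S hS
    obtain ⟨h8, -, h9⟩ := mem_filter.1 (mem_coe.1 hS)
    exact mem_coe.2 (mem_Icc.2 ⟨pr_pos fun p hp => hP p (mem_powerset.1 h8 hp), h9⟩)
  have h8 : 0 ≤ ∑ n ∈ Icc 1 X, mkW ε X n * St n :=
    sum_nonneg fun n _ => mul_nonneg (mkW_bd ε X n).1 (Nat.cast_nonneg _)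
  have h9 : |(-1 : ℝ) ^ ε * ∑ n ∈ Icc 1 X, mkW ε X n * St n| ≤ 2 * (Z.card : ℝ) := by
    rw [abs_mul, abs_of_nonneg h8]
    simpa using h7
  rw [h3, h4] at h5
  obtain ⟨h10, h11⟩ := abs_le.1 h5
  obtain ⟨h12, h13⟩ := abs_le.1 h9
  change |X * log 2 * Tm ε C (PP w)
    - ∑ n ∈ (Icc 1 X).filter (fun n => ∀ p ∈ PP w, ¬ p ∣ n), mkW ε X n| ≤ _
  rw [abs_le]
  constructor <;> linarith

end Jac
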