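import Vale.Agent.P013.Gro

/-! The remainder of the models. -/

noncomputable section
namespace Jac
open Finset Real Filter
open scoped Classical

theorem modR_term (hRem : S_Rem) {ε : ℕ} (hε : ε ≤ 1) {l : ℝ} {S : Finset ℕ}
    (hS : S ∈ Fam ε (C0 l) (PP (exp (l / 2)))) (h0 : S.Nonempty) :
    √(exp l / pr S) + 1 ≤ ∑ i ∈ range (⌊l⌋₊ + 1), ∑ s ∈ range 2, 2 * exp l * exp (-1 / 2) ^ i *
      if (∃ q ∈ S, 1 < q) ∧ (S.card + s) % 2 = ε ∧ (i + 1 : ℝ) - 1 ≤ l - log (pr S) ∧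
        l - log (pr S) < i + 1 then 1 / (pr S : ℝ) else 0 := by
  obtain ⟨h1, h2⟩ := mem_Fam.1 hS
  have hp : ∀ q ∈ S, q.Prime := fun q hq => (mem_PP.1 (h1 hq)).1
  have hm := S.min'_mem h0
  have h3 := (hRem ε l S hε hp (fun _ q hq => (mem_PP.1 (h1 hq)).2) h2 _ hm
    fun q hq => S.min'_le q hq).1
  have h4 : 0 ≤ l - log (pr S) := (log_natCast_nonneg _).trans h3
  have h5 : (0 : ℝ) < pr S := by exact_mod_cast pr_pos hp
  have h6 := Nat.floor_le h4
  have hi : ⌊l - log (pr S)⌋₊ ∈ range (⌊l⌋₊ + 1) := mem_range.2 (Nat.lt_succ_of_le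
    (Nat.floor_mono (by linarith [log_natCast_nonneg (pr S)])))
  have hs : (S.card + ε) % 2 ∈ range 2 := mem_range.2 (Nat.mod_lt _ two_pos)
  refine le_trans ?_ (single_le_sum (fun i _ => sum_nonneg fun s _ => by positivity) hi)
  refine le_trans ?_ (single_le_sum (fun s _ => by positivity) hs)
  rw [if_pos ⟨⟨_, hm, (hp _ hm).one_lt⟩, by omega, by linarith, Nat.lt_floor_add_one _⟩,
    mul_right_comm, mul_assoc 2, mul_one_div, ← exp_nat_mul]
  have h7 : exp l / pr S = exp (l - log (pr S)) := by rw [exp_sub, exp_log h5]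
  rw [h7, ← exp_half, mul_assoc, ← exp_add]
  have h8 := one_le_exp (div_nonneg h4 zero_le_two)
  have h9 : exp ((l - log (pr S)) / 2) ≤
      exp (l - log (pr S) + ⌊l - log (pr S)⌋₊ * (-1 / 2)) := exp_le_exp.2 (by linarith)
  linarith

theorem modR_geom : ∃ K : ℝ, 0 < K ∧ ∀ n : ℕ,
    ∑ i ∈ range n, exp (-1 / 2) ^ i * ((i + 1 : ℝ) ^ 2 + 1) ≤ K := by
  have hr : ‖exp (-1 / 2)‖ < 1 := by
    rw [norm_of_nonneg (exp_pos _).le]
    exact exp_lt_one_iff.2 (by norm_num)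
  have h := ((summable_pow_mul_geometric_of_norm_lt_one 2 hr).add
    ((summable_pow_mul_geometric_of_norm_lt_one 1 hr).mul_left 2)).add
    ((summable_pow_mul_geometric_of_norm_lt_one 0 hr).mul_left 2)
  have h1 : Summable fun i : ℕ => exp (-1 / 2) ^ i * ((i + 1 : ℝ) ^ 2 + 1) :=
    h.congr fun i => by ring
  refine ⟨|∑' i : ℕ, exp (-1 / 2) ^ i * ((i + 1 : ℝ) ^ 2 + 1)| + 1, by positivity, fun n => ?_⟩
  linarith [h1.sum_le_tsum (range n) fun i _ => by positivity,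
    le_abs_self (∑' i : ℕ, exp (-1 / 2) ^ i * ((i + 1 : ℝ) ^ 2 + 1))]

theorem s_ModR (hNB : S_NB) (hRem : S_Rem) : S_ModR := by
  obtain ⟨C, hC, hNB⟩ := hNB
  obtain ⟨K, hK, hG⟩ := modR_geom
  refine ⟨1 + 8 * C * K, by positivity, ?_⟩
  filter_upwards [hNB, eventually_ge_atTop 4, tendsto_log_atTop.eventually_ge_atTop 1,
    ev_pow_exp 2 2 (e := 1 / 2) (by norm_num)] with l hN h4 hl he ε hε
  have h2 : (2 : ℝ) ≤ exp (l / 4) := by linarith [add_one_le_exp (l / 4)]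
  have hb : ∀ i : ℕ, ∀ s ∈ range 2, nm ε l (PP (exp (l / 2))) 1 s (i + 1) ≤
      2 * C * log l / l ^ 2 * ((i + 1 : ℝ) ^ 2 + 1) := fun i s hs => by
    have h5 := hN ε (PP (exp (l / 2))) 2 1 s (i + 1) hε (Nat.lt_succ_iff.1 (mem_range.1 hs)) le_rfl
      (by exact_mod_cast h2) (by rw [Nat.cast_one]; linarith)
      fun q hq => ⟨(mem_PP.1 hq).1, (mem_PP.1 hq).1.two_le, (mem_PP.1 hq).2⟩
    rw [Icc_eq_empty (by norm_num), filter_empty, prod_empty, div_one, Nat.cast_ofNat] at h5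
    have h6 := log_two_gt_d9
    have h7 := log_two_lt_d9
    have h8 : (0 : ℝ) ≤ i := i.cast_nonneg
    have h9 : (i + 1 - log 2) ^ 2 + log l ≤ log l * ((i + 1 : ℝ) ^ 2 + 1) := by
      have : (i + 1 - log 2) ^ 2 ≤ (i + 1 : ℝ) ^ 2 := pow_le_pow_left₀ (by linarith) (by linarith) 2
      nlinarith [sq_nonneg (i + 1 : ℝ)]
    refine h5.trans ((div_le_div₀ (by positivity) (mul_le_mul_of_nonneg_left h9 hC.le)
      (d := l ^ 2 * (1 / 2)) (by positivity) (by gcongr; linarith)).trans (le_of_eq ?_))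
    field_simp
  set F := Fam ε (C0 l) (PP (exp (l / 2))) with hF
  have h1 : ∑ S ∈ F.erase ∅, (√(exp l / pr S) + 1) ≤ ∑ i ∈ range (⌊l⌋₊ + 1), ∑ s ∈ range 2,
      2 * exp l * exp (-1 / 2) ^ i * nm ε l (PP (exp (l / 2))) 1 s (i + 1) := by
    refine (sum_le_sum fun S hS => modR_term hRem hε (mem_of_mem_erase hS)
      (nonempty_iff_ne_empty.2 (ne_of_mem_erase hS))).trans ?_
    refine (sum_le_sum_of_subset_of_nonneg (erase_subset _ _) fun S _ _ =>
      sum_nonneg fun i _ => sum_nonneg fun s _ => by positivity).trans (le_of_eq ?_)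
    rw [sum_comm]
    refine sum_congr rfl fun i _ => ?_
    rw [sum_comm]
    refine sum_congr rfl fun s _ => ?_
    rw [nm, sum_filter, mul_sum]
  have h3 : ∑ S ∈ F.erase ∅, (√(exp l / pr S) + 1) ≤ 8 * C * K * exp l * log l / l ^ 2 := by
    refine (h1.trans (sum_le_sum fun i _ => sum_le_sum fun s hs =>
      mul_le_mul_of_nonneg_left (hb i s hs) (by positivity))).trans ?_
    have h5 := mul_le_mul_of_nonneg_left (hG (⌊l⌋₊ + 1))
      (show 0 ≤ 8 * C * exp l * log l / l ^ 2 by positivity)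
    rw [mul_sum] at h5
    refine le_trans (le_of_eq (sum_congr rfl fun i _ => ?_)) (h5.trans (le_of_eq (by ring)))
    rw [sum_const, card_range, nsmul_eq_mul]
    push_cast
    ring
  have h5 : √(exp l / pr ∅) + 1 ≤ exp l * log l / l ^ 2 := by
    have h6 := one_le_exp (show 0 ≤ l / 2 by linarith)
    have h7 : exp l = exp (l / 2) * exp (1 / 2 * l) := by rw [← exp_add]; ring_nf
    rw [pr, prod_empty, Nat.cast_one, div_one, ← exp_half, le_div_iff₀ (by positivity)]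
    have h8 := mul_le_mul_of_nonneg_left he (exp_pos (l / 2)).le
    have h9 := mul_le_mul_of_nonneg_left hl (exp_pos l).le
    have h10 := mul_le_mul_of_nonneg_right h6 (sq_nonneg l)
    linarith
  have h6 : (∅ : Finset ℕ) ∈ F := mem_Fam.2 ⟨empty_subset _, fun p hp => absurd hp (notMem_empty p)⟩
  rw [← add_sum_erase _ _ h6]
  refine (add_le_add h5 h3).trans (le_of_eq (by ring))

end Jac
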