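import Vale.Agent.P013.Gro

/-! The moment lemma, abstract form. -/

noncomputable section
namespace Jac
open Finset Real Filter
open scoped Classical

theorem mom1_cnt {k : ℕ} (n : ℕ) (hn : 1 ≤ n) (P : Fin k → Finset ℕ) {f : Fin k → ℕ}
    (hf : f ∈ Fintype.piFinset P) :
    ((Fintype.piFinset fun i => powersetCard n (P i)).filter
      (fun Q => f ∈ Fintype.piFinset Q)).card = ∏ i, ((P i).card - 1).choose (n - 1) := by
  have e : (Fintype.piFinset fun i => powersetCard n (P i)).filter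
      (fun Q => f ∈ Fintype.piFinset Q) =
      Fintype.piFinset fun i => (powersetCard n (P i)).filter ({f i} ⊆ ·) := by
    ext Q
    simp only [mem_filter, Fintype.mem_piFinset, singleton_subset_iff, forall_and]
  rw [e, Fintype.card_piFinset]
  refine prod_congr rfl fun i _ => ?_
  rw [card_filter_powersetCard_subset _ _ _
    (singleton_subset_iff.2 (Fintype.mem_piFinset.1 hf i)) (by simpa using hn), card_singleton]

theorem mom1_avg {k : ℕ} (n : ℕ) (hn : 1 ≤ n) (P : Fin k → Finset ℕ) (F : (Fin k → ℕ) → ℂ) :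
    ∑ Q ∈ Fintype.piFinset fun i => powersetCard n (P i), ∑ f ∈ Fintype.piFinset Q, F f
      = ((∏ i, ((P i).card - 1).choose (n - 1) : ℕ) : ℂ) * ∑ f ∈ Fintype.piFinset P, F f := by
  rw [mul_sum, sum_comm' (t' := Fintype.piFinset P)
    (s' := fun f => (Fintype.piFinset fun i => powersetCard n (P i)).filter
      (fun Q => f ∈ Fintype.piFinset Q))]
  · refine sum_congr rfl fun f hf => ?_
    rw [sum_const, mom1_cnt n hn P hf, nsmul_eq_mul]
  · intro Q f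
    simp only [mem_filter]
    refine ⟨fun h => ⟨h, Fintype.mem_piFinset.2 fun i => ?_⟩, fun h => h.1⟩
    exact (mem_powersetCard.1 (Fintype.mem_piFinset.1 h.1 i)).1 (Fintype.mem_piFinset.1 h.2 i)

theorem mom1_norm {k : ℕ} (P : Fin k → Finset ℕ) {a : Fin k → ℕ → ℂ} (ha : ∀ i p, ‖a i p‖ ≤ 1)
    (q : ℕ) (N : ℤ) : ‖gsum P a q N‖ ≤ ∏ i, ((P i).card : ℝ) := by
  refine (norm_sum_le _ _).trans ((sum_le_card_nsmul _ _ 1 fun f _ => ?_).trans (le_of_eq ?_))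
  · rw [norm_mul, norm_ee, mul_one, norm_prod]
    exact prod_le_one (fun _ _ => norm_nonneg _) fun i _ => ha i _
  · rw [Fintype.card_piFinset]
    simp

theorem mom1_dbl {Q U : Finset ℕ} {al : ℕ → Finset ℕ} {V0 U1 c : ℝ} (hc : 0 ≤ c)
    (hQ : (Q.card : ℝ) ≤ V0) (hU : (U.card : ℝ) ≤ U1) (hal : ∀ u ∈ U, al u ⊆ Q) :
    ∑ u ∈ U, ∑ _q ∈ al u, c ≤ U1 * V0 * c := by
  have h0 : 0 ≤ V0 := (Nat.cast_nonneg _).trans hQ
  refine (sum_le_card_nsmul _ _ (V0 * c) fun u hu => ?_).trans ?_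
  · rw [sum_const, nsmul_eq_mul]
    exact mul_le_mul_of_nonneg_right ((Nat.cast_le.2 (card_le_card (hal u hu))).trans hQ) hc
  · rw [nsmul_eq_mul, mul_assoc]
    exact mul_le_mul_of_nonneg_right hU (by positivity)

/-- Choice of the blocks. -/
theorem mom1_blocks {k n : ℕ} {P : Fin k → Finset ℕ} {V : Fin k → ℝ} {a : Fin k → ℕ → ℂ}
    {U : Finset ℕ} {al : ℕ → Finset ℕ} {N : ℕ → ℤ} {c : ℝ} (hn : 1 ≤ n) (hc : 0 ≤ c)
    (hP : ∀ i, n ≤ (P i).card ∧ ((P i).card : ℝ) ≤ V i)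
    (h : c * ∏ i, V i < ∑ u ∈ U, ∑ q ∈ al u, ‖gsum P a q (N u)‖) :
    ∃ P' : Fin k → Finset ℕ, (∀ i, P' i ⊆ P i ∧ (P' i).card = n) ∧
      c * (n : ℝ) ^ k < ∑ u ∈ U, ∑ q ∈ al u, ‖gsum P' a q (N u)‖ := by
  obtain ⟨M, hM⟩ : ∃ M : ℕ, M = ∏ i, ((P i).card - 1).choose (n - 1) := ⟨_, rfl⟩
  have hM0 : (0 : ℝ) < M := by
    rw [hM]
    exact Nat.cast_pos.2 (prod_pos fun i _ => Nat.choose_pos (by have := (hP i).1; omega))
  have h1 : ∀ q Z, M * ‖gsum P a q Z‖ ≤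
      ∑ Q ∈ Fintype.piFinset fun i => powersetCard n (P i), ‖gsum Q a q Z‖ := fun q Z => by
    refine le_trans (le_of_eq ?_) (norm_sum_le _ _)
    simp only [gsum]
    rw [mom1_avg n hn, norm_mul, ← hM, Complex.norm_natCast]
  have h2 : (Fintype.piFinset fun i => powersetCard n (P i)).card * n ^ k
      = M * ∏ i, (P i).card := by
    have e : n ^ k = ∏ _i : Fin k, n := by simp
    rw [Fintype.card_piFinset, e, hM, ← prod_mul_distrib, ← prod_mul_distrib]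
    refine prod_congr rfl fun i _ => ?_
    obtain ⟨m, hm⟩ : ∃ m, (P i).card = m + 1 := ⟨(P i).card - 1, by have := (hP i).1; omega⟩
    obtain ⟨l, rfl⟩ : ∃ l, n = l + 1 := ⟨n - 1, by omega⟩
    rw [card_powersetCard, hm, ← Nat.add_one_mul_choose_eq, mul_comm]
    simp
  have h3 : ((Fintype.piFinset fun i => powersetCard n (P i)).card : ℝ) * (n : ℝ) ^ k
      ≤ M * ∏ i, V i := by
    have := congrArg (Nat.cast : ℕ → ℝ) h2
    push_cast at this
    rw [this]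
    gcongr with i
    exact (hP i).2
  by_contra hcon
  have h4 : ∀ Q ∈ Fintype.piFinset fun i => powersetCard n (P i),
      ∑ u ∈ U, ∑ q ∈ al u, ‖gsum Q a q (N u)‖ ≤ c * (n : ℝ) ^ k := fun Q hQ => by
    by_contra h5
    exact hcon ⟨Q, fun i => mem_powersetCard.1 (Fintype.mem_piFinset.1 hQ i), not_le.1 h5⟩
  have h5 := sum_le_card_nsmul _ _ _ h4
  rw [nsmul_eq_mul, sum_comm] at h5
  have h6 : M * ∑ u ∈ U, ∑ q ∈ al u, ‖gsum P a q (N u)‖ ≤
      ∑ u ∈ U, ∑ Q ∈ Fintype.piFinset fun i => powersetCard n (P i),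
        ∑ q ∈ al u, ‖gsum Q a q (N u)‖ := by
    rw [mul_sum]
    refine sum_le_sum fun u _ => ?_
    rw [sum_comm, mul_sum]
    exact sum_le_sum fun q _ => h1 q _
  have h7 := mul_lt_mul_of_pos_left h hM0
  have h8 := mul_le_mul_of_nonneg_left h3 hc
  nlinarith

/-- Choice of a residue class. -/
theorem mom1_class {U : Finset ℕ} {N : ℕ → ℤ} {g : ℕ → ℝ} {M : ℕ} {A V0 b : ℝ} (hM : 0 < M)
    (hA : 0 ≤ A) (hb : 0 ≤ b) (hV : 0 ≤ V0) (hg : ∀ u ∈ U, g u ≤ V0)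
    (h : A * U.card + M * (V0 * b) < ∑ u ∈ U, g u) :
    ∃ c : ℤ, A * (U.filter fun u => N u % M = c).card < ∑ u ∈ U.filter fun u => N u % M = c, g u ∧
      b ≤ (U.filter fun u => N u % M = c).card := by
  have hm : ∀ u ∈ U, N u % M ∈ Ico (0 : ℤ) M := fun u _ =>
    mem_Ico.2 ⟨Int.emod_nonneg _ (by omega), Int.emod_lt_of_pos _ (by omega)⟩
  by_contra hcon
  have h1 : ∀ c ∈ Ico (0 : ℤ) M, ∑ u ∈ U.filter fun u => N u % M = c, g u ≤
      A * (U.filter fun u => N u % M = c).card + V0 * b := fun c _ => by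
    have h0 : 0 ≤ V0 * b := by positivity
    by_contra h2
    have h3 := sum_le_card_nsmul (U.filter fun u => N u % M = c) g V0
      fun u hu => hg u (mem_filter.1 hu).1
    rw [nsmul_eq_mul] at h3
    refine hcon ⟨c, by linarith, ?_⟩
    by_contra h4
    have h5 := mul_le_mul_of_nonneg_right (not_le.1 h4).le hV
    have h6 : 0 ≤ A * (U.filter fun u => N u % M = c).card := by positivity
    linarith
  have h2 := sum_le_sum h1
  rw [sum_fiberwise_of_maps_to hm, sum_add_distrib, ← mul_sum, ← Nat.cast_sum,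
    ← card_eq_sum_card_fiberwise hm, sum_const, nsmul_eq_mul, Int.card_Ico] at h2
  simp only [sub_zero, Int.toNat_natCast] at h2
  linarith

theorem mom1_fib {s t : Finset ℕ} {φ : ℕ → ℕ} (h : ∀ x ∈ s, φ x ∈ t) :
    (s.card : ℝ) ^ 2 ≤ t.card * ∑ x ∈ s, ((s.filter fun x' => φ x' = φ x).card : ℝ) := by
  have h1 := sq_sum_le_card_mul_sum_sq (s := t)
    (f := fun y => ((s.filter fun x => φ x = y).card : ℝ))
  rw [← Nat.cast_sum, ← card_eq_sum_card_fiberwise h] at h1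
  refine h1.trans (le_of_eq ?_)
  rw [← sum_fiberwise_of_maps_to h]
  congr 1
  refine sum_congr rfl fun y _ => ?_
  rw [sum_congr rfl (g := fun _ => ((s.filter fun x => φ x = y).card : ℝ))
    (fun x hx => by rw [(mem_filter.1 hx).2]), sum_const, nsmul_eq_mul, sq]

/-- The second moment. -/
theorem mom1_cs {Q Uc : Finset ℕ} {al Gd B : ℕ → Finset ℕ} {N : ℕ → ℤ}
    (hG : ∀ u ∈ Uc, Gd u ⊆ al u ∧ Gd u ⊆ Q) (hQ : ∀ q ∈ Q, 0 < q)
    (hB : ∀ u ∈ Uc, ∀ q ∈ Gd u, (N u % q).toNat ∈ B q) :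
    (∑ u ∈ Uc, ((Gd u).card : ℝ)) ^ 2 ≤
      (∑ q ∈ Q, ((B q).card : ℝ)) * ∑ u ∈ Uc, ∑ u' ∈ Uc, (tau al N u u' : ℝ) := by
  have e : ∑ u ∈ Uc, ((Gd u).card : ℝ) = ∑ q ∈ Q, ((Uc.filter fun u => q ∈ Gd u).card : ℝ) := by
    simp only [card_filter, Nat.cast_sum]
    rw [sum_comm]
    refine sum_congr rfl fun u hu => ?_
    rw [← Nat.cast_sum, ← card_filter, filter_mem_eq_inter, inter_eq_right.2 (hG u hu).2]
  rw [e]
  refine (sum_sq_le_sum_mul_sum_of_sq_le_mul Q (f := fun q => ((B q).card : ℝ))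
    (g := fun q => ∑ u ∈ Uc, ∑ u' ∈ Uc,
      if q ∈ (al u ∩ al u').filter (fun q : ℕ => (q : ℤ) ∣ N u - N u') then (1 : ℝ) else 0)
    (fun _ _ => Nat.cast_nonneg _)
    (fun _ _ => sum_nonneg fun _ _ => sum_nonneg fun _ _ => by split_ifs <;> norm_num)
    fun q hq => ?_).trans ?_
  · refine (mom1_fib (φ := fun u => (N u % q).toNat) (t := B q)
      fun u hu => hB u (mem_filter.1 hu).1 q (mem_filter.1 hu).2).trans ?_
    refine mul_le_mul_of_nonneg_left ?_ (Nat.cast_nonneg _)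
    refine le_trans (sum_le_sum fun u hu => ?_) (sum_le_sum_of_subset_of_nonneg (filter_subset _ _)
      fun _ _ _ => sum_nonneg fun _ _ => by split_ifs <;> norm_num)
    rw [sum_boole]
    refine Nat.cast_le.2 (card_le_card fun u' hu' => ?_)
    obtain ⟨h1, h2⟩ := mem_filter.1 hu'
    obtain ⟨h3, h4⟩ := mem_filter.1 h1
    obtain ⟨h5, h6⟩ := mem_filter.1 hu
    refine mem_filter.2 ⟨h3, mem_filter.2 ⟨mem_inter.2 ⟨(hG u h5).1 h6, (hG u' h3).1 h4⟩, ?_⟩⟩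
    have hq0 : (q : ℤ) ≠ 0 := by have := hQ q hq; omega
    have h7 := Int.emod_nonneg (N u) hq0
    have h8 := Int.emod_nonneg (N u') hq0
    have h9 : N u' ≡ N u [ZMOD q] := by
      unfold Int.ModEq
      omega
    exact h9.dvd
  · refine mul_le_mul_of_nonneg_left ?_ (sum_nonneg fun _ _ => Nat.cast_nonneg _)
    rw [sum_comm]
    refine sum_le_sum fun u _ => ?_
    rw [sum_comm]
    refine sum_le_sum fun u' _ => ?_
    rw [sum_boole]
    exact Nat.cast_le.2 (card_le_card fun q hq => (mem_filter.1 hq).2)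

/-- A centre with many neighbours. -/
theorem mom1_centre {Uc : Finset ℕ} {t : ℕ → ℕ → ℝ} {τ V0 : ℝ} (hτ : 1 ≤ τ) (hV : 0 ≤ V0)
    (ht : ∀ u ∈ Uc, ∀ u', t u u' ≤ V0)
    (h : 2 * τ * (Uc.card : ℝ) ^ 2 < ∑ u ∈ Uc, ∑ u' ∈ Uc, t u u') :
    ∃ u ∈ Uc, (Uc.card : ℝ) ≤ V0 * (Uc.filter fun u' => τ < t u u').card := by
  have h1 : ∑ _u ∈ Uc, 2 * τ * (Uc.card : ℝ) < ∑ u ∈ Uc, ∑ u' ∈ Uc, t u u' := by
    rw [sum_const, nsmul_eq_mul]
    linarith
  obtain ⟨u, hu, h2⟩ := exists_lt_of_sum_lt h1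
  refine ⟨u, hu, ?_⟩
  have h3 : ∑ u' ∈ Uc, t u u' ≤ ∑ u' ∈ Uc, (τ + V0 * if τ < t u u' then 1 else 0) :=
    sum_le_sum fun u' _ => by
      have := ht u hu u'
      split_ifs with h4 <;> linarith
  rw [sum_add_distrib, ← mul_sum, sum_boole, sum_const, nsmul_eq_mul] at h3
  have h4 : (Uc.card : ℝ) ≤ τ * Uc.card := le_mul_of_one_le_left (Nat.cast_nonneg _) hτ
  linarith

theorem s_Mom1 (hUnif : S_Unif) : S_Mom1 := by
  intro k n j P V a Q U al N Qm η V0 U1 τ0 hn hj hη hη1 hQm hτ hV0 hP hD ha hQ hQc hUc hal hW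
  refine or_iff_not_imp_left.2 fun hS => ?_
  have hU1 : 0 ≤ U1 := (Nat.cast_nonneg _).trans hUc
  have hn0 : (0 : ℝ) < n := Nat.cast_pos.2 hn
  have hPn : ∀ i, n ≤ (P i).card := fun i => by
    by_contra hi
    refine hS ((sum_le_sum fun u _ => sum_le_sum fun q _ => mom1_norm P ha q (N u)).trans
      ((mom1_dbl (prod_nonneg fun _ _ => Nat.cast_nonneg _) hQc hUc hal).trans ?_))
    have h1 : ((P i).card : ℝ) ≤ η * V i := by
      have h2 : ((P i).card : ℝ) ≤ n := Nat.cast_le.2 (not_le.1 hi).le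
      have h3 : (1 : ℝ) ≤ k := Nat.one_le_cast.2 i.pos
      have := (hP i).2.1
      nlinarith
    have h2 : ∏ i, ((P i).card : ℝ) ≤ η * ∏ i, V i := by
      rw [← mul_prod_erase univ _ (mem_univ i), ← mul_prod_erase univ V (mem_univ i), ← mul_assoc]
      exact mul_le_mul h1 (prod_le_prod (fun _ _ => Nat.cast_nonneg _) fun l _ => (hP l).1)
        (prod_nonneg fun _ _ => Nat.cast_nonneg _) ((Nat.cast_nonneg _).trans h1)
    calc _ ≤ U1 * V0 * (η * ∏ i, V i) := by gcongr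
      _ = _ := by ring
  obtain ⟨P', hP', h1⟩ := mom1_blocks (V := V) hn (c := η * U1 * V0) (by positivity)
    (fun i => ⟨hPn i, (hP i).1⟩) (not_le.1 hS)
  obtain ⟨Gd, hGd⟩ : ∃ Gd : ℕ → Finset ℕ, Gd = fun u =>
    (al u).filter fun q => η / 4 * (n : ℝ) ^ k ≤ ‖gsum P' a q (N u)‖ := ⟨_, rfl⟩
  have hG : ∀ u ∈ U, Gd u ⊆ al u ∧ Gd u ⊆ Q := fun u hu => by
    rw [hGd]
    exact ⟨filter_subset _ _, (filter_subset _ _).trans (hal u hu)⟩
  have hnk : (0 : ℝ) < (n : ℝ) ^ k := by positivity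
  have h2 : 3 / 4 * (η * U1 * V0) < ∑ u ∈ U, ((Gd u).card : ℝ) := by
    have h3 : ∑ u ∈ U, ∑ q ∈ al u, ‖gsum P' a q (N u)‖ ≤
        ∑ u ∈ U, ((n : ℝ) ^ k * (Gd u).card + ∑ _q ∈ al u, η / 4 * (n : ℝ) ^ k) := by
      refine sum_le_sum fun u _ => ?_
      simp only [hGd]
      rw [← sum_boole, mul_sum, ← sum_add_distrib]
      refine sum_le_sum fun q _ => ?_
      have h4 := mom1_norm P' ha q (N u)
      simp only [fun i => (hP' i).2, prod_const, card_univ, Fintype.card_fin] at h4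
      have : 0 ≤ η / 4 * (n : ℝ) ^ k := by positivity
      split_ifs with h5 <;> linarith
    rw [sum_add_distrib, ← mul_sum] at h3
    have h4 := mom1_dbl (c := η / 4 * (n : ℝ) ^ k) (by positivity) hQc hUc hal
    refine lt_of_mul_lt_mul_left ?_ hnk.le
    linarith
  have hpr : ∀ i, ∀ p ∈ P' i, p.Prime := fun i p hp => ((hP i).2.2 p ((hP' i).1 hp)).1
  obtain ⟨M, hM⟩ : ∃ M : ℕ, M = ∏ i, pr (P' i) := ⟨_, rfl⟩
  have hM0 : 0 < M := hM ▸ prod_pos fun i _ => pr_pos (hpr i)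
  have hM1 : (M : ℝ) ≤ Qm ^ (n * k) := by
    have e : Qm ^ (n * k) = ∏ i, ∏ _p ∈ P' i, Qm := by
      simp only [prod_const, fun i => (hP' i).2, card_univ, Fintype.card_fin, pow_mul]
    rw [hM, e]
    simp only [pr, Nat.cast_prod]
    exact prod_le_prod (fun _ _ => prod_nonneg fun _ _ => Nat.cast_nonneg _) fun i _ =>
      prod_le_prod (fun _ _ => Nat.cast_nonneg _) fun p hp => ((hP i).2.2 p ((hP' i).1 hp)).2
  have hQk : 0 < Qm ^ (n * k) := by positivity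
  obtain ⟨c, h3, h4⟩ := mom1_class (U := U) (N := N) (g := fun u => ((Gd u).card : ℝ)) hM0
    (A := η / 8 * V0) (V0 := V0) (b := η * U1 / (8 * Qm ^ (n * k))) (by positivity) (by positivity)
    hV0.le (fun u hu => (Nat.cast_le.2 (card_le_card (hG u hu).2)).trans hQc) (by
      have h5 : M * (V0 * (η * U1 / (8 * Qm ^ (n * k)))) ≤
        Qm ^ (n * k) * (V0 * (η * U1 / (8 * Qm ^ (n * k)))) := by gcongr
      have h6 : Qm ^ (n * k) * (V0 * (η * U1 / (8 * Qm ^ (n * k)))) = η * U1 * V0 / 8 := by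
        field_simp
      have h7 : η / 8 * V0 * U.card ≤ η / 8 * V0 * U1 := by gcongr
      have h8 : 0 ≤ η * U1 * V0 := by positivity
      linarith)
  obtain ⟨Uc, hUcd⟩ : ∃ Uc, Uc = U.filter fun u => N u % M = c := ⟨_, rfl⟩
  rw [← hUcd] at h3 h4
  have hsub : Uc ⊆ U := hUcd ▸ filter_subset _ _
  have h5 := hUnif k n j P' a Q Qm (η / 4) c hn hj (by positivity) (by linarith)
    (fun i => ⟨(hP' i).2, hpr i⟩)
    (fun i i' h => (hD i i' h).mono (hP' i).1 (hP' i').1) ha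
    (fun q hq => ⟨(hQ q hq).1, (hQ q hq).2.1, fun i h => (hQ q hq).2.2 i ((hP' i).1 h)⟩)
  rw [← hM] at h5
  have h6 := mom1_cs (Q := Q) (Uc := Uc) (al := al) (Gd := Gd) (N := N)
    (B := fun q => (range q).filter fun s : ℕ => ∃ Z : ℤ, Z ≡ c [ZMOD M] ∧ Z ≡ s [ZMOD q] ∧
      η / 4 * (n : ℝ) ^ k ≤ ‖gsum P' a q Z‖) (fun u hu => hG u (hsub hu))
    (fun q hq => (hQ q hq).1.pos) (fun u hu q hq => by
      have hq0 : (0 : ℤ) < q := Nat.cast_pos.2 (hQ q ((hG u (hsub hu)).2 hq)).1.pos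
      have h7 := Int.emod_nonneg (N u) hq0.ne'
      have h8 := Int.emod_lt_of_pos (N u) hq0
      rw [hUcd] at hu
      rw [hGd] at hq
      refine mem_filter.2 ⟨mem_range.2 (by omega), N u, ?_, ?_, (mem_filter.1 hq).2⟩
      · rw [← (mem_filter.1 hu).2]
        exact (Int.mod_modEq _ _).symm
      · rw [Int.toNat_of_nonneg h7]
        exact (Int.mod_modEq _ _).symm)
  obtain ⟨W, hWd⟩ : ∃ W, W = Qm / (η / 4) ^ (2 * j) * (V0 * (3 * (j : ℝ) / n) ^ (j * k) +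
    logb 2 (2 * j * Qm ^ (n * k))) := ⟨_, rfl⟩
  have hj0 : (0 : ℝ) < j := Nat.cast_pos.2 hj
  have hM2 : (0 : ℝ) < M := Nat.cast_pos.2 hM0
  have h7 := h5.trans (show _ ≤ W by
    rw [hWd]
    have := logb_le_logb_of_le (b := 2) one_lt_two (x := 2 * j * M) (y := 2 * j * Qm ^ (n * k))
      (by positivity) (by gcongr)
    gcongr)
  rw [← hWd] at hW
  have hT : 0 ≤ ∑ u ∈ Uc, ∑ u' ∈ Uc, (tau al N u u' : ℝ) :=
    sum_nonneg fun _ _ => sum_nonneg fun _ _ => Nat.cast_nonneg _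
  have hW0 : 0 ≤ W := (sum_nonneg fun _ _ => Nat.cast_nonneg _).trans h7
  have h8 := h6.trans (mul_le_mul_of_nonneg_right h7 hT)
  have h9 := (pow_lt_pow_left₀ h3 (by positivity) two_ne_zero).trans_le h8
  have h10 : 2 * τ0 * (Uc.card : ℝ) ^ 2 < ∑ u ∈ Uc, ∑ u' ∈ Uc, (tau al N u u' : ℝ) := by
    refine lt_of_mul_lt_mul_left ?_ hW0
    have := mul_le_mul_of_nonneg_right hW (sq_nonneg (Uc.card : ℝ))
    nlinarith
  obtain ⟨u, hu, h11⟩ := mom1_centre hτ hV0.le (fun u hu u' => (Nat.cast_le.2 (card_le_card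
    ((filter_subset _ _).trans (inter_subset_left.trans (hal u (hsub hu)))))).trans hQc) h10
  refine ⟨u, hsub hu, ?_⟩
  rw [← div_div, div_le_iff₀' hV0]
  exact h4.trans (h11.trans (mul_le_mul_of_nonneg_left
    (Nat.cast_le.2 (card_le_card (filter_subset_filter _ hsub))) hV0.le))

end Jac
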