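import Vale.Agent.P013.Gro

/-! The moment lemma with the parameters of the problem. -/

noncomputable section
namespace Jac
open Finset Real Filter
open scoped Classical

namespace Mom2

theorem numA (j n r : ℕ) (q : ℝ) (hn : 1 ≤ n) (hj : 3 * (j : ℝ) ≤ √(n : ℝ))
    (h2 : 2 * q ≤ j * (r * log n)) : (3 * (j : ℝ) / n) ^ (j * r) ≤ exp (-q) := by
  have hn0 : (0 : ℝ) < n := by exact_mod_cast hn
  have h1 : 3 * (j : ℝ) / n ≤ exp (-(log n / 2)) := by
    have e1 : √(n : ℝ) = exp (log n / 2) := by rw [exp_half, exp_log hn0]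
    rw [div_le_iff₀ hn0]
    refine hj.trans (le_of_eq ?_)
    rw [e1]
    nth_rewrite 3 [← exp_log hn0]
    rw [← exp_add]; congr 1; ring
  refine (pow_le_pow_left₀ (by positivity) h1 _).trans ?_
  rw [← exp_nat_mul]
  refine exp_le_exp.2 ?_
  push_cast
  nlinarith

theorem numB {κ : ℝ} (hκ : 23 ≤ κ) (c : ℝ) (hc : 0 < c) (hc' : c ≤ 24) :
    exp (-(14 * κ)) ≤ 1 / exp κ ^ 13 / c := by
  have h1 : c ≤ exp κ := by have := add_one_le_exp κ; linarith
  rw [← exp_nat_mul, le_div_iff₀ hc, one_div, ← exp_neg]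
  calc exp (-(14 * κ)) * c ≤ exp (-(14 * κ)) * exp κ :=
        mul_le_mul_of_nonneg_left h1 (exp_pos _).le
    _ = _ := by rw [← exp_add]; congr 1; push_cast; ring

theorem numC (q : ℝ) : 3 * exp q ≤ exp (q + 2) := by
  have := add_one_le_exp (2 : ℝ)
  rw [exp_add]
  have := exp_pos q
  nlinarith

theorem pw {M : ℝ} (hM : 30 ≤ M) (a b : ℕ) (h : a + 1 ≤ b) : 30 * M ^ a ≤ M ^ b := by
  calc 30 * M ^ a ≤ M * M ^ a := mul_le_mul_of_nonneg_right hM (by positivity)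
    _ = M ^ (a + 1) := by ring
    _ ≤ M ^ b := pow_le_pow_right₀ (by linarith) h

theorem numD (n r : ℕ) {q M : ℝ} (hM : 30 ≤ M) (hq : 0 ≤ q) (hqM : q ≤ M) (hr : (r : ℝ) ≤ M)
    (hn : (n : ℝ) ≤ 2 * M ^ 10) : (3 * exp q) ^ (n * r) ≤ exp (4 * M ^ 12) := by
  refine (pow_le_pow_left₀ (by positivity) (numC q) _).trans ?_
  rw [← exp_nat_mul]
  refine exp_le_exp.2 ?_
  push_cast
  calc (n : ℝ) * r * (q + 2) ≤ (2 * M ^ 10) * M * (2 * M) :=
        mul_le_mul (mul_le_mul hn hr (by positivity) (by positivity)) (by linarith) (by positivity)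
          (by positivity)
    _ = 4 * M ^ 12 := by ring

theorem numE (j n r : ℕ) {q M : ℝ} (hM : 30 ≤ M) (hq : 0 ≤ q) (hqM : q ≤ M) (hr : (r : ℝ) ≤ M)
    (hn : (n : ℝ) ≤ 2 * M ^ 10) (hj1 : 1 ≤ j) (hj : (j : ℝ) ≤ 3 * M) :
    logb 2 (2 * j * (3 * exp q) ^ (n * r)) ≤ M ^ 100 := by
  have hj0 : (0 : ℝ) < j := by exact_mod_cast hj1
  have h1 := numD n r hM hq hqM hr hn
  have h2 : 2 * (j : ℝ) ≤ exp (6 * M) := by have := add_one_le_exp (6 * M); linarith
  have h3 : log (2 * j * (3 * exp q) ^ (n * r)) ≤ 6 * M + 4 * M ^ 12 := by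
    rw [log_le_iff_le_exp (by positivity), exp_add]
    exact mul_le_mul h2 h1 (by positivity) (by positivity)
  have h4 := log_two_gt_d9
  have h5 := pw hM 12 100 (by norm_num)
  have h6 := pw hM 1 12 (by norm_num)
  have h7 : 0 ≤ M ^ 100 := by positivity
  rw [logb, div_le_iff₀ (by linarith)]
  nlinarith

theorem numF {κ q D E X Lg : ℝ} (hκ : 23 ≤ κ) (hq : 600 * κ ≤ q) (hD1 : 1 ≤ D)
    (hD : D ≤ exp (5 * κ)) (hE : exp (-(0.1 * q)) ≤ E) (hX : X ≤ exp (-q))
    (hL : Lg ≤ exp (0.01 * q)) :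
    2 * exp (q * 0.71) * (3 * exp q / E * (3 * exp q / D * X + Lg)) ≤
      (1 / exp κ ^ 13 / 8) ^ 2 * (3 * exp q / D) ^ 2 := by
  have hE0 : 0 < E := (exp_pos _).trans_le hE
  have h1 : 3 * exp q / D * X ≤ 3 := by
    calc 3 * exp q / D * X ≤ 3 * exp q / D * exp (-q) :=
          mul_le_mul_of_nonneg_left hX (by positivity)
      _ = 3 / D := by rw [exp_neg]; field_simp
      _ ≤ 3 := div_le_self (by norm_num) hD1
  have h2 : 1 ≤ exp (0.01 * q) := one_le_exp (by linarith)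
  have h3 : 3 * exp q / D * X + Lg ≤ 4 * exp (0.01 * q) := by linarith
  have h4 : 3 * exp q / E ≤ 3 * exp (1.1 * q) := by
    rw [div_le_iff₀ hE0]
    calc 3 * exp q = 3 * exp (1.1 * q) * exp (-(0.1 * q)) := by
          rw [mul_assoc, ← exp_add]; congr 2; ring
      _ ≤ _ := mul_le_mul_of_nonneg_left hE (by positivity)
  have h5 : 3 * exp q / E * (3 * exp q / D * X + Lg) ≤ 3 * exp (1.1 * q) * (4 * exp (0.01 * q)) :=
    (mul_le_mul_of_nonneg_left h3 (by positivity)).trans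
      (mul_le_mul_of_nonneg_right h4 (by positivity))
  have h6 : (24 : ℝ) ≤ exp κ := by have := add_one_le_exp κ; linarith
  have h7 := numB hκ 8 (by norm_num) (by norm_num)
  have h8 : exp (q - 5 * κ) ≤ 3 * exp q / D := by
    rw [le_div_iff₀ (by linarith)]
    calc exp (q - 5 * κ) * D ≤ exp (q - 5 * κ) * exp (5 * κ) :=
          mul_le_mul_of_nonneg_left hD (exp_pos _).le
      _ = exp q := by rw [← exp_add]; congr 1; ring
      _ ≤ 3 * exp q := by have := exp_pos q; linarith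
  calc 2 * exp (q * 0.71) * (3 * exp q / E * (3 * exp q / D * X + Lg))
      ≤ 2 * exp (q * 0.71) * (3 * exp (1.1 * q) * (4 * exp (0.01 * q))) :=
        mul_le_mul_of_nonneg_left h5 (by positivity)
    _ = 24 * (exp (q * 0.71) * exp (1.1 * q) * exp (0.01 * q)) := by ring
    _ ≤ exp κ * (exp (q * 0.71) * exp (1.1 * q) * exp (0.01 * q)) :=
        mul_le_mul_of_nonneg_right h6 (by positivity)
    _ = exp (κ + 1.82 * q) := by
        rw [← exp_add, ← exp_add, ← exp_add]; congr 1; ring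
    _ ≤ exp (-(14 * κ)) ^ 2 * exp (q - 5 * κ) ^ 2 := by
        rw [← exp_nat_mul, ← exp_nat_mul, ← exp_add]
        refine exp_le_exp.2 ?_
        push_cast; linarith
    _ ≤ _ := mul_le_mul (pow_le_pow_left₀ (exp_pos _).le h7 2)
        (pow_le_pow_left₀ (exp_pos _).le h8 2) (by positivity) (by positivity)

theorem numG (n r : ℕ) {κ q M D U : ℝ} (hM : 30 ≤ M) (hκ : 23 ≤ κ) (hq : 600 * κ ≤ q) (hqM : q ≤ M)
    (hr : (r : ℝ) ≤ M) (hn : (n : ℝ) ≤ 2 * M ^ 10) (hD1 : 1 ≤ D) (hU : 0 ≤ U) :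
    U * exp (-(M ^ 20)) ≤ 1 / exp κ ^ 13 * U / (8 * (3 * exp q) ^ (n * r) * (3 * exp q / D)) := by
  have h1 := numD n r hM (by linarith) hqM hr hn
  have h2 : 3 * exp q / D ≤ exp (q + 2) := (div_le_self (by positivity) hD1).trans (numC q)
  have h3 := numB hκ 8 (by norm_num) (by norm_num)
  have h5 := pw hM 12 20 (by norm_num)
  have h6 := pw hM 1 12 (by norm_num)
  rw [le_div_iff₀ (by positivity)]
  have h7 : exp (-(M ^ 20)) * ((3 * exp q) ^ (n * r) * (3 * exp q / D)) ≤ exp (-(14 * κ)) := by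
    calc exp (-(M ^ 20)) * ((3 * exp q) ^ (n * r) * (3 * exp q / D))
        ≤ exp (-(M ^ 20)) * (exp (4 * M ^ 12) * exp (q + 2)) :=
          mul_le_mul_of_nonneg_left (mul_le_mul h1 h2 (by positivity) (by positivity))
            (by positivity)
      _ ≤ _ := by
          rw [← exp_add, ← exp_add]
          refine exp_le_exp.2 ?_
          rw [pow_one] at h6
          linarith
  calc U * exp (-(M ^ 20)) * (8 * (3 * exp q) ^ (n * r) * (3 * exp q / D))
      = 8 * U * (exp (-(M ^ 20)) * ((3 * exp q) ^ (n * r) * (3 * exp q / D))) := by ring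
    _ ≤ 8 * U * (1 / exp κ ^ 13 / 8) := mul_le_mul_of_nonneg_left (h7.trans h3) (by positivity)
    _ = _ := by ring

theorem par (r : ℕ) {κ T M q : ℝ} (hM : 30 ≤ M) (hM10 : M ^ 10 = exp (0.1 * T))
    (hM100 : M ^ 100 = exp T) (hTκ : T ≤ κ) (hκ : 23 ≤ κ) (hq : 600 * κ ≤ q) (hqM : q ≤ M)
    (hrM : (r : ℝ) ≤ M) (hr : 1200 * κ ≤ r * (0.1 * T)) :
    ∃ n j : ℕ, 1 ≤ n ∧ 1 ≤ j ∧ (n : ℝ) ≤ 2 * M ^ 10 ∧ (3 * (j : ℝ) / n) ^ (j * r) ≤ exp (-q) ∧
      exp (-(0.1 * q)) ≤ (1 / exp κ ^ 13 / 4) ^ (2 * j) ∧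
      logb 2 (2 * j * (3 * exp q) ^ (n * r)) ≤ exp (0.01 * q) := by
  set n : ℕ := ⌈M ^ 10⌉₊ with hndef
  have hn1 : M ^ 10 ≤ n := Nat.le_ceil _
  have hM10' : 1 ≤ M ^ 10 := one_le_pow₀ (by linarith)
  have hn2 : (n : ℝ) ≤ 2 * M ^ 10 := by
    have := (Nat.ceil_lt_add_one (by linarith : 0 ≤ M ^ 10)).le
    linarith
  have hn : 1 ≤ n := by exact_mod_cast hM10'.trans hn1
  have hln : 0.1 * T ≤ log n := by
    rw [le_log_iff_exp_le (by linarith), ← hM10]; exact hn1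
  have hrl : 1200 * κ ≤ r * log n := by
    exact hr.trans (mul_le_mul_of_nonneg_left hln (by positivity))
  have hrl0 : 0 < r * log n := by linarith
  set j : ℕ := ⌈2 * q / (r * log n)⌉₊ with hjdef
  have hj1 : 2 * q / (r * log n) ≤ j := Nat.le_ceil _
  have hq0 : 0 < q := by linarith
  have hj2 : (j : ℝ) ≤ 2 * q / (1200 * κ) + 1 := by
    have h1 := (Nat.ceil_lt_add_one (by positivity : 0 ≤ 2 * q / (r * log n))).le
    have h2 : 2 * q / (r * log n) ≤ 2 * q / (1200 * κ) :=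
      div_le_div_of_nonneg_left (by linarith) (by linarith) hrl
    linarith
  have hj : 1 ≤ j := Nat.ceil_pos.2 (by positivity)
  have hj3 : (j : ℝ) ≤ 3 * M := by
    have : 2 * q / (1200 * κ) ≤ 2 * q := div_le_self (by linarith) (by linarith)
    linarith
  have hj4 : 28 * κ * j ≤ 0.1 * q := by
    have h1 : 28 * κ * j ≤ 28 * κ * (2 * q / (1200 * κ) + 1) :=
      mul_le_mul_of_nonneg_left hj2 (by linarith)
    have h2 : 28 * κ * (2 * q / (1200 * κ) + 1) = 56 / 1200 * q + 28 * κ := by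
      field_simp; ring
    linarith
  have hj5 : 3 * (j : ℝ) ≤ √(n : ℝ) := by
    refine le_sqrt_of_sq_le ?_
    have h1 := pw hM 2 3 (by norm_num)
    have h2 := pw hM 3 10 (by norm_num)
    have h3 : (3 * (j : ℝ)) ^ 2 ≤ (9 * M) ^ 2 := pow_le_pow_left₀ (by positivity) (by linarith) 2
    have h4 : 0 ≤ M ^ 2 := by positivity
    nlinarith
  have hX := numA j n r q hn hj5 (by rwa [div_le_iff₀ hrl0] at hj1)
  have hE : exp (-(0.1 * q)) ≤ (1 / exp (κ) ^ 13 / 4) ^ (2 * j) := by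
    refine le_trans ?_ (pow_le_pow_left₀ (exp_pos _).le (numB hκ 4 (by norm_num) (by norm_num)) _)
    rw [← exp_nat_mul]
    refine exp_le_exp.2 ?_
    push_cast; linarith
  have hLg : logb 2 (2 * j * (3 * exp q) ^ (n * r)) ≤ exp (0.01 * q) := by
    refine (numE j n r hM hq0.le hqM hrM hn2 hj hj3).trans ?_
    rw [hM100]; exact exp_le_exp.2 (by linarith)
  exact ⟨n, j, hn, hj, hn2, hX, hE, hLg⟩

theorem numH (n r : ℕ) {κ T M D Q : ℝ} (hM : 30 ≤ M) (hM100 : M ^ 100 = exp T) (hTκ : T ≤ κ)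
    (hκ : 23 ≤ κ) (hrM : (r : ℝ) ≤ M) (hn2 : (n : ℝ) ≤ 2 * M ^ 10) (hD1 : 1 ≤ D)
    (hD : D ≤ exp (5 * κ)) (hQ : exp (600 * κ) ≤ Q) :
    4 * (r : ℝ) * n ≤ 1 / exp κ ^ 13 * (3 * Q / D) := by
  have h1 : (4 : ℝ) * r * n ≤ exp κ := by
    have h2 := pw hM 11 100 (by norm_num)
    have h3 : (4 : ℝ) * r * n ≤ 4 * M * (2 * M ^ 10) :=
      mul_le_mul (by linarith) hn2 (by positivity) (by positivity)
    have h4 : 4 * M * (2 * M ^ 10) = 8 * M ^ 11 := by ring
    have h5 : 0 ≤ M ^ 11 := by positivity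
    have h6 := exp_le_exp.2 hTκ
    linarith
  refine h1.trans ?_
  have h2 : exp (595 * κ) ≤ 3 * Q / D := by
    rw [le_div_iff₀ (by linarith)]
    calc exp (595 * κ) * D ≤ exp (595 * κ) * exp (5 * κ) :=
          mul_le_mul_of_nonneg_left hD (exp_pos _).le
      _ = exp (600 * κ) := by rw [← exp_add]; congr 1; ring
      _ ≤ Q := hQ
      _ ≤ 3 * Q := by have := exp_pos (600 * κ); linarith
  refine le_trans ?_ (mul_le_mul_of_nonneg_left h2 (by positivity))
  rw [← exp_nat_mul, one_div, ← exp_neg, ← exp_add]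
  refine exp_le_exp.2 ?_
  push_cast; linarith

theorem win_ne {y i i' b b' : ℕ} (hB : 2 ≤ B y) (h : Win y i b) (h' : Win y i' b') (hi : i < i') :
    b ≠ b' := by
  have h1 : aa y (i + 1) ≤ aa y i' :=
    Nat.mul_le_mul_left _ (Nat.pow_le_pow_right (by omega) (by omega))
  have := h.2
  have := h'.1
  omega

theorem box_disj {y b b' : ℕ} (h : b ≠ b') : Disjoint (box y b) (box y b') := by
  rw [disjoint_left]
  intro p hp hp'
  exact h ((mem_box.1 hp).2.symm.trans (mem_box.1 hp').2)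

end Mom2

open Mom2 in
theorem s_Mom2 (hMom1 : S_Mom1) : S_Mom2 := by
  unfold S_Mom2
  filter_upwards [ev_logB, ev_B_r (e := 0.01) (by norm_num), ev_kap_T 600, ev_T 3000, ev_L 1,
    ev_sT 1] with y hB hBr hκT hT hL hsT
  intro b0 bs a U al N U1 hw0 hw ha hU hal
  have hB2 : 2 ≤ B y := hB.1
  have hBR : (2 : ℝ) ≤ B y := by exact_mod_cast hB2
  set M : ℝ := exp (0.01 * T y) with hMdef
  rw [L_rpow (by linarith)] at hBr
  have hM : 30 ≤ M := by have := add_one_le_exp (0.01 * T y); linarith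
  have hM100 : M ^ 100 = exp (T y) := by rw [hMdef, ← exp_nat_mul]; congr 1; push_cast; ring
  have hM20 : L y ^ (0.2 : ℝ) = M ^ 20 := by
    rw [L_rpow (by linarith), hMdef, ← exp_nat_mul]; congr 1; push_cast; ring
  have hM10 : M ^ 10 = exp (0.1 * T y) := by rw [hMdef, ← exp_nat_mul]; congr 1; push_cast; ring
  have hTκ : T y ≤ kap y := by rw [kap]; nlinarith
  have hκ : 23 ≤ kap y := by linarith
  have hκB : 600 * kap y ≤ B y := hκT.trans (B_ge y)
  have hBp : ∀ i : ℕ, (B y : ℝ) ≤ (B y : ℝ) ^ (i + 1) := fun i =>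
    le_self_pow₀ (by linarith) (by omega)
  set q : ℝ := ((b0 : ℝ) - 1) / DD y with hqdef
  have hQ : Qb y b0 = exp q := rfl
  have hD1 : (1 : ℝ) ≤ DD y := by exact_mod_cast DD_pos y
  have hq1 : (B y : ℝ) ^ (r y + 1) ≤ q := exp_le_exp.1 (win_Qb hw0).1
  have hq : 600 * kap y ≤ q := hκB.trans ((hBp _).trans hq1)
  have hqM : q ≤ M := by
    refine le_trans ?_ ((exp_le_exp.1 (win_Qb hw0).2).trans hBr)
    exact div_le_div_of_nonneg_right (by linarith) (by linarith)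
  have hrM : (r y : ℝ) ≤ M := by
    refine le_trans ?_ hBr
    have h1 : r y ≤ B y ^ (r y + 2) :=
      (Nat.lt_two_pow_self.le.trans (Nat.pow_le_pow_left hB2 _)).trans
        (Nat.pow_le_pow_right (by omega) (by omega))
    exact_mod_cast h1
  have hD : (DD y : ℝ) ≤ exp (5 * kap y) := by
    have h1 := DD_le y
    have h2 : 2 ≤ G y := by have := add_one_le_exp (kap y); rw [G]; linarith
    have h3 : 1 ≤ G y ^ 4 := one_le_pow₀ (by linarith)
    have h4 : G y ^ 5 = exp (5 * kap y) := by rw [G_pow]; norm_num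
    rw [← h4, pow_succ]; nlinarith
  have hQi : ∀ i b, Win y i b → exp (600 * kap y) ≤ Qb y b := fun i b h =>
    (exp_le_exp.2 (hκB.trans (hBp i))).trans (win_Qb h).1
  have hDQ : ∀ i b, Win y i b → (DD y : ℝ) ≤ Qb y b := fun i b h =>
    hD.trans ((exp_le_exp.2 (by linarith)).trans (hQi i b h))
  have hq0 : 0 < q := by linarith
  obtain ⟨n, j, hn, hj, hn2, hX, hE, hLg⟩ := par (r y) hM hM10 hM100 hTκ hκ hq hqM hrM (by
    calc 1200 * kap y = 12000 * √(T y) * (0.1 * T y) := by rw [kap]; ring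
      _ ≤ _ := mul_le_mul_of_nonneg_right (r_ge y) (by linarith))
  have hU0 : 0 ≤ U1 := le_trans (by positivity) hU
  have h1q : 1 ≤ exp q := one_le_exp hq0.le
  have hτ : Qb y b0 ^ (0.71 : ℝ) = exp (q * 0.71) := by rw [hQ, ← exp_mul]
  have hη1 : 1 / exp (kap y) ^ 13 ≤ 1 := by
    rw [div_le_one (by positivity)]; exact one_le_pow₀ (one_le_exp (by linarith))
  have key := hMom1 (r y) n j (fun i => box y (bs i)) (fun i => Vb y (bs i)) a (box y b0) U al N
    (3 * exp q) (1 / exp (kap y) ^ 13) (3 * exp q / DD y) U1 (exp (q * 0.71)) hn hj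
    (by positivity) hη1 (by linarith) (one_le_exp (by linarith)) (by positivity)
    (fun i => ⟨card_box (hDQ _ _ (hw i)), ?_, fun p hp => ⟨(mem_box.1 hp).1, ?_⟩⟩)
    (fun i i' hii => box_disj ?_) ha
    (fun p hp => ⟨(mem_box.1 hp).1, ?_, fun i hi => ?_⟩) (card_box (hDQ _ _ hw0)) hU hal
    (numF hκ hq hD1 hD hE hX hLg)
  · rcases key with h | ⟨u0, hu0, h⟩
    · left
      refine h.trans (le_of_eq ?_)
      rw [Vb, hQ, G]; ring
    · right
      refine ⟨u0, hu0, ?_⟩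
      rw [hτ, hM20]
      exact (numG n (r y) hM hκ hq hqM hrM hn2 hD1 hU0).trans h
  · exact numH n (r y) hM hM100 hTκ hκ hrM hn2 hD1 hD (hQi _ _ (hw i))
  · have h1 := (box_bd hp).2.trans (win_Qb (hw i)).2
    have h2 : (B y : ℝ) ^ ((i : ℕ) + 2) ≤ (B y : ℝ) ^ (r y + 1) :=
      pow_le_pow_right₀ (by linarith) (by have := i.2; omega)
    have h3 := exp_le_exp.2 (h2.trans hq1)
    linarith
  · rcases lt_or_gt_of_ne (fun h => hii (Fin.ext h)) with h | h
    · exact win_ne hB2 (hw i) (hw i') h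
    · exact (win_ne hB2 (hw i') (hw i) h).symm
  · have h1 := (box_bd hp).2.trans (exp_box_le y b0)
    have h2 : 2 * Qb y b0 / DD y ≤ 2 * Qb y b0 := div_le_self (by have := Qb_pos y b0; linarith) hD1
    rw [hQ] at h1 h2
    linarith
  · exact win_ne hB2 (hw i) hw0 i.2 ((mem_box.1 hi).2.symm.trans (mem_box.1 hp).2)

end Jac
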