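import Vale.Agent.P013.Gro

/-! The bound for the mass of chains. -/

noncomputable section
namespace Jac
open Finset Real Filter
open scoped Classical

/-- the gain from the missing primes -/
def nbG (P : Finset ℕ) (t t2 : ℕ) : ℝ :=
  ∏ p ∈ (Icc t t2).filter (fun p => p.Prime ∧ p ∉ P), (1 + 1 / (p : ℝ))

theorem nbG_pos (P : Finset ℕ) (t t2 : ℕ) : 0 < nbG P t t2 :=
  prod_pos fun p _ => by positivity

theorem nbG_one (P : Finset ℕ) {t t2 : ℕ} (h : t2 < t) : nbG P t t2 = 1 := by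
  rw [nbG, Icc_eq_empty_of_lt h, filter_empty, prod_empty]

theorem nbG_eq {P : Finset ℕ} {t : ℕ} (t2 : ℕ) (h : ¬ (t.Prime ∧ t ∉ P)) :
    nbG P t t2 = nbG P (t + 1) t2 := by
  unfold nbG
  refine prod_congr ?_ fun _ _ => rfl
  ext q
  simp only [mem_filter, mem_Icc]
  refine ⟨fun a => ⟨⟨?_, a.1.2⟩, a.2⟩, fun a => ⟨⟨by omega, a.1.2⟩, a.2⟩⟩
  rcases a.1.1.eq_or_lt with rfl | h1
  · exact absurd a.2 h
  · exact h1

theorem nbG_le (P : Finset ℕ) (t t2 : ℕ) :
    nbG P t t2 ≤ (1 + 1 / (t : ℝ)) * nbG P (t + 1) t2 := by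
  unfold nbG
  rw [← prod_insert (f := fun p : ℕ => 1 + 1 / (p : ℝ)) (by simp)]
  refine prod_le_prod_of_subset_of_one_le (fun q hq => ?_) (fun p _ => by positivity)
    fun p _ _ => le_add_of_nonneg_right (by positivity)
  simp only [mem_filter, mem_Icc, mem_insert] at hq ⊢
  rcases hq.1.1.eq_or_lt with h1 | h1
  · exact Or.inl h1.symm
  · exact Or.inr ⟨⟨h1, hq.1.2⟩, hq.2⟩

theorem nb_nonneg (ε : ℕ) (l : ℝ) (P : Finset ℕ) (t2 s : ℕ) (a : ℝ) : 0 ≤ nm ε l P t2 s a :=
  sum_nonneg fun _ _ => by positivity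

theorem nb_up_eq {P : Finset ℕ} {t : ℕ} (h : t ∉ P) : up P t = up P (t + 1) := by
  ext q
  simp only [up, mem_filter]
  refine ⟨fun a => ⟨a.1, ?_⟩, fun a => ⟨a.1, by omega⟩⟩
  rcases a.2.eq_or_lt with rfl | h1
  · exact absurd a.1 h
  · exact h1

theorem nb_up_ins {P : Finset ℕ} {t : ℕ} (h : t ∈ P) : up P t = insert t (up P (t + 1)) := by
  ext q
  simp only [up, mem_filter, mem_insert]
  refine ⟨fun a => ?_, fun a => ?_⟩
  · rcases a.2.eq_or_lt with h1 | h1
    · exact Or.inl h1.symm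
    · exact Or.inr ⟨a.1, h1⟩
  · rcases a with rfl | a
    · exact ⟨h, le_rfl⟩
    · exact ⟨a.1, by omega⟩

theorem nb_log {t : ℕ} (h : 2 ≤ t) : 0 < log (t : ℝ) ∧ log ((t + 1 : ℕ) : ℝ) ≤ log t + 1 := by
  have h2 : (2 : ℝ) ≤ t := by exact_mod_cast h
  refine ⟨log_pos (by linarith), ?_⟩
  have h3 : log ((t + 1 : ℕ) : ℝ) ≤ log (t * 2) := log_le_log (by positivity) (by
    push_cast; linarith)
  rw [log_mul (by positivity) (by norm_num)] at h3
  linarith [log_two_lt_d9]

theorem s_NB (hRec : S_Rec) (hVan : S_Van) (hDir : S_Dir) (hBase : S_Base) (hSeqB : S_SeqB) :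
    S_NB := by
  obtain ⟨CD, hCD, hD⟩ := hDir
  obtain ⟨CB, hCB, hB⟩ := hBase
  obtain ⟨CW, hCW, hW⟩ := hSeqB
  refine ⟨(CD + CB) * CW * CW, by positivity, ?_⟩
  filter_upwards [hW, eventually_ge_atTop 4] with l ⟨W, w1, w2, w3, w4⟩ hl
  intro ε P t t2 s a hε hs ht htl ht2 hP
  have hl0 : 0 < l := by linarith
  have hN1 : t ≤ ⌊exp (l / 4)⌋₊ := Nat.le_floor htl
  have hN2 : t2 ≤ ⌊exp (l / 4)⌋₊ := Nat.le_floor ht2
  have hN3 : exp (l / 4) < ((⌊exp (l / 4)⌋₊ + 1 : ℕ) : ℝ) := by
    push_cast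
    exact Nat.lt_floor_add_one _
  have hN4 : (⌊exp (l / 4)⌋₊ : ℝ) ≤ exp (l / 4) := Nat.floor_le (exp_pos _).le
  generalize ⌊exp (l / 4)⌋₊ = N at w1 w2 w3 w4 hN1 hN2 hN3 hN4
  obtain ⟨K, hK⟩ : ∃ K, K = (CD + CB) * CW / l ^ 2 := ⟨_, rfl⟩
  have hK0 : 0 < K := by rw [hK]; positivity
  have hup : ∀ u, ∀ q ∈ up P u, q.Prime ∧ u ≤ q ∧ (q : ℝ) ≤ exp (l / 2) := fun u q hq =>
    ⟨(hP q (mem_filter.1 hq).1).1, (mem_filter.1 hq).2, (hP q (mem_filter.1 hq).1).2.2⟩
  have key : ∀ u, u ≤ N + 1 → 2 ≤ u → ∀ a,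
      (2 * log u - 2 ≤ a → nm ε l (up P u) t2 0 a * nbG P u t2 ≤ K * W u 0 a) ∧
      (log u - 1 ≤ a → nm ε l (up P u) t2 1 a * nbG P u t2 ≤ K * W u 1 a) := by
    intro u hu
    induction hu using Nat.decreasingInduction with
    | self =>
      intro hu2 a
      obtain ⟨b1, b2, b3⟩ := hB ε l (up P (N + 1)) t2 a hε hl fun q hq =>
        ⟨(hup _ q hq).1, hN3.trans_le (by exact_mod_cast (hup _ q hq).2.1), (hup _ q hq).2.2⟩
      have e : CB / l ≤ K * (l / CW) := by
        have : K * (l / CW) = (CD + CB) / l := by rw [hK]; field_simp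
        rw [this]
        gcongr
        linarith
      rw [nbG_one P (by omega), mul_one, mul_one]
      constructor
      · intro ha
        rcases le_or_gt a (2 * l / 3) with h | h
        · rw [b2 h]
          exact mul_nonneg hK0.le ((w1 _ hu2 le_rfl a).1 ha)
        · exact ((b1 0).trans e).trans (mul_le_mul_of_nonneg_left ((w2 a).1 h) hK0.le)
      · intro ha
        rcases le_or_gt a (l / 3) with h | h
        · rw [b3 h]
          exact mul_nonneg hK0.le ((w1 _ hu2 le_rfl a).2.1 ha)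
        · exact ((b1 1).trans e).trans (mul_le_mul_of_nonneg_left ((w2 a).2 h) hK0.le)
    | of_succ p hp ih =>
      intro hp2 a
      have ih' := ih (by omega)
      obtain ⟨l1, l2⟩ := nb_log hp2
      obtain ⟨v1, v2, -⟩ := hVan ε l (up P p) p t2 a hε (by omega) (hup p)
      have hpR : (0 : ℝ) < p := by exact_mod_cast (by omega : 0 < p)
      have hG := nbG_pos P (p + 1) t2
      suffices H : (2 * log p < a → nm ε l (up P p) t2 0 a * nbG P p t2 ≤ K * W p 0 a) ∧
          (log p < a → nm ε l (up P p) t2 1 a * nbG P p t2 ≤ K * W p 1 a) by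
        constructor
        · intro ha
          rcases le_or_gt a (2 * log p) with h | h
          · rw [v1 h, zero_mul]
            exact mul_nonneg hK0.le ((w1 _ hp2 hp.le a).1 ha)
          · exact H.1 h
        · intro ha
          rcases le_or_gt a (log p) with h | h
          · rw [v2 h, zero_mul]
            exact mul_nonneg hK0.le ((w1 _ hp2 hp.le a).2.1 ha)
          · exact H.2 h
      by_cases hpr : p.Prime
      swap
      · rw [nb_up_eq fun h => hpr (hP p h).1, nbG_eq t2 fun h => hpr h.1,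
          w3 p hp2 (by omega) hpr]
        exact ⟨fun h => (ih' a).1 (by linarith), fun h => (ih' a).2 (by linarith)⟩
      obtain ⟨r1, r2, r3, r4⟩ := w4 p (by omega) hpr a
      by_cases hpP : p ∈ P
      swap
      · rw [nb_up_eq hpP, r1, r2]
        have g := nbG_le P p t2
        have aux : ∀ x w w' : ℝ, 0 ≤ x → x * nbG P (p + 1) t2 ≤ K * w → w ≤ w' →
            x * nbG P p t2 ≤ K * (w + w' / p) := by
          intro x w w' hx h1 h2
          calc x * nbG P p t2 ≤ x * ((1 + 1 / (p : ℝ)) * nbG P (p + 1) t2) := by gcongr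
            _ = (1 + 1 / (p : ℝ)) * (x * nbG P (p + 1) t2) := by ring
            _ ≤ (1 + 1 / (p : ℝ)) * (K * w) := by gcongr
            _ = K * (w + w / p) := by ring
            _ ≤ _ := by gcongr
        exact ⟨fun h => aux _ _ _ (nb_nonneg ..) ((ih' a).1 (by linarith)) (r3 h),
          fun h => aux _ _ _ (nb_nonneg ..) ((ih' a).2 (by linarith)) (r4 h)⟩
      by_cases hc : a ≤ l - log p ∨ p ≤ t2
      · obtain ⟨c1, c2⟩ := hRec ε l (up P (p + 1)) t2 p a hε hpr
          (fun q hq => ⟨(hup _ q hq).1, (hup _ q hq).2.1⟩) hc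
        rw [nb_up_ins hpP, nbG_eq t2 fun h => h.2 hpP, r1, r2]
        have aux : ∀ x y y' w w' : ℝ, x ≤ y + y' / p → y * nbG P (p + 1) t2 ≤ K * w →
            y' * nbG P (p + 1) t2 ≤ K * w' → x * nbG P (p + 1) t2 ≤ K * (w + w' / p) := by
          intro x y y' w w' h0 h1 h2
          calc x * nbG P (p + 1) t2 ≤ (y + y' / p) * nbG P (p + 1) t2 := by gcongr
            _ = y * nbG P (p + 1) t2 + y' * nbG P (p + 1) t2 / p := by ring
            _ ≤ K * w + K * w' / p := by gcongr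
            _ = _ := by ring
        constructor
        · intro h
          rw [if_pos h] at c1
          exact aux _ _ _ _ _ c1 ((ih' a).1 (by linarith)) ((ih' _).2 (by linarith))
        · intro h
          exact aux _ _ _ _ _ c2 ((ih' a).2 (by linarith)) ((ih' _).1 (by linarith))
      · push Not at hc
        have hpl : log p ≤ l / 4 := by
          rw [log_le_iff_le_exp hpR]
          exact le_trans (by exact_mod_cast (by omega : p ≤ N)) hN4
        have aux : ∀ s ≤ 1, nm ε l (up P p) t2 s a * nbG P p t2 ≤ K * W p s a := by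
          intro s hs
          rw [nbG_one P hc.2, mul_one]
          refine (hD ε l (up P p) p t2 s a hp2 (fun q hq => ⟨(hup _ q hq).1, (hup _ q hq).2.1⟩)
            hc.1).trans (le_trans ?_ (mul_le_mul_of_nonneg_left
              ((w1 p hp2 hp.le a).2.2.2 s hs ⟨hc.1, hpl⟩) hK0.le))
          have : K * (l ^ 2 / (CW * log p)) = (CD + CB) / log p := by rw [hK]; field_simp
          rw [this]
          gcongr
          linarith
        exact ⟨fun _ => aux 0 (by norm_num), fun _ => aux 1 le_rfl⟩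
  have e : up P t = P := filter_true_of_mem fun q hq => (hP q hq).2.1
  obtain ⟨k1, k2⟩ := key t (by omega) ht a
  rw [e] at k1 k2
  obtain ⟨l1, -⟩ := nb_log ht
  obtain ⟨v1, v2, -⟩ := hVan ε l P t t2 a hε (by omega) hP
  have hlog : 0 ≤ log l := log_nonneg (by linarith)
  change _ ≤ _ / nbG P t t2
  rw [le_div_iff₀ (nbG_pos P t t2)]
  have e2 : (CD + CB) * CW * CW * ((a - log t) ^ 2 + log l) / (l ^ 2 * log t)
      = K * (CW * ((a - log t) ^ 2 + log l) / log t) := by
    rw [hK]; field_simp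
  rw [e2]
  have u := mul_le_mul_of_nonneg_left ((w1 t ht (by omega) a).2.2.1 s hs) hK0.le
  rcases Nat.le_one_iff_eq_zero_or_eq_one.1 hs with rfl | rfl
  · rcases le_or_gt a (2 * log t) with h | h
    · rw [v1 h, zero_mul]
      positivity
    · exact (k1 (by linarith)).trans u
  · rcases le_or_gt a (log t) with h | h
    · rw [v2 h, zero_mul]
      positivity
    · exact (k2 (by linarith)).trans u

end Jac
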