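import Vale.Agent.P013.Gro

/-! Oscillating sums of `ee (Z / v)`. -/

noncomputable section
namespace Jac
open Finset Real Filter
open scoped Classical

namespace Osc

theorem four_le {t : ℝ} (ht : |t| ≤ 1 / 2) : 4 * |t| ≤ ‖1 - ee t‖ := by
  have hp := pi_pos
  rw [norm_sub_rev, ee,
    show (2 * π * t * Complex.I : ℂ) = Complex.I * ((2 * π * t : ℝ) : ℂ) by push_cast; ring,
    Complex.norm_exp_I_mul_ofReal_sub_one, show 2 * π * t / 2 = π * t by ring, norm_mul,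
    Real.norm_eq_abs, Real.norm_eq_abs, abs_two]
  have h := mul_abs_le_abs_sin (x := π * t) (by
    rw [abs_mul, abs_of_pos hp]
    nlinarith)
  rw [abs_mul, abs_of_pos hp, ← mul_assoc, div_mul_cancel₀ _ hp.ne'] at h
  linarith

theorem abel (f γ : ℕ → ℂ) (a : ℕ) (e : ℝ) (hf : ∀ v, ‖f v‖ = 1) (n : ℕ) (hn : a ≤ n)
    (h1 : ∀ v, a < v → v ≤ n → f v = γ v * (f v - f (v + 1)))
    (h2 : ∀ v, a < v → v ≤ n → ‖γ (v + 1) - γ v‖ ≤ e) :
    ‖∑ v ∈ Ioc a n, f v + γ (n + 1) * f (n + 1) - γ (a + 1) * f (a + 1)‖ ≤ (n - a : ℝ) * e := by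
  induction n, hn using Nat.le_induction with
  | base => simp
  | succ n hn ih =>
    have i := ih (fun v a b => h1 v a (by omega)) fun v a b => h2 v a (by omega)
    have e1 := h1 (n + 1) (by omega) le_rfl
    have e2 := h2 (n + 1) (by omega) le_rfl
    have e3 : ∑ v ∈ Ioc a (n + 1), f v + γ (n + 1 + 1) * f (n + 1 + 1) - γ (a + 1) * f (a + 1)
        = (∑ v ∈ Ioc a n, f v + γ (n + 1) * f (n + 1) - γ (a + 1) * f (a + 1))
          + (γ (n + 1 + 1) - γ (n + 1)) * f (n + 1 + 1) := by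
      rw [sum_Ioc_succ_top hn]
      linear_combination e1
    rw [e3]
    refine (norm_add_le _ _).trans ?_
    rw [norm_mul, hf, mul_one]
    push_cast
    linarith

theorem kl {W Z : ℝ} (hW : 1 ≤ W) (hZ : Z ≠ 0) (hZW : |Z| ≤ W ^ 2 / 2) {a b : ℕ} (hab : a ≤ b)
    (ha : W < a + 1) (hb : (b : ℝ) ≤ 3 * W) :
    ‖∑ v ∈ Ioc a b, ee (Z / v)‖ ≤ 2000 * W ^ 2 / |Z| := by
  have hz : 0 < |Z| := abs_pos.2 hZ
  have hW0 : 0 < W := by linarith
  obtain ⟨D, hD⟩ : ∃ D : ℕ → ℝ, ∀ v, D v = -(Z / (v * (v + 1))) := ⟨_, fun _ => rfl⟩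
  have hv : ∀ v : ℕ, a < v → W < v := fun v h => ha.trans_le (by exact_mod_cast h)
  have low : ∀ v : ℕ, a < v → v ≤ b + 1 → |Z| / (5 * W ^ 2) ≤ ‖1 - ee (D v)‖ := by
    intro v h1 h2
    have a1 := hv v h1
    have a2 : (v : ℝ) ≤ 4 * W := by
      have : (v : ℝ) ≤ b + 1 := by exact_mod_cast h2
      linarith
    have a3 : 0 < (v : ℝ) * (v + 1) := by nlinarith
    have e : |D v| = |Z| / (v * (v + 1)) := by rw [hD, abs_neg, abs_div, abs_of_pos a3]
    refine le_trans ?_ (four_le ?_)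
    · rw [e, ← mul_div_assoc, div_le_div_iff₀ (by positivity) a3]
      have : (v : ℝ) * (v + 1) ≤ 4 * W * (5 * W) := by gcongr; linarith
      nlinarith
    · rw [e, div_le_iff₀ a3]
      nlinarith
  have hd : 0 < |Z| / (5 * W ^ 2) := by positivity
  have ne : ∀ v : ℕ, a < v → v ≤ b + 1 → 1 - ee (D v) ≠ 0 := fun v h1 h2 =>
    norm_pos_iff.1 (hd.trans_le (low v h1 h2))
  have up : ∀ v : ℕ, a < v → v ≤ b + 1 → ‖(1 - ee (D v))⁻¹‖ ≤ 5 * W ^ 2 / |Z| := by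
    intro v h1 h2
    rw [norm_inv, ← inv_div]
    exact inv_anti₀ hd (low v h1 h2)
  have key := abel (fun v => ee (Z / v)) (fun v => (1 - ee (D v))⁻¹) a
    ((5 * W ^ 2 / |Z|) * (2 * π * (2 * |Z| / W ^ 3)) * (5 * W ^ 2 / |Z|)) (fun v => norm_ee _) b hab
    (fun v h1 h2 => by
      have a1 := hv v h1
      have e : Z / ((v + 1 : ℕ) : ℝ) = Z / v + D v := by
        have : (v : ℝ) ≠ 0 := by linarith
        rw [hD]
        push_cast
        field_simp
        ring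
      have := ne v h1 (by omega)
      simp only [e, ee_add]
      field_simp)
    (fun v h1 h2 => by
      have a1 := hv v h1
      have a0 : (0 : ℝ) < v := by linarith
      have n1 := ne v h1 (by omega)
      have n2 := ne (v + 1) (by omega) (by omega)
      have e : (1 - ee (D (v + 1)))⁻¹ - (1 - ee (D v))⁻¹
          = (1 - ee (D (v + 1)))⁻¹ * (ee (D (v + 1)) - ee (D v)) * (1 - ee (D v))⁻¹ := by
        field_simp
        ring
      have e2 : D (v + 1) - D v = 2 * Z / (v * (v + 1) * (v + 2)) := by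
        rw [hD, hD]
        push_cast
        field_simp
        ring
      have e3 : |D (v + 1) - D v| ≤ 2 * |Z| / W ^ 3 := by
        rw [e2, abs_div, abs_mul, abs_two, abs_of_pos (a := (v : ℝ) * (v + 1) * (v + 2))
          (by positivity)]
        refine div_le_div_of_nonneg_left (by positivity) (by positivity) ?_
        calc W ^ 3 = W * W * W := by ring
          _ ≤ _ := by gcongr <;> linarith
      have e4 := (norm_ee_sub (D (v + 1)) (D v)).trans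
        (mul_le_mul_of_nonneg_left e3 (by positivity))
      have u1 := up v h1 (by omega)
      have u2 := up (v + 1) (by omega) (by omega)
      rw [e, norm_mul, norm_mul]
      gcongr)
  have u1 := up (b + 1) (by omega) le_rfl
  have u2 := up (a + 1) (by omega) (by omega)
  have t1 := norm_sub_le (∑ v ∈ Ioc a b, ee (Z / v) + (1 - ee (D (b + 1)))⁻¹ * ee (Z / (b + 1 : ℕ)))
    ((1 - ee (D (b + 1)))⁻¹ * ee (Z / (b + 1 : ℕ)))
  have t2 := norm_le_insert' (∑ v ∈ Ioc a b, ee (Z / v) + (1 - ee (D (b + 1)))⁻¹ *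
    ee (Z / (b + 1 : ℕ))) ((1 - ee (D (a + 1)))⁻¹ * ee (Z / (a + 1 : ℕ)))
  rw [add_sub_cancel_right, norm_mul, norm_ee, mul_one] at t1
  rw [norm_mul, norm_ee, mul_one] at t2
  have t3 : (b - a : ℝ) * ((5 * W ^ 2 / |Z|) * (2 * π * (2 * |Z| / W ^ 3)) * (5 * W ^ 2 / |Z|))
      ≤ 1200 * W ^ 2 / |Z| := by
    have : (b - a : ℝ) ≤ 3 * W := by linarith [a.cast_nonneg (α := ℝ)]
    calc _ ≤ 3 * W * ((5 * W ^ 2 / |Z|) * (2 * 4 * (2 * |Z| / W ^ 3)) * (5 * W ^ 2 / |Z|)) := by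
          gcongr
          exact pi_le_four
      _ = _ := by
          field_simp
          ring
  have t4 : 0 ≤ W ^ 2 / |Z| := by positivity
  simp only [mul_div_assoc] at *
  linarith

theorem cls {W Z : ℝ} (hW : 1 ≤ W) {a b : ℕ} (ha : W < a + 1) (hb : (b : ℝ) ≤ 3 * W) {κ : ℕ}
    (j : ℕ) (hκ : 1 ≤ κ) :
    ‖∑ v ∈ (Ioc a b).filter (fun v => v % κ = j % κ), ee (Z / v) -
      (∑ v ∈ Ioc a b, ee (Z / v)) / κ‖ ≤ 2000 * (1 + |Z| / W) := by
  have hW0 : 0 < W := by linarith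
  have hk0 : (0 : ℝ) < κ := by exact_mod_cast hκ
  obtain ⟨A, hA⟩ : ∃ A, A = (Ioc a b).filter (fun v => v % κ = j % κ) := ⟨_, rfl⟩
  have mA : ∀ v, v ∈ A ↔ (a < v ∧ v ≤ b) ∧ v % κ = j % κ := fun v => by
    rw [hA, mem_filter, mem_Ioc]
  rw [← hA]
  obtain ⟨B, hB⟩ : ∃ B, B = (A ×ˢ range κ).image fun p : ℕ × ℕ => p.1 + p.2 := ⟨_, rfl⟩
  have hinj : Set.InjOn (fun p : ℕ × ℕ => p.1 + p.2) (A ×ˢ range κ : Finset (ℕ × ℕ)) := by
    rintro ⟨v, i⟩ h ⟨w, k⟩ h' e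
    rw [mem_coe, mem_product, mA, mem_range] at h h'
    simp only at e h h'
    have e1 : v ≡ w [MOD κ] := h.1.2.trans h'.1.2.symm
    have e2 : i = k := Nat.ModEq.eq_of_lt_of_lt
      (e1.add_left_cancel (show v + i ≡ w + k [MOD κ] from e ▸ Nat.ModEq.refl _)) h.2 h'.2
    exact Prod.ext (by omega) e2
  have s1 : ∑ w ∈ B, ee (Z / w) = ∑ v ∈ A, ∑ i ∈ range κ, ee (Z / (v + i : ℕ)) := by
    rw [hB, sum_image hinj, sum_product]
  have c1 : (B \ Ioc a b).card ≤ κ := by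
    refine (card_le_card (t := Ioc b (b + κ)) fun w hw => ?_).trans (by simp)
    rw [Finset.mem_sdiff, hB, mem_image] at hw
    obtain ⟨⟨⟨v, i⟩, h, rfl⟩, h'⟩ := hw
    rw [mem_product, mA, mem_range] at h
    simp only [mem_Ioc] at h h' ⊢
    omega
  have c2 : (Ioc a b \ B).card ≤ κ := by
    refine (card_le_card (t := Ioc a (a + κ)) fun w hw => ?_).trans (by simp)
    rw [Finset.mem_sdiff, mem_Ioc] at hw
    rw [mem_Ioc]
    refine ⟨hw.1.1, not_lt.1 fun h => hw.2 ?_⟩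
    have e1 := Nat.div_add_mod (w - j % κ) κ
    have e2 := Nat.mod_lt (w - j % κ) hκ
    have e3 := Nat.mod_lt j hκ
    rw [hB, mem_image]
    refine ⟨(j % κ + κ * ((w - j % κ) / κ), (w - j % κ) % κ), ?_, by simp only; omega⟩
    rw [mem_product, mA, mem_range]
    exact ⟨⟨by simp only; omega, by simp⟩, e2⟩
  have n1 : ∀ S : Finset ℕ, ‖∑ w ∈ S, ee (Z / w)‖ ≤ S.card := fun S =>
    (norm_sum_le _ _).trans (by simp [norm_ee])
  have s2 : ‖∑ w ∈ B, ee (Z / w) - ∑ w ∈ Ioc a b, ee (Z / w)‖ ≤ 2 * κ := by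
    rw [← sum_sdiff_sub_sum_sdiff]
    have a1 : ((B \ Ioc a b).card : ℝ) ≤ κ := by exact_mod_cast c1
    have a2 : ((Ioc a b \ B).card : ℝ) ≤ κ := by exact_mod_cast c2
    linarith [norm_sub_le (∑ w ∈ B \ Ioc a b, ee (Z / w)) (∑ w ∈ Ioc a b \ B, ee (Z / w)),
      n1 (B \ Ioc a b), n1 (Ioc a b \ B)]
  have c3 : (A.card : ℝ) ≤ 3 * W / κ + 1 := by
    have a1 : A.card ≤ (range (b / κ + 1)).card := by
      refine card_le_card_of_injOn (fun v => v / κ) (fun v hv => ?_) fun v hv w hw e => ?_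
      · rw [mem_coe, mA] at hv
        rw [mem_coe, mem_range]
        exact Nat.lt_succ_of_le (Nat.div_le_div_right hv.1.2)
      · rw [mem_coe, mA] at hv hw
        simp only at e
        rw [← Nat.div_add_mod v κ, ← Nat.div_add_mod w κ, e, hv.2, hw.2]
    rw [card_range] at a1
    have a2 : (A.card : ℝ) ≤ (b / κ : ℕ) + 1 := by exact_mod_cast a1
    have a3 : ((b / κ : ℕ) : ℝ) ≤ 3 * W / κ := Nat.cast_div_le.trans (by gcongr)
    linarith
  obtain ⟨μ, hμ⟩ : ∃ μ, μ = min (κ / W ^ 2) (1 / W) := ⟨_, rfl⟩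
  have hμ0 : 0 ≤ μ := by
    rw [hμ]
    positivity
  have s3 : ∀ v ∈ A, ∀ i ∈ range κ, ‖ee (Z / v) - ee (Z / (v + i : ℕ))‖ ≤ 8 * |Z| * μ := by
    intro v hv i hi
    have a1 : W < v := ha.trans_le (by exact_mod_cast ((mA v).1 hv).1.1)
    have a0 : (0 : ℝ) < v := by linarith
    have a2 : (i : ℝ) ≤ κ := by exact_mod_cast (mem_range.1 hi).le
    have a3 := i.cast_nonneg (α := ℝ)
    have e : Z / v - Z / (v + i : ℕ) = Z * (i / (v * (v + i))) := by
      push_cast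
      field_simp
      ring
    have a4 : (i : ℝ) / (v * (v + i)) ≤ μ := by
      rw [hμ]
      refine le_min ?_ ?_
      · rw [sq]
        gcongr
        linarith
      · rw [div_le_div_iff₀ (by positivity) hW0]
        nlinarith
    refine (norm_ee_sub _ _).trans ?_
    rw [e, abs_mul, abs_of_nonneg (a := (i : ℝ) / (v * (v + i))) (by positivity)]
    calc 2 * π * (|Z| * (i / (v * (v + i)))) ≤ 2 * 4 * (|Z| * μ) := by
          gcongr
          exact pi_le_four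
      _ = _ := by ring
  have s4 : ‖κ * ∑ v ∈ A, ee (Z / v) - ∑ w ∈ B, ee (Z / w)‖ ≤ A.card * (κ * (8 * |Z| * μ)) := by
    rw [s1, mul_sum, ← sum_sub_distrib, ← nsmul_eq_mul, ← sum_const]
    refine norm_sum_le_of_le _ fun v hv => ?_
    have e : (κ : ℂ) * ee (Z / v) = ∑ _i ∈ range κ, ee (Z / v) := by simp
    have e' : κ * (8 * |Z| * μ) = ∑ _i ∈ range κ, 8 * |Z| * μ := by simp
    rw [e, e', ← sum_sub_distrib]
    exact norm_sum_le_of_le _ (s3 v hv)
  have s5 : A.card * μ ≤ 4 / W := by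
    have a1 : 3 * W / κ * μ ≤ 3 * W / κ * (κ / W ^ 2) := by
      gcongr
      exact hμ ▸ min_le_left _ _
    have a2 : μ ≤ 1 / W := hμ ▸ min_le_right _ _
    have a3 : 3 * W / κ * (κ / W ^ 2) = 3 / W := by field_simp
    have a4 : 4 / W = 3 / W + 1 / W := by ring
    nlinarith [mul_le_mul_of_nonneg_right c3 hμ0]
  have hkc : (κ : ℂ) ≠ 0 := by exact_mod_cast (by omega : κ ≠ 0)
  have e : ∑ v ∈ A, ee (Z / v) - (∑ v ∈ Ioc a b, ee (Z / v)) / κ
      = ((κ * ∑ v ∈ A, ee (Z / v) - ∑ w ∈ B, ee (Z / w))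
        + (∑ w ∈ B, ee (Z / w) - ∑ w ∈ Ioc a b, ee (Z / w))) / κ := by
    field_simp
    ring
  rw [e, norm_div, Complex.norm_natCast, div_le_iff₀ hk0]
  refine (norm_add_le_of_le s4 s2).trans ?_
  have s6 := mul_le_mul_of_nonneg_left s5 (by positivity : 0 ≤ κ * (8 * |Z|))
  have s7 : 0 ≤ κ * (|Z| / W) := by positivity
  have s8 : κ * (8 * |Z|) * (4 / W) = 32 * (κ * (|Z| / W)) := by ring
  nlinarith

end Osc

theorem s_Osc : S_Osc := by
  refine ⟨2000, by norm_num, fun W Z hW => ?_⟩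
  have ha : W < (⌊W⌋₊ : ℝ) + 1 := Nat.lt_floor_add_one W
  have hb : (⌊exp 1 * W⌋₊ : ℝ) ≤ 3 * W :=
    (Nat.floor_le (by positivity)).trans (by nlinarith [exp_one_lt_d9])
  have hab : ⌊W⌋₊ ≤ ⌊exp 1 * W⌋₊ := Nat.floor_le_floor (by nlinarith [exp_one_gt_d9])
  exact ⟨fun h1 h2 => Osc.kl hW h1 h2 hab ha hb, fun κ j hκ => Osc.cls hW ha hb j hκ⟩

end Jac
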