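import Vale.Agent.P013.Gro

/-! The trick of Rankin, and the number of tuples with repeated values. -/

noncomputable section
namespace Jac
open Finset Real Filter
open scoped Classical

theorem rank_exp_le (k : ℕ) : exp (k : ℝ) ≤ 3 ^ k := by
  rw [← mul_one (k : ℝ), exp_nat_mul]
  exact pow_le_pow_left₀ (exp_pos _).le (exp_one_lt_three).le k

theorem s_Rank (hM : S_M) : S_Rank := by
  obtain ⟨C, hC, -, -, -, h4, -⟩ := hM
  refine ⟨exp (6 * C), exp_pos _, fun w Y hw hY => ?_⟩
  have hlw : 0 < log w := log_pos (by linarith)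
  have h1 : ∀ S ∈ (PP w).powerset.filter (fun S => Y ≤ (pr S : ℝ)), (2 : ℝ) ^ S.card / pr S ≤
      exp (-(log Y / log w)) * ((6 : ℝ) ^ S.card / pr S) := by
    intro S hS
    obtain ⟨hS1, hS2⟩ := mem_filter.1 hS
    have hS3 := mem_powerset.1 hS1
    have hp : ∀ p ∈ S, p.Prime := fun p hp => (mem_PP.1 (hS3 hp)).1
    have hpos : (0 : ℝ) < pr S := by exact_mod_cast pr_pos hp
    have h2 : log Y ≤ S.card * log w := by
      refine (log_le_log hY hS2).trans ?_
      rw [log_pr hp, ← nsmul_eq_mul]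
      refine sum_le_card_nsmul _ _ _ fun p h => log_le_log ?_ (mem_PP.1 (hS3 h)).2
      exact_mod_cast (hp p h).pos
    have h3 : 1 ≤ exp (-(log Y / log w)) * 3 ^ S.card := by
      refine le_trans ?_ (mul_le_mul_of_nonneg_left (rank_exp_le S.card) (exp_pos _).le)
      rw [← exp_add]
      refine one_le_exp ?_
      have := (div_le_iff₀ hlw).2 h2
      linarith
    rw [← mul_div_assoc]
    refine div_le_div_of_nonneg_right ?_ hpos.le
    rw [show (6 : ℝ) = 3 * 2 by norm_num, mul_pow, ← mul_assoc]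
    exact le_mul_of_one_le_left (by positivity) h3
  refine (sum_le_sum h1).trans ?_
  rw [← mul_sum, mul_comm]
  refine mul_le_mul_of_nonneg_right ?_ (exp_pos _).le
  have h5 : ∑ S ∈ (PP w).powerset.filter (fun S => Y ≤ (pr S : ℝ)), (6 : ℝ) ^ S.card / pr S ≤
      ∏ p ∈ PP w, (1 + 6 / (p : ℝ)) := by
    rw [← sum_inv_pr]
    exact sum_le_sum_of_subset_of_nonneg (filter_subset _ _) fun S _ _ => by positivity
  refine h5.trans ?_
  have h6 : ∏ p ∈ PP w, (1 + 6 / (p : ℝ)) ≤ exp (6 * ∑ p ∈ PP w, 1 / (p : ℝ)) := by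
    rw [mul_sum, exp_sum]
    refine prod_le_prod (fun p _ => by positivity) fun p _ => ?_
    rw [mul_one_div, add_comm]
    exact add_one_le_exp _
  refine h6.trans ?_
  have h7 := (abs_le.1 (h4 w hw)).2
  have h8 : log w ^ 6 = exp (6 * log (log w)) := by
    rw [show (6 : ℝ) = ((6 : ℕ) : ℝ) by norm_num, exp_nat_mul, exp_log hlw]
  rw [h8, ← exp_add]
  exact exp_le_exp.2 (by linarith)

theorem s_Rep : S_Rep := by
  intro n j P hP hn hj
  have hn0 : (0 : ℝ) < n := by exact_mod_cast hn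
  by_cases hjn : n < j
  · have h1 : (((Fintype.piFinset (fun _ : Fin (2 * j) => P)).filter
        (fun f => ∀ t, ∃ t', t' ≠ t ∧ f t' = f t)).card : ℝ) ≤ (n : ℝ) ^ (2 * j) := by
      have h2 := card_filter_le (Fintype.piFinset (fun _ : Fin (2 * j) => P))
        (fun f => ∀ t, ∃ t', t' ≠ t ∧ f t' = f t)
      rw [Fintype.card_piFinset_const, hP] at h2
      exact_mod_cast h2
    refine h1.trans (le_mul_of_one_le_right (by positivity) (one_le_pow₀ ?_))
    have : (n : ℝ) < j := by exact_mod_cast hjn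
    rw [le_div_iff₀ hn0]
    linarith
  have hjn' : j ≤ n := not_lt.1 hjn
  have hsub : (Fintype.piFinset (fun _ : Fin (2 * j) => P)).filter
      (fun f => ∀ t, ∃ t', t' ≠ t ∧ f t' = f t) ⊆
      (powersetCard j P).biUnion (fun A => Fintype.piFinset (fun _ : Fin (2 * j) => A)) := by
    intro f hf
    obtain ⟨hf1, hf2⟩ := mem_filter.1 hf
    have hi : univ.image f ⊆ P := by
      intro v hv
      obtain ⟨t, -, rfl⟩ := mem_image.1 hv
      exact Fintype.mem_piFinset.1 hf1 t
    have hc : 2 * (univ.image f).card ≤ (univ : Finset (Fin (2 * j))).card := by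
      refine mul_card_image_le_card _ _ fun v hv => ?_
      obtain ⟨t, -, rfl⟩ := mem_image.1 hv
      obtain ⟨t', h1, h2⟩ := hf2 t
      exact one_lt_card.2 ⟨t', by simp [h2], t, by simp, h1⟩
    rw [card_univ, Fintype.card_fin] at hc
    obtain ⟨A, hA1, hA2, hA3⟩ := exists_subsuperset_card_eq (n := j) hi (by omega) (by omega)
    exact mem_biUnion.2 ⟨A, mem_powersetCard.2 ⟨hA2, hA3⟩,
      Fintype.mem_piFinset.2 fun t => hA1 (mem_image_of_mem f (mem_univ t))⟩
  have h1 : ((powersetCard j P).biUnion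
      (fun A => Fintype.piFinset (fun _ : Fin (2 * j) => A))).card ≤ n.choose j * j ^ (2 * j) := by
    refine (card_biUnion_le_card_mul _ _ (j ^ (2 * j)) fun A hA => ?_).trans ?_
    · rw [Fintype.card_piFinset_const, (mem_powersetCard.1 hA).2]
    · rw [card_powersetCard, hP]
  have h2 : (((Fintype.piFinset (fun _ : Fin (2 * j) => P)).filter
      (fun f => ∀ t, ∃ t', t' ≠ t ∧ f t' = f t)).card : ℝ) ≤ n.choose j * (j : ℝ) ^ (2 * j) := by
    exact_mod_cast (card_le_card hsub).trans h1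
  refine h2.trans ?_
  have h3 : (n.choose j : ℝ) ≤ (n : ℝ) ^ j / j.factorial := Nat.choose_le_pow_div j n
  have h4 : (j : ℝ) ^ j / j.factorial ≤ 3 ^ j :=
    (pow_div_factorial_le_exp _ (by positivity) j).trans (rank_exp_le j)
  have e1 : (n : ℝ) ^ (2 * j) * (3 * j / n) ^ j = (n : ℝ) ^ j * (j : ℝ) ^ j * 3 ^ j := by
    rw [two_mul, pow_add, div_pow, mul_pow]
    field_simp
  rw [e1]
  calc (n.choose j : ℝ) * (j : ℝ) ^ (2 * j) ≤ (n : ℝ) ^ j / j.factorial * (j : ℝ) ^ (2 * j) :=
        mul_le_mul_of_nonneg_right h3 (by positivity)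
    _ = (n : ℝ) ^ j * (j : ℝ) ^ j * ((j : ℝ) ^ j / j.factorial) := by
        rw [two_mul, pow_add]
        ring
    _ ≤ _ := mul_le_mul_of_nonneg_left h4 (by positivity)

end Jac
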