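import Vale.Agent.P013.Gro

/-! The recursion for the mass of chains, and its vanishing. -/

noncomputable section
namespace Jac
open Finset Real Filter
open scoped Classical

/-- the index set of `nm` -/
def nms (ε : ℕ) (l : ℝ) (P : Finset ℕ) (t2 s : ℕ) (a : ℝ) : Finset (Finset ℕ) :=
  (Fam ε (C0 l) P).filter (fun S => (∃ q ∈ S, t2 < q) ∧ (S.card + s) % 2 = ε ∧
    a - 1 ≤ l - log (pr S) ∧ l - log (pr S) < a)

theorem nm_eq (ε : ℕ) (l : ℝ) (P : Finset ℕ) (t2 s : ℕ) (a : ℝ) :
    nm ε l P t2 s a = ∑ S ∈ nms ε l P t2 s a, 1 / (pr S : ℝ) := rfl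

theorem nm_nonneg (ε : ℕ) (l : ℝ) (P : Finset ℕ) (t2 s : ℕ) (a : ℝ) : 0 ≤ nm ε l P t2 s a :=
  sum_nonneg fun _ _ => by positivity

theorem rec_without (ε : ℕ) (l : ℝ) (P : Finset ℕ) (t2 p s : ℕ) (a : ℝ) :
    ∑ S ∈ (nms ε l (insert p P) t2 s a).filter (fun S => ¬ p ∈ S), 1 / (pr S : ℝ) ≤
      nm ε l P t2 s a := by
  rw [nm_eq]
  refine sum_le_sum_of_subset_of_nonneg (fun S hS => ?_) fun _ _ _ => by positivity
  obtain ⟨h1, h2⟩ := mem_filter.1 hS
  obtain ⟨h3, h4⟩ := mem_filter.1 h1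
  obtain ⟨h5, h6⟩ := mem_Fam.1 h3
  exact mem_filter.2 ⟨mem_Fam.2 ⟨(subset_insert_iff_of_notMem h2).1 h5, h6⟩, h4⟩

theorem rec_with (ε : ℕ) (l : ℝ) (P : Finset ℕ) (t2 p s s' : ℕ) (a : ℝ) (hp : p.Prime)
    (hP : ∀ q ∈ P, q.Prime ∧ p < q) (ha : a ≤ l - log p ∨ p ≤ t2) (hs : s' % 2 = (s + 1) % 2) :
    ∑ S ∈ (nms ε l (insert p P) t2 s a).filter (fun S => p ∈ S), 1 / (pr S : ℝ) ≤
      nm ε l P t2 s' (a + log p) / p := by
  have hp0 : (0 : ℝ) < p := by exact_mod_cast hp.pos
  set X := (nms ε l (insert p P) t2 s a).filter (fun S => p ∈ S) with hX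
  have h1 : ∑ S ∈ X, 1 / (pr S : ℝ) = (∑ S ∈ X, 1 / (pr (S.erase p) : ℝ)) / p := by
    rw [sum_div]
    refine sum_congr rfl fun S hS => ?_
    have h2 := (mem_filter.1 hS).2
    conv_lhs => rw [← insert_erase h2, pr_insert (notMem_erase p S)]
    push_cast
    rw [div_div, mul_comm]
  rw [h1]
  refine div_le_div_of_nonneg_right ?_ hp0.le
  have hinj : Set.InjOn (fun S : Finset ℕ => S.erase p) X := by
    intro S hS S' hS' e
    have a1 := (mem_filter.1 hS).2
    have a2 := (mem_filter.1 hS').2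
    rw [← insert_erase a1, ← insert_erase a2]
    exact congrArg _ e
  rw [← sum_image (f := fun S : Finset ℕ => 1 / (pr S : ℝ)) hinj, nm_eq]
  refine sum_le_sum_of_subset_of_nonneg (fun S' hS' => ?_) fun _ _ _ => by positivity
  obtain ⟨S, hS, rfl⟩ := mem_image.1 hS'
  obtain ⟨h2, hpS⟩ := mem_filter.1 hS
  obtain ⟨h3, ⟨q, hq, hq2⟩, h5, h6, h7⟩ := mem_filter.1 h2
  obtain ⟨h8, h9⟩ := mem_Fam.1 h3
  have hsub : S.erase p ⊆ P := subset_insert_iff.1 h8
  have hpr : (pr S : ℝ) = p * pr (S.erase p) := by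
    conv_lhs => rw [← insert_erase hpS, pr_insert (notMem_erase p S)]
    push_cast; rfl
  have hpos : (0 : ℝ) < pr (S.erase p) := by
    exact_mod_cast pr_pos fun q hq => (hP q (hsub hq)).1
  have hlog : log (pr S) = log p + log (pr (S.erase p)) := by
    rw [hpr, log_mul hp0.ne' hpos.ne']
  have hcard := card_erase_add_one hpS
  refine mem_filter.2 ⟨mem_Fam.2 ⟨hsub, fun u hu => ?_⟩, ?_, by omega, by linarith, by linarith⟩
  · have hu1 := (hP u (hsub hu)).2
    have : up (S.erase p) u = up S u := by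
      ext v
      simp only [up, mem_filter, mem_erase]
      exact ⟨fun h => ⟨h.1.2, h.2⟩, fun h => ⟨⟨by omega, h.1⟩, h.2⟩⟩
    rw [this]
    exact h9 u (mem_of_mem_erase hu)
  · by_cases e : q = p
    · subst e
      rcases (S.erase q).eq_empty_or_nonempty with e' | ⟨u, hu⟩
      · exfalso
        rw [e'] at hlog
        simp only [pr, prod_empty, Nat.cast_one, log_one, add_zero] at hlog
        simp only [pr] at h7
        rcases ha with ha | ha
        · linarith
        · omega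
      · exact ⟨u, hu, hq2.trans (hP u (hsub hu)).2⟩
    · exact ⟨q, mem_erase.2 ⟨e, hq⟩, hq2⟩

theorem s_Rec : S_Rec := by
  intro ε l P t2 p a _ hp hP ha
  constructor
  · rw [nm_eq, ← sum_filter_add_sum_filter_not _ (fun S => p ∈ S), add_comm]
    refine add_le_add (rec_without ε l P t2 p 0 a) ?_
    split_ifs with h
    · exact rec_with ε l P t2 p 0 1 a hp hP ha rfl
    · refine (sum_eq_zero fun S hS => ?_).le
      exfalso
      obtain ⟨h2, hpS⟩ := mem_filter.1 hS
      obtain ⟨h3, -, h5, -, h7⟩ := mem_filter.1 h2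
      obtain ⟨h8, h9⟩ := mem_Fam.1 h3
      have hup : up S p = S := filter_true_of_mem fun q hq => by
        rcases mem_insert.1 (h8 hq) with e | e
        · exact e.ge
        · exact (hP q e).2.le
      have h10 := h9 p hpS (by rw [hup]; simpa using h5)
      rw [hup, C0] at h10
      have hp0 : (0 : ℝ) < p := by exact_mod_cast hp.pos
      have hpos : (0 : ℝ) < pr S := by
        refine Nat.cast_pos.2 (pr_pos fun q hq => ?_)
        rcases mem_insert.1 (h8 hq) with e | e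
        · rw [e]; exact hp
        · exact (hP q e).1
      have h11 := (log_le_iff_le_exp (by positivity)).2 h10
      rw [log_mul hpos.ne' (by positivity), log_pow] at h11
      push_cast at h11
      exact h (by linarith)
  · rw [nm_eq, ← sum_filter_add_sum_filter_not _ (fun S => p ∈ S), add_comm]
    exact add_le_add (rec_without ε l P t2 p 1 a) (rec_with ε l P t2 p 1 0 a hp hP ha rfl)

theorem s_Van (hRem : S_Rem) : S_Van := by
  intro ε l P t t2 a hε ht hP
  have key : ∀ s, ∀ S ∈ nms ε l P t2 s a, log t < a ∧ (s = 0 → 2 * log t < a) ∧ a ≤ l + 1 := by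
    intro s S hS
    obtain ⟨h3, ⟨q, hq, -⟩, h5, h6, h7⟩ := mem_filter.1 hS
    obtain ⟨h8, h9⟩ := mem_Fam.1 h3
    have hne : S.Nonempty := ⟨q, hq⟩
    have hm := min'_mem S hne
    obtain ⟨a1, a2⟩ := hRem ε l S hε (fun u hu => (hP u (h8 hu)).1)
      (fun _ u hu => (hP u (h8 hu)).2.2) h9 _ hm fun u hu => min'_le S u hu
    have a3 : log t ≤ log (S.min' hne) :=
      log_le_log (by exact_mod_cast ht) (by exact_mod_cast (hP _ (h8 hm)).2.1)
    have a4 : 0 ≤ log (pr S) := log_natCast_nonneg _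
    refine ⟨by linarith, fun e => ?_, by linarith⟩
    subst e
    have := a2 (by simpa using h5)
    linarith
  refine ⟨fun h => ?_, fun h => ?_, fun s h => ?_⟩
  · exact sum_eq_zero fun S hS => absurd ((key 0 S hS).2.1 rfl) (not_lt.2 h)
  · exact sum_eq_zero fun S hS => absurd (key 1 S hS).1 (not_lt.2 h)
  · exact sum_eq_zero fun S hS => absurd (key s S hS).2.2 (not_le.2 h)

end Jac
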