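import Vale.Agent.P013.Gro

noncomputable section
namespace Jac
open Finset Real Filter
open scoped Classical

/-- primes in `[t, t1)` -/
def seqaP (t1 t : ℕ) : Finset ℕ := (Ico t t1).filter Nat.Prime

theorem seqa_mem {t1 t p : ℕ} : p ∈ seqaP t1 t ↔ (t ≤ p ∧ p < t1) ∧ p.Prime := by
  rw [seqaP, mem_filter, mem_Ico]

theorem seqa_np {t1 t : ℕ} (h : ¬ t.Prime) : seqaP t1 t = seqaP t1 (t + 1) := by
  ext p
  rw [seqa_mem, seqa_mem]
  refine ⟨fun ⟨⟨h1, h2⟩, h3⟩ => ⟨⟨?_, h2⟩, h3⟩, fun ⟨⟨h1, h2⟩, h3⟩ => ⟨⟨by omega, h2⟩, h3⟩⟩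
  rcases h1.eq_or_lt with rfl | h4
  · exact absurd h3 h
  · omega

theorem seqa_ins {t1 t : ℕ} (h : t.Prime) (h' : t < t1) :
    seqaP t1 t = insert t (seqaP t1 (t + 1)) := by
  ext p
  rw [mem_insert, seqa_mem, seqa_mem]
  constructor
  · rintro ⟨⟨h1, h2⟩, h3⟩
    rcases h1.eq_or_lt with rfl | h4
    · exact Or.inl rfl
    · exact Or.inr ⟨⟨by omega, h2⟩, h3⟩
  · rintro (rfl | ⟨⟨h1, h2⟩, h3⟩)
    · exact ⟨⟨le_rfl, h'⟩, h⟩
    · exact ⟨⟨by omega, h2⟩, h3⟩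

theorem seqa_nm (t1 t : ℕ) : t ∉ seqaP t1 (t + 1) := fun h => by
  have := (seqa_mem.1 h).1.1
  omega

theorem seqa_sub (t1 t : ℕ) : seqaP t1 t ⊆ PP t1 := fun p hp =>
  mem_PP.2 ⟨(seqa_mem.1 hp).2, by exact_mod_cast (seqa_mem.1 hp).1.2.le⟩

theorem seqa_shift {t1 t : ℕ} (h : t ≤ t1) (f : ℕ → ℝ) {m : ℝ} (h0 : 0 ≤ f t) (h1 : f t ≤ m)
    (h2 : 0 ≤ f t1) (h3 : f t1 ≤ m) :
    |∑ p ∈ seqaP t1 t, f p - ∑ p ∈ (PP t1).filter (fun p : ℕ => (t : ℝ) < p), f p| ≤ m := by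
  have e : (PP t1).filter (fun p : ℕ => (t : ℝ) < p) = (Ioc t t1).filter Nat.Prime := by
    ext p
    rw [mem_filter, mem_PP, mem_filter, mem_Ioc, Nat.cast_le, Nat.cast_lt]
    tauto
  rw [e, seqaP, sum_filter, sum_filter]
  have e1 := sum_Ioc_add_eq_sum_Icc (f := fun p => if p.Prime then f p else 0) h
  have e2 := sum_Ico_add_eq_sum_Icc (f := fun p => if p.Prime then f p else 0) h
  have k1 : 0 ≤ (if t.Prime then f t else 0) ∧ (if t.Prime then f t else 0) ≤ m := by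
    split_ifs
    · exact ⟨h0, h1⟩
    · exact ⟨le_rfl, h0.trans h1⟩
  have k2 : 0 ≤ (if t1.Prime then f t1 else 0) ∧ (if t1.Prime then f t1 else 0) ≤ m := by
    split_ifs
    · exact ⟨h2, h3⟩
    · exact ⟨le_rfl, h0.trans h1⟩
  rw [abs_le]
  constructor <;> linarith [k1.1, k1.2, k2.1, k2.2]

theorem seqa_sq {t : ℕ} (ht : 2 ≤ t) (t1 : ℕ) :
    ∑ p ∈ seqaP t1 t, 1 / (p : ℝ) ^ 2 ≤ 2 / (t : ℝ) := by
  have h1 : ∑ p ∈ seqaP t1 t, 1 / (p : ℝ) ^ 2 ≤ ∑ p ∈ Ioo (t - 1) t1, ((p : ℝ) ^ 2)⁻¹ := by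
    simp only [one_div]
    refine sum_le_sum_of_subset_of_nonneg (fun p hp => ?_) fun _ _ _ => by positivity
    have := (seqa_mem.1 hp).1
    rw [mem_Ioo]
    omega
  refine h1.trans ((sum_Ioo_inv_sq_le (t - 1) t1).trans (le_of_eq ?_))
  rw [Nat.cast_sub (by omega)]
  norm_num

theorem seqa_logsq {x : ℝ} (hx : 1 ≤ x) : log x ^ 2 ≤ 4 * x := by
  have h0 : 0 < x := by linarith
  have h1 : log (√x) ≤ √x := (log_le_sub_one_of_pos (by positivity)).trans (by linarith)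
  rw [log_sqrt h0.le] at h1
  have h2 := log_nonneg hx
  have h3 := sq_sqrt h0.le
  nlinarith

theorem seqa_exp (u : ℝ) : |exp u - 1| ≤ |u| * exp |u| := by
  have h1 := add_one_le_exp u
  have h2 := add_one_le_exp (-u)
  have h3 : exp u * exp (-u) = 1 := by rw [← exp_add, add_neg_cancel, exp_zero]
  have h4 := exp_pos u
  rcases le_total 0 u with h | h
  · rw [abs_of_nonneg h, abs_of_nonneg (by linarith)]
    nlinarith
  · rw [abs_of_nonpos h, abs_of_nonpos (by linarith [exp_le_one_iff.2 h])]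
    nlinarith

theorem seqa_l1 {x : ℝ} (hx : 0 < x) : |log (1 + 1 / x) - 1 / x| ≤ 1 / x ^ 2 := by
  have h0 : 0 < 1 + 1 / x := by positivity
  have h1 := log_le_sub_one_of_pos h0
  have h2 := one_sub_inv_le_log_of_pos h0
  have h3 : 1 / x - 1 / x ^ 2 ≤ 1 - (1 + 1 / x)⁻¹ := by
    have : 1 - (1 + 1 / x)⁻¹ - (1 / x - 1 / x ^ 2) = 1 / (x ^ 2 * (x + 1)) := by
      field_simp
      ring
    have h4 : 0 < 1 / (x ^ 2 * (x + 1)) := by positivity
    linarith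
  have h4 : 0 < 1 / x ^ 2 := by positivity
  rw [abs_le]
  constructor <;> linarith

theorem seqa_l2 {x : ℝ} (hx : 2 ≤ x) :
    0 < 1 - 2 / (x + 1) ∧ |log (1 - 2 / (x + 1)) + 2 * (1 / x)| ≤ 4 * (1 / x ^ 2) := by
  have hx0 : 0 < x := by linarith
  have hx1 : 0 < x - 1 := by linarith
  have e : 1 - 2 / (x + 1) = (x - 1) / (x + 1) := by
    field_simp
    ring
  have h0 : 0 < 1 - 2 / (x + 1) := by
    rw [e]
    positivity
  refine ⟨h0, ?_⟩
  have h1 := log_le_sub_one_of_pos h0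
  have h2 := one_sub_inv_le_log_of_pos h0
  have h3 : -(2 / (x + 1)) + 2 * (1 / x) ≤ 4 * (1 / x ^ 2) := by
    have : 4 * (1 / x ^ 2) - (-(2 / (x + 1)) + 2 * (1 / x)) = (2 * x + 4) / (x ^ 2 * (x + 1)) := by
      field_simp
      ring
    have h4 : 0 < (2 * x + 4) / (x ^ 2 * (x + 1)) := by positivity
    linarith
  have h4 : -(4 * (1 / x ^ 2)) ≤ 1 - (1 - 2 / (x + 1))⁻¹ + 2 * (1 / x) := by
    rw [e, inv_div]
    have : 1 - (x + 1) / (x - 1) + 2 * (1 / x) + 4 * (1 / x ^ 2)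
        = 2 * (x - 2) / (x ^ 2 * (x - 1)) := by
      field_simp
      ring
    have h5 : 0 ≤ x - 2 := by linarith
    have h4 : 0 ≤ 2 * (x - 2) / (x ^ 2 * (x - 1)) := by positivity
    linarith
  rw [abs_le]
  constructor <;> linarith

theorem seqa_inv {t : ℕ} (ht : 2 ≤ t) : 1 / (t : ℝ) ≤ 4 / log t ^ 2 := by
  have h1 : (2 : ℝ) ≤ t := by exact_mod_cast ht
  have h2 : 0 < log t := log_pos (by linarith)
  rw [div_le_div_iff₀ (by linarith) (by positivity), one_mul]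
  exact seqa_logsq (by linarith)

theorem seqa_low {t : ℕ} (ht : 2 ≤ t) {K : ℝ} (hK : 0 ≤ K) : K / log t ^ 2 ≤ 4 * K := by
  have h1 : (2 : ℝ) ≤ t := by exact_mod_cast ht
  have h2 : 1 / 2 ≤ log t := le_trans (by linarith [log_two_gt_d9]) (log_le_log (by norm_num) h1)
  rw [div_le_iff₀ (by positivity)]
  nlinarith [mul_nonneg hK (show 0 ≤ log t ^ 2 - 1 / 4 by nlinarith)]

theorem seqa_R {C : ℝ} (h : ∀ s t : ℝ, 2 ≤ s → s ≤ t →
    |∑ p ∈ (PP t).filter (fun p : ℕ => s < p), 1 / (p : ℝ) - log (log t / log s)| ≤ C / log s ^ 2)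
    {t1 t : ℕ} (ht : 2 ≤ t) (ht1 : t ≤ t1) :
    |∑ p ∈ seqaP t1 t, 1 / (p : ℝ) - log (log t1 / log t)| ≤ (C + 4) / log t ^ 2 := by
  have h1 : (2 : ℝ) ≤ t := by exact_mod_cast ht
  have h2 : (t : ℝ) ≤ t1 := by exact_mod_cast ht1
  have h3 := h t t1 h1 h2
  have h4 := seqa_shift ht1 (fun p => 1 / (p : ℝ)) (by positivity) le_rfl (by positivity)
    (one_div_le_one_div_of_le (by linarith) h2)
  have h5 := seqa_inv ht
  rw [add_div, add_comm]
  exact (abs_sub_le _ _ _).trans (add_le_add (h4.trans h5) h3)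

theorem seqa_A {C : ℝ} (hC : 0 < C) {t1 t : ℕ} (ht : 2 ≤ t) (ht1 : t ≤ t1)
    (h : |∑ p ∈ seqaP t1 t, 1 / (p : ℝ) - log (log t1 / log t)| ≤ C / log t ^ 2) :
    exp (-(4 * C + 1)) ≤ (∏ p ∈ seqaP t1 t, (1 + 1 / (p : ℝ))) / log t1 * log t ∧
      (∏ p ∈ seqaP t1 t, (1 + 1 / (p : ℝ))) / log t1 * log t ≤ exp (4 * C + 1) := by
  have h1 : (2 : ℝ) ≤ t := by exact_mod_cast ht
  have h2 : (t : ℝ) ≤ t1 := by exact_mod_cast ht1
  have h3 : 0 < log t := log_pos (by linarith)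
  have h4 : 0 < log t1 := log_pos (by linarith)
  have h5 : 0 < ∏ p ∈ seqaP t1 t, (1 + 1 / (p : ℝ)) := prod_pos fun _ _ => by positivity
  have h6 : |∑ p ∈ seqaP t1 t, log (1 + 1 / (p : ℝ)) - ∑ p ∈ seqaP t1 t, 1 / (p : ℝ)| ≤ 1 := by
    rw [← sum_sub_distrib]
    refine (abs_sum_le_sum_abs _ _).trans ((sum_le_sum fun p hp => seqa_l1 ?_).trans
      ((seqa_sq ht t1).trans ((div_le_one (by linarith)).2 h1)))
    exact_mod_cast (seqa_mem.1 hp).2.pos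
  have h7 := seqa_low ht hC.le
  rw [log_div h4.ne' h3.ne', abs_le] at h
  rw [abs_le] at h6
  have h8 : log ((∏ p ∈ seqaP t1 t, (1 + 1 / (p : ℝ))) / log t1 * log t)
      = ∑ p ∈ seqaP t1 t, log (1 + 1 / (p : ℝ)) - log (log t1) + log (log t) := by
    rw [log_mul (by positivity) h3.ne', log_div h5.ne' h4.ne', log_prod fun _ _ => by positivity]
  rw [← le_log_iff_exp_le (by positivity), ← log_le_iff_le_exp (by positivity), h8]
  constructor <;> linarith [h.1, h.2, h6.1, h6.2]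

theorem seqa_d {C : ℝ} (hC : 0 < C) {t1 t : ℕ} (ht : 2 ≤ t) (ht1 : t ≤ t1)
    (h : |∑ p ∈ seqaP t1 t, 1 / (p : ℝ) - log (log t1 / log t)| ≤ C / log t ^ 2) :
    0 ≤ log t1 ^ 2 / 2 * ∏ p ∈ seqaP t1 t, (1 - 2 / ((p : ℝ) + 1)) ∧
      |2 * (log t1 ^ 2 / 2 * ∏ p ∈ seqaP t1 t, (1 - 2 / ((p : ℝ) + 1))) - log t ^ 2|
        ≤ (2 * C + 32) * exp (4 * (2 * C + 32)) := by
  have h1 : (2 : ℝ) ≤ t := by exact_mod_cast ht
  have h2 : (t : ℝ) ≤ t1 := by exact_mod_cast ht1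
  have h3 : 0 < log t := log_pos (by linarith)
  have h4 : 0 < log t1 := log_pos (by linarith)
  have h0 : ∀ p ∈ seqaP t1 t, (2 : ℝ) ≤ p := fun p hp => by
    exact_mod_cast (seqa_mem.1 hp).2.two_le
  have h5 : 0 < ∏ p ∈ seqaP t1 t, (1 - 2 / ((p : ℝ) + 1)) :=
    prod_pos fun p hp => (seqa_l2 (h0 p hp)).1
  refine ⟨by positivity, ?_⟩
  have h6 : |∑ p ∈ seqaP t1 t, log (1 - 2 / ((p : ℝ) + 1)) + 2 * ∑ p ∈ seqaP t1 t, 1 / (p : ℝ)|
      ≤ 32 / log t ^ 2 := by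
    rw [mul_sum, ← sum_add_distrib]
    refine (abs_sum_le_sum_abs _ _).trans ((sum_le_sum fun p hp => (seqa_l2 (h0 p hp)).2).trans ?_)
    rw [← mul_sum]
    have k1 := seqa_sq ht t1
    have k2 := seqa_inv ht
    have k3 : (2 : ℝ) / t = 2 * (1 / t) := by ring
    have k4 : (32 : ℝ) / log t ^ 2 = 8 * (4 / log t ^ 2) := by ring
    linarith
  set u : ℝ := ∑ p ∈ seqaP t1 t, log (1 - 2 / ((p : ℝ) + 1)) + 2 * log (log t1 / log t) with hu
  have h7 : |u| ≤ (2 * C + 32) / log t ^ 2 := by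
    have k1 : (2 * C + 32) / log t ^ 2 = 2 * (C / log t ^ 2) + 32 / log t ^ 2 := by ring
    rw [abs_le] at h h6 ⊢
    constructor <;> linarith [h.1, h.2, h6.1, h6.2]
  have h8 : exp u = (∏ p ∈ seqaP t1 t, (1 - 2 / ((p : ℝ) + 1))) * (log t1 / log t) ^ 2 := by
    rw [hu, exp_add, ← log_prod fun p hp => (seqa_l2 (h0 p hp)).1.ne', exp_log h5, two_mul,
      exp_add, exp_log (by positivity), sq]
  have h9 : 2 * (log t1 ^ 2 / 2 * ∏ p ∈ seqaP t1 t, (1 - 2 / ((p : ℝ) + 1))) - log t ^ 2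
      = log t ^ 2 * (exp u - 1) := by
    rw [h8]
    field_simp
  rw [h9, abs_mul, abs_of_nonneg (sq_nonneg _)]
  have k1 : exp |u| ≤ exp (4 * (2 * C + 32)) :=
    exp_le_exp.2 (h7.trans (seqa_low ht (by positivity)))
  calc _ ≤ log t ^ 2 * ((2 * C + 32) / log t ^ 2 * exp (4 * (2 * C + 32))) :=
        mul_le_mul_of_nonneg_left ((seqa_exp u).trans
          (mul_le_mul h7 k1 (exp_pos _).le (by positivity))) (sq_nonneg _)
    _ = _ := by field_simp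

theorem seqa_b {C : ℝ} (h : ∀ t : ℝ, 1 ≤ t → |∑ p ∈ PP t, log p / p - log t| ≤ C)
    (h' : ∀ t : ℝ, ∑ p ∈ PP t, 1 / ((p : ℝ) * log p) ≤ C) {t1 t : ℕ} (ht : 2 ≤ t) (ht1 : t ≤ t1) :
    |log t1 - ∑ p ∈ seqaP t1 t, log p / ((p : ℝ) + 1) - log t| ≤ 6 * C + 1 := by
  have h1 : (2 : ℝ) ≤ t := by exact_mod_cast ht
  have h2 : (t : ℝ) ≤ t1 := by exact_mod_cast ht1
  have k : ∀ x : ℝ, 2 ≤ x → 0 ≤ log x / x ∧ log x / x ≤ 1 := fun x hx =>
    ⟨div_nonneg (log_nonneg (by linarith)) (by linarith),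
      (div_le_one (by linarith)).2 ((log_le_sub_one_of_pos (by linarith)).trans (by linarith))⟩
  have h3 := seqa_shift ht1 (fun p => log p / (p : ℝ)) (k t h1).1 (k t h1).2
    (k t1 (by linarith)).1 (k t1 (by linarith)).2
  have h4 := sum_filter_add_sum_filter_not (PP t1) (fun p : ℕ => (t : ℝ) < p)
    (fun p => log p / (p : ℝ))
  have e : (PP t1).filter (fun p : ℕ => ¬ (t : ℝ) < p) = PP t := by
    ext p
    rw [mem_filter, mem_PP, mem_PP, not_lt]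
    exact ⟨fun h => ⟨h.1.1, h.2⟩, fun h => ⟨⟨h.1, h.2.trans h2⟩, h.2⟩⟩
  rw [e] at h4
  have h5 := h t (by linarith)
  have h6 := h t1 (by linarith)
  have h7 : |∑ p ∈ seqaP t1 t, log p / (p : ℝ) - ∑ p ∈ seqaP t1 t, log p / ((p : ℝ) + 1)|
      ≤ 4 * C := by
    rw [← sum_sub_distrib]
    refine (abs_sum_le_sum_abs _ _).trans (le_trans ?_
      (mul_le_mul_of_nonneg_left (h' t1) (by norm_num)))
    rw [mul_sum]
    refine (sum_le_sum fun p hp => ?_).trans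
      (sum_le_sum_of_subset_of_nonneg (seqa_sub t1 t) fun p _ _ => ?_)
    · have k1 : (2 : ℝ) ≤ p := by exact_mod_cast (seqa_mem.1 hp).2.two_le
      have k2 : 0 < log p := log_pos (by linarith)
      have k3 := seqa_logsq (show (1 : ℝ) ≤ p by linarith)
      have k4 : log p / (p : ℝ) - log p / ((p : ℝ) + 1) = log p / (p * (p + 1)) := by
        field_simp
        ring
      rw [k4, abs_of_nonneg (by positivity), mul_one_div,
        div_le_div_iff₀ (by positivity) (by positivity)]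
      nlinarith
    · have := log_natCast_nonneg p
      positivity
  rw [abs_le] at h3 h5 h6 h7 ⊢
  constructor <;> linarith [h3.1, h3.2, h5.1, h5.2, h6.1, h6.2, h7.1, h7.2]

theorem seqa_e {x D K : ℝ} (hx : 2 ≤ x) (h : |2 * D - log (x + 1) ^ 2| ≤ K) :
    |log x ^ 2 / (x + 1) - (log x / (x + 1)) ^ 2 - 2 * D / (x + 1)| ≤ (K + 6) * (1 / x) := by
  have hx0 : 0 < x := by linarith
  have h1 : 0 ≤ log x := log_nonneg (by linarith)
  have h2 : log x ≤ log (x + 1) := log_le_log hx0 (by linarith)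
  have h3 : log (x + 1) ≤ x := (log_le_sub_one_of_pos (by linarith)).trans (by linarith)
  have h4 : x * (log (x + 1) - log x) ≤ 1 := by
    rw [← log_div (by positivity) hx0.ne']
    refine (mul_le_mul_of_nonneg_left (log_le_sub_one_of_pos (by positivity)) hx0.le).trans
      (le_of_eq ?_)
    field_simp
    ring
  have h5 : log (x + 1) ^ 2 - log x ^ 2 ≤ 2 := by nlinarith
  have h6 : 0 ≤ log (x + 1) ^ 2 - log x ^ 2 := by nlinarith
  have h7 : log x ^ 2 / (x + 1) ≤ 4 := by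
    rw [div_le_iff₀ (by positivity)]
    linarith [seqa_logsq (show 1 ≤ x by linarith)]
  have h8 : 0 ≤ log x ^ 2 / (x + 1) := by positivity
  have e : log x ^ 2 / (x + 1) - (log x / (x + 1)) ^ 2 - 2 * D / (x + 1)
      = (log x ^ 2 - log x ^ 2 / (x + 1) - 2 * D) * (1 / (x + 1)) := by
    field_simp
  have hK : 0 ≤ K := (abs_nonneg _).trans h
  rw [e, abs_mul, abs_of_nonneg (show 0 ≤ 1 / (x + 1) by positivity)]
  refine mul_le_mul ?_ (one_div_le_one_div_of_le hx0 (by linarith)) (by positivity) (by positivity)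
  rw [abs_le] at h ⊢
  constructor <;> linarith [h.1, h.2]

theorem s_SeqA (hM : S_M) : S_SeqA := by
  obtain ⟨C, hC, h1, h2, -, h4, h5⟩ := hM
  set K : ℝ := (2 * (C + 4) + 32) * exp (4 * (2 * (C + 4) + 32)) with hK
  have hK0 : 0 < K := by positivity
  have hE : 0 < exp (4 * (C + 4) + 1) := exp_pos _
  have hP : 0 < (K + 6) * (C + 1) := by positivity
  refine ⟨exp (4 * (C + 4) + 1) + (6 * C + 1) + K + (K + 6) * (C + 1), by linarith,
    fun t1 ht1 => ?_⟩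
  refine ⟨fun t => (∏ p ∈ seqaP t1 t, (1 + 1 / (p : ℝ))) / log t1,
    fun t => log t1 - ∑ p ∈ seqaP t1 t, log p / ((p : ℝ) + 1),
    fun t => log t1 ^ 2 / 2 * ∏ p ∈ seqaP t1 t, (1 - 2 / ((p : ℝ) + 1)),
    fun t => ∑ p ∈ seqaP t1 t, (log p ^ 2 / ((p : ℝ) + 1) - (log p / ((p : ℝ) + 1)) ^ 2
      - 2 * (log t1 ^ 2 / 2 * ∏ q ∈ seqaP t1 (p + 1), (1 - 2 / ((q : ℝ) + 1))) / ((p : ℝ) + 1)),
    fun t ht ht' => ?_, fun t _ _ hp => ?_, fun p hp' hp => ?_⟩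
  · have hC4 : 0 < C + 4 := by linarith
    obtain ⟨a1, a2⟩ := seqa_A hC4 ht ht' (seqa_R h2 ht ht')
    obtain ⟨d1, d2⟩ := seqa_d hC4 ht ht' (seqa_R h2 ht ht')
    have b1 := seqa_b h1 h5 ht ht'
    have t3 : (3 : ℝ) ≤ t1 := by exact_mod_cast ht1
    have l1 : 0 ≤ log (log t1) := by
      refine log_nonneg ?_
      rw [le_log_iff_exp_le (by linarith)]
      exact exp_one_lt_three.le.trans t3
    refine ⟨le_trans ?_ a1, by linarith, by linarith, d1, by linarith, ?_⟩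
    · rw [exp_neg, ← one_div]
      exact one_div_le_one_div_of_le hE (by linarith)
    · refine (abs_sum_le_sum_abs _ _).trans ((sum_le_sum (g := fun p : ℕ => (K + 6) * (1 / (p : ℝ)))
        fun p hp => ?_).trans ?_)
      · obtain ⟨⟨-, k1⟩, k2⟩ := seqa_mem.1 hp
        have k3 : 2 ≤ p + 1 := by linarith [k2.two_le]
        have k4 := (seqa_d hC4 k3 k1 (seqa_R h2 k3 k1)).2
        rw [Nat.cast_add, Nat.cast_one] at k4
        exact seqa_e (by exact_mod_cast k2.two_le) k4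
      · rw [← mul_sum]
        have k1 : ∑ p ∈ seqaP t1 t, 1 / (p : ℝ) ≤ ∑ p ∈ PP t1, 1 / (p : ℝ) :=
          sum_le_sum_of_subset_of_nonneg (seqa_sub t1 t) fun _ _ _ => by positivity
        have k2 := (abs_le.1 (h4 t1 (by linarith))).2
        calc _ ≤ (K + 6) * ((C + 1) * (1 + log (log t1))) :=
              mul_le_mul_of_nonneg_left (by nlinarith) (by positivity)
          _ = (K + 6) * (C + 1) * (1 + log (log t1)) := by ring
          _ ≤ _ := mul_le_mul_of_nonneg_right (by linarith) (by positivity)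
  · simp only [seqa_np hp, and_self]
  · simp only [seqa_ins hp hp', prod_insert (seqa_nm t1 p), sum_insert (seqa_nm t1 p)]
    refine ⟨by ring, by ring, by ring, by ring⟩

end Jac
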