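import Vale.Agent.P013.Gro

/-! The explicit majorant. -/

noncomputable section
namespace Jac
open Finset Real Filter
open scoped Classical

/-- the majorant -/
def seqB_W (A b d e : ℕ → ℝ) (c1 c2 : ℝ) (t s : ℕ) (a : ℝ) : ℝ :=
  A t * ((a - b t) ^ 2 + c1 * (a - b t) + e t + c2 - if s = 0 then 2 * d t else 0)

theorem seqB_zero (A b d e : ℕ → ℝ) (c1 c2 : ℝ) (t : ℕ) (a : ℝ) : seqB_W A b d e c1 c2 t 0 a =
    A t * ((a - b t) ^ 2 + c1 * (a - b t) + e t + c2 - 2 * d t) := by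
  rw [seqB_W, if_pos rfl]

theorem seqB_one (A b d e : ℕ → ℝ) (c1 c2 : ℝ) (t : ℕ) (a : ℝ) : seqB_W A b d e c1 c2 t 1 a =
    A t * ((a - b t) ^ 2 + c1 * (a - b t) + e t + c2) := by
  rw [seqB_W, if_neg one_ne_zero, sub_zero]

section
variable {C E Λ A b d e u a m n l : ℝ}

theorem seqB_low (hC : 1 ≤ C) (hu : 0 < u) (hA : 1 / C ≤ A * u) {q : ℝ} (hm : 0 ≤ m) (hq : m ≤ q) :
    m / (C * u) ≤ A * q := by
  have h1 : 1 / (C * u) ≤ A := by rwa [← div_div, div_le_iff₀ hu]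
  rw [div_eq_mul_one_div, mul_comm]
  exact mul_le_mul h1 hq hm (le_trans (by positivity) h1)

theorem seqB_q0 (hC : 1 ≤ C) (hu : 0 < u) (hb : |b - u| ≤ C) (hd : |2 * d - u ^ 2| ≤ C)
    (he : |e| ≤ E) (ha : 2 * u - 2 ≤ a) :
    0 ≤ (a - b) ^ 2 + (10 * C + 10) * (a - b) + e + ((10 * C + 10) ^ 2 + C + E) - 2 * d := by
  obtain ⟨-, h1⟩ := abs_le.1 hb
  obtain ⟨-, h2⟩ := abs_le.1 hd
  obtain ⟨h3, -⟩ := abs_le.1 he
  have h4 : 0 ≤ u * (2 * (a - b - u) + (10 * C + 10)) := mul_nonneg hu.le (by linarith)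
  nlinarith [sq_nonneg (a - b - u + (5 * C + 5)), sq_nonneg (C + 1)]

theorem seqB_q1 (hC : 1 ≤ C) (he : |e| ≤ E) (x : ℝ) :
    0 ≤ x ^ 2 + (10 * C + 10) * x + e + ((10 * C + 10) ^ 2 + C + E) := by
  obtain ⟨h3, -⟩ := abs_le.1 he
  nlinarith [sq_nonneg (x + (5 * C + 5)), sq_nonneg (C + 1)]

theorem seqB_q2 (hC : 1 ≤ C) (hΛ : 1 ≤ Λ) (hb : |b - u| ≤ C) (he : |e| ≤ E) (hE : E ≤ 2 * C * Λ) :
    (a - b) ^ 2 + (10 * C + 10) * (a - b) + e + ((10 * C + 10) ^ 2 + C + E) ≤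
      (576 + 4 * C ^ 2 + 2 * (10 * C + 10) ^ 2 + 5 * C) * ((a - u) ^ 2 + Λ) := by
  obtain ⟨-, h3⟩ := abs_le.1 he
  have h1 : (b - u) ^ 2 ≤ C ^ 2 := sq_le_sq' (abs_le.1 hb).1 (abs_le.1 hb).2
  have h2 : (a - b) ^ 2 ≤ 2 * (a - u) ^ 2 + 2 * C ^ 2 := by nlinarith [sq_nonneg (a - u + (b - u))]
  have h4 : (10 * C + 10) * (a - b) ≤ (a - b) ^ 2 + (10 * C + 10) ^ 2 := by
    nlinarith [sq_nonneg (a - b - (5 * C + 5)), sq_nonneg (C + 1)]
  have h5 := mul_le_mul_of_nonneg_left hΛ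
    (show 0 ≤ 4 * C ^ 2 + 2 * (10 * C + 10) ^ 2 + C by positivity)
  have h6 := mul_nonneg (show 0 ≤ 572 + 4 * C ^ 2 + 2 * (10 * C + 10) ^ 2 + 5 * C by positivity)
    (sq_nonneg (a - u))
  linarith

theorem seqB_q3 (hC : 1 ≤ C) (he : |e| ≤ E) {x : ℝ} (hm : 0 ≤ m) (hx : m ≤ x) :
    m ^ 2 + C ≤ x ^ 2 + (10 * C + 10) * x + e + ((10 * C + 10) ^ 2 + C + E) := by
  obtain ⟨h3, -⟩ := abs_le.1 he
  have h1 := pow_le_pow_left₀ hm hx 2
  have h2 : 0 ≤ (10 * C + 10) * x := mul_nonneg (by linarith) (hm.trans hx)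
  linarith [sq_nonneg (10 * C + 10)]

theorem seqB_q4 (hC : 1 ≤ C) (hd : |2 * d - u ^ 2| ≤ C) {x v : ℝ} (hv : 1 / 2 ≤ v) (hu : 0 < u)
    (h : u ≤ v + 1) (hx : -1 - C ≤ x) :
    0 ≤ 2 * x * v + v ^ 2 + (10 * C + 10) * v - 2 * d := by
  obtain ⟨-, h2⟩ := abs_le.1 hd
  have h1 := pow_le_pow_left₀ hu.le h 2
  have h3 := mul_le_mul_of_nonneg_right hx (show 0 ≤ v by linarith)
  have h4 := mul_le_mul_of_nonneg_left hv (show 0 ≤ 8 * C + 6 by linarith)
  linarith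

end

theorem s_SeqB (hSeqA : S_SeqA) : S_SeqB := by
  obtain ⟨C, hC, hA⟩ := hSeqA
  set K := 576 + 4 * C ^ 2 + 2 * (10 * C + 10) ^ 2 + 5 * C with hK
  have hK1 : 576 ≤ K := by rw [hK]; linarith [sq_nonneg C, sq_nonneg (10 * C + 10)]
  refine ⟨C * K, one_le_mul_of_one_le_of_one_le hC (by linarith), ?_⟩
  filter_upwards [eventually_ge_atTop (24 * (1 + C)), tendsto_log_atTop.eventually_ge_atTop 1]
    with l hl hΛ
  have h1 : exp (l / 4) < (⌊exp (l / 4)⌋₊ + 1 : ℕ) := by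
    push_cast
    exact Nat.lt_floor_add_one _
  have h2 : ((⌊exp (l / 4)⌋₊ + 1 : ℕ) : ℝ) ≤ exp (l / 4 + 1) := by
    push_cast
    rw [exp_add]
    have := one_le_exp (show 0 ≤ l / 4 by linarith)
    nlinarith [Nat.floor_le (exp_pos (l / 4)).le, add_one_le_exp 1]
  have h3 : 3 ≤ ⌊exp (l / 4)⌋₊ + 1 := by
    have : ((3 : ℕ) : ℝ) ≤ (⌊exp (l / 4)⌋₊ + 1 : ℕ) := by
      rw [Nat.cast_ofNat]
      linarith [add_one_le_exp (l / 4)]
    exact_mod_cast this
  generalize ⌊exp (l / 4)⌋₊ = t0 at h1 h2 h3 ⊢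
  have h4 : l / 4 ≤ log (t0 + 1 : ℕ) := (le_log_iff_exp_le ((exp_pos _).trans h1)).2 h1.le
  have h5 : log (t0 + 1 : ℕ) ≤ l / 4 + 1 := (log_le_iff_le_exp ((exp_pos _).trans h1)).2 h2
  have hE : C * (1 + log (log (t0 + 1 : ℕ))) ≤ 2 * C * log l := by
    have := log_le_log (by linarith) (show log (t0 + 1 : ℕ) ≤ l by linarith)
    nlinarith
  obtain ⟨A, b, d, e, hb, hn, hp⟩ := hA (t0 + 1) h3
  generalize C * (1 + log (log (t0 + 1 : ℕ))) = E at hE hb
  have hu : ∀ t : ℕ, 2 ≤ t → 1 / 2 ≤ log t := fun t ht =>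
    le_trans (by linarith [log_two_gt_d9]) (log_le_log two_pos (by exact_mod_cast ht))
  have hA0 : ∀ t, 2 ≤ t → t ≤ t0 + 1 → 0 ≤ A t := fun t a b =>
    nonneg_of_mul_nonneg_left (le_trans (by positivity) (hb t a b).1) (by linarith [hu t a])
  have h01 : ∀ t, 2 ≤ t → t ≤ t0 + 1 → ∀ c1 c2 a,
      seqB_W A b d e c1 c2 t 0 a ≤ seqB_W A b d e c1 c2 t 1 a := fun t p q c1 c2 a => by
    rw [seqB_zero, seqB_one]
    exact mul_le_mul_of_nonneg_left (by linarith [(hb t p q).2.2.2.1]) (hA0 t p q)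
  have hlow : ∀ {m q u : ℝ}, 0 < u → 0 ≤ m → m / 576 ≤ q → m / (C * K * u) ≤ q / (C * u) :=
    fun {m q u} hu hm h => by
      rw [mul_right_comm, ← div_div, div_right_comm]
      exact div_le_div_of_nonneg_right
        ((div_le_div_of_nonneg_left hm (by norm_num) hK1).trans h) (by positivity)
  refine ⟨seqB_W A b d e (10 * C + 10) ((10 * C + 10) ^ 2 + C + E), fun t p q a => ?_,
    fun a => ?_, fun t p q ht => ?_, fun p q hq a => ?_⟩
  · obtain ⟨b1, b2, b3, b4, b5, b6⟩ := hb t p q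
    have u0 : 0 < log t := by linarith [hu t p]
    have up1 : seqB_W A b d e (10 * C + 10) ((10 * C + 10) ^ 2 + C + E) t 1 a ≤
        C * K * ((a - log t) ^ 2 + log l) / log t := by
      rw [seqB_one, mul_assoc, mul_div_right_comm]
      exact mul_le_mul ((le_div_iff₀ u0).2 b2) (seqB_q2 hC hΛ b3 b6 hE) (seqB_q1 hC b6 _)
        (by positivity)
    refine ⟨fun h => ?_, fun _ => ?_, fun s hs => ?_, fun s hs h => ?_⟩
    · rw [seqB_zero]
      exact mul_nonneg (hA0 t p q) (seqB_q0 hC u0 b3 b5 b6 h)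
    · rw [seqB_one]
      exact mul_nonneg (hA0 t p q) (seqB_q1 hC b6 _)
    · interval_cases s
      exacts [(h01 t p q _ _ a).trans up1, up1]
    · have lo0 : l ^ 2 / (C * K * log t) ≤
          seqB_W A b d e (10 * C + 10) ((10 * C + 10) ^ 2 + C + E) t 0 a := by
        rw [seqB_zero]
        refine (hlow u0 (sq_nonneg l) le_rfl).trans (seqB_low hC u0 b1 (by positivity) ?_)
        have c1 := seqB_q3 hC b6 (m := 3 * l / 8) (x := a - b t) (by linarith)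
          (by linarith [(abs_le.1 b3).2, h.1, h.2])
        have c2 := pow_le_pow_left₀ u0.le h.2 2
        linarith [(abs_le.1 b5).2, sq_nonneg l]
      interval_cases s
      exacts [lo0, lo0.trans (h01 t p q _ _ a)]
  · obtain ⟨b1, b2, b3, b4, b5, b6⟩ := hb (t0 + 1) (by omega) le_rfl
    have u0 : 0 < log (t0 + 1 : ℕ) := by linarith
    have e1 : l / (C * K) ≤ l ^ 2 / (C * K * log (t0 + 1 : ℕ)) := by
      rw [mul_comm (C * K), ← div_div (l ^ 2)]
      refine div_le_div_of_nonneg_right ((le_div_iff₀ u0).2 ?_) (by positivity)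
      rw [sq]
      exact mul_le_mul_of_nonneg_left (by linarith) (by linarith)
    refine ⟨fun h => ?_, fun h => ?_⟩
    · rw [seqB_zero]
      refine (e1.trans (hlow u0 (sq_nonneg l) le_rfl)).trans (seqB_low hC u0 b1 (by positivity) ?_)
      have c1 := seqB_q3 hC b6 (m := l / 3) (x := a - b (t0 + 1)) (by linarith)
        (by linarith [(abs_le.1 b3).2])
      have c2 := pow_le_pow_left₀ u0.le (show log (t0 + 1 : ℕ) ≤ 7 * l / 24 by linarith) 2
      linarith [(abs_le.1 b5).2, sq_nonneg l]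
    · rw [seqB_one]
      refine (e1.trans (hlow u0 (sq_nonneg l) le_rfl)).trans (seqB_low hC u0 b1 (by positivity) ?_)
      have c1 := seqB_q3 hC b6 (m := l / 24) (x := a - b (t0 + 1)) (by linarith)
        (by linarith [(abs_le.1 b3).2])
      linarith
  · obtain ⟨e1, e2, e3, e4⟩ := hn t p (by omega) ht
    funext s a
    simp only [seqB_W, e1, e2, e3, e4]
  · obtain ⟨e1, e2, e3, e4⟩ := hp p (by omega) hq
    obtain ⟨b1, b2, b3, b4, b5, b6⟩ := hb (p + 1) (by have := hq.two_le; omega) (by omega)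
    have a0 := hA0 (p + 1) (by have := hq.two_le; omega) (by omega)
    have p0 : (2 : ℝ) ≤ p := by exact_mod_cast hq.two_le
    have v0 := hu p hq.two_le
    have u0 := hu (p + 1) (by have := hq.two_le; omega)
    have u1 : log (p + 1 : ℕ) ≤ log p + 1 := by
      rw [log_le_iff_le_exp (by positivity), exp_add, exp_log (by linarith)]
      push_cast
      nlinarith [add_one_le_exp 1]
    simp only [seqB_zero, seqB_one]
    refine ⟨?_, ?_, fun h => mul_le_mul_of_nonneg_left ?_ a0,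
      fun h => mul_le_mul_of_nonneg_left ?_ a0⟩
    · rw [e1, e2, e3, e4]
      field_simp
      ring
    · rw [e1, e2, e4]
      field_simp
      ring
    · have c1 := seqB_q4 hC b5 (x := a - b (p + 1)) v0 (by linarith) u1
        (by linarith [(abs_le.1 b3).2])
      linarith
    · have c1 := seqB_q4 hC b5 (x := a - b (p + 1)) v0 (by linarith) u1
        (by linarith [(abs_le.1 b3).2])
      linarith

end Jac
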