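import Vale.Agent.P013.Gro

noncomputable section
namespace Jac
open Finset Real Filter
open scoped Classical

theorem str_A1 (y : ℕ) (x : ℤ) (d : ℕ) : 0 ≤ A1 y x d := by
  unfold A1 av
  refine div_nonneg (sum_nonneg fun a _ => sum_nonneg fun b _ => ?_) (Nat.cast_nonneg _)
  dsimp only
  split_ifs <;> norm_num

theorem str_small {y : ℕ} (hG : G y ^ 100 ≤ exp (B y / 2 - 1)) {S : Finset ℕ}
    (hS : ∀ p ∈ S, p.Prime) (hb : ¬ Bad y S) :
    (pr (S.filter fun p : ℕ => (p : ℝ) ≤ PW y) : ℝ) ≤ exp (B y ^ 2) := by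
  have hD : (0 : ℝ) < DD y := by exact_mod_cast DD_pos y
  have hS' : ∀ p ∈ S.filter fun p : ℕ => (p : ℝ) ≤ PW y, p.Prime := fun p hp =>
    hS p (mem_filter.1 hp).1
  have h1 : 2 * ∑ q ∈ S.filter (fun q => be y q ≤ aa y 0), be y q ≤ aa y 1 :=
    not_lt.1 fun h => hb (Or.inr (Or.inr h))
  have h2 : (S.filter fun p : ℕ => (p : ℝ) ≤ PW y) ⊆ S.filter (fun q => be y q ≤ aa y 0) := by
    intro p hp
    obtain ⟨h3, h4⟩ := mem_filter.1 hp
    refine mem_filter.2 ⟨h3, Nat.ceil_le.2 ?_⟩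
    have h5 : (0 : ℝ) < p := by exact_mod_cast (hS p h3).pos
    have h6 : log p ≤ B y / 2 - 1 := (log_le_iff_le_exp h5).2 (h4.trans hG)
    have h7 : (0 : ℝ) ≤ B y := Nat.cast_nonneg _
    rw [aa]
    push_cast
    exact mul_le_mul_of_nonneg_left (by linarith) hD.le
  have h3 : ∑ q ∈ S.filter (fun p : ℕ => (p : ℝ) ≤ PW y), be y q ≤ aa y 1 :=
    (sum_le_sum_of_subset h2).trans (by omega)
  have h4 : (0 : ℝ) < pr (S.filter fun p : ℕ => (p : ℝ) ≤ PW y) := by exact_mod_cast pr_pos hS'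
  rw [← log_le_iff_le_exp h4, log_pr hS']
  refine le_of_mul_le_mul_left ?_ hD
  rw [mul_sum]
  refine (sum_le_sum fun p _ => be_ge y p).trans ?_
  have h5 : ((∑ q ∈ S.filter (fun p : ℕ => (p : ℝ) ≤ PW y), be y q : ℕ) : ℝ) ≤ aa y 1 := by
    exact_mod_cast h3
  rw [aa] at h5
  push_cast at h5
  exact h5

theorem s_Str (hStrU : S_StrU) (hStrN : S_StrN) (hMass : S_Mass) (hSize : S_Size) (hGeo : S_Geo) :
    S_Str := by
  intro J hJ
  obtain ⟨c, -, hM⟩ := hMass J hJ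
  have hJ' : (3 : ℝ) ≤ J := by exact_mod_cast hJ
  filter_upwards [hStrU J hJ, hStrN J hJ, hM, hSize J hJ, hGeo J hJ, ev_G_B 100, ev_kap_T 100,
    ev_T_pow (16 * J) 2 one_pos, ev_T_pow 2 10 (show (0 : ℝ) < 0.1 by norm_num), ev_L 1, ev_T 0]
    with y hU hN hM hS hG hGB hk hT1 hT2 hL hT0
  intro x E hE
  obtain ⟨hG1, hG2⟩ := hG
  rw [rpow_one] at hT1
  have hL0 : 0 < L y := by linarith
  have key : ∀ g, GR y J g → ∀ N ∈ Nd y J x g,
      ∑ u ∈ E with gg u = g, ∑ S ∈ Gd y J g N,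
        (if Str y x (u * pr N * pr S) then A1 y x (u * pr N * pr S)
          + (H y : ℝ) / (u * pr N * pr S : ℕ) else 0)
      ≤ T y ^ 10 * y / L y / L y ^ (2.2 : ℝ) * (1 / pr N) := by
    intro g hg N hNd
    obtain ⟨v1, v2, -, v4⟩ := hG2 g hg
    obtain ⟨hN1, hN2⟩ := mem_powersetCard.1 hNd
    have hv0 : 0 ≤ vv y J g := le_trans (by positivity) v1
    have hq : 1 / (4 * (J : ℝ)) ≤ 1 / 2 := one_div_le_one_div_of_le (by norm_num) (by linarith)
    have hq0 : 0 ≤ 1 / (4 * (J : ℝ)) := by positivity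
    have hlo1 : lo y J g ≤ vv y J g := by unfold lo; nlinarith
    have hlo2 : PW y ≤ exp (lo y J g) := by
      rw [PW, G_pow]
      refine exp_le_exp.2 ?_
      have a1 : vv y J g / 2 ≤ lo y J g := by unfold lo; nlinarith
      have a2 : T y ^ 2 ≤ L y / (8 * J) / 2 := by
        rw [div_div, le_div_iff₀ (by positivity)]
        linarith
      push_cast
      linarith
    have hNp : ∀ p ∈ N, p.Prime ∧ exp (lo y J g) < p ∧ Uniq y x p := fun p hp => by
      obtain ⟨a1, a2⟩ := mem_filter.1 (hN1 hp)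
      exact ⟨(mem_PP.1 a1).1, a2⟩
    have hSp : ∀ S ∈ Gd y J g N, ∀ p ∈ S, p.Prime ∧ (p : ℝ) ≤ exp (lo y J g) := fun S hS' p hp =>
      mem_PP.1 ((mem_Fam.1 (mem_filter.1 (mem_filter.1 hS').1).1).1 hp)
    have hup : ∀ u ∈ E.filter (fun u => gg u = g), u.Prime ∧ exp (lo y J g) < u := by
      intro u hu
      obtain ⟨a1, a2⟩ := mem_filter.1 hu
      obtain ⟨b1, b2, b3, -⟩ := hE.1 u a1
      obtain ⟨-, c1, -⟩ := hG1 u b2 b3
      refine ⟨b1, (lt_log_iff_exp_lt (by exact_mod_cast b1.pos)).1 ?_⟩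
      rw [a2] at c1
      linarith
    by_cases hex : ∃ u ∈ E.filter (fun u => gg u = g), ∃ S ∈ Gd y J g N,
      Str y x (u * pr N * pr S)
    swap
    · push Not at hex
      rw [sum_eq_zero fun u hu => sum_eq_zero fun S hS' => if_neg (hex u hu S hS')]
      positivity
    obtain ⟨u0, hu0, S0, hS0, ρ, hρ1, hρ2, hρ3⟩ := hex
    have hNh : ∀ (u : ℕ) (S : Finset ℕ), ∀ p ∈ N, p ∣ u * pr N * pr S := fun u S p hp =>
      (((dvd_prod_of_mem _ hp : p ∣ pr N).mul_left u).mul_right _)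
    have hρN : ∀ p ∈ N, Hit x ρ p := fun p hp =>
      hρ3 p (hNp p hp).1 (hNh _ _ p hp) (hlo2.trans_lt (hNp p hp).2.1)
    obtain ⟨n, hn⟩ : N.Nonempty := card_pos.1 (by omega)
    have huniq : ∀ (u : ℕ) (S : Finset ℕ), Str y x (u * pr N * pr S) →
        ∀ p : ℕ, p.Prime → p ∣ u * pr N * pr S → PW y < p → Hit x ρ p := by
      rintro u S ⟨ρ', a1, -, a3⟩
      rw [(hNp n hn).2.2 ρ ρ' hρ1 a1 (hρN n hn)
        (a3 n (hNp n hn).1 (hNh _ _ n hn) (hlo2.trans_lt (hNp n hn).2.1))]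
      exact a3
    have hMaj : ¬ Maj y x ρ := fun h => hE.2 ρ hρ2 h u0 (mem_filter.1 hu0).1
      (hρ3 u0 (hup u0 hu0).1 ((dvd_mul_right _ _).mul_right _) (hlo2.trans_lt (hup u0 hu0).2))
    have hpN : (0 : ℝ) < pr N := by exact_mod_cast pr_pos fun p hp => (hNp p hp).1
    have step : ∀ S ∈ Gd y J g N, ∑ u ∈ E with gg u = g,
        (if Str y x (u * pr N * pr S) then A1 y x (u * pr N * pr S)
          + (H y : ℝ) / (u * pr N * pr S : ℕ) else 0)
        ≤ if ∀ p : ℕ, p ∈ S → PW y < p → Hit x ρ p then T y ^ 10 * y / L y * (1 / pr N)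
          * ((2 : ℝ) ^ (S.filter (fun p : ℕ => (p : ℝ) ≤ PW y)).card / pr S) else 0 := by
      intro S hS'
      split_ifs with hh
      swap
      · refine (sum_eq_zero fun u _ => if_neg fun h => hh fun p hp hp' => ?_).le
        exact huniq u S h p (hSp S hS' p hp).1 ((dvd_prod_of_mem _ hp : p ∣ pr S).mul_left _) hp'
      have hd : Disjoint N (S.filter fun p : ℕ => ¬ (p : ℝ) ≤ PW y) :=
        disjoint_left.2 fun p hp hp' =>
          (hNp p hp).2.1.not_ge (hSp S hS' p (mem_filter.1 hp').1).2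
      have e1 : pr (N ∪ S.filter fun p : ℕ => ¬ (p : ℝ) ≤ PW y)
          * pr (S.filter fun p : ℕ => (p : ℝ) ≤ PW y) = pr N * pr S := by
        rw [pr_union hd, mul_assoc]
        congr 1
        unfold pr
        exact prod_filter_not_mul_prod_filter _ _ _
      have e2 : (pr (N ∪ S.filter fun p : ℕ => ¬ (p : ℝ) ≤ PW y) : ℝ)
          * pr (S.filter fun p : ℕ => (p : ℝ) ≤ PW y) = pr N * pr S := by exact_mod_cast e1
      obtain ⟨s1, -, s3, -⟩ := hS x g hg N hNd S (mem_filter.1 hS').1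
      have t1 := hU x ρ g (N ∪ S.filter fun p : ℕ => ¬ (p : ℝ) ≤ PW y)
        (S.filter fun p : ℕ => (p : ℝ) ≤ PW y) ((E.filter fun u => gg u = g).filter (Hit x ρ))
        hρ1 hρ2 hg (fun u hu => by
          obtain ⟨a1, a2⟩ := mem_filter.1 hu
          refine ⟨(hup u a1).1, (mem_filter.1 a1).2, a2, fun h => ?_⟩
          rcases mem_union.1 h with h | h
          · exact ((v4 x N hNd).2.2 u (hup u a1).1 (mem_filter.1 a1).2).1 h
          · exact (hup u a1).2.not_ge (hSp S hS' u (mem_filter.1 h).1).2)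
        (fun p hp => by
          rcases mem_union.1 hp with h | h
          · exact ⟨(hNp p h).1, hlo2.trans_lt (hNp p h).2.1, hρN p h⟩
          · obtain ⟨a1, a2⟩ := mem_filter.1 h
            exact ⟨(hSp S hS' p a1).1, not_le.1 a2, hh p a1 (not_le.1 a2)⟩)
        (fun p hp => ⟨(hSp S hS' p (mem_filter.1 hp).1).1, (mem_filter.1 hp).2⟩)
        (str_small hGB (fun p hp => (hSp S hS' p hp).1) (mem_filter.1 hS').2)
        (by rw [mul_assoc, e2, ← mul_assoc]; exact s1) (by rw [mul_assoc, e2, ← mul_assoc]; exact s3)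
      simp only [mul_assoc, e1, e2] at t1
      rw [sum_filter] at t1
      refine le_trans (sum_le_sum fun u hu => ?_) (t1.trans_eq ?_)
      · rw [mul_assoc]
        split_ifs with a1 a2
        · exact le_rfl
        · exact (a2 (huniq u S (by rwa [mul_assoc]) u (hup u hu).1
            ((dvd_mul_right _ _).mul_right _) (hlo2.trans_lt (hup u hu).2))).elim
        · exact add_nonneg (str_A1 _ _ _) (by positivity)
        · exact le_rfl
      · have hpS : (0 : ℝ) < pr S := by exact_mod_cast pr_pos fun p hp => (hSp S hS' p hp).1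
        field_simp
    rw [sum_comm]
    refine (sum_le_sum step).trans ?_
    rw [← sum_filter, ← mul_sum]
    calc _ ≤ T y ^ 10 * y / L y * (1 / pr N) * (1 / L y ^ (2.2 : ℝ)) :=
          mul_le_mul_of_nonneg_left (hN x ρ g hMaj hg N hNd) (by positivity)
      _ = _ := by ring
  have hgr : ∀ g ∈ E.image gg, GR y J g := fun g hg => by
    obtain ⟨u, hu, rfl⟩ := mem_image.1 hg
    obtain ⟨-, b2, b3, -⟩ := hE.1 u hu
    exact (hG1 u b2 b3).1
  have hcard : ((E.image gg).card : ℝ) ≤ 2 * L y := by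
    have a1 : E.image gg ⊆ range (⌊L y⌋₊ + 1) := fun g hg =>
      mem_range.2 (Nat.lt_succ_of_le (Nat.le_floor (by linarith [(hG2 g (hgr g hg)).2.2.1])))
    have a2 : ((E.image gg).card : ℝ) ≤ ⌊L y⌋₊ + 1 := by
      exact_mod_cast (card_le_card a1).trans_eq (card_range _)
    linarith [Nat.floor_le hL0.le]
  unfold nsum
  rw [← sum_fiberwise_of_maps_to (g := gg) (t := E.image gg) fun u hu => mem_image_of_mem _ hu]
  have h1 : ∀ g ∈ E.image gg, ∑ u ∈ E with gg u = g, ∑ N ∈ Nd y J x (gg u), ∑ S ∈ Gd y J (gg u) N,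
      (if Str y x (u * pr N * pr S) then A1 y x (u * pr N * pr S)
        + (H y : ℝ) / (u * pr N * pr S : ℕ) else 0)
      ≤ T y ^ 10 * y / L y / L y ^ (2.2 : ℝ) := by
    intro g hg
    rw [sum_congr rfl fun u hu => by rw [(mem_filter.1 hu).2], sum_comm]
    refine (sum_le_sum (key g (hgr g hg))).trans ?_
    rw [← mul_sum]
    exact mul_le_of_le_one_right (by positivity) (hM x g (hgr g hg)).2
  refine (sum_le_card_nsmul _ _ _ h1).trans ?_
  rw [nsmul_eq_mul]
  have h2 : L y ^ (2.2 : ℝ) = L y ^ (0.1 : ℝ) * L y ^ (2.1 : ℝ) := by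
    rw [← rpow_add hL0]
    norm_num
  have h3 : 0 < L y ^ (0.1 : ℝ) := by positivity
  calc _ ≤ 2 * L y * (T y ^ 10 * y / L y / L y ^ (2.2 : ℝ)) := by gcongr
    _ = 2 * T y ^ 10 / L y ^ (0.1 : ℝ) * (y / L y ^ (2.1 : ℝ)) := by rw [h2]; field_simp
    _ ≤ _ := mul_le_of_le_one_left (by positivity) ((div_le_one h3).2 hT2)

end Jac
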