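import Vale.Agent.P013.Gro

/-! The mass of the structured chains. -/

noncomputable section
namespace Jac
open Finset Real Filter
open scoped Classical

theorem strn_split (A F Gs : Finset (Finset ℕ)) (w : ℝ)
    (hA : ∀ S ∈ A, S.filter (fun p : ℕ => w < p) ∈ F ∧ S.filter (fun p : ℕ => (p : ℝ) ≤ w) ∈ Gs) :
    ∑ S ∈ A, (2 : ℝ) ^ (S.filter (fun p : ℕ => (p : ℝ) ≤ w)).card / pr S ≤
      (∑ S ∈ F, 1 / (pr S : ℝ)) * ∑ S ∈ Gs, (2 : ℝ) ^ S.card / pr S := by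
  have e1 : ∀ S : Finset ℕ, S.filter (fun p : ℕ => w < p) ∪ S.filter (fun p : ℕ => (p : ℝ) ≤ w) = S :=
    fun S => by
      ext p
      simp only [mem_union, mem_filter]
      exact ⟨fun h => h.elim And.left And.left, fun h => (lt_or_ge w p).imp (⟨h, ·⟩) (⟨h, ·⟩)⟩
  have e2 : ∀ S : Finset ℕ, pr S = pr (S.filter (fun p : ℕ => w < p)) *
      pr (S.filter (fun p : ℕ => (p : ℝ) ≤ w)) := fun S => by
    rw [← pr_union, e1]
    exact disjoint_left.2 fun p h1 h2 => (mem_filter.1 h1).2.not_ge (mem_filter.1 h2).2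
  rw [sum_mul_sum, ← sum_product']
  refine le_trans (le_of_eq ?_) (sum_le_sum_of_subset_of_nonneg (s := A.image fun S =>
    (S.filter (fun p : ℕ => w < p), S.filter (fun p : ℕ => (p : ℝ) ≤ w))) ?_ fun _ _ _ => by
      positivity)
  · rw [sum_image fun S _ S' _ h => by
      rw [← e1 S, ← e1 S', (Prod.mk.inj h).1, (Prod.mk.inj h).2]]
    refine sum_congr rfl fun S _ => ?_
    rw [e2 S]
    push_cast
    ring
  · intro q hq
    obtain ⟨S, hS, rfl⟩ := mem_image.1 hq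
    exact mem_product.2 (hA S hS)

theorem strn_cover (l : ℝ) (P : Finset ℕ) (t2 n : ℕ) (F : Finset (Finset ℕ))
    (hF : ∀ S ∈ F, S ∈ Fam 1 (C0 l) P ∧ (∃ q ∈ S, t2 < q) ∧ -1 ≤ l - log (pr S) ∧
      l - log (pr S) ≤ n) :
    ∑ S ∈ F, 1 / (pr S : ℝ) ≤ ∑ q ∈ range 2 ×ˢ range (n + 2), nm 1 l P t2 q.1 q.2 := by
  simp only [nm, sum_filter]
  rw [sum_comm]
  refine le_trans (sum_le_sum fun S hS => ?_) (sum_le_sum_of_subset_of_nonneg (s := F)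
    (fun S hS => (hF S hS).1) fun _ _ _ => sum_nonneg fun _ _ => by positivity)
  obtain ⟨-, h1, h2, h3⟩ := hF S hS
  have h4 := Nat.floor_le (by linarith : 0 ≤ l - log (pr S) + 1)
  have h5 := Nat.lt_floor_add_one (l - log (pr S) + 1)
  have h6 : ⌊l - log (pr S) + 1⌋₊ < n + 2 := by
    have : (⌊l - log (pr S) + 1⌋₊ : ℝ) < (n + 2 : ℕ) := by push_cast; linarith
    exact_mod_cast this
  refine le_trans (le_of_eq ?_) (single_le_sum (a := ((S.card + 1) % 2, ⌊l - log (pr S) + 1⌋₊))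
    (fun _ _ => by positivity) (mem_product.2 ⟨mem_range.2 (Nat.mod_lt _ two_pos), mem_range.2 h6⟩))
  rw [if_pos ⟨h1, by omega, by linarith, by linarith⟩]

theorem strn_prod (Q Q' : Finset ℕ) (h : Q ⊆ Q') (h9 : ∀ p ∈ Q, (9 : ℝ) ≤ p) :
    exp (0.9 * ∑ p ∈ Q, 1 / (p : ℝ)) ≤ ∏ p ∈ Q', (1 + 1 / (p : ℝ)) := by
  have h1 : exp (0.9 * ∑ p ∈ Q, 1 / (p : ℝ)) ≤ ∏ p ∈ Q, (1 + 1 / (p : ℝ)) := by
    rw [mul_sum, exp_sum]
    refine prod_le_prod (fun _ _ => (exp_pos _).le) fun p hp => ?_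
    have h2 := h9 p hp
    have h3 : (0 : ℝ) < 1 + 1 / p := by positivity
    rw [← le_log_iff_exp_le h3]
    refine le_trans ?_ (one_sub_inv_le_log_of_pos h3)
    have h4 : 1 - (1 + 1 / (p : ℝ))⁻¹ = 1 / (p + 1) := by field_simp; ring
    rw [h4, mul_one_div, div_le_div_iff₀ (by linarith) (by linarith)]
    linarith
  refine h1.trans ?_
  rw [← prod_sdiff h]
  refine le_mul_of_one_le_left (by positivity) (one_le_prod fun p _ => ?_)
  exact le_add_of_nonneg_right (by positivity)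

theorem strn_gain (hM : S_M) : ∀ᶠ y : ℕ in atTop, ∀ (x : ℤ) (ρ : ℚ) (Q : Finset ℕ), ¬ Maj y x ρ →
    (WW y).filter (fun p => ¬ Hit x ρ p) ⊆ Q → exp (0.22 * T y) ≤ ∏ p ∈ Q, (1 + 1 / (p : ℝ)) := by
  obtain ⟨C, hC, -, h2, -⟩ := hM
  filter_upwards [ev_T 3, ev_T (1000 * (C + 2)), ev_logB, ev_log_sT 1000, ev_L 1,
    ev_B_r (by norm_num : (0 : ℝ) < 1 / 2)] with y a1 a2 a3 a4 a5 a6 x ρ Q hm hQ
  have b1 : (9 : ℝ) ≤ B y := by nlinarith [B_ge y]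
  have b2 : (B y : ℝ) ≤ √(L y) := by
    rw [sqrt_eq_rpow]
    exact (le_self_pow₀ (by linarith) (by omega)).trans a6
  have b3 : (9 : ℝ) ≤ exp (B y) := by linarith [add_one_le_exp (B y : ℝ)]
  have b4 := (abs_le.1 (h2 (exp (B y)) (exp √(L y)) (by linarith) (exp_le_exp.2 b2))).1
  rw [log_exp, log_exp, log_div (by linarith) (by linarith), log_sqrt (by linarith)] at b4
  have b5 : C / (B y : ℝ) ^ 2 ≤ C := div_le_self hC.le (one_le_pow₀ (by linarith))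
  have b6 : √(T y) ≤ T y := by
    rw [sqrt_le_left (by linarith)]; nlinarith
  have b7 := sum_filter_add_sum_filter_not (WW y) (Hit x ρ) fun p => 1 / (p : ℝ)
  have b8 := not_lt.1 hm
  refine le_trans (exp_le_exp.2 ?_) (strn_prod _ _ hQ fun p hp =>
    b3.trans (mem_filter.1 (mem_filter.1 hp).1).2.le)
  have b9 : T y / 2 - log (B y) - C ≤ ∑ p ∈ WW y, 1 / (p : ℝ) := by
    unfold WW T; linarith
  linarith [a3.2]

/-- the shape of the large part of a good chain -/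
theorem strn_mem {y J g : ℕ} {N S : Finset ℕ} (hN : 0 < pr N) (hS : S ∈ Gd y J g N)
    (h1 : exp (l0 y - 1) ≤ exp g * pr N * pr S) (h2 : exp g * pr N * pr S ≤ exp (l1 y))
    (h3 : PW y ≤ exp (B y)) (h4 : kap y + 3 * T y + 1 ≤ (B y : ℝ) ^ 2 / 2) {l : ℝ}
    (h5 : l1 y - g - log (pr N) - 1 ≤ l) (h6 : l ≤ l1 y - g - log (pr N)) :
    -1 ≤ l - log (pr (S.filter (fun p : ℕ => PW y < p))) ∧
      l - log (pr (S.filter (fun p : ℕ => PW y < p))) ≤ (B y ^ 2 : ℕ) := by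
  obtain ⟨a1, a2⟩ := mem_filter.1 hS
  have hp : ∀ p ∈ S, p.Prime := fun p hp =>
    (mem_PP.1 ((mem_Fam.1 (mem_filter.1 a1).1).1 hp)).1
  have b0 : (0 : ℝ) < pr N := by exact_mod_cast hN
  have b1 : (0 : ℝ) < pr S := by exact_mod_cast pr_pos hp
  have b2 : exp g * pr N * pr S = exp (g + log (pr N) + log (pr S)) := by
    rw [exp_add, exp_add, exp_log b0, exp_log b1]
  rw [b2, exp_le_exp] at h1 h2
  have b3 := sum_filter_add_sum_filter_not S (fun p : ℕ => PW y < p) fun p => log (p : ℝ)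
  rw [← log_pr hp, ← log_pr fun p h => hp p (mem_filter.1 h).1] at b3
  have b4 : 0 ≤ ∑ p ∈ S.filter (fun p : ℕ => ¬ PW y < p), log (p : ℝ) := sum_nonneg fun p _ => log_natCast_nonneg p
  have hD : (0 : ℝ) < DD y := by exact_mod_cast DD_pos y
  have b5 : (DD y : ℝ) * ∑ p ∈ S.filter (fun p : ℕ => ¬ PW y < p), log (p : ℝ) ≤
      (∑ q ∈ S.filter (fun q => be y q ≤ aa y 0), be y q : ℕ) := by
    rw [mul_sum, Nat.cast_sum]
    refine (sum_le_sum fun p _ => be_ge y p).trans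
      (sum_le_sum_of_subset_of_nonneg (fun p h => ?_) fun _ _ _ => by positivity)
    obtain ⟨c1, c2⟩ := mem_filter.1 h
    refine mem_filter.2 ⟨c1, Nat.ceil_le.2 ?_⟩
    have c3 : log p ≤ B y :=
      (log_le_iff_le_exp (by exact_mod_cast (hp p c1).pos)).2 ((not_lt.1 c2).trans h3)
    simp only [aa, zero_add, pow_one, Nat.cast_mul]
    exact mul_le_mul_of_nonneg_left c3 hD.le
  have b6 : 2 * ∑ q ∈ S.filter (fun q => be y q ≤ aa y 0), be y q ≤ aa y 1 :=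
    not_lt.1 fun h => a2 (Or.inr (Or.inr h))
  have b7 : 2 * ((∑ q ∈ S.filter (fun q => be y q ≤ aa y 0), be y q : ℕ) : ℝ) ≤
      DD y * (B y : ℝ) ^ 2 := by
    have : aa y 1 = DD y * B y ^ 2 := rfl
    rw [this] at b6
    exact_mod_cast b6
  have b8 : 2 * ∑ p ∈ S.filter (fun p : ℕ => ¬ PW y < p), log (p : ℝ) ≤ (B y : ℝ) ^ 2 :=
    le_of_mul_le_mul_left (by linarith) hD
  unfold l0 at h1
  unfold l1 at h2 h5 h6
  push_cast
  constructor <;> linarith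

theorem strn_ev (J : ℕ) (hJ : 3 ≤ J) (C : ℝ) : ∀ᶠ y : ℕ in atTop,
    C * √(L y) ^ 6 * exp (-(L y / (8 * J) / √(L y))) ≤ 1 / L y ^ 3 := by
  have h0 : (0 : ℝ) < J := by exact_mod_cast (by omega : 0 < J)
  filter_upwards [(tendsto_sqrt_atTop.comp L_top).eventually
    (ev_pow_exp C 12 (by positivity : (0 : ℝ) < 1 / (8 * J))), ev_L 1] with y a1 a2
  have h1 : 0 < √(L y) := sqrt_pos.2 (by linarith)
  have h2 : √(L y) ^ 2 = L y := sq_sqrt (by linarith)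
  simp only [Function.comp] at a1
  generalize √(L y) = s at h1 h2 a1
  rw [← h2]
  have e : s ^ 2 / (8 * J) / s = 1 / (8 * J) * s := by field_simp
  rw [e, exp_neg, ← div_eq_mul_inv, div_le_div_iff₀ (exp_pos _) (by positivity)]
  linarith

theorem strn_nb {C l a u b K Pi E : ℝ} (hC : 0 < C) (hb : 2 ≤ b) (a0 : 0 ≤ a) (a1 : a ≤ b ^ 2 + 1)
    (u0 : 1 ≤ u) (u1 : u ≤ b) (hl : log l ≤ b) (hK : 0 < K) (hKl : K ≤ l) (hE : 0 < E)
    (hPi : E ≤ Pi) : C * ((a - u) ^ 2 + log l) / (l ^ 2 * u) / Pi ≤ C * (5 * b ^ 4) / K ^ 2 / E := by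
  have h1 : (a - u) ^ 2 ≤ (2 * b ^ 2) ^ 2 := sq_le_sq' (by nlinarith) (by nlinarith)
  have h2 : b ≤ b ^ 4 := le_self_pow₀ (by linarith) (by norm_num)
  have h3 : (a - u) ^ 2 + log l ≤ 5 * b ^ 4 := by nlinarith
  have h4 : K ^ 2 ≤ l ^ 2 * u :=
    (pow_le_pow_left₀ hK.le hKl 2).trans (le_mul_of_one_le_right (by positivity) u0)
  gcongr

/-- sizes of the parameters -/
structure StrnPar (y J : ℕ) : Prop where
  T3 : 3 ≤ T y
  L1 : 1 ≤ L y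
  B9 : (9 : ℝ) ≤ B y
  BB : (B y : ℝ) ≤ (B y : ℝ) ^ 2
  B2 : (B y : ℝ) ^ 2 ≤ √(L y)
  BT : (B y : ℝ) ≤ 2 * T y ^ 2
  sL : √(L y) ≤ L y / (16 * J)
  PB : PW y + 1 ≤ exp (B y)
  P3 : 3 ≤ PW y
  Tk : T y ≤ kap y
  kT : kap y ≤ T y ^ 2
  kB : kap y + 3 * T y + 1 ≤ (B y : ℝ) ^ 2 / 2
  LB : log (2 * L y) ≤ B y

theorem strn_PW (y : ℕ) : PW y = exp (100 * kap y) := by rw [PW, G_pow]; norm_num

theorem strn_par (J : ℕ) (hJ : 3 ≤ J) : ∀ᶠ y : ℕ in atTop, StrnPar y J := by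
  have hJ0 : (3 : ℝ) ≤ J := by exact_mod_cast hJ
  filter_upwards [ev_T 3, ev_L 1, ev_kap_T 1, ev_T_kap 1, ev_G_B 100,
    ev_B_r (by norm_num : (0 : ℝ) < 1 / 2), ev_L_rpow (16 * J) (by norm_num : (1 / 2 : ℝ) < 1)]
    with y a6 a7 a9 a10 a11 a12 a13
  rw [rpow_one, ← sqrt_eq_rpow] at a13
  rw [← sqrt_eq_rpow] at a12
  have h0 := B_ge y
  have h1 : 3 * T y ≤ T y ^ 2 := by nlinarith
  have hB : (9 : ℝ) ≤ B y := by linarith
  have h2 : 9 * (B y : ℝ) ≤ (B y : ℝ) ^ 2 := by nlinarith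
  refine ⟨a6, a7, hB, by linarith, (pow_le_pow_right₀ (by linarith) (by omega)).trans a12,
    by linarith [B_le y], by rw [le_div_iff₀ (by positivity)]; linarith, ?_, ?_, by linarith,
    by linarith, by linarith, ?_⟩
  · have h1 : exp (B y : ℝ) = exp (B y / 2 - 1) * exp (B y / 2 + 1) := by
      rw [← exp_add]; congr 1; ring
    have h2 := add_one_le_exp ((B y : ℝ) / 2 + 1)
    have h3 := add_one_le_exp ((B y : ℝ) / 2 - 1)
    have h4 := mul_le_mul_of_nonneg_left (by linarith : 2 ≤ exp ((B y : ℝ) / 2 + 1))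
      (exp_pos ((B y : ℝ) / 2 - 1)).le
    unfold PW; linarith
  · rw [strn_PW]; linarith [add_one_le_exp (100 * kap y)]
  · rw [log_mul two_ne_zero (by linarith)]
    have d3 : log (L y) = T y := rfl
    linarith [log_two_lt_d9]

theorem strn_level {y J g : ℕ} {N : Finset ℕ} (hJ : 3 ≤ J) (h : StrnPar y J)
    (g1 : L y / (8 * J) ≤ vv y J g) (g2 : vv y J g + 2 ≤ g) (g3 : (g : ℝ) ≤ 2 / 3 * L y)
    (g4 : 2 * vv y J g ≤ l0 y - g - log (pr N)) (g5 : l1 y - g - log (pr N) + 2 ≤ 3 * lo y J g)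
    {l : ℝ} (hl : l = (lam y g N : ℝ) / DD y) :
    l ≤ l1 y - g - log (pr N) ∧ l1 y - g - log (pr N) - 1 ≤ l ∧ L y / (4 * J) ≤ l ∧
      l ≤ 2 * L y ∧ (lam y g N : ℝ) ≤ 2 * DD y * L y ∧ lo y J g ≤ l / 2 := by
  have hJ0 : (3 : ℝ) ≤ J := by exact_mod_cast hJ
  have hD : (1 : ℝ) ≤ DD y := by exact_mod_cast DD_pos y
  have a1 := h.L1
  have a2 := h.T3
  have a3 := h.Tk
  have e4 : L y / (4 * J) = 2 * (L y / (8 * J)) := by field_simp; ring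
  have hvv : 0 ≤ vv y J g := le_trans (by positivity) g1
  have hlo : lo y J g ≤ vv y J g :=
    mul_le_of_le_one_left hvv (by linarith [(by positivity : 0 ≤ 1 / (4 * (J : ℝ)))])
  have hΛ : 2 * vv y J g + 1 ≤ l1 y - g - log (pr N) := by unfold l0 at g4; unfold l1; linarith
  have l1' : l ≤ l1 y - g - log (pr N) := by
    rw [hl, div_le_iff₀ (by linarith), mul_comm]
    exact Nat.floor_le (mul_nonneg (by linarith) (by linarith))
  have l2 : l1 y - g - log (pr N) - 1 ≤ l := by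
    rw [hl, le_div_iff₀ (by linarith), sub_mul, mul_comm]
    have := Nat.lt_floor_add_one ((DD y : ℝ) * (l1 y - g - log (pr N)))
    unfold lam; linarith
  have l4 : l ≤ 2 * L y := by linarith
  refine ⟨l1', l2, by linarith, l4, ?_, by linarith⟩
  rw [hl, div_le_iff₀ (by linarith)] at l4; linarith

theorem strn_k3 {C' w l b c E : ℝ} (hC' : 0 < C') (hw : 1 ≤ w) (hc : c ≤ l - b)
    (hRank : ∀ w Y : ℝ, 2 ≤ w → 0 < Y →
      ∑ S ∈ (PP w).powerset.filter (fun S => Y ≤ (pr S : ℝ)), (2 : ℝ) ^ S.card / pr S ≤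
        C' * log w ^ 6 * exp (-(log Y / log w))) (hE : C' * w ^ 6 * exp (-(c / w)) ≤ E)
    (F : Finset (Finset ℕ)) (hF : ∀ S ∈ F, (∀ p ∈ S, p.Prime) ∧ (¬ ∃ q ∈ S, ⌊exp w⌋₊ < q) ∧
      l - log (pr S) ≤ b) : ∑ S ∈ F, 1 / (pr S : ℝ) ≤ E := by
  have w1 : (2 : ℝ) ≤ exp w := by linarith [add_one_le_exp w]
  refine le_trans ?_ ((hRank (exp w) (exp (l - b)) w1 (exp_pos _)).trans (le_trans ?_ hE))
  · refine le_trans (sum_le_sum fun S _ => ?_)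
      (sum_le_sum_of_subset_of_nonneg (fun S hS => ?_) fun _ _ _ => by positivity)
    · gcongr; exact one_le_pow₀ one_le_two
    · obtain ⟨c5, c2, c4⟩ := hF S hS
      refine mem_filter.2 ⟨mem_powerset.2 fun p hp => mem_PP.2 ⟨c5 p hp, ?_⟩, ?_⟩
      · exact (Nat.le_floor_iff (exp_pos _).le).1 (not_lt.1 fun h => c2 ⟨p, hp, h⟩)
      · rw [← le_log_iff_exp_le (by exact_mod_cast pr_pos c5)]
        linarith
  · rw [log_exp, log_exp]
    gcongr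

theorem strn_k4 {y J : ℕ} (hJ : 3 ≤ J) (h : StrnPar y J) {C l E : ℝ} (hC : 0 < C) (hE : 0 < E)
    (l3 : L y / (4 * J) ≤ l) (l4 : l ≤ 2 * L y)
    (hNB : ∀ (ε : ℕ) (P : Finset ℕ) (t t2 s : ℕ) (a : ℝ),
      ε ≤ 1 → s ≤ 1 → 2 ≤ t → (t : ℝ) ≤ exp (l / 4) → (t2 : ℝ) ≤ exp (l / 4) →
      (∀ q ∈ P, q.Prime ∧ t ≤ q ∧ (q : ℝ) ≤ exp (l / 2)) →
      nm ε l P t2 s a ≤ C * ((a - log t) ^ 2 + log l) / (l ^ 2 * log t) /
        ∏ p ∈ (Icc t t2).filter (fun p => p.Prime ∧ p ∉ P), (1 + 1 / (p : ℝ)))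
    {X : ℕ → Prop} (hX : ∀ Q : Finset ℕ, (WW y).filter (fun p => ¬ X p) ⊆ Q →
      E ≤ ∏ p ∈ Q, (1 + 1 / (p : ℝ))) {P : Finset ℕ}
    (hP : ∀ p ∈ P, (p.Prime ∧ (p : ℝ) ≤ exp (l / 2)) ∧ PW y < p ∧ X p) :
    ∑ q ∈ range 2 ×ˢ range (B y ^ 2 + 2), nm 1 l P ⌊exp √(L y)⌋₊ q.1 q.2 ≤
      4 * (B y : ℝ) ^ 2 * (C * (5 * (B y : ℝ) ^ 4) / (L y / (4 * J)) ^ 2 / E) := by
  have hJ0 : (3 : ℝ) ≤ J := by exact_mod_cast hJ
  have a1 := h.L1
  have a2 := h.P3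
  have a3 := h.PB
  have a4 := h.B9
  have a5 := h.BB
  have a6 := h.B2
  have a7 := h.sL
  have e4 : L y / (4 * J) = 4 * (L y / (16 * J)) := by field_simp; ring
  obtain ⟨t, ht⟩ : ∃ t, t = ⌊PW y⌋₊ + 1 := ⟨_, rfl⟩
  have t1 : ∀ p : ℕ, t ≤ p ↔ PW y < p := fun p => by
    rw [ht, Nat.add_one_le_iff, Nat.floor_lt (by linarith)]
  have t2 : PW y < t := (t1 t).1 le_rfl
  have t3 : (t : ℝ) ≤ exp (B y) := by
    rw [ht]; push_cast; linarith [Nat.floor_le (by linarith : 0 ≤ PW y)]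
  have t4 : 2 ≤ t := by exact_mod_cast (by linarith : (2 : ℝ) ≤ t)
  have t5 : 1 ≤ log t := by
    rw [le_log_iff_exp_le (by linarith)]; linarith [exp_one_lt_d9]
  have t6 : log t ≤ B y := (log_le_iff_le_exp (by linarith)).2 t3
  have c5 : log l ≤ B y := (log_le_log (lt_of_lt_of_le (by positivity) l3) l4).trans h.LB
  refine (sum_le_card_nsmul _ _
    (C * (5 * (B y : ℝ) ^ 4) / (L y / (4 * J)) ^ 2 / E) fun q hq => ?_).trans ?_
  · obtain ⟨c1, c2⟩ := mem_product.1 hq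
    rw [mem_range] at c1 c2
    have c3 : (q.2 : ℝ) ≤ (B y : ℝ) ^ 2 + 1 := by exact_mod_cast Nat.lt_succ_iff.1 c2
    refine (hNB 1 P t ⌊exp √(L y)⌋₊ q.1 q.2 le_rfl (by omega) t4
      (t3.trans (exp_le_exp.2 (by linarith)))
      ((Nat.floor_le (exp_pos _).le).trans (exp_le_exp.2 (by linarith)))
      fun p hp => ⟨(hP p hp).1.1, (t1 p).2 (hP p hp).2.1, (hP p hp).1.2⟩).trans
      (strn_nb hC (by linarith) (by positivity) c3 t5 t6 c5 (by positivity) l3 hE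
        (hX _ fun p hp => ?_))
    obtain ⟨d1, d2⟩ := mem_filter.1 hp
    obtain ⟨d3, d4⟩ := mem_filter.1 d1
    exact mem_filter.2 ⟨mem_Icc.2 ⟨(t1 p).2 (by linarith), Nat.le_floor (mem_PP.1 d3).2⟩,
      (mem_PP.1 d3).1, fun h => d2 (hP p h).2.2⟩
  · rw [card_product, card_range, card_range, nsmul_eq_mul]
    gcongr
    push_cast; linarith

theorem strn_fin {y J : ℕ} (hJ : 3 ≤ J) (h : StrnPar y J) {C C' a b : ℝ} (hC : 0 < C) (hb : 0 ≤ b)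
    (k2 : b ≤ C' * 100 ^ 6 * T y ^ 12)
    (k3 : a ≤ 4 * (B y : ℝ) ^ 2 *
      (C * (5 * (B y : ℝ) ^ 4) / (L y / (4 * J)) ^ 2 / exp (0.22 * T y)) + 1 / L y ^ 3)
    (a14 : (C * (5 * 4 * 64) * (4 * J) ^ 2 + 1) * (C' * 100 ^ 6) * T y ^ 24 ≤ L y ^ (0.02 : ℝ)) :
    a * b ≤ 1 / L y ^ (2.2 : ℝ) := by
  have hJ0 : (3 : ℝ) ≤ J := by exact_mod_cast hJ
  have a1 := h.L1
  have a2 := h.T3
  have a3 := h.BT
  have hL : exp (T y) = L y := exp_T (by linarith)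
  have m1 : 1 / L y ^ 3 ≤ T y ^ 12 / (L y ^ 2 * exp (0.22 * T y)) := by
    have : exp (0.22 * T y) ≤ L y := by rw [← hL]; exact exp_le_exp.2 (by linarith)
    rw [pow_succ (L y) 2]
    gcongr
    exact one_le_pow₀ (by linarith)
  have m2 : 4 * (B y : ℝ) ^ 2 * (C * (5 * (B y : ℝ) ^ 4) / (L y / (4 * J)) ^ 2 / exp (0.22 * T y))
      ≤ C * (5 * 4 * 64) * (4 * J) ^ 2 * (T y ^ 12 / (L y ^ 2 * exp (0.22 * T y))) := by
    calc _ ≤ 4 * (2 * T y ^ 2) ^ 2 *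
          (C * (5 * (2 * T y ^ 2) ^ 4) / (L y / (4 * J)) ^ 2 / exp (0.22 * T y)) := by gcongr
      _ = _ := by field_simp; ring
  have m3 : a ≤
      (C * (5 * 4 * 64) * (4 * J) ^ 2 + 1) * (T y ^ 12 / (L y ^ 2 * exp (0.22 * T y))) := by
    linarith
  refine (mul_le_mul m3 k2 hb (by positivity)).trans ?_
  have m4 : L y ^ (2.2 : ℝ) * L y ^ (0.02 : ℝ) = L y ^ 2 * exp (0.22 * T y) := by
    rw [L_rpow (by linarith), L_rpow (by linarith), ← hL, ← exp_nat_mul, ← exp_add, ← exp_add]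
    congr 1; push_cast; ring
  have m5 : 0 < L y ^ (2.2 : ℝ) := by positivity
  have m6 : 0 < L y ^ (0.02 : ℝ) := by positivity
  rw [← m4]
  calc _ = (C * (5 * 4 * 64) * (4 * J) ^ 2 + 1) * (C' * 100 ^ 6) * T y ^ 24 /
        (L y ^ (2.2 : ℝ) * L y ^ (0.02 : ℝ)) := by ring
    _ ≤ L y ^ (0.02 : ℝ) / (L y ^ (2.2 : ℝ) * L y ^ (0.02 : ℝ)) := by gcongr
    _ = _ := by field_simp

theorem s_StrN (hNB : S_NB) (hRank : S_Rank) (hM : S_M) (hSize : S_Size) (hRule : S_Rule)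
    (hGeo : S_Geo) (hRem : S_Rem) : S_StrN := by
  intro J hJ
  obtain ⟨C, hC, hNB⟩ := hNB
  obtain ⟨l₀, hNB⟩ := eventually_atTop.1 hNB
  obtain ⟨C', hC', hRank⟩ := hRank
  have hJ0 : (3 : ℝ) ≤ J := by exact_mod_cast hJ
  filter_upwards [hSize J hJ, hRule, hGeo J hJ, strn_gain hM, strn_ev J hJ C', strn_par J hJ,
    ev_L (4 * J * l₀), ev_T_pow ((C * (5 * 4 * 64) * (4 * J) ^ 2 + 1) * (C' * 100 ^ 6)) 24
      (by norm_num : (0 : ℝ) < 0.02)]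
    with y a1 a2 a3 a4 a5 h a8 a14 x ρ g hm hg N hN
  obtain ⟨g1, g2, g3, g4⟩ := a3.2 g hg
  obtain ⟨g4, g5, -⟩ := g4 x N hN
  have hNp : 0 < pr N := pr_pos fun p hp =>
    (mem_PP.1 (mem_filter.1 ((mem_powersetCard.1 hN).1 hp)).1).1
  obtain ⟨l, hl⟩ : ∃ l : ℝ, l = (lam y g N : ℝ) / DD y := ⟨_, rfl⟩
  obtain ⟨l1', l2, l3, l4, l5, l6⟩ := strn_level hJ h g1 g2 g3 g4 g5 hl
  have hR := (a2 _ l5).1
  rw [← hl] at hR
  have p3 := h.P3
  obtain ⟨P, hP⟩ : ∃ P : Finset ℕ, ∀ p, p ∈ P ↔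
      (p.Prime ∧ (p : ℝ) ≤ exp (l / 2)) ∧ PW y < p ∧ Hit x ρ p :=
    ⟨(PP (exp (l / 2))).filter fun p => PW y < p ∧ Hit x ρ p, fun p => by rw [mem_filter, mem_PP]⟩
  obtain ⟨F, hF⟩ : ∃ F : Finset (Finset ℕ), ∀ S, S ∈ F ↔ S ∈ Fam 1 (C0 l) P ∧
      -1 ≤ l - log (pr S) ∧ l - log (pr S) ≤ (B y ^ 2 : ℕ) := ⟨filter _ _, fun S => mem_filter⟩
  have k1 := strn_split ((Gd y J g N).filter (fun S => ∀ p : ℕ, p ∈ S → PW y < p → Hit x ρ p)) F
    ((PP (PW y)).powerset.filter fun S => (1 : ℝ) ≤ (pr S : ℝ)) (PW y) fun S hS => by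
      obtain ⟨c1, c2⟩ := mem_filter.1 hS
      have c3 := (mem_filter.1 c1).1
      obtain ⟨c4, c5⟩ := mem_Fam.1 (mem_filter.1 c3).1
      have c6 : ∀ p ∈ S, p.Prime := fun p hp => (mem_PP.1 (c4 hp)).1
      obtain ⟨d1, -, d2, -⟩ := a1 x g hg N hN S c3
      refine ⟨(hF _).2 ⟨mem_Fam.2 ⟨fun p hp => ?_, ?_⟩, strn_mem hNp c1 d1 d2
        (by linarith [h.PB]) h.kB l2 l1'⟩, mem_filter.2 ⟨mem_powerset.2 fun p hp => ?_, ?_⟩⟩
      · obtain ⟨d3, d4⟩ := mem_filter.1 hp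
        exact (hP p).2 ⟨⟨c6 p d3, (mem_PP.1 (c4 d3)).2.trans (exp_le_exp.2 l6)⟩, d4, c2 p d3 d4⟩
      · have e : S.filter (fun p : ℕ => PW y < p) = up S (⌊PW y⌋₊ + 1) :=
          filter_congr fun p _ => by rw [Nat.add_one_le_iff, Nat.floor_lt (by linarith)]
        rw [e]
        exact (hR.alive c6 c5).up _
      · exact mem_PP.2 ⟨c6 p (mem_filter.1 hp).1, (mem_filter.1 hp).2⟩
      · exact_mod_cast pr_pos fun p hp => c6 p (mem_filter.1 hp).1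
  have k2 : ∑ S ∈ (PP (PW y)).powerset.filter (fun S => (1 : ℝ) ≤ (pr S : ℝ)),
      (2 : ℝ) ^ S.card / pr S ≤ C' * 100 ^ 6 * T y ^ 12 := by
    refine (hRank (PW y) 1 (by linarith) one_pos).trans ?_
    rw [log_one, zero_div, neg_zero, exp_zero, mul_one, strn_PW, log_exp, mul_pow, ← mul_assoc,
      show T y ^ 12 = (T y ^ 2) ^ 6 by ring]
    have : 0 ≤ kap y := by linarith [h.T3, h.Tk]
    have := h.kT
    gcongr
  have e4 : L y / (4 * J) = 4 * (L y / (16 * J)) := by field_simp; ring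
  have e8 : L y / (8 * J) = 2 * (L y / (16 * J)) := by field_simp; ring
  have k3 := strn_k3 (l := l) (b := (B y : ℝ) ^ 2) hC' (by linarith [h.B9, h.BB, h.B2])
    (by linarith [h.B9, h.BB, h.B2, h.sL]) hRank a5
    (F.filter fun S => ¬ ∃ q ∈ S, ⌊exp √(L y)⌋₊ < q) fun S hS => by
      obtain ⟨c1, c2⟩ := mem_filter.1 hS
      obtain ⟨c3, -, c4⟩ := (hF S).1 c1
      exact ⟨fun p hp => ((hP p).1 ((mem_Fam.1 c3).1 hp)).1.1, c2, by exact_mod_cast c4⟩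
  have k4 := (strn_cover l P ⌊exp √(L y)⌋₊ (B y ^ 2)
    (F.filter fun S => ∃ q ∈ S, ⌊exp √(L y)⌋₊ < q) fun S hS =>
      ⟨((hF S).1 (mem_filter.1 hS).1).1, (mem_filter.1 hS).2, ((hF S).1 (mem_filter.1 hS).1).2⟩).trans
    (strn_k4 hJ h hC (exp_pos _) l3 l4
      (hNB l (le_trans (by rw [le_div_iff₀ (by positivity)]; linarith) l3))
      (fun Q => a4 x ρ Q hm) fun p hp => (hP p).1 hp)
  have k5 := sum_filter_add_sum_filter_not F (fun S => ∃ q ∈ S, ⌊exp √(L y)⌋₊ < q)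
    fun S => 1 / (pr S : ℝ)
  exact k1.trans (strn_fin hJ h hC (sum_nonneg fun _ _ => by positivity) k2 (by linarith) a14)

end Jac
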