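import Vale.Agent.P013.Gro

/-! The structured terms: summation over the top prime. -/

noncomputable section
namespace Jac
open Finset Real Filter
open scoped Classical

lemma stru_av (K y : ℕ) (hK : 2 * K ≤ y) (P : ℕ → Prop) [DecidablePred P] :
    av K (fun n => if P n then 1 else 0) ≤ (((range y).filter P).card : ℝ) := by
  rcases Nat.eq_zero_or_pos K with rfl | h0
  · simp [av]
  have h1 : (0 : ℝ) < K := by exact_mod_cast h0
  rw [av, div_le_iff₀ h1, mul_comm]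
  refine (sum_le_card_nsmul _ _ (((range y).filter P).card : ℝ) fun a ha => ?_).trans
    (by simp)
  rw [sum_boole, Nat.cast_le]
  refine card_le_card_of_injOn (fun b => a + b) (fun b hb => ?_) fun b _ b' _ h => by
    simpa using h
  simp only [coe_filter, mem_range, Set.mem_ofPred_eq] at hb ha ⊢
  exact ⟨by omega, hb.2⟩

lemma stru_tau {S : Finset ℕ} (hS : ∀ p ∈ S, p.Prime) : (pr S).divisors.card ≤ 2 ^ S.card := by
  have h0 : Squarefree (pr S) := squarefree_prod_of_pairwise_isCoprime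
    (fun p hp q hq h => Nat.coprime_iff_isRelPrime.1
      ((Nat.coprime_primes (hS p hp) (hS q hq)).2 h)) fun p hp => (hS p hp).prime.squarefree
  rw [Nat.card_divisors (pr_pos hS).ne', pr, Nat.primeFactors_prod hS]
  exact prod_le_pow_card _ _ _ fun p _ => Nat.succ_le_succ (h0.natFactorization_le_one p)

lemma stru_harm (N : ℕ) : ∑ j ∈ Icc 1 N, (1 : ℝ) / j ≤ 1 + log N := by
  have := harmonic_le_one_add_log N
  rw [harmonic_eq_sum_Icc] at this
  push_cast at this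
  simpa only [one_div] using this

lemma stru_gcd (m N : ℕ) (hm : 0 < m) :
    ∑ j ∈ Icc 1 N, (Nat.gcd j m : ℝ) / j ≤ m.divisors.card * (1 + log N) := by
  calc _ ≤ ∑ j ∈ Icc 1 N, ∑ e ∈ m.divisors, if e ∣ j then (e : ℝ) / j else 0 := by
        refine sum_le_sum fun j _ => ?_
        have := single_le_sum (f := fun e : ℕ => if e ∣ j then (e : ℝ) / j else 0)
          (fun e _ => by positivity) (Nat.mem_divisors.2 ⟨Nat.gcd_dvd_right j m, hm.ne'⟩)
        simpa only [if_pos (Nat.gcd_dvd_left j m)] using this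
    _ ≤ _ := by
        rw [sum_comm, ← nsmul_eq_mul]
        refine sum_le_card_nsmul _ _ _ fun e he => le_trans ?_ (stru_harm N)
        have h0 : 0 < e := Nat.pos_of_mem_divisors he
        rw [← sum_filter]
        have h1 : (0 : ℝ) < e := by exact_mod_cast h0
        calc _ ≤ ∑ j ∈ (Icc 1 N).image (e * ·), (e : ℝ) / j := by
              refine sum_le_sum_of_subset_of_nonneg (fun j hj => ?_) fun _ _ _ => by positivity
              obtain ⟨h1, c, rfl⟩ := mem_filter.1 hj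
              rw [mem_Icc] at h1
              exact mem_image.2 ⟨c, mem_Icc.2 ⟨Nat.pos_of_mul_pos_left h1.1,
                (Nat.le_mul_of_pos_left _ h0).trans h1.2⟩, rfl⟩
          _ = _ := by
              rw [sum_image fun a _ b _ h => Nat.eq_of_mul_eq_mul_left h0 h]
              refine sum_congr rfl fun c _ => ?_
              push_cast
              rw [div_mul_eq_div_div, div_self h1.ne']

lemma stru_sym (N : ℕ) (f : ℕ → ℝ) :
    ∑ j ∈ (Icc (-(N : ℤ)) N).erase 0, f j.natAbs = 2 * ∑ j ∈ Icc 1 N, f j := by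
  induction N with
  | zero => simp
  | succ n ih =>
    have h1 : (Icc (-((n + 1 : ℕ) : ℤ)) (n + 1 : ℕ)).erase 0 =
        insert ((n : ℤ) + 1) (insert (-((n : ℤ) + 1)) ((Icc (-(n : ℤ)) n).erase 0)) := by
      ext t
      simp only [mem_erase, mem_Icc, mem_insert]
      omega
    rw [h1, sum_insert, sum_insert, ih, sum_Icc_succ_top (by omega), Int.natAbs_neg,
      show ((n : ℤ) + 1).natAbs = n + 1 by omega]
    · ring
    · simp only [mem_erase, mem_Icc]; omega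
    · simp only [mem_erase, mem_Icc, mem_insert]; omega

/-- the points with a fixed cofactor -/
lemma stru_cls (hUp : S_Up) {y k ml ms : ℕ} {a x j : ℤ} {U P : Finset ℕ} {w s : ℝ}
    (hco : IsCoprime a k) (hk : 0 < k) (hml : 0 < ml) (hms : 0 < ms) (hc : ml.Coprime ms)
    (hj : j ≠ 0) (hw : 1 ≤ w) (hs : (k : ℝ) * ms ≤ s)
    (hP : ∀ p ∈ P, p.Prime ∧ s < p ∧ (p : ℝ) ≤ w) (hU : ∀ u ∈ U, u.Prime ∧ w < u) :
    (((range y).filter fun n : ℕ => (ms : ℤ) ∣ n + x ∧ ∃ u ∈ U, k * n + a = j * u * ml).card : ℝ) ≤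
      4 * ((y : ℝ) * Nat.gcd j.natAbs ms / (j.natAbs * ml * ms) + 1) / ∏ p ∈ P, (1 + 1 / (p : ℝ)) +
        (4 * w) ^ 32 := by
  have hPi : 0 < ∏ p ∈ P, (1 + 1 / (p : ℝ)) := prod_pos fun p _ => by positivity
  set Tj := (range y).filter fun n : ℕ => (ms : ℤ) ∣ n + x ∧ ∃ u ∈ U, k * n + a = j * u * ml
  rcases Tj.eq_empty_or_nonempty with h0 | hne
  · rw [h0, card_empty, Nat.cast_zero]; positivity
  obtain ⟨n1, hn1, hmin⟩ := exists_min_image Tj id hne
  obtain ⟨-, hd1, u1, -, hu1⟩ := mem_filter.1 hn1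
  have hj0 : 0 < j.natAbs := Int.natAbs_pos.2 hj
  set g := Nat.gcd j.natAbs ms with hg
  have hg0 : 0 < g := Nat.gcd_pos_of_pos_left _ hj0
  obtain ⟨m', hm'⟩ : g ∣ ms := Nat.gcd_dvd_right _ _
  have hm0 : 0 < m' := Nat.pos_of_mul_pos_left (hm' ▸ hms)
  set mu := j.natAbs * ml * m' with hmu
  have hmu0 : 0 < mu := by positivity
  have hl : Nat.lcm (j.natAbs * ml) ms = mu := by
    rw [Nat.lcm, hc.gcd_mul_right_cancel, ← hg, hmu]
    conv_lhs => rw [hm']
    rw [← mul_assoc, mul_right_comm, Nat.mul_div_cancel _ hg0]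
  have hck : IsCoprime (j * ml) (k : ℤ) := by
    have h1 : IsCoprime (k * n1 + a) (k : ℤ) := by
      rw [add_comm]; exact hco.add_mul_left_left _
    exact h1.of_isCoprime_of_dvd_left ⟨u1, by rw [hu1]; ring⟩
  have key : ∀ n ∈ Tj, ∃ t : ℕ, n = n1 + mu * t ∧
      ∃ u ∈ U, (j.sign * k * m') * t + u1 = (u : ℤ) := by
    intro n hn
    obtain ⟨-, hd, u, hu, hu'⟩ := mem_filter.1 hn
    obtain ⟨d, rfl⟩ := Nat.exists_eq_add_of_le (show n1 ≤ n from hmin n hn)
    have e1 : (k : ℤ) * d = j * ml * (u - u1) := by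
      push_cast at hu'
      linear_combination hu' - hu1
    have d1 : j.natAbs * ml ∣ d := by
      rw [← Int.natCast_dvd_natCast]
      push_cast
      rw [← abs_of_nonneg (Nat.cast_nonneg (α := ℤ) ml), ← abs_mul, abs_dvd]
      exact hck.dvd_of_dvd_mul_left ⟨_, e1⟩
    have d2 : ms ∣ d := by
      rw [← Int.natCast_dvd_natCast]
      have := dvd_sub hd hd1
      push_cast at this
      rwa [show (n1 : ℤ) + d + x - (n1 + x) = d by ring] at this
    obtain ⟨t, rfl⟩ := hl ▸ Nat.lcm_dvd d1 d2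
    refine ⟨t, rfl, u, hu, ?_⟩
    have e2 : j * ml ≠ 0 := mul_ne_zero hj (by exact_mod_cast hml.ne')
    refine mul_left_cancel₀ e2 ?_
    have e3 : j.sign * j = j.natAbs := Int.sign_mul_self_eq_natAbs j
    rw [hmu] at e1
    simp only [Nat.cast_mul] at e1
    linear_combination e1 + (ml * k * m' * t : ℤ) * e3
  have hal : ∀ p ∈ P, ¬ (p : ℤ) ∣ j.sign * k * m' := by
    intro p hp hd
    rw [Int.natCast_dvd, Int.natAbs_mul, Int.natAbs_mul, Int.natAbs_sign_of_ne_zero hj, one_mul,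
      Int.natAbs_natCast, Int.natAbs_natCast] at hd
    have h1 : p ≤ k * ms := (Nat.le_of_dvd (by positivity) hd).trans
      (Nat.mul_le_mul_left _ (hm' ▸ Nat.le_mul_of_pos_left _ hg0))
    have h2 : (p : ℝ) ≤ k * ms := by exact_mod_cast h1
    linarith [(hP p hp).2.1]
  have hS := hUp w P ∅ (j.sign * k * m') u1 1 0 (y / mu + 1) hw
    (fun p hp => ⟨(hP p hp).1, (hP p hp).2.2, hal p hp⟩) (by simp) (by simp)
  rw [prod_empty, mul_one] at hS
  refine le_trans (Nat.cast_le.2 (card_le_card_of_injOn (fun n => (n - n1) / mu) ?_ ?_))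
    (hS.trans ?_)
  · intro n hn
    obtain ⟨t, rfl, u, hu, hu'⟩ := key n hn
    have hy : n1 + mu * t < y := mem_range.1 (mem_filter.1 hn).1
    simp only [coe_filter, mem_range, Set.mem_ofPred_eq, Nat.add_sub_cancel_left,
      Nat.mul_div_cancel_left _ hmu0, notMem_empty, false_imp_iff, implies_true, and_true]
    refine ⟨Nat.lt_succ_of_le ((Nat.le_div_iff_mul_le hmu0).2 (by rw [mul_comm]; omega)), ?_⟩
    intro p hp hd
    rw [hu', Int.natCast_dvd_natCast, Nat.prime_dvd_prime_iff_eq (hP p hp).1 (hU u hu).1] at hd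
    have := (hP p hp).2.2
    have := (hU u hu).2
    rw [hd] at *
    linarith
  · intro n hn n' hn' h
    obtain ⟨t, rfl, -⟩ := key n hn
    obtain ⟨t', rfl, -⟩ := key n' hn'
    simp only [Nat.add_sub_cancel_left, Nat.mul_div_cancel_left _ hmu0] at h
    rw [h]
  · have h1 : ((y / mu : ℕ) : ℝ) ≤ (y : ℝ) * g / (j.natAbs * ml * ms) := by
      refine Nat.cast_div_le.trans (le_of_eq ?_)
      have : (0 : ℝ) < g := by exact_mod_cast hg0
      have : (ms : ℝ) = g * m' := by exact_mod_cast hm'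
      rw [this, hmu]
      push_cast
      field_simp
    push_cast
    gcongr

lemma stru_prod {P : Finset ℕ} {s : ℝ} (hs : 2 ≤ s) (hP : ∀ p ∈ P, s < p)
    (h : ∑ p ∈ P, 1 / (p : ℝ) ≤ s) :
    exp (∑ p ∈ P, 1 / (p : ℝ) - 1) ≤ ∏ p ∈ P, (1 + 1 / (p : ℝ)) := by
  have h0 : 0 < s := by linarith
  calc _ ≤ exp (∑ p ∈ P, (1 / (p : ℝ) - 1 / (p : ℝ) * (1 / s))) := by
        rw [exp_le_exp, sum_sub_distrib, ← sum_mul, mul_one_div]
        have := div_le_one_of_le₀ h h0.le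
        linarith
    _ ≤ _ := by
        rw [exp_sum]
        refine prod_le_prod (fun p _ => (exp_pos _).le) fun p hp => ?_
        have h1 : (0 : ℝ) < p := by linarith [hP p hp]
        have h2 : 1 / (p : ℝ) ≤ 1 / s := one_div_le_one_div_of_le h0 (hP p hp).le
        have h3 : 1 / s ≤ 1 / 2 := one_div_le_one_div_of_le (by norm_num) hs
        have h4 : 0 < 1 / (p : ℝ) := by positivity
        generalize 1 / (p : ℝ) = t at *
        have h5 : exp (t - t * (1 / s)) ≤ exp (t - t * t) := exp_le_exp.2 (by nlinarith)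
        refine h5.trans ((exp_bound_div_one_sub_of_interval (by nlinarith) (by nlinarith)).trans ?_)
        rw [div_le_iff₀ (by nlinarith)]
        nlinarith [mul_pos h4 (mul_pos h4 h4)]

/-- reduction to the points with a fixed cofactor -/
lemma stru_red {y : ℕ} {x : ℤ} {ρ : ℚ} {Sl U : Finset ℕ} {ms N : ℕ} (hR : Rich y x ρ)
    (hU : ∀ u ∈ U, u.Prime ∧ Hit x ρ u ∧ u ∉ Sl) (hl : ∀ p ∈ Sl, p.Prime ∧ Hit x ρ p)
    (hN : ∀ u ∈ U, ∀ n < y, ∀ j : ℤ, ρ.den * (n : ℤ) + ρ.num = j * u * pr Sl → |j| ≤ N) :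
    ∑ u ∈ U, A1 y x (u * pr Sl * ms) ≤ ∑ j ∈ (Icc (-(N : ℤ)) N).erase 0,
      (((range y).filter fun n : ℕ => (ms : ℤ) ∣ n + x ∧
        ∃ u ∈ U, ρ.den * (n : ℤ) + ρ.num = j * u * pr Sl).card : ℝ) := by
  refine (sum_le_sum fun u _ => stru_av (H y) y (Nat.mul_div_le y 2)
    fun n => ((u * pr Sl * ms : ℕ) : ℤ) ∣ (n : ℤ) + x ∧ ¬ Sp y x n).trans ?_
  rw [← Nat.cast_sum, ← Nat.cast_sum, Nat.cast_le, ← card_sigma, ← card_sigma]
  have key : ∀ u ∈ U, ∀ n : ℕ, ((u * pr Sl * ms : ℕ) : ℤ) ∣ n + x → ¬ Sp y x n →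
      ∃ j : ℤ, j ≠ 0 ∧ ρ.den * (n : ℤ) + ρ.num = j * u * pr Sl := by
    intro u hu n hd hs
    have h1 : ((pr (insert u Sl) : ℕ) : ℤ) ∣ ρ.den * x - ρ.num := by
      refine (pr_dvd_iff (fun p hp => ?_) _).2 fun p hp => ?_
      · rcases mem_insert.1 hp with rfl | hp
        exacts [(hU _ hu).1, (hl p hp).1]
      · rcases mem_insert.1 hp with rfl | hp
        exacts [(hU _ hu).2.1, (hl p hp).2]
    rw [pr_insert (hU u hu).2.2] at h1
    have h2 : ((u * pr Sl : ℕ) : ℤ) ∣ n + x := (Int.natCast_dvd_natCast.2 (dvd_mul_right _ ms)).trans hd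
    obtain ⟨j, hj⟩ := dvd_sub (h2.mul_left (ρ.den : ℤ)) h1
    push_cast at hj
    refine ⟨j, ?_, by linear_combination hj⟩
    rintro rfl
    apply hs
    have h3 : (ρ.num : ℚ) = -(n : ℚ) * ρ.den := by
      have : ρ.num = -(n : ℤ) * ρ.den := by linear_combination hj
      exact_mod_cast this
    have h4 : ρ = -(n : ℚ) := by
      rw [← Rat.mul_den_eq_num] at h3
      exact mul_right_cancel₀ (by exact_mod_cast ρ.den_nz) h3
    rw [Sp, ← h4]; exact hR
  have hml : (0 : ℤ) < pr Sl := by exact_mod_cast pr_pos fun p hp => (hl p hp).1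
  have hq : ∀ u ∈ U, ∀ (n : ℕ) (j : ℤ), ρ.den * (n : ℤ) + ρ.num = j * u * pr Sl →
      (ρ.den * (n : ℤ) + ρ.num) / (u * pr Sl) = j := by
    intro u hu n j h
    have : (0 : ℤ) < u := by exact_mod_cast (hU u hu).1.pos
    rw [h, mul_assoc, Int.mul_ediv_cancel _ (by positivity)]
  refine card_le_card_of_injOn
    (fun t => ⟨(ρ.den * (t.2 : ℤ) + ρ.num) / (t.1 * pr Sl), t.2⟩) ?_ ?_
  · rintro ⟨u, n⟩ h
    simp only [coe_sigma, Set.mem_sigma_iff, mem_coe, mem_filter, mem_range] at h ⊢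
    obtain ⟨hu, hn, hd, hs⟩ := h
    obtain ⟨j, hj0, hj⟩ := key u hu n hd hs
    rw [hq u hu n j hj]
    exact ⟨mem_erase.2 ⟨hj0, mem_Icc.2 (abs_le.1 (hN u hu n hn j hj))⟩, hn,
      (Int.natCast_dvd_natCast.2 (dvd_mul_left ms _)).trans hd, u, hu, hj⟩
  · rintro ⟨u, n⟩ h ⟨u', n'⟩ h' e
    simp only [coe_sigma, Set.mem_sigma_iff, mem_coe, mem_filter, mem_range] at h h'
    simp only [Sigma.mk.injEq, heq_eq_eq] at e
    obtain ⟨e1, rfl⟩ := e
    obtain ⟨j, hj0, hj⟩ := key u h.1 n h.2.2.1 h.2.2.2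
    obtain ⟨j', -, hj'⟩ := key u' h'.1 n h'.2.2.1 h'.2.2.2
    rw [hq u h.1 n j hj, hq u' h'.1 n j' hj'] at e1
    subst e1
    have : (u : ℤ) = u' := mul_left_cancel₀ hj0 (mul_right_cancel₀ hml.ne' (hj.symm.trans hj'))
    rw [Nat.cast_injective this]

/-- the numerical facts -/
structure StruN (y J : ℕ) (C : ℝ) : Prop where
  y1 : 1 ≤ y
  t1 : 10 + C ≤ T y
  l1 : 1 ≤ L y
  tl : 10000 * J * T y ^ 4 ≤ L y
  kt : kap y ≤ T y ^ 2
  gb : G y ^ 200 ≤ exp (B y / 2 - 1)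
  big : 72 * (1600 * J * exp (C + 1) + 1) + 3 * C * J ≤ T y ^ 2

lemma stru_ev (J : ℕ) (C : ℝ) : ∀ᶠ y : ℕ in atTop, StruN y J C := by
  filter_upwards [eventually_ge_atTop 1, ev_T (10 + C), ev_L 1,
    ev_T_pow (10000 * J) 4 (e := 1) one_pos, ev_kap_T 1, ev_G_B 200,
    ev_T (72 * (1600 * J * exp (C + 1) + 1) + 3 * C * J), ev_T 1] with y h1 h2 h3 h4 h5 h6 h7 h8
  exact ⟨h1, h2, h3, by simpa using h4, by simpa using h5, h6,
    h7.trans (le_self_pow₀ h8 (by norm_num))⟩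

section
variable {y J : ℕ} {C : ℝ} (hn : StruN y J C) (hC : 0 < C) (hJ : 3 ≤ J)
include hn hC

lemma stru_B : 100 ≤ (B y : ℝ) ∧ (B y : ℝ) ^ 2 ≤ 4 * T y ^ 4 ∧ 10 * T y ≤ B y := by
  have h1 := B_ge y
  have h2 := B_le y
  have h3 : 10 ≤ T y := by linarith [hn.t1]
  have h4 : (B y : ℝ) ≤ 2 * T y ^ 2 := by nlinarith
  refine ⟨by nlinarith, ?_, by nlinarith⟩
  calc (B y : ℝ) ^ 2 ≤ (2 * T y ^ 2) ^ 2 := by gcongr
    _ = _ := by ring

lemma stru_PW : 1 ≤ PW y ∧ PW y ^ 2 ≤ exp (B y / 2 - 1) ∧ PW y ≤ exp (B y ^ 2) := by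
  obtain ⟨b1, -, -⟩ := stru_B hn hC
  have h3 : 0 ≤ T y := by linarith [hn.t1]
  have h1 : 1 ≤ PW y := one_le_pow₀ (one_le_exp (by rw [kap]; positivity))
  have h2 : PW y ^ 2 ≤ exp (B y / 2 - 1) := by rw [PW, ← pow_mul]; exact hn.gb
  exact ⟨h1, h2, (le_self_pow₀ h1 (by norm_num)).trans (h2.trans (exp_le_exp.2 (by nlinarith)))⟩

include hJ in
lemma stru_LJ : 10000 * T y ^ 4 ≤ L y / J ∧ 100 * T y ≤ T y ^ 4 ∧ T y ^ 2 ≤ T y ^ 4 := by
  have hJ0 : (0 : ℝ) < J := by exact_mod_cast (by omega : 0 < J)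
  have h3 : 10 ≤ T y := by linarith [hn.t1]
  refine ⟨by rw [le_div_iff₀ hJ0]; linarith [hn.tl], ?_, pow_le_pow_right₀ (by linarith) (by norm_num)⟩
  have : 10 ^ 3 ≤ T y ^ 3 := by gcongr
  nlinarith

include hJ in
lemma stru_Pi (hM : ∀ s t : ℝ, 2 ≤ s → s ≤ t →
    |∑ p ∈ (PP t).filter (fun p : ℕ => s < p), 1 / (p : ℝ) - log (log t / log s)| ≤ C / log s ^ 2) :
    L y / (200 * J * exp (C + 1) * B y ^ 2) ≤ ∏ p ∈ (PP (exp (L y / J / 100))).filter
      (fun p : ℕ => exp (2 * B y ^ 2) < p), (1 + 1 / (p : ℝ)) := by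
  obtain ⟨b1, b2, b3⟩ := stru_B hn hC
  obtain ⟨l1, l2, l3⟩ := stru_LJ hn hC hJ
  have hJ1 : (3 : ℝ) ≤ J := by exact_mod_cast hJ
  have h3 : 10 + C ≤ T y := hn.t1
  have hL := hn.l1
  have b4 : (B y : ℝ) ≤ B y ^ 2 := le_self_pow₀ (by linarith) (by norm_num)
  have s1 := add_one_le_exp (2 * (B y : ℝ) ^ 2)
  have h1 := abs_le.1 (hM (exp (2 * B y ^ 2)) (exp (L y / J / 100)) (by linarith)
    (exp_le_exp.2 (by linarith)))
  rw [log_exp, log_exp] at h1
  have h2 : C / (2 * (B y : ℝ) ^ 2) ^ 2 ≤ C := div_le_self hC.le (one_le_pow₀ (by linarith))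
  have h4 : 0 < L y / J / 100 / (2 * B y ^ 2) := by positivity
  have h5 : log (L y / J / 100 / (2 * B y ^ 2)) ≤ T y := by
    refine log_le_log h4 ((div_le_self (by positivity) (by linarith)).trans
      ((div_le_self (by positivity) (by norm_num)).trans (div_le_self (by linarith) (by linarith))))
  refine le_trans ?_ (stru_prod (s := exp (2 * B y ^ 2)) (by linarith)
    (fun p hp => (mem_filter.1 hp).2) (by linarith))
  calc _ = exp (log (L y / J / 100 / (2 * B y ^ 2)) - (C + 1)) := by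
        rw [exp_sub, exp_log h4]; field_simp; norm_num
    _ ≤ _ := exp_le_exp.2 (by linarith)

lemma stru_j {ρ : ℚ} (hI : InR y ρ) {g u ml ms n : ℕ} {j : ℤ} (hu : exp ((g : ℝ) - 1) < u)
    (hms : (ms : ℝ) ≤ exp (B y ^ 2)) (hlo : exp (l0 y - 1) ≤ exp g * ml * ms) (hn' : n < y)
    (h : ρ.den * (n : ℤ) + ρ.num = j * u * ml) : |j| ≤ (⌊exp (2 * B y ^ 2)⌋₊ : ℕ) := by
  obtain ⟨b1, b2, b3⟩ := stru_B hn hC
  obtain ⟨p1, p2, p3⟩ := stru_PW hn hC
  have hy : (0 : ℝ) < y := by exact_mod_cast hn.y1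
  have h1 : |(j : ℝ)| * (u * ml) ≤ 2 * y * PW y ^ 2 := by
    have e1 : (j : ℝ) * (u * ml) = ρ.den * (n + ρ) := by
      have e2 : (ρ.num : ℝ) = ρ.den * ρ := by exact_mod_cast (Rat.den_mul_eq_num ρ).symm
      have e3 : (ρ.den : ℝ) * n + ρ.num = j * u * ml := by exact_mod_cast h
      rw [mul_add, ← e2, e3, mul_assoc]
    have e4 : |(n : ℝ) + ρ| ≤ 2 * y * PW y := by
      refine (abs_add_le _ _).trans ?_
      have : (n : ℝ) ≤ y := by exact_mod_cast hn'.le
      have := le_mul_of_one_le_right hy.le p1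
      rw [Nat.abs_cast]
      linarith [hI.2]
    rw [← abs_of_nonneg (a := (u : ℝ) * ml) (by positivity), ← abs_mul, e1, abs_mul, Nat.abs_cast]
    calc _ ≤ PW y * (2 * y * PW y) := mul_le_mul hI.1 e4 (abs_nonneg _) (by linarith)
      _ = _ := by ring
  have h2 : y * exp (-(3 * T y + 2)) ≤ u * ml * ms := by
    calc _ = exp (-1) * exp (l0 y - 1) := by
          rw [← exp_L hn.y1, ← exp_add, ← exp_add, l0]; congr 1; ring
      _ ≤ exp (-1) * (exp g * ml * ms) := by gcongr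
      _ = exp ((g : ℝ) - 1) * ml * ms := by rw [sub_eq_add_neg, exp_add]; ring
      _ ≤ _ := by gcongr
  have h3 : |(j : ℝ)| * (y * exp (-(3 * T y + 2))) ≤
      exp (2 * B y ^ 2) * (y * exp (-(3 * T y + 2))) := by
    have b4 : 100 * (B y : ℝ) ≤ B y ^ 2 := by nlinarith
    have e2 : (2 : ℝ) ≤ exp 1 := by linarith [exp_one_gt_d9]
    calc _ ≤ |(j : ℝ)| * (u * ml * ms) := by gcongr
      _ = |(j : ℝ)| * (u * ml) * ms := by ring
      _ ≤ 2 * y * PW y ^ 2 * exp (B y ^ 2) := by gcongr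
      _ ≤ exp 1 * y * exp (B y / 2 - 1) * exp (B y ^ 2) := by gcongr
      _ = exp (1 + (B y / 2 - 1) + B y ^ 2) * y := by rw [exp_add, exp_add]; ring
      _ ≤ exp (2 * B y ^ 2 + -(3 * T y + 2)) * y :=
          mul_le_mul_of_nonneg_right (exp_le_exp.2 (by linarith)) hy.le
      _ = _ := by rw [exp_add]; ring
  have h4 : ((j.natAbs : ℕ) : ℝ) ≤ exp (2 * B y ^ 2) := by
    rw [Nat.cast_natAbs, Int.cast_abs]
    exact le_of_mul_le_mul_right h3 (by positivity)
  rw [← Int.natCast_natAbs]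
  exact_mod_cast Nat.le_floor h4

include hJ in
lemma stru_num {g ml ms j e : ℕ} {Pi : ℝ} (hg : L y / J ≤ g) (hml : 0 < ml) (hms : 0 < ms)
    (hj : 0 < j) (he : 0 < e) (hjN : (j : ℝ) ≤ exp (2 * B y ^ 2))
    (hhi : exp g * ml * ms ≤ exp (l1 y)) (hPi : L y / (200 * J * exp (C + 1) * B y ^ 2) ≤ Pi) :
    4 * ((y : ℝ) * e / (j * ml * ms) + 1) / Pi + (4 * exp (L y / J / 100)) ^ 32 ≤
      (1600 * J * exp (C + 1) + 1) * B y ^ 2 / L y * (y / (ml * ms)) * (e / j) := by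
  obtain ⟨b1, b2, b3⟩ := stru_B hn hC
  obtain ⟨l1, l2, l3⟩ := stru_LJ hn hC hJ
  have hL := hn.l1
  have hT : 10 ≤ T y := by linarith [hn.t1]
  have hJ0 : (0 : ℝ) < J := by exact_mod_cast (by omega : 0 < J)
  have hj0 : (0 : ℝ) < j := by exact_mod_cast hj
  have hml0 : (0 : ℝ) < ml := by exact_mod_cast hml
  have hms0 : (0 : ℝ) < ms := by exact_mod_cast hms
  have he1 : (1 : ℝ) ≤ e := by exact_mod_cast he
  have hR : exp (L y / J / 2) ≤ (y : ℝ) * e / (j * ml * ms) := by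
    rw [le_div_iff₀ (by positivity)]
    have h1 : (ml : ℝ) * ms ≤ exp (Jac.l1 y - g) := by
      rw [exp_sub, le_div_iff₀ (exp_pos _)]; linarith
    calc _ = exp (L y / J / 2) * j * (ml * ms) := by ring
      _ ≤ exp (L y / J / 2) * exp (2 * B y ^ 2) * exp (Jac.l1 y - g) := by gcongr
      _ = exp (L y / J / 2 + 2 * B y ^ 2 + (Jac.l1 y - g)) := by rw [exp_add, exp_add]
      _ ≤ exp (L y) := exp_le_exp.2 (by rw [Jac.l1]; linarith [hn.kt])
      _ = y := exp_L hn.y1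
      _ ≤ _ := le_mul_of_one_le_right (by positivity) he1
  have e1 : (1600 * J * exp (C + 1) + 1) * B y ^ 2 / L y * (y / (ml * ms)) * (e / j) =
      8 * ((y : ℝ) * e / (j * ml * ms)) / (L y / (200 * J * exp (C + 1) * B y ^ 2)) +
        (y : ℝ) * e / (j * ml * ms) * B y ^ 2 / L y := by
    field_simp; ring
  rw [e1]
  generalize (y : ℝ) * e / (j * ml * ms) = R at *
  have hR1 : 1 ≤ R := (one_le_exp (by positivity)).trans hR
  refine add_le_add (div_le_div₀ (by positivity) (by linarith) (by positivity) hPi) ?_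
  rw [le_div_iff₀ (by linarith)]
  have e2 : (4 : ℝ) ≤ exp 3 := by linarith [add_one_le_exp (3 : ℝ)]
  calc _ ≤ (exp 3 * exp (L y / J / 100)) ^ 32 * exp (T y) := by
        rw [exp_T (by linarith)]; gcongr
    _ = exp (32 * (3 + L y / J / 100) + T y) := by
        rw [← exp_add, ← exp_nat_mul, ← exp_add]; norm_num
    _ ≤ exp (L y / J / 2) := exp_le_exp.2 (by linarith)
    _ ≤ R := hR
    _ ≤ _ := le_mul_of_one_le_right (by linarith) (one_le_pow₀ (by linarith))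

end

theorem s_StrU (hUp : S_Up) (hM : S_M) : S_StrU := by
  intro J hJ
  obtain ⟨C, hC, -, hM2, hM3, -⟩ := hM
  filter_upwards [stru_ev J C] with y hn x ρ g Sl Ss U hR hI hg hU hl hs hms hlo hhi
  obtain ⟨b1, b2, b3⟩ := stru_B hn hC
  obtain ⟨p1, p2, p3⟩ := stru_PW hn hC
  obtain ⟨l1, l2, l3⟩ := stru_LJ hn hC hJ
  have hL := hn.l1
  have hT : 10 ≤ T y := by linarith [hn.t1]
  have hJ0 : (0 : ℝ) < J := by exact_mod_cast (by omega : 0 < J)
  have hml : 0 < pr Sl := pr_pos fun p hp => (hl p hp).1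
  have hm0 : 0 < pr Ss := pr_pos fun p hp => (hs p hp).1
  have hml' : (0 : ℝ) < pr Sl := by exact_mod_cast hml
  have hm0' : (0 : ℝ) < pr Ss := by exact_mod_cast hm0
  have hUW : ∀ u ∈ U, exp ((g : ℝ) - 1) < u ∧ (u : ℝ) ≤ exp g := by
    intro u hu
    have h0 : (0 : ℝ) < u := by exact_mod_cast (hU u hu).1.pos
    have h1 : log u ≤ g := (hU u hu).2.1 ▸ Nat.le_ceil _
    have h2 : (g : ℝ) < log u + 1 :=
      (hU u hu).2.1 ▸ Nat.ceil_lt_add_one (log_natCast_nonneg u)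
    exact ⟨by rw [← exp_log h0]; exact exp_lt_exp.2 (by linarith), (log_le_iff_le_exp h0).1 h1⟩
  have hco : (pr Sl).Coprime (pr Ss) := Nat.Coprime.prod_left fun p hp =>
    Nat.Coprime.prod_right fun q hq => (Nat.coprime_primes (hl p hp).1 (hs q hq).1).2 fun e => by
      have := (hl p hp).2.1
      have := (hs q hq).2
      rw [e] at *
      linarith
  set N := ⌊exp (2 * (B y : ℝ) ^ 2)⌋₊ with hN
  have hN1 : (N : ℝ) ≤ exp (2 * B y ^ 2) := Nat.floor_le (exp_pos _).le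
  set K := (1600 * J * exp (C + 1) + 1) * B y ^ 2 / L y * (y / (pr Sl * pr Ss)) with hK
  have hK0 : 0 ≤ K := by positivity
  have hA : ∑ u ∈ U, A1 y x (u * pr Sl * pr Ss) ≤ K * (2 * (2 ^ Ss.card * (1 + 2 * B y ^ 2))) := by
    refine (stru_red hR (fun u hu => ⟨(hU u hu).1, (hU u hu).2.2⟩)
      (fun p hp => ⟨(hl p hp).1, (hl p hp).2.2⟩)
      (fun u hu n h1 j h2 => stru_j hn hC hI (hUW u hu).1 hms hlo h1 h2)).trans ?_
    calc _ ≤ ∑ j ∈ (Icc (-(N : ℤ)) N).erase 0,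
          K * ((Nat.gcd j.natAbs (pr Ss) : ℝ) / j.natAbs) := by
          refine sum_le_sum fun j hj => ?_
          obtain ⟨j0, j1⟩ := mem_erase.1 hj
          have j2 : 0 < j.natAbs := Int.natAbs_pos.2 j0
          have j3 : j.natAbs ≤ N := by rw [mem_Icc] at j1; omega
          refine (stru_cls hUp ρ.isCoprime_num_den ρ.den_pos hml hm0 hco j0
            (w := exp (L y / J / 100)) (s := exp (2 * B y ^ 2)) (one_le_exp (by positivity)) ?_
            (fun p hp => ⟨(mem_PP.1 (mem_filter.1 hp).1).1, (mem_filter.1 hp).2,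
              (mem_PP.1 (mem_filter.1 hp).1).2⟩) fun u hu => ⟨(hU u hu).1, lt_of_le_of_lt
                (exp_le_exp.2 (by linarith [hg.1])) (hUW u hu).1⟩).trans
            (stru_num hn hC hJ hg.1 hml hm0 j2 (Nat.gcd_pos_of_pos_left _ j2)
              (le_trans (by exact_mod_cast j3) hN1) hhi (stru_Pi hn hC hJ hM2))
          rw [two_mul, exp_add]
          exact mul_le_mul (hI.1.trans p3) hms (by positivity) (by positivity)
      _ = K * (2 * ∑ j ∈ Icc 1 N, (Nat.gcd j (pr Ss) : ℝ) / j) := by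
          rw [← mul_sum, stru_sym N (fun j => (Nat.gcd j (pr Ss) : ℝ) / j)]
      _ ≤ _ := by
          have t1 : ((pr Ss).divisors.card : ℝ) ≤ 2 ^ Ss.card := by
            exact_mod_cast stru_tau fun p hp => (hs p hp).1
          have t2 : log N ≤ 2 * B y ^ 2 := by
            rcases Nat.eq_zero_or_pos N with h0 | h0
            · rw [h0]; simp
            · exact (log_le_iff_le_exp (by exact_mod_cast h0)).2 hN1
          have t3 := log_natCast_nonneg N
          gcongr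
          exact (stru_gcd _ N hm0).trans (by gcongr)
  have hg0 : 1 ≤ (g : ℝ) := by linarith [hg.1]
  have hB : ∑ u ∈ U, (H y : ℝ) / (u * pr Sl * pr Ss : ℕ) ≤
      3 * C * J / L y * (y / (pr Sl * pr Ss)) := by
    have h1 : (U.card : ℝ) ≤ C * exp g / g := by
      have := hM3 (exp g) (by linarith [add_one_le_exp (g : ℝ)])
      rw [log_exp] at this
      exact le_trans (Nat.cast_le.2 (card_le_card fun u hu =>
        mem_PP.2 ⟨(hU u hu).1, (hUW u hu).2⟩)) this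
    have h2 : (H y : ℝ) ≤ y := by exact_mod_cast Nat.div_le_self y 2
    refine (sum_le_card_nsmul _ _ (y / (exp ((g : ℝ) - 1) * pr Sl * pr Ss)) fun u hu => ?_).trans ?_
    · have := (hUW u hu).1.le
      push_cast
      gcongr
    · have h3 : 1 / (g : ℝ) ≤ J / L y := by
        rw [div_le_div_iff₀ (by linarith) (by linarith)]
        have := (div_le_iff₀ hJ0).1 hg.1
        linarith
      have h4 : exp 1 ≤ 3 := by linarith [exp_one_lt_d9]
      rw [nsmul_eq_mul]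
      calc _ ≤ C * exp g / g * (y / (exp ((g : ℝ) - 1) * pr Sl * pr Ss)) := by gcongr
        _ = exp 1 * C * (1 / g) * (y / (pr Sl * pr Ss)) := by
            rw [exp_sub]; field_simp
        _ ≤ 3 * C * (J / L y) * (y / (pr Sl * pr Ss)) := by gcongr
        _ = _ := by ring
  rw [sum_add_distrib]
  refine (add_le_add hA hB).trans ?_
  have t4 : 1 ≤ T y ^ 4 := one_le_pow₀ (by linarith)
  have t8 : 1 ≤ T y ^ 8 := one_le_pow₀ (by linarith)
  have c1 : (1 : ℝ) ≤ 2 ^ Ss.card := one_le_pow₀ (by norm_num)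
  calc _ ≤ (1600 * J * exp (C + 1) + 1) * (4 * T y ^ 4) / L y * (y / (pr Sl * pr Ss)) *
        (2 * (2 ^ Ss.card * (9 * T y ^ 4))) +
        3 * C * J / L y * (y / (pr Sl * pr Ss)) * (T y ^ 8 * 2 ^ Ss.card) := by
        refine add_le_add ?_ (le_mul_of_one_le_right (by positivity) (one_le_mul_of_one_le_of_one_le t8 c1))
        rw [hK]
        gcongr
        linarith
    _ = (72 * (1600 * J * exp (C + 1) + 1) + 3 * C * J) *
        (T y ^ 8 * y * 2 ^ Ss.card / (L y * pr Sl * pr Ss)) := by field_simp; ring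
    _ ≤ T y ^ 2 * (T y ^ 8 * y * 2 ^ Ss.card / (L y * pr Sl * pr Ss)) := by
        gcongr; exact hn.big
    _ = _ := by ring

end Jac
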