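import Vale.Agent.P013.Gro

/-! The main term at the top level and the gain at the nodes. -/

noncomputable section
namespace Jac
open Finset Real Filter
open scoped Classical

theorem top_insert (hSplit : S_Split) (l : ℝ) {P : Finset ℕ} {p : ℕ} (hp : p.Prime)
    (hP : ∀ q ∈ P, q < p) :
    Tm 0 (C0 l) (insert p P) = Tm 0 (C0 l) P - Tm 1 (C0 (l - log p)) P / p := by
  have hpP : p ∉ P := fun h => lt_irrefl _ (hP p h)
  unfold Tm Fam
  rw [sum_filter, sum_powerset_insert hpP, ← sum_filter, sub_eq_add_neg, sum_filter (s := P.powerset)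
    (p := Alive 1 (C0 (l - log p))), sum_div, ← sum_neg_distrib]
  congr 1
  refine sum_congr rfl fun S hS => ?_
  have hS' := mem_powerset.1 hS
  have hpS : p ∉ S := fun h => hpP (hS' h)
  have h1 := (hSplit l {p} S (by simpa using hp) (by simp)
    (fun q hq q' hq' => by rw [mem_singleton.1 hq']; exact hP q (hS' hq))).1
  have h2 : Alive 0 (C0 l) {p} := fun q hq hc => by
    rw [mem_singleton.1 hq] at hc
    have : up {p} p = {p} := filter_true_of_mem fun t ht => (mem_singleton.1 ht).ge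
    rw [this, card_singleton] at hc
    omega
  have h3 : pr {p} = p := prod_singleton _ _
  rw [← insert_eq, h3] at h1
  by_cases h : Alive 1 (C0 (l - log p)) S
  · rw [if_pos h, if_pos (h1.2 ⟨h2, h⟩), pr_insert hpS, sg, sg, card_insert_of_notMem hpS]
    push_cast
    ring
  · rw [if_neg h, if_neg fun h' => h (h1.1 h').2]
    simp

theorem top_PP (n : ℕ) : PP n = (range (n + 1)).filter Nat.Prime := by rw [PP, Nat.floor_natCast]

theorem top_ind (hSplit : S_Split) (l K : ℝ) (n0 n : ℕ) (hn : n0 ≤ n)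
    (hK : ∀ m : ℕ, n0 ≤ m → m + 1 ≤ n → Tm 1 (C0 (l - log ((m + 1 : ℕ) : ℝ))) (PP m) ≤ K) :
    Tm 0 (C0 l) (PP n0) - K * ∑ p ∈ (PP n).filter (fun p => n0 < p), 1 / (p : ℝ) ≤
      Tm 0 (C0 l) (PP n) := by
  induction n, hn using Nat.le_induction with
  | base =>
    rw [filter_false_of_mem, sum_empty, mul_zero, sub_zero]
    intro p hp
    exact not_lt.2 (by exact_mod_cast (mem_PP.1 hp).2)
  | succ n hn ih =>
    have ih' := ih fun m h1 h2 => hK m h1 (by omega)
    by_cases hp : (n + 1).Prime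
    · have e1 : PP ((n + 1 : ℕ) : ℝ) = insert (n + 1) (PP n) := by
        rw [top_PP, top_PP, range_add_one (n := n + 1), filter_insert, if_pos hp]
      have h1 : ∀ q ∈ PP (n : ℝ), q < n + 1 := fun q hq =>
        Nat.lt_succ_of_le (by exact_mod_cast (mem_PP.1 hq).2)
      have h2 : n + 1 ∉ (PP (n : ℝ)).filter (fun p => n0 < p) := fun h =>
        lt_irrefl _ (h1 _ (mem_filter.1 h).1)
      rw [e1, top_insert hSplit l hp h1, filter_insert, if_pos (by omega), sum_insert h2, mul_add,
        mul_one_div]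
      have h3 := div_le_div_of_nonneg_right (hK n hn le_rfl)
        (by positivity : (0 : ℝ) ≤ ((n + 1 : ℕ) : ℝ))
      linarith
    · have e1 : PP ((n + 1 : ℕ) : ℝ) = PP n := by
        rw [top_PP, top_PP, range_add_one (n := n + 1), filter_insert, if_neg hp]
      rw [e1]
      exact ih'

theorem top_floor (w : ℝ) : PP (⌊w⌋₊ : ℕ) = PP w := by rw [top_PP, PP]

theorem s_Top (hSplit : S_Split) (hMod : S_Mod) (hM : S_M) : S_Top := by
  obtain ⟨C, hC, hMod⟩ := hMod
  obtain ⟨l', hl'⟩ := eventually_atTop.1 hMod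
  obtain ⟨D, hD, -, hM, -⟩ := hM
  refine ⟨4 * C + 3 * (2 + C) * (10 + 16 * D), by positivity, ?_⟩
  filter_upwards [ev_L (3 * l'), ev_T_pow 12 2 (e := 1) one_pos, ev_T 3, eventually_ge_atTop 1]
    with y a1 a2 a3 a4
  rw [rpow_one] at a2
  have hlog : T y * log (T y) ≤ T y ^ 2 := by
    have := log_le_sub_one_of_pos (x := T y) (by linarith)
    nlinarith
  have hlog1 : 1 ≤ log (T y) := by
    rw [le_log_iff_exp_le (by linarith)]
    linarith [exp_one_lt_three]
  have hT1 : T y ≤ T y * log (T y) := by nlinarith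
  have hT2 : 9 ≤ T y ^ 2 := by nlinarith
  have hT3 : 3 * T y ≤ T y ^ 2 := by nlinarith
  have hz : z y = exp (L y / 2 + T y * log (T y)) := by rw [z, exp_add, exp_half, exp_L a4]
  have hl0 : l0 y = L y - 3 * T y := rfl
  have hL : 0 < L y := by linarith
  have hwz : exp (l0 y / 2) ≤ z y := by rw [hz]; exact exp_le_exp.2 (by linarith)
  have hz0 : 0 ≤ z y := by rw [hz]; exact (exp_pos _).le
  have key := top_ind hSplit (l0 y) (3 * (2 + C) / L y) ⌊exp (l0 y / 2)⌋₊ ⌊z y⌋₊
    (Nat.floor_mono hwz) fun m h1 h2 => by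
      have b1 : exp (l0 y / 2) < ((m + 1 : ℕ) : ℝ) :=
        (Nat.floor_lt (exp_pos _).le).1 (by omega)
      have b2 : ((m + 1 : ℕ) : ℝ) ≤ z y := (Nat.le_floor_iff hz0).1 h2
      have b0 : (0 : ℝ) < ((m + 1 : ℕ) : ℝ) := by positivity
      have b3 := (lt_log_iff_exp_lt b0).2 b1
      rw [hz, ← log_le_iff_le_exp b0] at b2
      obtain ⟨l, hl⟩ : ∃ l, l = l0 y - log ((m + 1 : ℕ) : ℝ) := ⟨_, rfl⟩
      rw [← hl]
      have b4 : L y / 3 ≤ l := by linarith
      have b5 : 0 < l := by linarith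
      have b6 : exp (l / 3) ≤ (m : ℝ) := by
        have c1 : exp (l / 3) ≤ exp (l0 y / 6) := exp_le_exp.2 (by linarith)
        have c2 : exp (l0 y / 2) = exp (l0 y / 6) ^ 3 := by
          rw [← exp_nat_mul]
          congr 1
          push_cast
          ring
        have c3 : 2 ≤ exp (l0 y / 6) := by linarith [add_one_le_exp (l0 y / 6)]
        push_cast at b1
        have c4 : 4 ≤ exp (l0 y / 6) ^ 2 := by nlinarith
        nlinarith
      have b7 := (abs_le.1 ((hl' l (by linarith)).2 _ _ (rule_C0 1 l) b6)).2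
      have b8 : C * log l / l ^ 2 ≤ C / l := by
        rw [div_le_div_iff₀ (by positivity) b5]
        have := log_le_sub_one_of_pos b5
        have c1 : log l * l ≤ l ^ 2 := by nlinarith
        nlinarith
      have b9 : (2 + C) / l ≤ 3 * (2 + C) / L y := by
        rw [div_le_div_iff₀ b5 hL]
        nlinarith
      rw [add_div] at b9
      linarith
  rw [top_floor, top_floor, filter_congr (q := fun p : ℕ => exp (l0 y / 2) < p)
    fun p _ => Nat.floor_lt (exp_pos _).le] at key
  have m1 := (abs_le.1 (hM (exp (l0 y / 2)) (z y)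
    (by linarith [add_one_le_exp (l0 y / 2)]) hwz)).2
  have e1 : log (z y) = L y / 2 + T y * log (T y) := by rw [hz, log_exp]
  rw [log_exp, e1] at m1
  have m2 : log ((L y / 2 + T y * log (T y)) / (l0 y / 2)) ≤ 10 * (T y * log (T y) / L y) := by
    refine (log_le_sub_one_of_pos (div_pos (by linarith) (by linarith))).trans ?_
    rw [sub_le_iff_le_add, div_le_iff₀ (by linarith)]
    have c1 : T y * log (T y) / L y * L y = T y * log (T y) := div_mul_cancel₀ _ hL.ne'
    have c2 : 0 ≤ T y * log (T y) / L y := div_nonneg (by linarith) hL.le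
    have c3 := mul_le_mul_of_nonneg_left (by linarith : L y / 4 ≤ l0 y / 2) c2
    nlinarith
  have m3 : D / (l0 y / 2) ^ 2 ≤ 16 * D * (T y * log (T y) / L y) := by
    have c1 : D / (l0 y / 2) ^ 2 ≤ D / (L y / 4) ^ 2 :=
      div_le_div_of_nonneg_left hD.le (by positivity)
        (pow_le_pow_left₀ (by positivity) (by linarith) 2)
    refine c1.trans ?_
    rw [show D / (L y / 4) ^ 2 = 16 * D * (1 / L y / L y) by field_simp; ring]
    refine mul_le_mul_of_nonneg_left (div_le_div_of_nonneg_right ?_ hL.le) (by positivity)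
    rw [div_le_iff₀ hL]
    nlinarith
  have m4 : ∑ p ∈ (PP (z y)).filter (fun p : ℕ => exp (l0 y / 2) < p), 1 / (p : ℝ) ≤
      (10 + 16 * D) * (T y * log (T y) / L y) := by linarith
  have m5 := mul_le_mul_of_nonneg_left m4 (by positivity : 0 ≤ 3 * (2 + C) / L y)
  have m6 := (hl' (l0 y) (by linarith)).1
  have m7 : C * log (l0 y) / l0 y ^ 2 ≤ 4 * C * (T y * log (T y)) / L y ^ 2 := by
    have c1 : log (l0 y) ≤ T y := log_le_log (by linarith) (by linarith)
    have c2 : (L y / 2) ^ 2 ≤ l0 y ^ 2 := pow_le_pow_left₀ (by positivity) (by linarith) 2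
    calc C * log (l0 y) / l0 y ^ 2 ≤ C * (T y * log (T y)) / (L y / 2) ^ 2 :=
          div_le_div₀ (mul_nonneg hC.le (by linarith))
            (mul_le_mul_of_nonneg_left (by linarith) hC.le) (by positivity) c2
      _ = _ := by
          field_simp
          ring
  have e2 : (4 * C + 3 * (2 + C) * (10 + 16 * D)) * (T y * log (T y)) / L y ^ 2 =
      4 * C * (T y * log (T y)) / L y ^ 2 +
        3 * (2 + C) / L y * ((10 + 16 * D) * (T y * log (T y) / L y)) := by
    field_simp
  rw [e2]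
  linarith

theorem s_Gain (hGeo : S_Geo) (hRule : S_Rule) (hMod : S_Mod) : S_Gain := by
  obtain ⟨C, hC, hMod⟩ := hMod
  obtain ⟨l', hl'⟩ := eventually_atTop.1 hMod
  intro J hJ
  have hJ' : (3 : ℝ) ≤ J := by exact_mod_cast hJ
  filter_upwards [hGeo J hJ, hRule, ev_L (4 * J * max l' 1), ev_T_pow J 2 (e := 1) one_pos,
    ev_kap_T 1, ev_T_kap (32 * C * J ^ 2), ev_T 1] with y a1 a2 a3 a4 a5 a6 a7
  intro x u h1 h2 N hN
  rw [rpow_one] at a4
  rw [one_mul] at a5
  obtain ⟨hg, g1, g2⟩ := a1.1 u h1 h2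
  obtain ⟨v1, -, -, v4⟩ := a1.2 _ hg
  obtain ⟨w1, w2, -⟩ := v4 x N hN
  have hD : (1 : ℝ) ≤ DD y := by exact_mod_cast DD_pos y
  have hD0 : (0 : ℝ) < DD y := by linarith
  have hmax : max l' 1 ≤ L y / (4 * J) := by
    rw [le_div_iff₀ (by positivity)]
    linarith
  have hm1 := le_max_left l' 1
  have hm2 := le_max_right l' 1
  have hL : 0 < L y := by nlinarith
  have hk : 0 ≤ kap y := by unfold kap; positivity
  have e0 : L y / (4 * J) = 2 * (L y / (8 * J)) := by
    field_simp
    ring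
  have e1 : l1 y = l0 y + 3 * T y + kap y := by rw [l0, l1]; ring
  have hkJ : kap y ≤ L y / J := by
    rw [le_div_iff₀ (by positivity)]
    nlinarith
  have n0 := log_natCast_nonneg (pr N)
  have u1 : l1 y - gg u - log (pr N) ≤ L y := by
    have := hg.1
    rw [l1]
    linarith
  have s1 : (lam y (gg u) N : ℝ) ≤ DD y * (l1 y - gg u - log (pr N)) :=
    Nat.floor_le (mul_nonneg hD0.le (by linarith))
  have s2 : DD y * (l1 y - gg u - log (pr N)) < lam y (gg u) N + 1 := Nat.lt_floor_add_one _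
  obtain ⟨l, hl⟩ : ∃ l, l = l0 y - log u - log (pr N) := ⟨_, rfl⟩
  obtain ⟨k, hk'⟩ : ∃ k, k = (lam y (gg u) N : ℝ) / DD y := ⟨_, rfl⟩
  have k1 : k ≤ l1 y - gg u - log (pr N) := by
    rw [hk', div_le_iff₀ hD0]
    linarith
  have k2 : l1 y - gg u - log (pr N) - 1 ≤ k := by
    rw [hk', le_div_iff₀ hD0]
    linarith
  have k3 : l + kap y ≤ k := by linarith
  have k4 : L y / (4 * J) ≤ l := by linarith
  have r1 := (a2 (lam y (gg u) N) (by nlinarith)).1
  rw [← hk'] at r1
  have t1 := (abs_le.1 ((hl' l (by linarith)).2 _ (exp (lo y J (gg u))) (rule_C0 1 l)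
    (exp_le_exp.2 (by linarith)))).1
  have t2 := (abs_le.1 ((hl' k (by linarith)).2 _ (exp (lo y J (gg u))) r1
    (exp_le_exp.2 (by linarith)))).2
  have err : ∀ t, L y / (4 * J) ≤ t → t ≤ L y → C * log t / t ^ 2 ≤ kap y / (2 * L y ^ 2) := by
    intro t c1 c2
    have c3 : log t ≤ T y := log_le_log (by linarith) c2
    have c4 : (L y / (4 * J)) ^ 2 ≤ t ^ 2 := pow_le_pow_left₀ (by positivity) c1 2
    calc C * log t / t ^ 2 ≤ C * T y / (L y / (4 * J)) ^ 2 :=
          div_le_div₀ (by positivity) (mul_le_mul_of_nonneg_left c3 hC.le) (by positivity) c4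
      _ = 32 * C * J ^ 2 * T y / (2 * L y ^ 2) := by
          field_simp
          ring
      _ ≤ _ := div_le_div_of_nonneg_right a6 (by positivity)
  have t3 := err l k4 (by linarith)
  have t4 := err k (by linarith) (by linarith)
  have hl0 : 0 < l := by linarith
  have hk0 : 0 < k := by linarith
  have t5 : 4 * (kap y / (2 * L y ^ 2)) ≤ 2 / l - 2 / k := by
    have c1 : l * k ≤ L y ^ 2 := by
      rw [sq]
      exact mul_le_mul (by linarith) (by linarith) hk0.le hL.le
    calc 4 * (kap y / (2 * L y ^ 2)) = 2 * kap y / L y ^ 2 := by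
          field_simp
          ring
      _ ≤ 2 * (k - l) / (l * k) := div_le_div₀ (by linarith) (by linarith) (by positivity) c1
      _ = _ := by field_simp
  have t6 : 0 ≤ kap y / (2 * L y ^ 2) := by positivity
  change _ ≤ Tm 1 (C0 (l0 y - log u - log (pr N))) (PP (exp (lo y J (gg u)))) -
    Tm 1 (C1 y (lam y (gg u) N)) (PP (exp (lo y J (gg u))))
  rw [← hl]
  linarith

end Jac
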