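import Vale.Agent.P013.Gro

/-! Few residue classes carry a large exponential sum. -/

noncomputable section
namespace Jac
open Finset Real Filter
open scoped Classical ComplexConjugate

namespace Unif

theorem ee_zero : ee 0 = 1 := by simp [ee]

theorem ee_neg (t : ℝ) : ee (-t) = conj (ee t) := by
  rw [ee, ee, ← Complex.exp_conj]
  congr 1
  simp [Complex.conj_ofReal, map_ofNat]

theorem ee_sum {ι : Type} (s : Finset ι) (g : ι → ℝ) : ee (∑ i ∈ s, g i) = ∏ i ∈ s, ee (g i) := by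
  induction s using Finset.induction_on with
  | empty => simp [ee_zero]
  | insert i s hi ih => rw [sum_insert hi, prod_insert hi, ee_add, ih]

theorem ee_nat (i : ℕ) (t : ℝ) : ee (i * t) = ee t ^ i := by
  induction i with
  | zero => simp [ee_zero]
  | succ i ih => rw [pow_succ, ← ih, ← ee_add]; congr 1; push_cast; ring

theorem geom {q : ℕ} (hq : 0 < q) (S : ℤ) :
    ∑ i ∈ range q, ee (i * ((S : ℝ) / q)) = if (q : ℤ) ∣ S then (q : ℂ) else 0 := by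
  have hq' : (q : ℝ) ≠ 0 := by exact_mod_cast hq.ne'
  simp only [ee_nat]
  split_ifs with h
  · obtain ⟨m, rfl⟩ := h
    have h1 : (((q : ℤ) * m : ℤ) : ℝ) / q = (m : ℝ) := by push_cast; field_simp
    rw [h1, ee_int]; simp
  · have h1 : ee ((S : ℝ) / q) ≠ 1 := by
      intro h2
      obtain ⟨m, hm⟩ := Complex.exp_eq_one_iff.1 h2
      have h3 : (((S : ℝ) / q : ℝ) : ℂ) = (m : ℂ) := by
        have h4 : (2 * π * Complex.I : ℂ) ≠ 0 := Complex.two_pi_I_ne_zero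
        refine mul_right_cancel₀ h4 ?_
        rw [← hm]; ring
      have h5 : (S : ℝ) / q = m := by exact_mod_cast h3
      rw [div_eq_iff hq'] at h5
      exact h ⟨m, by rw [mul_comm]; exact_mod_cast h5⟩
    rw [geom_sum_eq h1, ← ee_nat, mul_div_cancel₀ _ hq', ee_int]
    simp

theorem card_primes {Q : Finset ℕ} (hQ : ∀ q ∈ Q, q.Prime) {S : ℤ} (hS : S ≠ 0) {B : ℝ}
    (hB : |(S : ℝ)| ≤ B) : ((Q.filter fun q : ℕ => (q : ℤ) ∣ S).card : ℝ) ≤ logb 2 B := by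
  set R := Q.filter fun q : ℕ => (q : ℤ) ∣ S with hR
  have h1 : ∏ q ∈ R, q ∣ S.natAbs :=
    Finset.prod_primes_dvd _ (fun q hq => (hQ q (mem_filter.1 hq).1).prime)
      fun q hq => Int.natCast_dvd.1 (mem_filter.1 hq).2
  have h2 : 2 ^ R.card ≤ ∏ q ∈ R, q :=
    Finset.pow_card_le_prod _ _ _ fun q hq => (hQ q (mem_filter.1 hq).1).two_le
  have h3 := h2.trans (Nat.le_of_dvd (Int.natAbs_pos.2 hS) h1)
  have h4 : (2 : ℝ) ^ R.card ≤ B := by
    refine le_trans ?_ hB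
    rw [← Int.cast_abs, ← Int.natCast_natAbs]
    exact_mod_cast h3
  rw [le_logb_iff_rpow_le one_lt_two (lt_of_lt_of_le (by positivity) h4), rpow_natCast]
  exact h4

theorem prod_conj (j : ℕ) (z : ℂ) :
    ∏ t : Fin (2 * j), (if (t : ℕ) < j then z else conj z) = ((‖z‖ ^ (2 * j) : ℝ) : ℂ) := by
  rw [Fin.prod_univ_eq_prod_range (fun t => if t < j then z else conj z), two_mul, prod_range_add,
    prod_congr rfl fun t ht => if_pos (mem_range.1 ht),
    prod_congr rfl fun t _ => if_neg (by omega : ¬ j + t < j), prod_const, prod_const, card_range,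
    ← mul_pow, Complex.mul_conj, Complex.normSq_eq_norm_sq, ← two_mul, pow_mul]
  push_cast; rfl

variable {k j : ℕ} {P : Fin k → Finset ℕ}

/-- the complementary product -/
def cof (P : Fin k → Finset ℕ) (f : Fin k → ℕ) : ℕ := ∏ i, pr ((P i).erase (f i))

theorem mul_cof {f : Fin k → ℕ} (hf : f ∈ Fintype.piFinset P) :
    (∏ i, f i) * cof P f = ∏ i, pr (P i) := by
  rw [cof, ← prod_mul_distrib]
  exact prod_congr rfl fun i _ =>
    mul_prod_erase (P i) (fun p => p) (Fintype.mem_piFinset.1 hf i)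

/-- signs -/
def sgn (j : ℕ) (t : Fin (2 * j)) : ℤ := if (t : ℕ) < j then 1 else -1

/-- the numerator of the phase -/
def SS (P : Fin k → Finset ℕ) (φ : Fin (2 * j) → Fin k → ℕ) : ℤ := ∑ t, sgn j t * cof P (φ t)

theorem pi_pos (hP : ∀ i, ∀ p ∈ P i, p.Prime) : 0 < ∏ i, pr (P i) :=
  prod_pos fun i _ => prod_pos fun p hp => (hP i p hp).pos

theorem abs_SS (hP : ∀ i, ∀ p ∈ P i, p.Prime) {φ : Fin (2 * j) → Fin k → ℕ}
    (hφ : ∀ t, φ t ∈ Fintype.piFinset P) :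
    |(SS P φ : ℝ)| ≤ 2 * j * (∏ i, pr (P i) : ℕ) := by
  rw [SS, Int.cast_sum]
  refine (abs_sum_le_sum_abs _ _).trans ((sum_le_card_nsmul _ _ ((∏ i, pr (P i) : ℕ) : ℝ)
    fun t _ => ?_).trans (by simp))
  have h1 : cof P (φ t) ≤ ∏ i, pr (P i) :=
    Nat.le_of_dvd (pi_pos hP) (Dvd.intro_left _ (mul_cof (hφ t)))
  have h2 : |((sgn j t : ℤ) : ℝ)| = 1 := by unfold sgn; split_ifs <;> simp
  rw [Int.cast_mul, abs_mul, h2, one_mul, Int.cast_natCast, Nat.abs_cast]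
  exact_mod_cast h1

theorem rep_of_zero (hP : ∀ i, ∀ p ∈ P i, p.Prime) (hd : ∀ i i', i ≠ i' → Disjoint (P i) (P i'))
    {φ : Fin (2 * j) → Fin k → ℕ} (hφ : ∀ t, φ t ∈ Fintype.piFinset P) (h0 : SS P φ = 0)
    (i : Fin k) (t : Fin (2 * j)) : ∃ t', t' ≠ t ∧ φ t' i = φ t i := by
  by_contra h
  push Not at h
  have hp : φ t i ∈ P i := Fintype.mem_piFinset.1 (hφ t) i
  have hpp := hP i _ hp
  have h1 : ∀ t' ∈ univ.erase t, ((φ t i : ℕ) : ℤ) ∣ sgn j t' * cof P (φ t') := by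
    intro t' ht'
    refine Dvd.dvd.mul_left (Int.natCast_dvd_natCast.2 ?_) _
    refine Dvd.dvd.trans ?_ (dvd_prod_of_mem _ (mem_univ i))
    exact dvd_prod_of_mem _ (mem_erase.2 ⟨(h t' (mem_erase.1 ht').1).symm, hp⟩)
  rw [SS, ← add_sum_erase _ _ (mem_univ t)] at h0
  have h2 : ((φ t i : ℕ) : ℤ) ∣ sgn j t * cof P (φ t) := by
    rw [eq_neg_of_add_eq_zero_left h0]
    exact (dvd_sum h1).neg_right
  have h3 : φ t i ∣ cof P (φ t) := by
    refine Int.natCast_dvd_natCast.1 ?_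
    unfold sgn at h2
    split_ifs at h2 <;> simpa using h2
  obtain ⟨i', -, h4⟩ := (hpp.prime.dvd_finsetProd_iff _).1 h3
  obtain ⟨p, hp', h5⟩ := (hpp.prime.dvd_finsetProd_iff _).1 h4
  obtain ⟨h6, h7⟩ := mem_erase.1 hp'
  have h8 : φ t i = p := (Nat.prime_dvd_prime_iff_eq hpp (hP i' p h7)).1 h5
  by_cases hi : i = i'
  · subst hi; exact h6 h8.symm
  · exact disjoint_left.1 (hd i i' hi) hp (h8 ▸ h7)

theorem card_zero (hRep : S_Rep) {n : ℕ} (hn : 1 ≤ n) (hj : 1 ≤ j) (hc : ∀ i, (P i).card = n)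
    (hP : ∀ i, ∀ p ∈ P i, p.Prime) (hd : ∀ i i', i ≠ i' → Disjoint (P i) (P i')) :
    (((Fintype.piFinset fun _ : Fin (2 * j) => Fintype.piFinset P).filter
      fun φ => SS P φ = 0).card : ℝ) ≤ ((n : ℝ) ^ (2 * j) * (3 * j / n) ^ j) ^ k := by
  have h1 : ((Fintype.piFinset fun _ : Fin (2 * j) => Fintype.piFinset P).filter
      fun φ => SS P φ = 0).card ≤ (Fintype.piFinset fun i =>
        (Fintype.piFinset (fun _ : Fin (2 * j) => P i)).filter
          (fun f => ∀ t, ∃ t', t' ≠ t ∧ f t' = f t)).card := by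
    refine card_le_card_of_injOn (fun φ i t => φ t i) (fun φ hφ => ?_) fun φ _ ψ _ h => ?_
    · obtain ⟨h2, h3⟩ := mem_filter.1 (mem_coe.1 hφ)
      rw [Fintype.mem_piFinset] at h2
      refine mem_coe.2 (Fintype.mem_piFinset.2 fun i => mem_filter.2 ⟨?_, ?_⟩)
      · exact Fintype.mem_piFinset.2 fun t => Fintype.mem_piFinset.1 (h2 t) i
      · exact rep_of_zero hP hd h2 h3 i
    · funext t i
      exact congrFun (congrFun h i) t
  refine (Nat.cast_le.2 h1).trans ?_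
  rw [Fintype.card_piFinset, Nat.cast_prod]
  refine (prod_le_prod (fun _ _ => by positivity) fun i _ => hRep n j (P i) (hc i) hn hj).trans ?_
  simp

theorem phase (hP : ∀ i, ∀ p ∈ P i, p.Prime) {f : Fin k → ℕ} (hf : f ∈ Fintype.piFinset P)
    (q x : ℝ) : x / (q * ∏ i, (f i : ℝ)) = x * cof P f / (q * (∏ i, pr (P i) : ℕ)) := by
  have h1 := pi_pos hP
  rw [← mul_cof hf] at h1 ⊢
  have h2 : (cof P f : ℝ) ≠ 0 := by exact_mod_cast (Nat.pos_of_mul_pos_left h1).ne'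
  rw [Nat.cast_mul, Nat.cast_prod, ← mul_assoc, mul_div_mul_right _ _ h2]

theorem gsum_per (hP : ∀ i, ∀ p ∈ P i, p.Prime) (a : Fin k → ℕ → ℂ) {q : ℕ} (hq : 0 < q)
    (N m : ℤ) : gsum P a q (N + q * (∏ i, pr (P i) : ℕ) * m) = gsum P a q N := by
  refine sum_congr rfl fun f hf => ?_
  have h1 : (q : ℝ) ≠ 0 := by exact_mod_cast hq.ne'
  have h2 : ((∏ i, pr (P i) : ℕ) : ℝ) ≠ 0 := by exact_mod_cast (pi_pos hP).ne'
  rw [phase hP hf, phase hP hf, ← mul_one (ee (N * _ / _)), ← ee_int (m * cof P f), ← ee_add]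
  congr 2
  simp only [Int.cast_add, Int.cast_mul, Int.cast_natCast]
  field_simp

theorem expand (hP : ∀ i, ∀ p ∈ P i, p.Prime) {a : Fin k → ℕ → ℂ} (ha : ∀ i p, ‖a i p‖ ≤ 1)
    (q : ℕ) : ∃ A : (Fin (2 * j) → Fin k → ℕ) → ℂ, (∀ φ, ‖A φ‖ ≤ 1) ∧ ∀ N : ℤ,
      ((‖gsum P a q N‖ ^ (2 * j) : ℝ) : ℂ) =
        ∑ φ ∈ Fintype.piFinset fun _ : Fin (2 * j) => Fintype.piFinset P,
          A φ * ee (N * SS P φ / (q * (∏ i, pr (P i) : ℕ))) := by
  refine ⟨fun φ => ∏ t : Fin (2 * j), if (t : ℕ) < j then ∏ i, a i (φ t i)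
      else conj (∏ i, a i (φ t i)),
    fun φ => ?_, fun N => ?_⟩
  · rw [norm_prod]
    refine prod_le_one (fun _ _ => norm_nonneg _) fun t _ => ?_
    have h1 : ‖∏ i, a i (φ t i)‖ ≤ 1 := by
      rw [norm_prod]; exact prod_le_one (fun _ _ => norm_nonneg _) fun i _ => ha _ _
    split_ifs
    · exact h1
    · rwa [Complex.norm_conj]
  have h1 : ∀ t : Fin (2 * j), (if (t : ℕ) < j then gsum P a q N else conj (gsum P a q N)) =
      ∑ f ∈ Fintype.piFinset P, (if (t : ℕ) < j then ∏ i, a i (f i) else conj (∏ i, a i (f i))) *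
        ee (N * (sgn j t * cof P f : ℤ) / (q * (∏ i, pr (P i) : ℕ))) := by
    intro t
    unfold gsum sgn
    split_ifs
    · refine sum_congr rfl fun f hf => ?_
      rw [phase hP hf]; simp
    · rw [map_sum]
      refine sum_congr rfl fun f hf => ?_
      rw [map_mul, ← ee_neg, phase hP hf]
      congr 2
      push_cast; ring
  rw [← prod_conj, prod_congr rfl fun t _ => h1 t, prod_univ_sum]
  refine sum_congr rfl fun φ _ => ?_
  rw [prod_mul_distrib, ← ee_sum, SS, Int.cast_sum, mul_sum, sum_div]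

theorem moment (hP : ∀ i, ∀ p ∈ P i, p.Prime) {a : Fin k → ℕ → ℂ} (ha : ∀ i p, ‖a i p‖ ≤ 1)
    {q : ℕ} (hq : 0 < q) (c : ℤ) :
    ∑ i ∈ range q, ‖gsum P a q (c + (∏ i, pr (P i) : ℕ) * i)‖ ^ (2 * j) ≤
      q * ∑ φ ∈ Fintype.piFinset fun _ : Fin (2 * j) => Fintype.piFinset P,
        if (q : ℤ) ∣ SS P φ then (1 : ℝ) else 0 := by
  obtain ⟨A, hA, h⟩ := expand (j := j) hP ha q
  have h1 : (q : ℝ) ≠ 0 := by exact_mod_cast hq.ne'
  have h2 : ((∏ i, pr (P i) : ℕ) : ℝ) ≠ 0 := by exact_mod_cast (pi_pos hP).ne'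
  refine (le_abs_self _).trans ?_
  rw [← Real.norm_eq_abs, ← Complex.norm_real, Complex.ofReal_sum,
    sum_congr rfl fun i _ => h _, sum_comm, mul_sum]
  refine (norm_sum_le _ _).trans (sum_le_sum fun φ _ => ?_)
  have h3 : ∀ i : ℕ, ee (((c + (∏ i, pr (P i) : ℕ) * i : ℤ) : ℝ) * SS P φ /
      (q * (∏ i, pr (P i) : ℕ))) =
      ee (c * SS P φ / (q * (∏ i, pr (P i) : ℕ))) * ee (i * ((SS P φ : ℝ) / q)) := by
    intro i
    rw [← ee_add]
    congr 1
    simp only [Int.cast_add, Int.cast_mul, Int.cast_natCast]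
    field_simp
  rw [← mul_sum, sum_congr rfl fun i _ => h3 i, ← mul_sum, geom hq, norm_mul, norm_mul, norm_ee,
    one_mul]
  refine (mul_le_of_le_one_left (norm_nonneg _) (hA φ)).trans ?_
  split_ifs <;> simp

theorem card_B (hP : ∀ i, ∀ p ∈ P i, p.Prime) (a : Fin k → ℕ → ℂ) {q : ℕ} (hq : 0 < q) (c : ℤ)
    {x : ℝ} (hx : 0 ≤ x) (m : ℕ) :
    (((range q).filter (fun s : ℕ => ∃ N : ℤ, N ≡ c [ZMOD (∏ i, pr (P i) : ℕ)] ∧
      N ≡ s [ZMOD q] ∧ x ≤ ‖gsum P a q N‖)).card : ℝ) * x ^ m ≤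
      ∑ i ∈ range q, ‖gsum P a q (c + (∏ i, pr (P i) : ℕ) * i)‖ ^ m := by
  set M : ℤ := ((∏ i, pr (P i) : ℕ) : ℤ) with hM
  set I := (range q).filter fun i : ℕ => x ≤ ‖gsum P a q (c + M * i)‖ with hI
  have hq' : (0 : ℤ) < q := by exact_mod_cast hq
  have h1 : ((range q).filter (fun s : ℕ => ∃ N : ℤ, N ≡ c [ZMOD M] ∧
      N ≡ s [ZMOD q] ∧ x ≤ ‖gsum P a q N‖)) ⊆ I.image fun i : ℕ => ((c + M * i) % q).toNat := by
    intro s hs
    obtain ⟨hs1, N, h2, h3, h4⟩ := mem_filter.1 hs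
    obtain ⟨t, ht⟩ := h2.symm.dvd
    have h5 := Int.emod_nonneg t hq'.ne'
    have h6 := Int.emod_lt_of_pos t hq'
    have h7 : N = c + M * ((t % q).toNat : ℕ) + q * M * (t / q) := by
      rw [Int.toNat_of_nonneg h5]
      linear_combination ht - M * Int.emod_add_mul_ediv t q
    refine mem_image.2 ⟨(t % q).toNat, mem_filter.2 ⟨mem_range.2 (by omega), ?_⟩, ?_⟩
    · rwa [h7, gsum_per hP a hq] at h4
    · have h8 : (c + M * ((t % q).toNat : ℕ)) % q = N % q := by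
        rw [h7, mul_assoc, Int.add_mul_emod_self_left]
      rw [h8, h3, Int.emod_eq_of_lt (by positivity) (by exact_mod_cast mem_range.1 hs1),
        Int.toNat_natCast]
  refine (mul_le_mul_of_nonneg_right (Nat.cast_le.2 ((card_le_card h1).trans card_image_le))
    (by positivity)).trans ?_
  rw [← nsmul_eq_mul]
  refine (card_nsmul_le_sum _ _ _ fun i hi => pow_le_pow_left₀ hx (mem_filter.1 hi).2 m).trans
    (sum_le_sum_of_subset_of_nonneg (filter_subset _ _) fun _ _ _ => by positivity)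

theorem main (hRep : S_Rep) (k n j : ℕ) (P : Fin k → Finset ℕ) (a : Fin k → ℕ → ℂ)
    (Q : Finset ℕ) (Qm η : ℝ) (c : ℤ) (hn : 1 ≤ n) (hj : 1 ≤ j) (hη : 0 < η) (hQm : 0 ≤ Qm)
    (hP : ∀ i, (P i).card = n ∧ ∀ p ∈ P i, p.Prime)
    (hd : ∀ i i', i ≠ i' → Disjoint (P i) (P i')) (ha : ∀ i p, ‖a i p‖ ≤ 1)
    (hQ : ∀ q ∈ Q, q.Prime ∧ (q : ℝ) ≤ Qm ∧ ∀ i, q ∉ P i) :
    ∑ q ∈ Q, (((range q).filter (fun s : ℕ => ∃ N : ℤ, N ≡ c [ZMOD (∏ i, pr (P i) : ℕ)] ∧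
      N ≡ s [ZMOD q] ∧ η * (n : ℝ) ^ k ≤ ‖gsum P a q N‖)).card : ℝ) ≤
    Qm / η ^ (2 * j) * (Q.card * (3 * (j : ℝ) / n) ^ (j * k) +
      logb 2 (2 * j * (∏ i, pr (P i) : ℕ))) := by
  have hP2 : ∀ i, ∀ p ∈ P i, p.Prime := fun i => (hP i).2
  have hn0 : (0 : ℝ) < n := by exact_mod_cast hn
  set Φ := Fintype.piFinset fun _ : Fin (2 * j) => Fintype.piFinset P with hΦ
  set W : ℝ := ((n : ℝ) ^ (2 * j)) ^ k with hW
  set lg := logb 2 (2 * j * (∏ i, pr (P i) : ℕ)) with hlg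
  have hlg0 : 0 ≤ lg := by
    refine logb_nonneg one_lt_two ?_
    have h1 : (1 : ℝ) ≤ j := by exact_mod_cast hj
    have h2 : (1 : ℝ) ≤ (∏ i, pr (P i) : ℕ) := by exact_mod_cast pi_pos hP2
    nlinarith
  have hc : (Φ.card : ℝ) = W := by
    simp only [hΦ, hW, Fintype.card_piFinset, fun i => (hP i).1, prod_const, card_univ,
      Fintype.card_fin, Nat.cast_pow, ← pow_mul, mul_comm]
  have h1 : ∑ q ∈ Q, ∑ φ ∈ Φ, (if (q : ℤ) ∣ SS P φ then (1 : ℝ) else 0) ≤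
      W * (Q.card * (3 * (j : ℝ) / n) ^ (j * k) + lg) := by
    rw [sum_comm]
    have h2 : ∀ φ ∈ Φ, ∑ q ∈ Q, (if (q : ℤ) ∣ SS P φ then (1 : ℝ) else 0) ≤
        Q.card * (if SS P φ = 0 then (1 : ℝ) else 0) + lg := by
      intro φ hφ
      rw [← natCast_card_filter]
      split_ifs with h
      · have h3 : ((Q.filter fun q : ℕ => (q : ℤ) ∣ SS P φ).card : ℝ) ≤ Q.card :=
          Nat.cast_le.2 (card_filter_le _ _)
        linarith
      · rw [mul_zero, zero_add]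
        exact card_primes (fun q hq => (hQ q hq).1) h (abs_SS hP2 (Fintype.mem_piFinset.1 hφ))
    refine (sum_le_sum h2).trans ?_
    rw [sum_add_distrib, ← mul_sum, ← natCast_card_filter, sum_const, nsmul_eq_mul, hc]
    have h4 := mul_le_mul_of_nonneg_left (card_zero hRep hn hj (fun i => (hP i).1) hP2 hd)
      (Nat.cast_nonneg Q.card)
    rw [mul_pow, ← pow_mul (3 * (j : ℝ) / n)] at h4
    linarith
  have hx : (η * (n : ℝ) ^ k) ^ (2 * j) = η ^ (2 * j) * W := by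
    rw [mul_pow, hW, ← pow_mul, ← pow_mul, mul_comm k]
  have hW0 : 0 < W := by positivity
  refine le_of_mul_le_mul_right ?_ (show 0 < η ^ (2 * j) * W by positivity)
  rw [sum_mul]
  refine (sum_le_sum (g := fun q : ℕ => Qm * ∑ φ ∈ Φ, (if (q : ℤ) ∣ SS P φ then (1 : ℝ) else 0))
    fun q hq => ?_).trans ?_
  · rw [← hx]
    refine (card_B hP2 a (hQ q hq).1.pos c (by positivity) _).trans
      ((moment hP2 ha (hQ q hq).1.pos c).trans (mul_le_mul_of_nonneg_right (hQ q hq).2.1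
        (sum_nonneg fun _ _ => by split_ifs <;> simp)))
  · rw [← mul_sum]
    refine (mul_le_mul_of_nonneg_left h1 hQm).trans (le_of_eq ?_)
    field_simp

end Unif

theorem s_Unif (hRep : S_Rep) : S_Unif :=
  fun k n j P a Q Qm η c hn hj hη hQm hP hd ha hQ =>
    Unif.main hRep k n j P a Q Qm η c hn hj hη hQm hP hd ha hQ

end Jac
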