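import Vale.Agent.P013.Gro
import Vale.Agent.P020.SelN
import Vale.Agent.P020.Prim
import Vale.Agent.P031.SieveA

/-! The upper bound sieve in dimension two. -/

noncomputable section
namespace Jac
open Finset Real Filter
open scoped Classical

theorem up_sieve (S : Finset ℕ) (Om : ℕ → Finset ℕ) (w : ℝ) (M : ℕ) (hw : 1 ≤ w)
    (hS : ∀ r ∈ S, r.Prime ∧ (r : ℝ) ≤ w ∧ Om r ⊆ range r ∧
      ((Om r).card = 1 ∨ (Om r).card = 2 ∧ 3 ≤ r)) :
    (((range M).filter fun n => ∀ r ∈ S, n % r ∉ Om r).card : ℝ)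
      ≤ 2 * M / ∏ r ∈ S, (1 + ((Om r).card : ℝ) / r) + (4 * w) ^ 32 := by
  obtain ⟨ρ, h0, -, hT, -, hm, he⟩ := Chowla.selN Chowla.markovProd S
    (fun r => ((Om r).card : ℝ) / r) w hw (by
    intro r hr
    obtain ⟨h1, h2, -, h3⟩ := hS r hr
    have h4 : (2 : ℝ) ≤ r := by exact_mod_cast h1.two_le
    refine ⟨h1, h2, ?_⟩
    rcases h3 with h3 | ⟨h3, h5⟩
    · rw [h3, Nat.cast_one]
      refine ⟨by positivity, ?_, by gcongr; norm_num⟩
      rw [div_le_iff₀ (by linarith)]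
      linarith
    · have h6 : (3 : ℝ) ≤ r := by exact_mod_cast h5
      rw [h3, Nat.cast_ofNat]
      exact ⟨by positivity, div_le_div_of_nonneg_left (by norm_num) (by norm_num) h6, le_rfl⟩)
  have hW : ∀ n : ℕ, ∑ U ∈ (S.filter fun r => n % r ∈ Om r).powerset, ρ U
      = ∑ U ∈ S.powerset, if (∀ r ∈ U, n % r ∈ Om r) then ρ U else 0 := by
    intro n
    rw [← sum_filter]
    refine sum_congr ?_ fun _ _ => rfl
    ext U
    simp only [mem_powerset, mem_filter]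
    exact ⟨fun h => ⟨fun r hr => (mem_filter.1 (h hr)).1, fun r hr => (mem_filter.1 (h hr)).2⟩,
      fun h r hr => mem_filter.2 ⟨h.1 hr, h.2 r hr⟩⟩
  have h1 : (((range M).filter fun n => ∀ r ∈ S, n % r ∉ Om r).card : ℝ)
      ≤ ∑ n ∈ range M, ∑ U ∈ (S.filter fun r => n % r ∈ Om r).powerset, ρ U := by
    refine le_trans ?_ (sum_le_sum_of_subset_of_nonneg
      (filter_subset (fun n => ∀ r ∈ S, n % r ∉ Om r) _) (fun n _ _ => hT _ (filter_subset _ _)))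
    rw [card_eq_sum_ones, Nat.cast_sum]
    refine sum_le_sum fun n hn => ?_
    rw [filter_eq_empty_iff.2 (mem_filter.1 hn).2, powerset_empty, sum_singleton, h0]
    norm_num
  have h2 : ∑ n ∈ range M, ∑ U ∈ (S.filter fun r => n % r ∈ Om r).powerset, ρ U
      = ∑ U ∈ S.powerset, ρ U * (((range M).filter fun n => ∀ r ∈ U, n % r ∈ Om r).card : ℝ) := by
    simp only [hW]
    rw [sum_comm]
    refine sum_congr rfl fun U _ => ?_
    rw [← sum_filter, sum_const, nsmul_eq_mul, mul_comm]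
  have h3 : ∀ U ∈ S.powerset,
      ρ U * (((range M).filter fun n => ∀ r ∈ U, n % r ∈ Om r).card : ℝ)
        ≤ M * (ρ U * ∏ r ∈ U, ((Om r).card : ℝ) / r) + |ρ U| * 2 ^ U.card := by
    intro U hU
    have hU' := mem_powerset.1 hU
    have hc := Vale.Agent.P031.sieve_count Om U (fun r hr => (hS r (hU' hr)).1)
      (fun r hr => (hS r (hU' hr)).2.2.1) M
    have e2 : ∏ q ∈ U, ((Om q).card : ℝ) ≤ 2 ^ U.card := by
      rw [← prod_const]
      refine prod_le_prod (fun _ _ => Nat.cast_nonneg _) fun r hr => ?_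
      rcases (hS r (hU' hr)).2.2.2 with h | ⟨h, -⟩ <;> rw [h] <;> norm_num
    have h4 := (le_abs_self _).trans ((abs_mul (ρ U) _).trans_le
      (mul_le_mul_of_nonneg_left (hc.trans e2) (abs_nonneg _)))
    linarith
  refine h1.trans (h2.trans_le ((sum_le_sum h3).trans ?_))
  rw [sum_add_distrib, ← mul_sum]
  refine add_le_add ((mul_le_mul_of_nonneg_left hm (Nat.cast_nonneg _)).trans (le_of_eq ?_)) he
  ring

theorem up_root (α β : ℤ) (p : ℕ) : ∃ t : ℕ, p.Prime → ¬ (p : ℤ) ∣ α →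
    t < p ∧ ∀ n : ℕ, n % p = t → (p : ℤ) ∣ α * n + β := by
  by_cases h : p.Prime ∧ ¬ (p : ℤ) ∣ α
  · have := Fact.mk h.1
    have h1 : (α : ZMod p) ≠ 0 := fun e => h.2 ((ZMod.intCast_zmod_eq_zero_iff_dvd α p).1 e)
    refine ⟨(-(β : ZMod p) / α).val, fun _ _ => ⟨ZMod.val_lt _, fun n hn => ?_⟩⟩
    rw [← ZMod.intCast_zmod_eq_zero_iff_dvd]
    push_cast
    rw [← ZMod.natCast_mod n p, hn, ZMod.natCast_zmod_val, mul_div_cancel₀ _ h1, neg_add_cancel]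
  · exact ⟨0, fun h1 h2 => absurd ⟨h1, h2⟩ h⟩

theorem up_sq (S : Finset ℕ) (h : ∀ p ∈ S, 3 ≤ p) : ∏ p ∈ S, (1 + ((p : ℝ) ^ 2)⁻¹) ≤ 2 := by
  have h1 : S ⊆ Ioc 2 (S.sup id + 2) := fun p hp =>
    mem_Ioc.2 ⟨h p hp, (le_sup (f := id) hp).trans (Nat.le_add_right _ _)⟩
  have h2 := sum_Ioc_inv_sq_le_sub (α := ℝ) (k := 2) (n := S.sup id + 2) two_ne_zero
    (Nat.le_add_left _ _)
  have h3 := sum_le_sum_of_subset_of_nonneg (f := fun p : ℕ => ((p : ℝ) ^ 2)⁻¹) h1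
    fun _ _ _ => by positivity
  have h4 : (0 : ℝ) ≤ ((S.sup id + 2 : ℕ) : ℝ)⁻¹ := by positivity
  refine (prod_one_add_le_exp_sum _ fun p => by positivity).trans ?_
  rw [← le_log_iff_exp_le two_pos]
  have := log_two_gt_d9
  rw [Nat.cast_ofNat] at h2
  linarith

theorem s_Up : S_Up := by
  intro w P1 P2 α1 β1 α2 β2 M hw h1 h2 h3
  choose r1 hr1 using up_root α1 β1
  choose r2 hr2 using up_root α2 β2
  obtain ⟨Om, hOm⟩ : ∃ Om : ℕ → Finset ℕ, ∀ p, Om p =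
    if p ∈ P1 then (if p ∈ P2 then {r1 p, r2 p} else {r1 p}) else {r2 p} := ⟨_, fun _ => rfl⟩
  have a1 := fun p hp => hr1 p (h1 p hp).1 (h1 p hp).2.2
  have a2 := fun p hp => hr2 p (h2 p hp).1 (h2 p hp).2.2
  have hc : ∀ p, (Om p).card = if p ∈ P1 ∩ P2 then 2 else 1 := by
    intro p
    rw [hOm]
    by_cases b1 : p ∈ P1
    · by_cases b2 : p ∈ P2
      · rw [if_pos b1, if_pos b2, if_pos (mem_inter.2 ⟨b1, b2⟩)]
        refine card_pair fun e => (h3 p b1 b2).2 ?_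
        have c1 := (a1 p b1).2 (r1 p) (Nat.mod_eq_of_lt (a1 p b1).1)
        have c2 := (a2 p b2).2 (r1 p) ((Nat.mod_eq_of_lt (a1 p b1).1).trans e)
        have := dvd_sub (c2.mul_left α1) (c1.mul_left α2)
        rwa [show α1 * (α2 * r1 p + β2) - α2 * (α1 * r1 p + β1) = α1 * β2 - α2 * β1 by ring] at this
      · simp [b1, b2]
    · simp [b1]
  have hm : ∀ p ∈ P1 ∪ P2, ∀ t ∈ Om p, p ∈ P1 ∧ t = r1 p ∨ p ∈ P2 ∧ t = r2 p := by
    intro p hp t ht
    rw [hOm] at ht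
    split_ifs at ht with b1 b2
    · rcases mem_insert.1 ht with e | e
      · exact Or.inl ⟨b1, e⟩
      · exact Or.inr ⟨b2, mem_singleton.1 e⟩
    · exact Or.inl ⟨b1, mem_singleton.1 ht⟩
    · exact Or.inr ⟨(mem_union.1 hp).resolve_left b1, mem_singleton.1 ht⟩
  have key := up_sieve (P1 ∪ P2) Om w M hw (fun p hp => by
    have b : p.Prime ∧ (p : ℝ) ≤ w := (mem_union.1 hp).elim
      (fun b => ⟨(h1 p b).1, (h1 p b).2.1⟩) fun b => ⟨(h2 p b).1, (h2 p b).2.1⟩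
    refine ⟨b.1, b.2, fun t ht => ?_, ?_⟩
    · rcases hm p hp t ht with ⟨b, rfl⟩ | ⟨b, rfl⟩
      · exact mem_range.2 (a1 p b).1
      · exact mem_range.2 (a2 p b).1
    · rw [hc]
      split_ifs with b
      · exact Or.inr ⟨rfl, (h3 p (mem_inter.1 b).1 (mem_inter.1 b).2).1⟩
      · exact Or.inl rfl)
  refine le_trans ?_ (key.trans (add_le_add_left ?_ _))
  · refine Nat.cast_le.2 (card_le_card fun n hn => ?_)
    obtain ⟨b0, b1, b2⟩ := mem_filter.1 hn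
    refine mem_filter.2 ⟨b0, fun p hp ht => ?_⟩
    rcases hm p hp _ ht with ⟨b, e⟩ | ⟨b, e⟩
    · exact b1 p b ((a1 p b).2 n e)
    · exact b2 p b ((a2 p b).2 n e)
  · have hI : P1 ∩ P2 ⊆ P1 ∪ P2 := inter_subset_union
    have e1 : (∏ p ∈ P1, (1 + 1 / (p : ℝ))) * ∏ p ∈ P2, (1 + 1 / (p : ℝ))
        ≤ (∏ r ∈ P1 ∪ P2, (1 + ((Om r).card : ℝ) / r)) * ∏ p ∈ P1 ∩ P2, (1 + ((p : ℝ) ^ 2)⁻¹) := by
      rw [← prod_union_inter, ← inter_eq_right.2 hI, ← prod_ite_mem, ← prod_ite_mem,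
        ← prod_mul_distrib, ← prod_mul_distrib]
      refine prod_le_prod (fun p _ => by split_ifs <;> positivity) fun p _ => ?_
      rw [hc]
      split_ifs
      · have : (0 : ℝ) ≤ (p : ℝ)⁻¹ := by positivity
        simp only [div_eq_mul_inv, ← inv_pow, Nat.cast_ofNat]
        nlinarith [pow_nonneg this 3]
      · simp
    have e2 := up_sq (P1 ∩ P2) fun p hp => (h3 p (mem_inter.1 hp).1 (mem_inter.1 hp).2).1
    have p1 : 0 < (∏ p ∈ P1, (1 + 1 / (p : ℝ))) * ∏ p ∈ P2, (1 + 1 / (p : ℝ)) :=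
      mul_pos (prod_pos fun _ _ => by positivity) (prod_pos fun _ _ => by positivity)
    have p2 : 0 < ∏ r ∈ P1 ∪ P2, (1 + ((Om r).card : ℝ) / r) := prod_pos fun _ _ => by positivity
    rw [div_le_div_iff₀ p2 p1]
    have e3 := e1.trans (mul_le_mul_of_nonneg_left e2 p2.le)
    have hM : (0 : ℝ) ≤ M := Nat.cast_nonneg _
    nlinarith

end Jac
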