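import Vale.Agent.P013.Gro

/-! Sums against the parity of `Y / m`. -/

noncomputable section
namespace Jac
open Finset Real Filter
open scoped Classical

namespace WX

theorem conv (f : ℕ → ℝ) (Y : ℕ) :
    ∑ m ∈ Icc 1 Y, f m * ((Y / m : ℕ) : ℝ) = ∑ n ∈ Icc 1 Y, ∑ m ∈ n.divisors, f m := by
  have h1 : ∀ n ∈ Icc 1 Y, ∑ m ∈ n.divisors, f m = ∑ m ∈ Icc 1 Y, if m ∣ n then f m else 0 := by
    intro n hn
    have := mem_Icc.1 hn
    rw [← sum_filter]
    refine sum_congr ?_ fun _ _ => rfl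
    ext m
    simp only [Nat.mem_divisors, mem_filter, mem_Icc]
    constructor
    · rintro ⟨a, b⟩
      exact ⟨⟨Nat.pos_of_dvd_of_pos a (by omega), (Nat.le_of_dvd (by omega) a).trans this.2⟩, a⟩
    · exact fun a => ⟨a.2, by omega⟩
  rw [sum_congr rfl h1, sum_comm]
  refine sum_congr rfl fun m _ => ?_
  rw [← sum_filter, sum_const, nsmul_eq_mul, mul_comm, ← Nat.Ioc_filter_dvd_card_eq_div]
  rfl

theorem par (f : ℕ → ℝ) (Y : ℕ) :
    ∑ m ∈ Icc 1 Y, ((Y / m % 2 : ℕ) : ℝ) * f m =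
      ∑ n ∈ Icc 1 Y, ∑ m ∈ n.divisors, f m - 2 * ∑ n ∈ Icc 1 (Y / 2), ∑ m ∈ n.divisors, f m := by
  rw [← conv, ← conv]
  have h1 : ∑ m ∈ Icc 1 (Y / 2), f m * ((Y / 2 / m : ℕ) : ℝ) =
      ∑ m ∈ Icc 1 Y, f m * ((Y / 2 / m : ℕ) : ℝ) := by
    refine sum_subset (Icc_subset_Icc_right (Nat.div_le_self _ _)) fun m a b => ?_
    simp only [mem_Icc] at a b
    rw [Nat.div_eq_of_lt (by omega)]; simp
  rw [h1, mul_sum, ← sum_sub_distrib]
  refine sum_congr rfl fun m _ => ?_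
  have h2 : Y / 2 / m = Y / m / 2 := by rw [Nat.div_div_eq_div_mul, Nat.div_div_eq_div_mul, mul_comm]
  have h3 : ((Y / m : ℕ) : ℝ) = 2 * ((Y / m / 2 : ℕ) : ℝ) + ((Y / m % 2 : ℕ) : ℝ) := by
    exact_mod_cast (Nat.div_add_mod (Y / m) 2).symm
  rw [h2, h3]; ring

/-! the function of Liouville -/

theorem liou_mul {a b : ℕ} (ha : a ≠ 0) (hb : b ≠ 0) : liou (a * b) = liou a * liou b := by
  rw [liou, liou, liou, ArithmeticFunction.cardFactors_mul ha hb, pow_add]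

theorem liou_div (n : ℕ) (hn : n ≠ 0) :
    ∑ m ∈ n.divisors, liou m = 0 ∨ (∑ m ∈ n.divisors, liou m = 1 ∧ IsSquare n) := by
  induction n using Nat.recOnPosPrimePosCoprime with
  | zero => exact absurd rfl hn
  | one => right; simp [liou]
  | prime_pow p k hp hk =>
    rw [Nat.sum_divisors_prime_pow hp]
    have : ∀ i, liou (p ^ i) = (-1) ^ i := fun i => by
      rw [liou, ArithmeticFunction.cardFactors_apply_prime_pow hp]
    simp only [this, neg_one_geom_sum]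
    rcases Nat.even_or_odd k with h | h
    · right
      rw [if_neg (Nat.not_even_iff_odd.2 h.add_one)]
      exact ⟨rfl, h.isSquare_pow p⟩
    · left; rw [if_pos h.add_one]
  | coprime a b ha hb hab iha ihb =>
    have e : ∑ m ∈ (a * b).divisors, liou m =
        (∑ m ∈ a.divisors, liou m) * ∑ m ∈ b.divisors, liou m := by
      rw [Nat.divisors_mul, Finset.mul_def, sum_image hab.mul_injOn_divisors, sum_product,
        sum_mul_sum]
      exact sum_congr rfl fun u hu => sum_congr rfl fun v hv =>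
        liou_mul (Nat.pos_of_mem_divisors hu).ne' (Nat.pos_of_mem_divisors hv).ne'
    rw [e]
    rcases iha (by omega) with h | h
    · left; rw [h, zero_mul]
    rcases ihb (by omega) with h' | h'
    · left; rw [h', mul_zero]
    right; exact ⟨by rw [h.1, h'.1, mul_one], h.2.mul h'.2⟩

theorem liou_sum (Y : ℕ) : 0 ≤ ∑ n ∈ Icc 1 Y, ∑ m ∈ n.divisors, liou m ∧
    ∑ n ∈ Icc 1 Y, ∑ m ∈ n.divisors, liou m ≤ √Y := by
  constructor
  · refine sum_nonneg fun n hn => ?_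
    rcases liou_div n (by have := mem_Icc.1 hn; omega) with h | h
    · exact h.ge
    · rw [h.1]; exact zero_le_one
  · have h1 : ∑ n ∈ Icc 1 Y, ∑ m ∈ n.divisors, liou m ≤
        ∑ n ∈ Icc 1 Y, if IsSquare n then (1 : ℝ) else 0 := by
      refine sum_le_sum fun n hn => ?_
      rcases liou_div n (by have := mem_Icc.1 hn; omega) with h | h
      · rw [h]; split_ifs <;> norm_num
      · rw [h.1, if_pos h.2]
    refine h1.trans ?_
    rw [← sum_filter, sum_const, nsmul_eq_mul, mul_one]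
    have h2 : (Icc 1 Y).filter IsSquare ⊆ (Icc 1 (Nat.sqrt Y)).image (fun k => k * k) := by
      intro n hn
      obtain ⟨a, k, rfl⟩ := mem_filter.1 hn
      have := mem_Icc.1 a
      refine mem_image.2 ⟨k, mem_Icc.2 ⟨?_, Nat.le_sqrt.2 this.2⟩, rfl⟩
      rcases Nat.eq_zero_or_pos k with rfl | h
      · omega
      · exact h
    have h3 := (card_le_card h2).trans card_image_le
    rw [Nat.card_Icc, Nat.add_sub_cancel] at h3
    exact (Nat.cast_le.2 h3).trans Real.nat_sqrt_le_real_sqrt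

theorem part2 (Y : ℕ) : |∑ m ∈ Icc 1 Y, ((Y / m % 2 : ℕ) : ℝ) * liou m| ≤ 2 * √Y := by
  rw [par]
  obtain ⟨a, b⟩ := liou_sum Y
  obtain ⟨c, d⟩ := liou_sum (Y / 2)
  have e : √((Y / 2 : ℕ) : ℝ) ≤ √Y := sqrt_le_sqrt (Nat.cast_le.2 (Nat.div_le_self _ _))
  have := sqrt_nonneg (Y : ℝ)
  rw [abs_le]; constructor <;> linarith

/-! the constant function -/

def TT (Y N : ℕ) : ℝ := ∑ i ∈ range N, (((Y / (2 * i + 1) : ℕ) : ℝ) - ((Y / (2 * i + 2) : ℕ) : ℝ))

theorem TT_eq (Y N : ℕ) : ∑ m ∈ Icc 1 (2 * N), ((Y / m : ℕ) : ℝ) -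
    2 * ∑ m ∈ Icc 1 N, ((Y / (2 * m) : ℕ) : ℝ) = TT Y N := by
  induction N with
  | zero => simp [TT]
  | succ N ih =>
    rw [TT, sum_range_succ, ← TT, ← ih, show 2 * (N + 1) = 2 * N + 1 + 1 by ring,
      sum_Icc_succ_top (by omega), sum_Icc_succ_top (by omega), sum_Icc_succ_top (by omega),
      show 2 * (N + 1) = 2 * N + 2 by ring]
    ring

theorem G_eq (Y : ℕ) : ∑ m ∈ Icc 1 Y, ((Y / m % 2 : ℕ) : ℝ) = TT Y Y := by
  rw [← TT_eq]
  have h1 : ∑ m ∈ Icc 1 Y, ((Y / m : ℕ) : ℝ) = ∑ m ∈ Icc 1 (2 * Y), ((Y / m : ℕ) : ℝ) := by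
    refine sum_subset (Icc_subset_Icc_right (by omega)) fun m a b => ?_
    simp only [mem_Icc] at a b
    rw [Nat.div_eq_of_lt (by omega)]; simp
  rw [← h1, mul_sum, ← sum_sub_distrib]
  refine sum_congr rfl fun m _ => ?_
  have h2 : Y / (2 * m) = Y / m / 2 := by rw [Nat.div_div_eq_div_mul, mul_comm]
  have h3 : ((Y / m : ℕ) : ℝ) = 2 * ((Y / m / 2 : ℕ) : ℝ) + ((Y / m % 2 : ℕ) : ℝ) := by
    exact_mod_cast (Nat.div_add_mod (Y / m) 2).symm
  rw [h2, h3]; ring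

theorem TT_tail (Y k j : ℕ) : TT Y k ≤ TT Y (k + j) ∧
    TT Y (k + j) + ((Y / (2 * (k + j) + 1) : ℕ) : ℝ) ≤ TT Y k + ((Y / (2 * k + 1) : ℕ) : ℝ) := by
  induction j with
  | zero => simp
  | succ j ih =>
    have a : ((Y / (2 * (k + j) + 2) : ℕ) : ℝ) ≤ ((Y / (2 * (k + j) + 1) : ℕ) : ℝ) :=
      Nat.cast_le.2 (Nat.div_le_div_left (by omega) (by omega))
    have b : ((Y / (2 * (k + (j + 1)) + 1) : ℕ) : ℝ) ≤ ((Y / (2 * (k + j) + 2) : ℕ) : ℝ) :=
      Nat.cast_le.2 (Nat.div_le_div_left (by omega) (by omega))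
    have e : TT Y (k + (j + 1)) = TT Y (k + j) +
        (((Y / (2 * (k + j) + 1) : ℕ) : ℝ) - ((Y / (2 * (k + j) + 2) : ℕ) : ℝ)) := by
      rw [← add_assoc, TT, sum_range_succ, ← TT]
    rw [e]; constructor <;> linarith [ih.1, ih.2]

theorem fl (Y m : ℕ) (hm : 0 < m) :
    (Y : ℝ) / m - 1 ≤ ((Y / m : ℕ) : ℝ) ∧ ((Y / m : ℕ) : ℝ) ≤ (Y : ℝ) / m := by
  refine ⟨?_, Nat.cast_div_le⟩
  have := Nat.lt_floor_add_one ((Y : ℝ) / m)
  rw [Nat.floor_div_eq_div] at this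
  linarith

theorem TT_head (Y k : ℕ) :
    |TT Y k - Y * (((harmonic (2 * k) : ℚ) : ℝ) - ((harmonic k : ℚ) : ℝ))| ≤ k := by
  induction k with
  | zero => simp [TT]
  | succ k ih =>
    obtain ⟨a, b⟩ := fl Y (2 * k + 1) (by omega)
    obtain ⟨c, d⟩ := fl Y (2 * k + 2) (by omega)
    have e : (Y : ℝ) * (((harmonic (2 * (k + 1)) : ℚ) : ℝ) - ((harmonic (k + 1) : ℚ) : ℝ)) =
        Y * (((harmonic (2 * k) : ℚ) : ℝ) - ((harmonic k : ℚ) : ℝ)) +
          ((Y : ℝ) / ((2 * k + 1 : ℕ) : ℝ) - (Y : ℝ) / ((2 * k + 2 : ℕ) : ℝ)) := by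
      rw [show 2 * (k + 1) = 2 * k + 1 + 1 by ring, harmonic_succ, harmonic_succ, harmonic_succ]
      push_cast; field_simp; ring
    rw [e, TT, sum_range_succ, ← TT]
    rw [abs_le] at ih ⊢
    push_cast at a b c d ⊢
    constructor <;> linarith [ih.1, ih.2]

theorem harm (k : ℕ) (hk : 1 ≤ k) :
    |((harmonic (2 * k) : ℚ) : ℝ) - ((harmonic k : ℚ) : ℝ) - log 2| ≤ 1 / k := by
  have hk' : (0 : ℝ) < k := by exact_mod_cast hk
  have a := eulerMascheroniSeq_lt_eulerMascheroniSeq' k (2 * k)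
  have b := eulerMascheroniSeq_lt_eulerMascheroniSeq' (2 * k) k
  rw [eulerMascheroniSeq, eulerMascheroniSeq', if_neg (by omega)] at a b
  push_cast at a b
  rw [log_mul (by norm_num) hk'.ne'] at a
  have c : log ((k : ℝ) + 1) ≤ log k + 1 / k := by
    have := log_le_sub_one_of_pos (x := (k + 1) / k) (by positivity)
    rw [log_div (by positivity) hk'.ne'] at this
    have e : ((k : ℝ) + 1) / k - 1 = 1 / k := by field_simp; ring
    linarith
  have d : log (2 * (k : ℝ) + 1) ≤ log 2 + log (k + 1) := by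
    rw [← log_mul (by norm_num) (by positivity)]
    exact log_le_log (by positivity) (by linarith)
  rw [abs_le]; constructor <;> linarith

theorem part1 (Y : ℕ) : |∑ m ∈ Icc 1 Y, ((Y / m % 2 : ℕ) : ℝ) - Y * log 2| ≤ 5 * √Y := by
  rcases Nat.eq_zero_or_pos Y with rfl | hY
  · simp
  set k := Nat.sqrt Y with hk
  have k1 : 1 ≤ k := Nat.sqrt_pos.2 hY
  have k2 : k ≤ Y := Nat.sqrt_le_self Y
  have k3 : (k : ℝ) ≤ √Y := Real.nat_sqrt_le_real_sqrt
  have k4 : √(Y : ℝ) ≤ k + 1 := Real.real_sqrt_le_nat_sqrt_succ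
  have k5 : (1 : ℝ) ≤ k := by exact_mod_cast k1
  have s0 := sqrt_nonneg (Y : ℝ)
  have s1 := mul_self_sqrt (Nat.cast_nonneg (α := ℝ) Y)
  have k6 : (Y : ℝ) / k ≤ 2 * √Y := by rw [div_le_iff₀ (by linarith)]; nlinarith
  obtain ⟨a, b⟩ := TT_tail Y k (Y - k)
  rw [Nat.add_sub_cancel' k2] at a b
  have c := TT_head Y k
  have d := harm k k1
  have e : ((Y / (2 * k + 1) : ℕ) : ℝ) ≤ (Y : ℝ) / k :=
    (Nat.cast_le.2 (Nat.div_le_div_left (by omega) (by omega))).trans Nat.cast_div_le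
  have f : (0 : ℝ) ≤ ((Y / (2 * Y + 1) : ℕ) : ℝ) := Nat.cast_nonneg _
  have g : |(Y : ℝ) * (((harmonic (2 * k) : ℚ) : ℝ) - ((harmonic k : ℚ) : ℝ)) - Y * log 2| ≤
      Y / k := by
    rw [← mul_sub, abs_mul, Nat.abs_cast, div_eq_mul_one_div]
    exact mul_le_mul_of_nonneg_left d (Nat.cast_nonneg _)
  rw [G_eq]
  rw [abs_le] at c g ⊢
  constructor <;> linarith [c.1, c.2, g.1, g.2]

/-! the primes -/

theorem log_fact (Y : ℕ) : ∑ n ∈ Icc 1 Y, ∑ m ∈ n.divisors, ArithmeticFunction.vonMangoldt m =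
    log (Y.factorial) := by
  simp only [ArithmeticFunction.vonMangoldt_sum]
  induction Y with
  | zero => simp
  | succ Y ih =>
    rw [sum_Icc_succ_top (by omega), ih, Nat.factorial_succ, Nat.cast_mul,
      log_mul (by positivity) (by positivity), add_comm]

theorem cb (k : ℕ) : log ((2 * k).factorial) - 2 * log (k.factorial) ≤ 2 * k * log 2 ∧
    2 * k * log 2 ≤ log ((2 * k).factorial) - 2 * log (k.factorial) + log (2 * k + 1) := by
  have e : ((2 * k).factorial : ℝ) = (2 * k).choose k * k.factorial * k.factorial := by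
    have := Nat.choose_mul_factorial_mul_factorial (n := 2 * k) (k := k) (by omega)
    rw [show 2 * k - k = k by omega] at this
    exact_mod_cast this.symm
  have p : (0 : ℝ) < (2 * k).choose k := by exact_mod_cast Nat.choose_pos (by omega)
  have e2 : log ((2 * k).factorial) - 2 * log (k.factorial) = log ((2 * k).choose k) := by
    rw [e, log_mul (by positivity) (by positivity), log_mul (by positivity) (by positivity)]; ring
  have e3 : 2 * (k : ℝ) * log 2 = log (4 ^ k) := by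
    rw [log_pow, show (4 : ℝ) = 2 ^ 2 by norm_num, log_pow]; push_cast; ring
  rw [e2, e3, ← log_mul p.ne' (by positivity)]
  constructor
  · exact log_le_log p (by exact_mod_cast Nat.centralBinom_le_four_pow k)
  · refine log_le_log (by positivity) ?_
    rw [mul_comm]
    exact_mod_cast Nat.four_pow_le_two_mul_add_one_mul_central_binom k

theorem lam (Y : ℕ) : |∑ m ∈ Icc 1 Y, ((Y / m % 2 : ℕ) : ℝ) * ArithmeticFunction.vonMangoldt m -
    Y * log 2| ≤ log (Y + 1) + 1 := by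
  rw [par, log_fact, log_fact]
  have l2 : log 2 ≤ 1 := by have := log_two_lt_d9; linarith
  have l0 : 0 ≤ log ((Y : ℝ) + 1) := log_nonneg (by linarith [Nat.cast_nonneg (α := ℝ) Y])
  obtain ⟨k, h | h⟩ := Nat.even_or_odd' Y
  · obtain ⟨a, b⟩ := cb k
    subst h
    rw [show 2 * k / 2 = k by omega]
    push_cast at l0 ⊢
    rw [abs_le]; constructor <;> linarith
  · obtain ⟨a, b⟩ := cb k
    subst h
    rw [show (2 * k + 1) / 2 = k by omega, Nat.factorial_succ, Nat.cast_mul,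
      log_mul (by positivity) (by positivity)]
    have c : log (2 * (k : ℝ) + 1) ≤ log (2 * k + 1 + 1) := log_le_log (by positivity) (by linarith)
    have l3 := log_pos (show (1 : ℝ) < 2 by norm_num)
    push_cast at l0 ⊢
    rw [abs_le]; constructor <;> linarith

theorem pi_th : ∃ C : ℝ, 0 < C ∧ ∀ Y : ℕ, 2 ≤ Y →
    ∑ p ∈ (Icc 1 Y).filter Nat.Prime, (log Y - log p) ≤ C * Y / log Y := by
  obtain ⟨c, hc⟩ := Chebyshev.primeCounting_sub_theta_div_log_isBigO.bound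
  obtain ⟨x0, hx⟩ := eventually_atTop.1 hc
  refine ⟨max (max c 1) (log x0 ^ 2), by positivity, fun Y hY => ?_⟩
  have Y2 : (2 : ℝ) ≤ Y := by exact_mod_cast hY
  have l0 : 0 < log (Y : ℝ) := log_pos (by linarith)
  rcases le_or_gt x0 Y with h | h
  · have h1 := hx Y h
    rw [Nat.floor_natCast, Real.norm_eq_abs, Real.norm_eq_abs,
      abs_of_nonneg (by positivity : 0 ≤ (Y : ℝ) / log Y ^ 2)] at h1
    have e1 : ((Icc 1 Y).filter Nat.Prime).card = Nat.primeCounting Y := by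
      rw [Nat.primeCounting, Nat.primeCounting', Nat.count_eq_card_filter_range]
      congr 1; ext p; simp only [mem_filter, mem_Icc, mem_range]
      exact ⟨fun a => ⟨by omega, a.2⟩, fun a => ⟨⟨a.2.pos, by omega⟩, a.2⟩⟩
    have e2 : ∑ p ∈ (Icc 1 Y).filter Nat.Prime, log p = Chebyshev.theta Y := by
      rw [Chebyshev.theta, Nat.floor_natCast]; rfl
    rw [sum_sub_distrib, sum_const, nsmul_eq_mul, e1, e2]
    have h2 := (le_abs_self _).trans h1
    have h3 : (Nat.primeCounting Y : ℝ) * log Y - Chebyshev.theta Y =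
        ((Nat.primeCounting Y : ℝ) - Chebyshev.theta Y / log Y) * log Y := by field_simp
    rw [h3]
    refine (mul_le_mul_of_nonneg_right h2 l0.le).trans ?_
    have h4 : c * ((Y : ℝ) / log Y ^ 2) * log Y = c * Y / log Y := by field_simp
    rw [h4]
    gcongr
    exact (le_max_left _ _).trans (le_max_left _ _)
  · have h1 : ∑ p ∈ (Icc 1 Y).filter Nat.Prime, (log Y - log p) ≤
        ∑ p ∈ Icc 1 Y, log (Y : ℝ) := by
      refine (sum_le_sum fun p _ => ?_).trans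
        (sum_le_sum_of_subset_of_nonneg (filter_subset _ _) fun _ _ _ => l0.le)
      linarith [log_natCast_nonneg p]
    rw [sum_const, Nat.card_Icc, Nat.add_sub_cancel, nsmul_eq_mul] at h1
    refine h1.trans ?_
    rw [le_div_iff₀ l0]
    have h2 : log (Y : ℝ) ≤ log x0 := log_le_log (by linarith) h.le
    have h3 : log (Y : ℝ) ^ 2 ≤ max (max c 1) (log x0 ^ 2) :=
      (pow_le_pow_left₀ l0.le h2 2).trans (le_max_right _ _)
    nlinarith

theorem part3 : ∃ C : ℝ, 0 < C ∧ ∀ Y : ℕ, 2 ≤ Y →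
    |∑ p ∈ (Icc 1 Y).filter Nat.Prime, ((Y / p % 2 : ℕ) : ℝ) - Y * log 2 / log Y| ≤
      C * Y / log Y ^ 2 := by
  obtain ⟨C, hC, h⟩ := pi_th
  obtain ⟨c, hc⟩ := Chebyshev.psi_sub_theta_le_mul_sqrt
  refine ⟨C + 2 * |c| + 8, by positivity, fun Y hY => ?_⟩
  have Y2 : (2 : ℝ) ≤ Y := by exact_mod_cast hY
  have l0 : 0 < log (Y : ℝ) := log_pos (by linarith)
  have w0 : ∀ m : ℕ, (0 : ℝ) ≤ ((Y / m % 2 : ℕ) : ℝ) := fun m => Nat.cast_nonneg _
  have w1 : ∀ m : ℕ, ((Y / m % 2 : ℕ) : ℝ) ≤ 1 := fun m => by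
    exact_mod_cast (by omega : Y / m % 2 ≤ 1)
  have a := lam Y
  rw [← sum_filter_add_sum_filter_not _ Nat.Prime] at a
  have b0 : 0 ≤ ∑ m ∈ (Icc 1 Y).filter (fun m => ¬ m.Prime),
      ((Y / m % 2 : ℕ) : ℝ) * ArithmeticFunction.vonMangoldt m :=
    sum_nonneg fun m _ => mul_nonneg (w0 m) ArithmeticFunction.vonMangoldt_nonneg
  have b1 : ∑ m ∈ (Icc 1 Y).filter (fun m => ¬ m.Prime),
      ((Y / m % 2 : ℕ) : ℝ) * ArithmeticFunction.vonMangoldt m ≤ |c| * √Y := by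
    have := hc Y
    rw [Chebyshev.psi_sub_theta_eq_sum_not_prime, Nat.floor_natCast] at this
    refine le_trans (sum_le_sum fun m _ => ?_)
      (this.trans (mul_le_mul_of_nonneg_right (le_abs_self c) (sqrt_nonneg _)))
    exact mul_le_of_le_one_left ArithmeticFunction.vonMangoldt_nonneg (w1 m)
  have e : (∑ p ∈ (Icc 1 Y).filter Nat.Prime, ((Y / p % 2 : ℕ) : ℝ)) * log Y =
      ∑ p ∈ (Icc 1 Y).filter Nat.Prime, ((Y / p % 2 : ℕ) : ℝ) * ArithmeticFunction.vonMangoldt p +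
        ∑ p ∈ (Icc 1 Y).filter Nat.Prime, ((Y / p % 2 : ℕ) : ℝ) * (log Y - log p) := by
    rw [sum_mul, ← sum_add_distrib]
    refine sum_congr rfl fun p hp => ?_
    rw [ArithmeticFunction.vonMangoldt_apply_prime (mem_filter.1 hp).2]; ring
  have d : ∀ p ∈ (Icc 1 Y).filter Nat.Prime, 0 ≤ log (Y : ℝ) - log p := fun p hp => by
    have := mem_Icc.1 (mem_filter.1 hp).1
    exact sub_nonneg.2 (log_le_log (by exact_mod_cast this.1) (by exact_mod_cast this.2))
  have d0 : 0 ≤ ∑ p ∈ (Icc 1 Y).filter Nat.Prime, ((Y / p % 2 : ℕ) : ℝ) * (log Y - log p) :=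
    sum_nonneg fun p hp => mul_nonneg (w0 p) (d p hp)
  have d1 : ∑ p ∈ (Icc 1 Y).filter Nat.Prime, ((Y / p % 2 : ℕ) : ℝ) * (log Y - log p) ≤
      C * Y / log Y :=
    (sum_le_sum fun p hp => mul_le_of_le_one_left (d p hp) (w1 p)).trans (h Y hY)
  have s0 : 0 < √(Y : ℝ) := sqrt_pos.2 (by linarith)
  have s1 := mul_self_sqrt (Nat.cast_nonneg (α := ℝ) Y)
  have s2 : log (Y : ℝ) ≤ 2 * √Y := by
    have := log_le_sub_one_of_pos s0
    rw [log_sqrt (by linarith)] at this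
    linarith
  have s3 : √(Y : ℝ) ≤ 2 * Y / log Y := by rw [le_div_iff₀ l0]; nlinarith
  have s4 : log ((Y : ℝ) + 1) + 1 ≤ 4 * √Y := by
    have s5 : 0 < √((Y : ℝ) + 1) := sqrt_pos.2 (by linarith)
    have := log_le_sub_one_of_pos s5
    rw [log_sqrt (by linarith)] at this
    have s6 : √((Y : ℝ) + 1) ≤ 2 * √Y := sqrt_le_iff.2 ⟨by positivity, by nlinarith⟩
    linarith
  have s7 : |c| * √(Y : ℝ) ≤ |c| * (2 * Y / log Y) := mul_le_mul_of_nonneg_left s3 (abs_nonneg c)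
  have t : |(∑ p ∈ (Icc 1 Y).filter Nat.Prime, ((Y / p % 2 : ℕ) : ℝ)) * log Y - Y * log 2| ≤
      (C + 2 * |c| + 8) * Y / log Y := by
    have e2 : (C + 2 * |c| + 8) * Y / log Y =
        C * Y / log Y + |c| * (2 * Y / log Y) + 4 * (2 * Y / log Y) := by ring
    have p1 : 0 ≤ C * Y / log Y := by positivity
    have p2 : 0 ≤ |c| * (2 * Y / log Y) := by positivity
    rw [e, e2]
    rw [abs_le] at a ⊢
    constructor <;> linarith [a.1, a.2]
  have e3 : ∑ p ∈ (Icc 1 Y).filter Nat.Prime, ((Y / p % 2 : ℕ) : ℝ) - Y * log 2 / log Y =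
      ((∑ p ∈ (Icc 1 Y).filter Nat.Prime, ((Y / p % 2 : ℕ) : ℝ)) * log Y - Y * log 2) / log Y := by
    field_simp
  rw [e3, abs_div, abs_of_pos l0, sq, ← div_div]
  exact div_le_div_of_nonneg_right t l0.le

end WX

theorem s_W (hM : S_M) : S_W := by
  obtain ⟨C, hC, h⟩ := WX.part3
  refine ⟨C + 5, by positivity, fun Y => (WX.part1 Y).trans ?_, fun Y => (WX.part2 Y).trans ?_,
    fun Y hY => (h Y hY).trans ?_⟩
  · exact mul_le_mul_of_nonneg_right (by linarith) (sqrt_nonneg _)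
  · exact mul_le_mul_of_nonneg_right (by linarith) (sqrt_nonneg _)
  · gcongr; linarith

end Jac
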