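import Vale.Agent.P013.PN
import Vale.Agent.P013.Bad
import Vale.Agent.P013.Base
import Vale.Agent.P013.Bil
import Vale.Agent.P013.CH
import Vale.Agent.P013.CaseI
import Vale.Agent.P013.CaseII
import Vale.Agent.P013.Comb
import Vale.Agent.P013.End
import Vale.Agent.P013.FL
import Vale.Agent.P013.Fib
import Vale.Agent.P013.FibAB
import Vale.Agent.P013.FibC
import Vale.Agent.P013.FibH
import Vale.Agent.P013.Fibre
import Vale.Agent.P013.Four
import Vale.Agent.P013.Geo
import Vale.Agent.P013.Good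
import Vale.Agent.P013.Ia
import Vale.Agent.P013.Ib
import Vale.Agent.P013.Ic
import Vale.Agent.P013.Inv
import Vale.Agent.P013.John
import Vale.Agent.P013.Low
import Vale.Agent.P013.M
import Vale.Agent.P013.Mass
import Vale.Agent.P013.Master
import Vale.Agent.P013.Mod
import Vale.Agent.P013.ModD
import Vale.Agent.P013.ModK
import Vale.Agent.P013.ModR
import Vale.Agent.P013.Mom1
import Vale.Agent.P013.Mom2
import Vale.Agent.P013.NB
import Vale.Agent.P013.Osc
import Vale.Agent.P013.Ph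
import Vale.Agent.P013.Rank
import Vale.Agent.P013.Rec
import Vale.Agent.P013.SeqA
import Vale.Agent.P013.SeqB
import Vale.Agent.P013.Str
import Vale.Agent.P013.StrN
import Vale.Agent.P013.StrU
import Vale.Agent.P013.Top
import Vale.Agent.P013.Unif
import Vale.Agent.P013.Up
import Vale.Agent.P013.W

/-! Assembly. -/

namespace Jac

theorem a_Four : S_Four := s_Four
theorem a_Fibre : S_Fibre := s_Fibre
theorem a_Geo : S_Geo := s_Geo
theorem a_Inv : S_Inv := s_Inv a_Geo
theorem a_Rep : S_Rep := s_Rep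
theorem a_Unif : S_Unif := s_Unif a_Rep
theorem a_Mom1 : S_Mom1 := s_Mom1 a_Unif
theorem a_Mom2 : S_Mom2 := s_Mom2 a_Mom1
theorem a_AB : S_AB := s_AB
theorem a_FibAB : S_FibAB := s_FibAB a_Mom2 a_AB
theorem a_Ram : S_Ram := s_Ram
theorem a_Osc : S_Osc := s_Osc
theorem a_Bil : S_Bil := s_Bil a_Ram a_Osc
theorem a_Ph : S_Ph := s_Ph
theorem a_FibH : S_FibH := s_FibH a_Bil a_Ph
theorem a_CH : S_CH := s_CH
theorem a_FibC : S_FibC := s_FibC a_FibH a_Mom2 a_CH
theorem a_John : S_John := s_John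
theorem a_Com : S_Com := s_Com
theorem a_Fib : S_Fib := s_Fib a_FibAB a_FibC a_John a_Com
theorem a_Rule : S_Rule := s_Rule
theorem a_Size : S_Size := s_Size a_Geo a_Rule
theorem a_Esym : S_Esym := s_Esym
theorem a_M : S_M := s_M pntap'
theorem a_NU : S_NU := s_NU a_John a_Com
theorem a_Mass : S_Mass := s_Mass a_Geo a_Esym a_M a_NU
theorem a_Good : S_Good := s_Good a_Four a_Fibre a_Inv a_Fib a_Size a_Geo a_Mass a_M
theorem a_Up : S_Up := s_Up
theorem a_StrU : S_StrU := s_StrU a_Up a_M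
theorem a_Ia : S_Ia := s_Ia pntap'
theorem a_FL : S_FL := s_FL a_M
theorem a_Ib : S_Ib := s_Ib a_Ia a_FL
theorem a_Ic : S_Ic := s_Ic a_Up a_M
theorem a_I : S_I := s_I a_Ib a_Ic a_M
theorem a_Id : S_Id := s_Id
theorem a_Split : S_Split := s_Split
theorem a_Master : S_Master := s_Master a_Id a_Split a_Geo
theorem a_Rank : S_Rank := s_Rank a_M
theorem a_Bad : S_Bad := s_Bad a_Size a_Rule a_Rank a_M a_Geo
theorem a_Rec : S_Rec := s_Rec
theorem a_Rem : S_Rem := s_Rem
theorem a_Van : S_Van := s_Van a_Rem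
theorem a_Dir : S_Dir := s_Dir a_M
theorem a_Base : S_Base := s_Base a_M
theorem a_SeqA : S_SeqA := s_SeqA a_M
theorem a_SeqB : S_SeqB := s_SeqB a_SeqA
theorem a_NB : S_NB := s_NB a_Rec a_Van a_Dir a_Base a_SeqB
theorem a_StrN : S_StrN := s_StrN a_NB a_Rank a_M a_Size a_Rule a_Geo a_Rem
theorem a_ModD : S_ModD := s_ModD a_NB a_Rem a_M
theorem a_W : S_W := s_W a_M
theorem a_ModK : S_ModK := s_ModK a_Id a_W
theorem a_ModR : S_ModR := s_ModR a_NB a_Rem
theorem a_Mod : S_Mod := s_Mod a_ModK a_ModD a_ModR a_W a_M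
theorem a_Low : S_Low := s_Low a_Four a_Rem a_Geo a_Mass a_M a_Rule
theorem a_Str : S_Str := s_Str a_StrU a_StrN a_Mass a_Size a_Geo
theorem a_Top : S_Top := s_Top a_Split a_Mod a_M
theorem a_Gain : S_Gain := s_Gain a_Geo a_Rule a_Mod
theorem a_Main : S_Main := s_Main a_Top a_Gain a_Mass a_Geo
theorem a_II : S_II := s_II a_Master a_Main a_Low a_Bad a_Str a_Good a_Size a_Geo a_Mass a_M
theorem a_All : S_All := s_All a_I a_II a_NU a_Com a_M
theorem a_End : S_End := s_End a_All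

end Jac
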