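import Mathlib

/-! Definitions for the bound on the function of Jacobsthal. -/

noncomputable section
namespace Jac
open Finset Real
open scoped Classical

/-- product of a finite set -/
def pr (S : Finset ℕ) : ℕ := ∏ p ∈ S, p
/-- the part of `S` above `p` -/
def up (S : Finset ℕ) (p : ℕ) : Finset ℕ := S.filter (fun q => p ≤ q)
/-- the condition `C` holds at every step of parity `ε` -/
def Alive (ε : ℕ) (C : Finset ℕ → ℕ → Prop) (S : Finset ℕ) : Prop :=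
  ∀ p ∈ S, (up S p).card % 2 = ε → C (up S p) p
/-- the support of the sieve -/
def Fam (ε : ℕ) (C : Finset ℕ → ℕ → Prop) (P : Finset ℕ) : Finset (Finset ℕ) :=
  P.powerset.filter (Alive ε C)
/-- the condition of Rosser at level `exp l` -/
def C0 (l : ℝ) (S : Finset ℕ) (p : ℕ) : Prop := (pr S : ℝ) * (p : ℝ) ^ 2 ≤ exp l
/-- sign -/
def sg (S : Finset ℕ) : ℝ := (-1) ^ S.card
/-- main term of the sieve -/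
def Tm (ε : ℕ) (C : Finset ℕ → ℕ → Prop) (P : Finset ℕ) : ℝ := ∑ S ∈ Fam ε C P, sg S / pr S
/-- primes up to `w` -/
def PP (w : ℝ) : Finset ℕ := (range (⌊w⌋₊ + 1)).filter Nat.Prime
/-- `S` is stopped at its least element `p` -/
def Stop (ε : ℕ) (C : Finset ℕ → ℕ → Prop) (S : Finset ℕ) (p : ℕ) : Prop :=
  p ∈ S ∧ (∀ q ∈ S, p ≤ q) ∧ S.card % 2 = ε ∧ ¬ C S p ∧ Alive ε C (S.erase p)
/-- `C` is a condition of level between `exp (l - 1)` and `exp l` -/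
def Rule (ε : ℕ) (l : ℝ) (C : Finset ℕ → ℕ → Prop) : Prop :=
  ∀ (S : Finset ℕ) (p : ℕ), (∀ q ∈ S, q.Prime) → p ∈ S →
    (C S p → C0 l S p) ∧ (Stop ε C S p → exp (l - 1) ≤ (pr S : ℝ) * (p : ℝ) ^ 2)
/-- mass of the chains with a prime above `t2`, in state `s`, with remaining level in `[a-1,a)` -/
def nm (ε : ℕ) (l : ℝ) (P : Finset ℕ) (t2 s : ℕ) (a : ℝ) : ℝ :=
  ∑ S ∈ (Fam ε (C0 l) P).filter (fun S => (∃ q ∈ S, t2 < q) ∧ (S.card + s) % 2 = ε ∧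
    a - 1 ≤ l - log (pr S) ∧ l - log (pr S) < a), 1 / (pr S : ℝ)
/-- the function of Liouville -/
def liou (n : ℕ) : ℝ := (-1) ^ ArithmeticFunction.cardFactors n
/-- additive character -/
def ee (t : ℝ) : ℂ := Complex.exp (2 * π * t * Complex.I)

/-! parameters -/
def L (y : ℕ) : ℝ := log y
def T (y : ℕ) : ℝ := log (L y)
def kap (y : ℕ) : ℝ := T y * √(T y)
def G (y : ℕ) : ℝ := exp (kap y)
def z (y : ℕ) : ℝ := √(y : ℝ) * exp (T y * log (T y))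
def l0 (y : ℕ) : ℝ := L y - 3 * T y
def l1 (y : ℕ) : ℝ := L y + kap y
def H (y : ℕ) : ℕ := y / 2
def DD (y : ℕ) : ℕ := ⌈G y ^ 4⌉₊
def B (y : ℕ) : ℕ := ⌈T y ^ 2⌉₊
def r (y : ℕ) : ℕ := ⌈12000 * √(T y)⌉₊
def PW (y : ℕ) : ℝ := G y ^ 100
/-- rounded logarithm, the index of the box of `p` -/
def be (y p : ℕ) : ℕ := ⌈(DD y : ℝ) * log p⌉₊
def aa (y i : ℕ) : ℕ := DD y * B y ^ (i + 1)
/-- the index `b` lies in window `i` -/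
def Win (y i b : ℕ) : Prop := aa y i < b ∧ b ≤ aa y (i + 1)
def box (y b : ℕ) : Finset ℕ := (PP (exp ((b : ℝ) / DD y))).filter (fun p => be y p = b)
def Qb (y b : ℕ) : ℝ := exp (((b : ℝ) - 1) / DD y)
def Vb (y b : ℕ) : ℝ := 3 * Qb y b / DD y

/-! rational structure -/
def Hit (x : ℤ) (ρ : ℚ) (p : ℕ) : Prop := (p : ℤ) ∣ (ρ.den : ℤ) * x - ρ.num
def Ht (y : ℕ) (ρ : ℚ) : Prop := |ρ.num| ≤ (y : ℤ) ^ 3 ∧ ρ.den ≤ y ^ 3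
def Rich (y : ℕ) (x : ℤ) (ρ : ℚ) : Prop := Ht y ρ ∧ ∃ b, Win y (r y) b ∧
  Qb y b ^ (0.7 : ℝ) ≤ (((box y b).filter (Hit x ρ)).card : ℝ)
def InR (y : ℕ) (ρ : ℚ) : Prop := (ρ.den : ℝ) ≤ PW y ∧ |(ρ : ℝ)| ≤ y * PW y
def Uniq (y : ℕ) (x : ℤ) (p : ℕ) : Prop :=
  ∀ ρ ρ' : ℚ, Rich y x ρ → Rich y x ρ' → Hit x ρ p → Hit x ρ' p → ρ = ρ'
def WW (y : ℕ) : Finset ℕ := (PP (exp √(L y))).filter (fun p => exp (B y) < p)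
def Maj (y : ℕ) (x : ℤ) (ρ : ℚ) : Prop :=
  (∑ p ∈ WW y, 1 / (p : ℝ)) / 2 + 1 < ∑ p ∈ (WW y).filter (Hit x ρ), 1 / (p : ℝ)
def Str (y : ℕ) (x : ℤ) (d : ℕ) : Prop :=
  ∃ ρ : ℚ, Rich y x ρ ∧ InR y ρ ∧ ∀ p : ℕ, p.Prime → p ∣ d → PW y < p → Hit x ρ p
def Sp (y : ℕ) (x : ℤ) (n : ℕ) : Prop := Rich y x (-(n : ℚ))

/-! counting -/
def Cnt (y : ℕ) (x : ℤ) : ℕ :=
  ((range y).filter (fun n : ℕ => ∀ p ∈ PP (z y), ¬ (p : ℤ) ∣ (n : ℤ) + x)).card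
/-- sum against the tent weight -/
def av (K : ℕ) (F : ℕ → ℝ) : ℝ := (∑ a ∈ range K, ∑ b ∈ range K, F (a + b)) / K
def A0 (K : ℕ) (x : ℤ) (d : ℕ) : ℝ := av K (fun n => if (d : ℤ) ∣ (n : ℤ) + x then 1 else 0)
def A1 (y : ℕ) (x : ℤ) (d : ℕ) : ℝ :=
  av (H y) (fun n => if (d : ℤ) ∣ (n : ℤ) + x ∧ ¬ Sp y x n then 1 else 0)

/-! nodes -/
def gg (u : ℕ) : ℕ := ⌈log u⌉₊
def GR (y J g : ℕ) : Prop := L y / J ≤ g ∧ (g : ℝ) ≤ log (z y) + 1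
def vv (y J g : ℕ) : ℝ := (l0 y - g) / (2 * J + 2)
def lo (y J g : ℕ) : ℝ := (1 - 1 / (4 * (J : ℝ))) * vv y J g
def Rg (y J : ℕ) (x : ℤ) (g : ℕ) : Finset ℕ :=
  (PP (exp (vv y J g))).filter (fun p => exp (lo y J g) < p ∧ Uniq y x p)
def Nd (y J : ℕ) (x : ℤ) (g : ℕ) : Finset (Finset ℕ) := powersetCard (2 * J) (Rg y J x g)
def Un (y J g : ℕ) : Finset ℕ := PP (exp (lo y J g))
def lam (y g : ℕ) (N : Finset ℕ) : ℕ := ⌊(DD y : ℝ) * (l1 y - g - log (pr N))⌋₊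
def mu (y g : ℕ) (N : Finset ℕ) : ℕ := ⌊(DD y : ℝ) * (l0 y - g - log (pr N))⌋₊
def C1 (y m : ℕ) (S : Finset ℕ) (p : ℕ) : Prop := ∑ q ∈ S, be y q + 2 * be y p ≤ m
def U0 (y J u : ℕ) (N : Finset ℕ) : Finset (Finset ℕ) :=
  Fam 1 (C0 (l0 y - log u - log (pr N))) (Un y J (gg u))
def U1 (y J g : ℕ) (N : Finset ℕ) : Finset (Finset ℕ) := Fam 1 (C1 y (lam y g N)) (Un y J g)
def Hi (y J g : ℕ) (N : Finset ℕ) : Finset (Finset ℕ) :=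
  (U1 y J g N).filter (fun S => mu y g N < ∑ q ∈ S, be y q)
def Lo (y J g : ℕ) (N : Finset ℕ) : Finset (Finset ℕ) :=
  (U1 y J g N).filter (fun S => ¬ mu y g N < ∑ q ∈ S, be y q)
def Bad (y : ℕ) (S : Finset ℕ) : Prop :=
  (∃ i ≤ r y, ∀ p ∈ S, ¬ Win y i (be y p)) ∨
  (∃ p ∈ S, ∃ q ∈ S, p ≠ q ∧ be y p = be y q ∧ aa y 0 < be y p) ∨
  aa y 1 < 2 * ∑ q ∈ S.filter (fun q => be y q ≤ aa y 0), be y q
def Gd (y J g : ℕ) (N : Finset ℕ) : Finset (Finset ℕ) := (Hi y J g N).filter (fun S => ¬ Bad y S)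
/-- an admissible set of top primes -/
def EE (y J : ℕ) (x : ℤ) (E : Finset ℕ) : Prop :=
  (∀ u ∈ E, u.Prime ∧ (y : ℝ) ^ (1 / (J : ℝ)) < u ∧ (u : ℝ) ≤ z y ∧ Uniq y x u) ∧
  ∀ ρ : ℚ, InR y ρ → Maj y x ρ → ∀ u ∈ E, ¬ Hit x ρ u
/-- sum over the subtrees below the nodes -/
def nsum (y J : ℕ) (x : ℤ) (E : Finset ℕ) (F : ℕ → Finset ℕ → Finset (Finset ℕ))
    (f : Finset ℕ → ℕ → ℝ) : ℝ :=
  ∑ u ∈ E, ∑ N ∈ Nd y J x (gg u), ∑ S ∈ F u N, f S (u * pr N * pr S)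

/-! fibres -/
def gsum {k : ℕ} (Q : Fin k → Finset ℕ) (a : Fin k → ℕ → ℂ) (q : ℕ) (N : ℤ) : ℂ :=
  ∑ f ∈ Fintype.piFinset Q, (∏ i, a i (f i)) * ee ((N : ℝ) / ((q : ℝ) * ∏ i, (f i : ℝ)))
def tau (al : ℕ → Finset ℕ) (N : ℕ → ℤ) (u u' : ℕ) : ℕ :=
  ((al u ∩ al u').filter (fun q : ℕ => (q : ℤ) ∣ N u - N u')).card
/-- `e(c / v mod κ)` -/
def chi (κ : ℕ) (c : ℤ) (v : ℕ) : ℂ := ee (((c * Nat.gcdA v κ : ℤ) : ℝ) / κ)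
def trm (y : ℕ) (x : ℤ) (n0 : ℕ) (h : ℤ) (m0 g b0 : ℕ) (bs : Fin (r y) → ℕ) (u q : ℕ) : ℂ :=
  ∑ f ∈ Fintype.piFinset (fun i => box y (bs i)),
    if Str y x (u * m0 * q * ∏ i, f i) then 0 else
      ((exp ((g : ℝ) - 1) / u * (Qb y b0 / q) * ∏ i, Qb y (bs i) / f i : ℝ) : ℂ) *
        ee ((h : ℝ) * ((x : ℝ) + n0) / ((u * m0 * q * ∏ i, f i : ℕ) : ℝ))
def Vol (y g b0 : ℕ) (bs : Fin (r y) → ℕ) : ℝ :=
  2 * exp ((g : ℝ) - 1) * Vb y b0 * ∏ i, Vb y (bs i)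
/-- the data of a fibre -/
structure FibH (y J : ℕ) (x : ℤ) (n0 : ℕ) (h : ℤ) (m0 g b0 : ℕ) (bs : Fin (r y) → ℕ)
    (U : Finset ℕ) : Prop where
  win0 : Win y (r y) b0
  win : ∀ i : Fin (r y), Win y i (bs i)
  hn : n0 < y
  h0 : h ≠ 0
  h1 : |(h : ℝ)| ≤ G y ^ 3
  m1 : 1 ≤ m0
  gr : GR y J g
  hU : ∀ u ∈ U, u.Prime ∧ Uniq y x u ∧ gg u = g ∧ ¬ u ∣ m0
  hm : ∀ p : ℕ, p.Prime → p ∣ m0 → be y p ≠ b0 ∧ ∀ i, be y p ≠ bs i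
  sz : exp g * m0 * exp ((b0 : ℝ) / DD y) * ∏ i, exp ((bs i : ℝ) / DD y) ≤ exp (l1 y)

/-! the structured case -/
/-- the `n` in the interval with `k n + a` equal to `γ` times a prime -/
def PS (k a : ℤ) (γ n1 M : ℕ) : Finset ℕ :=
  (Ico n1 (n1 + M)).filter (fun n : ℕ => (γ : ℤ) ∣ k * n + a ∧ ((k * n + a) / γ).toNat.Prime)
def wt (k a : ℤ) (γ n : ℕ) : ℝ := log (((k * n + a : ℤ) : ℝ) / γ)
structure CI (y : ℕ) (x k a : ℤ) (γ n1 M : ℕ) (E : Finset ℕ) : Prop where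
  k0 : k ≠ 0
  k1 : |(k : ℝ)| ≤ PW y
  M0 : (y : ℝ) / 5 ≤ M
  M1 : n1 + M ≤ y
  sz : ∀ n ∈ Ico n1 (n1 + M), |(k : ℝ)| * y / 4 ≤ ((k * n + a : ℤ) : ℝ) ∧
    ((k * n + a : ℤ) : ℝ) ≤ 2 * y * PW y ^ 2
  co : IsCoprime a k
  ga : γ = 1 ∨ (γ = 2 ∧ Odd k ∧ 2 ∉ E)
  e2 : 2 ∈ E → Even k
  hE : ∀ p ∈ E, p.Prime ∧ ¬ (p : ℤ) ∣ a - k * x

end Jac
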