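import Vale.Agent.P013.Gro

noncomputable section
namespace Jac
open Finset Real Filter
open scoped Classical

theorem good_aa_mono {y : ℕ} (hB : 2 ≤ B y) {i j : ℕ} (h : i ≤ j) : aa y i ≤ aa y j :=
  Nat.mul_le_mul_left _ (Nat.pow_le_pow_right (by omega) (by omega))

theorem good_win_ne {y : ℕ} (hB : 2 ≤ B y) {i j b b' : ℕ} (h : Win y i b) (h' : Win y j b')
    (e : i ≠ j) : b ≠ b' := by
  rintro rfl
  rcases lt_or_gt_of_ne e with c | c
  · have := good_aa_mono hB (show i + 1 ≤ j from c); have := h.2; have := h'.1; omega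
  · have := good_aa_mono hB (show j + 1 ≤ i from c); have := h.1; have := h'.2; omega

theorem good_pr {y : ℕ} (hB : 2 ≤ B y) {S0 : Finset ℕ} {b0 : ℕ} {bs : Fin (r y) → ℕ}
    (w0 : Win y (r y) b0) (w : ∀ i : Fin (r y), Win y i (bs i))
    (hS : ∀ p ∈ S0, be y p ≠ b0 ∧ ∀ i, be y p ≠ bs i) {q : ℕ} (hq : q ∈ box y b0)
    {f : Fin (r y) → ℕ} (hf : f ∈ Fintype.piFinset (fun i => box y (bs i))) :
    pr (insert q (S0 ∪ image f univ)) = pr S0 * q * ∏ i, f i := by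
  have hf' : ∀ i, be y (f i) = bs i := fun i => (mem_box.1 (Fintype.mem_piFinset.1 hf i)).2
  have hq' := (mem_box.1 hq).2
  have h1 : q ∉ S0 ∪ image f univ := by
    rw [mem_union, mem_image]
    rintro (h | ⟨i, -, h⟩)
    · exact (hS q h).1 hq'
    · exact good_win_ne hB (w i) w0 i.2.ne (by rw [← hf' i, h, hq'])
  have h2 : Disjoint S0 (image f univ) := by
    rw [disjoint_left]
    intro p hp h
    obtain ⟨i, -, rfl⟩ := mem_image.1 h
    exact (hS _ hp).2 i (hf' i)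
  have h3 : pr (image f univ) = ∏ i, f i := by
    refine prod_image fun i _ j _ e => ?_
    by_contra c
    exact good_win_ne hB (w i) (w j) (fun e' => c (Fin.ext e')) (by rw [← hf' i, ← hf' j, e])
  rw [pr_insert h1, pr_union h2, h3]; ring

theorem good_Z (hM : S_M) : ∀ᶠ y : ℕ in atTop,
    ∑ S ∈ (PP y).powerset, 1 / (pr S : ℝ) ≤ L y ^ 2 ∧ ∑ p ∈ PP y, 1 / (p : ℝ) ≤ L y := by
  obtain ⟨C, -, -, -, -, h4, -⟩ := hM
  filter_upwards [ev_L (exp C), ev_L 1, ev_T C, eventually_ge_atTop 2,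
    ev_T_pow 2 1 (e := 1) one_pos] with y h1 h2 h3 h5 h6
  have h7 := (abs_le.1 (h4 y (by exact_mod_cast h5))).2
  change _ - T y ≤ C at h7
  rw [rpow_one, pow_one] at h6
  refine ⟨?_, by linarith⟩
  have := sum_inv_pr (PP y) 1
  simp only [one_pow] at this
  rw [this]
  calc ∏ p ∈ PP y, (1 + 1 / (p : ℝ)) ≤ ∏ p ∈ PP y, exp (1 / (p : ℝ)) :=
        prod_le_prod (fun p _ => by positivity) fun p _ => by linarith [add_one_le_exp (1 / (p : ℝ))]
    _ = exp (∑ p ∈ PP y, 1 / (p : ℝ)) := (exp_sum _ _).symm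
    _ ≤ exp (C + T y) := exp_le_exp.2 (by linarith)
    _ ≤ L y ^ 2 := by rw [exp_add, exp_T (by linarith), sq]; gcongr

/-- the summand -/
def goodF (y : ℕ) (x : ℤ) (n0 : ℕ) (h : ℤ) (d : ℕ) : ℂ :=
  if Str y x d then 0 else ee ((h : ℝ) * ((x : ℝ) + n0) / d) / d

theorem good_trm {y : ℕ} (x : ℤ) (n0 : ℕ) (h : ℤ) {m0 : ℕ} (g : ℕ) {b0 : ℕ} {bs : Fin (r y) → ℕ}
    (hm : 1 ≤ m0) {u q : ℕ} (hu : 1 ≤ u) (hq : q ∈ box y b0) :
    ∑ f ∈ Fintype.piFinset (fun i => box y (bs i)), goodF y x n0 h (u * m0 * q * ∏ i, f i) =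
      trm y x n0 h m0 g b0 bs u q /
        ((exp ((g : ℝ) - 1) * m0 * Qb y b0 * ∏ i, Qb y (bs i) : ℝ) : ℂ) := by
  rw [trm, sum_div]
  refine sum_congr rfl fun f hf => ?_
  rw [goodF]
  split_ifs
  · simp
  have h1 : ∀ i, (0 : ℝ) < f i := fun i => by
    exact_mod_cast (mem_box.1 (Fintype.mem_piFinset.1 hf i)).1.pos
  have h2 : (0 : ℝ) < q := by exact_mod_cast (mem_box.1 hq).1.pos
  have h3 : (0 : ℝ) < u := by exact_mod_cast hu
  have h4 : (0 : ℝ) < m0 := by exact_mod_cast hm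
  have h5 : 0 < ∏ i, Qb y (bs i) := prod_pos fun i _ => Qb_pos _ _
  have h6 : (0 : ℝ) < ∏ i, (f i : ℝ) := prod_pos fun i _ => h1 i
  have h7 := Qb_pos y b0
  have h8 := exp_pos ((g : ℝ) - 1)
  have e : (exp ((g : ℝ) - 1) / u * (Qb y b0 / q) * ∏ i, Qb y (bs i) / f i) /
      (exp ((g : ℝ) - 1) * m0 * Qb y b0 * ∏ i, Qb y (bs i)) =
      1 / ((u * m0 * q * ∏ i, f i : ℕ) : ℝ) := by
    rw [prod_div_distrib]; push_cast; field_simp
  rw [mul_div_right_comm (Complex.ofReal _), ← Complex.ofReal_div, e]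
  push_cast; ring

theorem good_vol (y g b0 : ℕ) (bs : Fin (r y) → ℕ) {m0 : ℕ} (hm : 1 ≤ m0) :
    Vol y g b0 bs / G y ^ 5 / (exp ((g : ℝ) - 1) * m0 * Qb y b0 * ∏ i, Qb y (bs i)) =
      2 * (3 / DD y) ^ (r y + 1) / G y ^ 5 / m0 := by
  have h4 : (0 : ℝ) < m0 := by exact_mod_cast hm
  have h5 : 0 < ∏ i, Qb y (bs i) := prod_pos fun i _ => Qb_pos _ _
  have h7 := Qb_pos y b0
  have h8 := exp_pos ((g : ℝ) - 1)
  have h9 := G_pos y
  have h2 : (0 : ℝ) < DD y := by exact_mod_cast DD_pos y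
  have e : ∏ i, Vb y (bs i) = (3 / DD y) ^ r y * ∏ i, Qb y (bs i) := by
    simp only [Vb, mul_div_right_comm, prod_mul_distrib, prod_const, card_univ, Fintype.card_fin]
  rw [Vol, e, Vb, pow_succ (3 / (DD y : ℝ))]; field_simp

theorem good_cnt {y : ℕ} (hB : 2 ≤ B y) (I : Finset (Finset ℕ × ℕ × (Fin (r y) → ℕ)))
    (hI : ∀ t ∈ I, Win y (r y) t.2.1 ∧ (∀ i : Fin (r y), Win y i (t.2.2 i)) ∧ t.1 ⊆ PP y) :
    ∑ t ∈ I, 1 / (pr t.1 : ℝ) ≤
      (∑ S ∈ (PP y).powerset, 1 / (pr S : ℝ)) * (aa y (r y + 1) : ℝ) ^ (r y + 1) := by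
  have h : I ⊆ (PP y).powerset ×ˢ (Icc 1 (aa y (r y + 1)) ×ˢ
      Fintype.piFinset (fun _ : Fin (r y) => Icc 1 (aa y (r y + 1)))) := by
    intro t ht
    obtain ⟨h1, h2, h3⟩ := hI t ht
    simp only [mem_product, mem_powerset, mem_Icc, Fintype.mem_piFinset]
    refine ⟨h3, ⟨by have := h1.1; omega, h1.2⟩, fun i => ⟨by have := (h2 i).1; omega, ?_⟩⟩
    exact (h2 i).2.trans (good_aa_mono hB (by omega))
  refine (sum_le_sum_of_subset_of_nonneg h fun _ _ _ => by positivity).trans_eq ?_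
  rw [sum_product, sum_mul]
  refine sum_congr rfl fun S _ => ?_
  simp only [sum_const, card_product, Nat.card_Icc, Fintype.card_piFinset, prod_const, card_univ,
    Fintype.card_fin, nsmul_eq_mul, Nat.add_sub_cancel]
  push_cast; ring

theorem good_fib (hFibre : S_Fibre) (hInv : S_Inv) (hFib : S_Fib) (hSize : S_Size) (hGeo : S_Geo)
    (hM : S_M) (J : ℕ) (hJ : 3 ≤ J) : ∀ᶠ y : ℕ in atTop, ∀ (x : ℤ) (n0 : ℕ) (h : ℤ) (g : ℕ)
    (U : Finset ℕ), n0 < y → h ≠ 0 → |(h : ℝ)| ≤ G y ^ 3 → GR y J g →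
    (∀ u ∈ U, u.Prime ∧ Uniq y x u ∧ gg u = g) → ∀ N ∈ Nd y J x g,
    ‖∑ S ∈ Gd y J g N, (sg S : ℂ) * ∑ u ∈ U, goodF y x n0 h (u * pr N * pr S)‖ ≤
      2 * L y ^ 2 / G y ^ 4 / pr N := by
  have hJ' : (3 : ℝ) ≤ J := by exact_mod_cast hJ
  filter_upwards [hInv J hJ, hFib J hJ, hSize J hJ, hGeo J hJ, good_Z hM, ev_logB, ev_B_rr,
    ev_B_r (e := 1 / 2) (by norm_num), ev_L_rpow (16 * J) (show (1 / 2 : ℝ) < 1 by norm_num),
    ev_L 1, eventually_ge_atTop 1, ev_T 0] with y h1 h2 h3 h4 h5 h6 h7 h8 h9 h10 h11 h12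
  intro x n0 h g U hn h0 hh hg hU N hN
  obtain ⟨g1, g2, g3, -⟩ := h4.2 g hg
  have hD : (0 : ℝ) < DD y := by exact_mod_cast DD_pos y
  rw [rpow_one] at h9
  have hv : 0 < vv y J g := lt_of_lt_of_le (by positivity) g1
  have hlo : vv y J g / 2 ≤ lo y J g ∧ lo y J g ≤ vv y J g := by
    have : 1 / (4 * (J : ℝ)) ≤ 1 / 2 := one_div_le_one_div_of_le (by norm_num) (by linarith)
    have : 0 ≤ 1 / (4 * (J : ℝ)) := by positivity
    rw [lo]; constructor <;> nlinarith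
  have hBlo : (B y : ℝ) ^ (r y + 2) ≤ lo y J g := by
    rw [div_le_iff₀ (by positivity)] at g1
    nlinarith
  have hNR := (mem_powersetCard.1 hN).1
  have hNp : ∀ p ∈ N, p.Prime ∧ exp (lo y J g) < p ∧ (p : ℝ) ≤ exp (vv y J g) := fun p hp => by
    have := mem_filter.1 (hNR hp)
    exact ⟨(mem_PP.1 this.1).1, this.2.1, (mem_PP.1 this.1).2⟩
  have hG : ∀ S ∈ Gd y J g N, ∀ p ∈ S, p.Prime ∧ (p : ℝ) ≤ exp (lo y J g) := fun S hS p hp =>
    mem_PP.1 ((mem_Fam.1 (mem_filter.1 (mem_filter.1 hS).1).1).1 hp)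
  obtain ⟨I, hI, hb⟩ := hFibre y (Gd y J g N) (fun S => ∑ u ∈ U, goodF y x n0 h (u * pr N * pr S))
    (DD_pos y) h6.1 (fun S hS => ⟨fun p hp => (hG S hS p hp).1, (mem_filter.1 hS).2⟩) (h1 g hg N)
  have hpN := pr_pos fun p hp => (hNp p hp).1
  have hpN' : (0 : ℝ) < pr N := by exact_mod_cast hpN
  have hGp := G_pos y
  refine hb.trans ((sum_le_sum (g := fun t => 2 * (3 / DD y) ^ (r y + 1) / G y ^ 5 / pr N *
    (1 / (pr t.1 : ℝ))) fun t ht => ?_).trans ?_)
  · obtain ⟨w0, w, hS0, S, hS, hsub, hsum⟩ := hI t ht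
    have hp0 : ∀ p ∈ t.1, p.Prime := fun p hp => (hG S hS p (hsub hp)).1
    have hpS := pr_pos hp0
    have hm : 1 ≤ pr N * pr t.1 := Nat.mul_pos hpN hpS
    have hdv : ∀ p : ℕ, p.Prime → p ∣ pr N * pr t.1 → p ∈ N ∨ p ∈ t.1 := fun p hp d =>
      ((Nat.Prime.dvd_mul hp).1 d).imp (prime_dvd_pr (fun p hp => (hNp p hp).1) hp).1
        (prime_dvd_pr hp0 hp).1
    have hF : FibH y J x n0 h (pr N * pr t.1) g t.2.1 t.2.2 U := by
      refine ⟨w0, w, hn, h0, hh, hm, hg, fun u hu => ?_, fun p hp d => ?_, ?_⟩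
      · obtain ⟨u1, u2, u3⟩ := hU u hu
        refine ⟨u1, u2, u3, fun d => ?_⟩
        have u4 : (g : ℝ) < log u + 1 := by
          rw [← u3]; exact Nat.ceil_lt_add_one (log_natCast_nonneg u)
        have u5 : exp (vv y J g) < u := by
          rw [← lt_log_iff_exp_lt (by exact_mod_cast u1.pos)]; linarith
        rcases hdv u u1 d with c | c
        · linarith [(hNp u c).2.2]
        · linarith [(hG S hS u (hsub c)).2, exp_le_exp.2 hlo.2]
      · rcases hdv p hp d with c | c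
        · have c1 : lo y J g < log p := by
            rw [lt_log_iff_exp_lt (by exact_mod_cast hp.pos)]; exact (hNp p c).2.1
          have c2 : aa y (r y + 1) < be y p := by
            have := be_ge y p
            have c3 := aa_div y (r y + 1)
            rw [div_eq_iff hD.ne'] at c3
            have : (aa y (r y + 1) : ℝ) < be y p := by rw [c3]; nlinarith
            exact_mod_cast this
          refine ⟨by have := w0.2; omega, fun i => ?_⟩
          have := (w i).2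
          have := good_aa_mono h6.1 (show (i : ℕ) + 1 ≤ r y + 1 by omega)
          omega
        · exact hS0 p c
      · refine le_trans ?_ (h3 x g hg N hN S (mem_filter.1 hS).1).2.1
        have c1 : (pr t.1 : ℝ) ≤ exp ((∑ p ∈ t.1, be y p : ℕ) / (DD y : ℝ)) := by
          rw [← log_le_iff_le_exp (by exact_mod_cast hpS), log_pr hp0, le_div_iff₀ hD, sum_mul]
          push_cast
          exact sum_le_sum fun p _ => by linarith [be_ge y p]
        rw [hsum, ← exp_sum, ← sum_div]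
        push_cast at c1 ⊢
        rw [add_div, add_div, exp_add, exp_add]
        calc _ = exp g * pr N * (pr t.1 * exp ((t.2.1 : ℝ) / DD y) *
              exp ((∑ i, (t.2.2 i : ℝ)) / DD y)) := by ring
          _ ≤ _ := by gcongr
    have e : ∑ q ∈ box y t.2.1, ∑ f ∈ Fintype.piFinset (fun i => box y (t.2.2 i)),
        ∑ u ∈ U, goodF y x n0 h (u * pr N * pr (insert q (t.1 ∪ image f univ))) =
        (∑ u ∈ U, ∑ q ∈ box y t.2.1, trm y x n0 h (pr N * pr t.1) g t.2.1 t.2.2 u q) /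
        ((exp ((g : ℝ) - 1) * (pr N * pr t.1 : ℕ) * Qb y t.2.1 * ∏ i, Qb y (t.2.2 i) : ℝ) : ℂ) := by
      rw [sum_comm (s := U), sum_div]
      refine sum_congr rfl fun q hq => ?_
      rw [sum_comm, sum_div]
      refine sum_congr rfl fun u hu => ?_
      rw [← good_trm x n0 h g hm (hU u hu).1.pos hq]
      refine sum_congr rfl fun f hf => ?_
      rw [good_pr h6.1 w0 w hS0 hq hf]
      congr 1; ring
    have c0 : 0 < exp ((g : ℝ) - 1) * (pr N * pr t.1 : ℕ) * Qb y t.2.1 * ∏ i, Qb y (t.2.2 i) :=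
      mul_pos (mul_pos (mul_pos (exp_pos _) (by exact_mod_cast hm)) (Qb_pos _ _))
        (prod_pos fun i _ => Qb_pos _ _)
    rw [e, norm_div, Complex.norm_real, norm_of_nonneg c0.le]
    refine (div_le_div_of_nonneg_right (h2 x n0 h _ g _ _ U hF) c0.le).trans_eq ?_
    rw [good_vol y g _ _ hm]; push_cast; field_simp
  · rw [← mul_sum]
    have c1 := good_cnt h6.1 I fun t ht => by
      obtain ⟨w0, w, -, S, hS, hsub, -⟩ := hI t ht
      refine ⟨w0, w, fun p hp => mem_PP.2 ⟨(hG S hS p (hsub hp)).1, (hG S hS p (hsub hp)).2.trans ?_⟩⟩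
      rw [← exp_L h11]; exact exp_le_exp.2 (by linarith)
    have c2 : (3 / (DD y : ℝ)) ^ (r y + 1) * (aa y (r y + 1) : ℝ) ^ (r y + 1) ≤ G y := by
      rw [← mul_pow, div_mul_eq_mul_div, mul_div_assoc, aa_div]
      refine h7.trans ?_
      have : 1 ≤ G y := one_le_exp (mul_nonneg h12 (sqrt_nonneg _))
      rw [sqrt_le_left hGp.le]; nlinarith
    calc _ ≤ 2 * (3 / DD y) ^ (r y + 1) / G y ^ 5 / pr N *
          (L y ^ 2 * (aa y (r y + 1) : ℝ) ^ (r y + 1)) := by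
          gcongr; exact c1.trans (by gcongr; exact h5.1)
      _ = 2 * L y ^ 2 * ((3 / (DD y : ℝ)) ^ (r y + 1) * (aa y (r y + 1) : ℝ) ^ (r y + 1)) /
          G y ^ 5 / pr N := by ring
      _ ≤ 2 * L y ^ 2 * G y / G y ^ 5 / pr N := by gcongr
      _ = _ := by field_simp

theorem good_inner (hFibre : S_Fibre) (hInv : S_Inv) (hFib : S_Fib) (hSize : S_Size)
    (hGeo : S_Geo) (hMass : S_Mass) (hM : S_M) (J : ℕ) (hJ : 3 ≤ J) : ∀ᶠ y : ℕ in atTop,
    ∀ (x : ℤ) (n0 : ℕ) (h : ℤ) (E : Finset ℕ), n0 < y → h ≠ 0 → |(h : ℝ)| ≤ G y ^ 3 → EE y J x E →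
    ‖∑ u ∈ E, ∑ N ∈ Nd y J x (gg u), ∑ S ∈ Gd y J (gg u) N,
      (sg S : ℂ) * goodF y x n0 h (u * pr N * pr S)‖ ≤ 2 * L y ^ 3 / G y ^ 4 := by
  obtain ⟨c, -, hc⟩ := hMass J hJ
  filter_upwards [good_fib hFibre hInv hFib hSize hGeo hM J hJ, hGeo J hJ, hc, ev_L 3]
    with y h1 h2 h3 h4
  intro x n0 h E hn h0 hh hE
  have hG := G_pos y
  have hgr : ∀ u ∈ E, GR y J (gg u) := fun u hu => (h2.1 u (hE.1 u hu).2.1 (hE.1 u hu).2.2.1).1
  rw [← sum_fiberwise_of_maps_to (fun u hu => mem_image_of_mem gg hu)]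
  refine (norm_sum_le _ _).trans ((sum_le_card_nsmul _ _ (2 * L y ^ 2 / G y ^ 4)
    fun g hg => ?_).trans ?_)
  · obtain ⟨u0, hu0, rfl⟩ := mem_image.1 hg
    rw [sum_congr rfl (g := fun u => ∑ N ∈ Nd y J x (gg u0), ∑ S ∈ Gd y J (gg u0) N,
      (sg S : ℂ) * goodF y x n0 h (u * pr N * pr S)) fun u hu => by rw [(mem_filter.1 hu).2],
      sum_comm]
    refine (norm_sum_le _ _).trans ((sum_le_sum (g := fun N => 2 * L y ^ 2 / G y ^ 4 *
      (1 / (pr N : ℝ))) fun N hN => ?_).trans ?_)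
    · rw [sum_comm, mul_one_div]
      simp only [← mul_sum]
      exact h1 x n0 h _ _ hn h0 hh (hgr u0 hu0) (fun u hu => by
        have := mem_filter.1 hu
        exact ⟨(hE.1 u this.1).1, (hE.1 u this.1).2.2.2, this.2⟩) N hN
    · rw [← mul_sum]
      exact mul_le_of_le_one_right (by positivity) (h3 x _ (hgr u0 hu0)).2
  · have c1 : image gg E ⊆ range (⌊2 / 3 * L y⌋₊ + 1) := fun g hg => by
      obtain ⟨u0, hu0, rfl⟩ := mem_image.1 hg
      exact mem_range.2 (Nat.lt_succ_of_le (Nat.le_floor (h2.2 _ (hgr u0 hu0)).2.2.1))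
    have c2 : ((image gg E).card : ℝ) ≤ L y := by
      have := card_le_card c1
      rw [card_range] at this
      have c3 : ((image gg E).card : ℝ) ≤ ⌊2 / 3 * L y⌋₊ + 1 := by exact_mod_cast this
      have := Nat.floor_le (show 0 ≤ 2 / 3 * L y by positivity)
      linarith
    rw [nsmul_eq_mul]
    calc _ ≤ L y * (2 * L y ^ 2 / G y ^ 4) := by gcongr
      _ = _ := by ring

theorem s_Good (hFour : S_Four) (hFibre : S_Fibre) (hInv : S_Inv) (hFib : S_Fib) (hSize : S_Size)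
    (hGeo : S_Geo) (hMass : S_Mass) (hM : S_M) : S_Good := by
  intro J hJ
  obtain ⟨c, -, hc⟩ := hMass J hJ
  filter_upwards [good_inner hFibre hInv hFib hSize hGeo hMass hM J hJ, hGeo J hJ, hc, ev_L 3,
    hSize J hJ, good_Z hM, ev_L_G 20 6, eventually_ge_atTop 3, ev_T 2, ev_kap_T 3,
    ev_T_pow 5 2 (e := 1) one_pos, ev_TlogT 1, ev_log_sT 0] with y h1 h2 h3 h4 h5 h6 h7 h8 h9 h10
    h11 h12 h13
  intro x E hE
  have hG := G_pos y
  have hL6 : (1 : ℝ) ≤ L y ^ 6 := one_le_pow₀ (by linarith)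
  have hG3 : (2 : ℝ) ≤ G y ^ 3 := by
    have : (20 : ℝ) ^ 3 ≤ G y ^ 3 := pow_le_pow_left₀ (by norm_num) (by linarith) 3
    linarith
  have hy : (3 : ℝ) ≤ y := by exact_mod_cast h8
  have hK1 : 1 ≤ H y := by rw [H]; omega
  have hK2 : 2 * H y ≤ y := by rw [H]; omega
  have hK3 : (y : ℝ) ≤ 3 * H y := by exact_mod_cast (by rw [H]; omega : y ≤ 3 * H y)
  have hK4 : 2 * (H y : ℝ) ≤ y := by exact_mod_cast hK2
  have hK : (0 : ℝ) < H y := by exact_mod_cast hK1
  set H0 := ⌊G y ^ 3⌋₊ with hH0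
  have a1 : (H0 : ℝ) ≤ G y ^ 3 := Nat.floor_le (by positivity)
  have a2 : G y ^ 3 ≤ 2 * H0 := by linarith [Nat.lt_floor_add_one (G y ^ 3)]
  have a3 : (1 : ℝ) ≤ H0 := by linarith
  have a4 : exp (l1 y) = y * G y := by rw [l1, exp_add, exp_L (by omega), G]
  have hgr : ∀ u ∈ E, GR y J (gg u) ∧ (gg u : ℝ) - 1 < log u ∧ log u ≤ gg u := fun u hu =>
    h2.1 u (hE.1 u hu).2.1 (hE.1 u hu).2.2.1
  rw [rpow_one] at h11
  have key : ∀ u ∈ E, ∀ N ∈ Nd y J x (gg u), ∀ S ∈ Gd y J (gg u) N,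
      ‖((if Str y x (u * pr N * pr S) then 0 else sg S * (A0 (H y) x (u * pr N * pr S) -
        (H y : ℝ) / (u * pr N * pr S : ℕ)) : ℝ) : ℂ) - (∑ a ∈ range (H y), ∑ b ∈ range (H y),
        ∑ h ∈ (Icc (-(H0 : ℤ)) H0).erase 0, (sg S : ℂ) * goodF y x (a + b) h (u * pr N * pr S)) /
          H y‖ ≤ 6 * y / G y * (1 / (u : ℝ) * (1 / (pr N : ℝ) * (1 / (pr S : ℝ)))) := by
    intro u hu N hN S hS
    obtain ⟨b1, -, b2, -⟩ := h5 x _ (hgr u hu).1 N hN S (mem_filter.1 hS).1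
    obtain ⟨-, b3, b4⟩ := hgr u hu
    have hu0 : (0 : ℝ) < u := by exact_mod_cast (hE.1 u hu).1.pos
    have b5 : (u : ℝ) ≤ exp (gg u) := (log_le_iff_le_exp hu0).1 b4
    have b6 : exp ((gg u : ℝ) - 1) ≤ u := ((lt_log_iff_exp_lt hu0).1 b3).le
    have b7 : ((u * pr N * pr S : ℕ) : ℝ) ≤ y * G y := by
      rw [← a4]; push_cast; exact le_trans (by gcongr) b2
    have b8 : 2 * (H0 : ℝ) < (u * pr N * pr S : ℕ) := by
      have c1 : exp (l0 y - 1) * exp (-1) ≤ (u * pr N * pr S : ℕ) := by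
        push_cast
        calc _ ≤ exp (gg u) * pr N * pr S * exp (-1) := by gcongr
          _ = exp ((gg u : ℝ) - 1) * pr N * pr S := by rw [sub_eq_add_neg, exp_add]; ring
          _ ≤ _ := by gcongr
      refine lt_of_lt_of_le ?_ c1
      rw [← exp_add]
      calc 2 * (H0 : ℝ) ≤ 2 * exp (3 * kap y) := by rw [G_pow] at a1; push_cast at a1; linarith
        _ < exp 1 * exp (3 * kap y) := by gcongr; linarith [exp_one_gt_d9]
        _ ≤ _ := by rw [← exp_add, l0]; exact exp_le_exp.2 (by nlinarith)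
    have b9 : (0 : ℝ) < (u * pr N * pr S : ℕ) := by linarith
    have b10 : ((u * pr N * pr S : ℕ) : ℝ) / (H y * H0) ≤
        6 * y / G y * (1 / (u : ℝ) * (1 / (pr N : ℝ) * (1 / (pr S : ℝ)))) := by
      rw [show 1 / (u : ℝ) * (1 / (pr N : ℝ) * (1 / (pr S : ℝ))) = 1 / (u * pr N * pr S : ℕ) by
        push_cast; ring, mul_one_div, div_div, div_le_div_iff₀ (by positivity) (by positivity)]
      calc _ = G y * ((u * pr N * pr S : ℕ) * (u * pr N * pr S : ℕ)) := by ring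
        _ ≤ G y * (y * G y * (y * G y)) := by gcongr
        _ = y * (y * G y ^ 3) := by ring
        _ ≤ y * (3 * H y * (2 * H0)) := by gcongr
        _ = _ := by ring
    by_cases hs : Str y x (u * pr N * pr S)
    · simp only [goodF, if_pos hs, mul_zero, sum_const_zero, zero_div, Complex.ofReal_zero,
        sub_zero, norm_zero]
      positivity
    · simp only [goodF, if_neg hs, ← mul_sum]
      rw [mul_div_assoc, Complex.ofReal_mul, ← mul_sub, norm_mul, Complex.norm_real, sg, norm_pow,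
        norm_neg, norm_one, one_pow, one_mul]
      exact ((hFour (H y) _ x hK1 (by exact_mod_cast b9)).2 H0 (by exact_mod_cast a3)
        (by exact_mod_cast b8)).trans b10
  rw [← Real.norm_eq_abs, ← Complex.norm_real, nsum]
  push_cast
  refine (norm_le_norm_add_norm_sub' _ (∑ u ∈ E, ∑ N ∈ Nd y J x (gg u), ∑ S ∈ Gd y J (gg u) N,
    (∑ a ∈ range (H y), ∑ b ∈ range (H y), ∑ h ∈ (Icc (-(H0 : ℤ)) H0).erase 0,
      (sg S : ℂ) * goodF y x (a + b) h (u * pr N * pr S)) / H y)).trans ?_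
  have t1 : ‖∑ u ∈ E, ∑ N ∈ Nd y J x (gg u), ∑ S ∈ Gd y J (gg u) N,
      (∑ a ∈ range (H y), ∑ b ∈ range (H y), ∑ h ∈ (Icc (-(H0 : ℤ)) H0).erase 0,
      (sg S : ℂ) * goodF y x (a + b) h (u * pr N * pr S)) / H y‖ ≤ 2 * y * L y ^ 3 / G y := by
    have e : ∑ u ∈ E, ∑ N ∈ Nd y J x (gg u), ∑ S ∈ Gd y J (gg u) N,
        (∑ a ∈ range (H y), ∑ b ∈ range (H y), ∑ h ∈ (Icc (-(H0 : ℤ)) H0).erase 0,
        (sg S : ℂ) * goodF y x (a + b) h (u * pr N * pr S)) / H y =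
        (∑ a ∈ range (H y), ∑ b ∈ range (H y), ∑ h ∈ (Icc (-(H0 : ℤ)) H0).erase 0,
        ∑ u ∈ E, ∑ N ∈ Nd y J x (gg u), ∑ S ∈ Gd y J (gg u) N,
        (sg S : ℂ) * goodF y x (a + b) h (u * pr N * pr S)) / H y := by
      simp only [← sum_div]
      congr 1
      simp only [sum_comm (s := E), sum_comm (s := Nd y J x _), sum_comm (s := Gd y J _ _)]
    rw [e, norm_div, Complex.norm_natCast, div_le_iff₀ hK]
    refine (norm_sum_le _ _).trans ((sum_le_card_nsmul _ _ (2 * y * L y ^ 3 / G y)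
      fun a ha => ?_).trans_eq (by rw [card_range, nsmul_eq_mul, mul_comm]))
    refine (norm_sum_le _ _).trans ((sum_le_card_nsmul _ _ (4 * L y ^ 3 / G y)
      fun b hb => ?_).trans ?_)
    · refine (norm_sum_le _ _).trans ((sum_le_card_nsmul _ _ (2 * L y ^ 3 / G y ^ 4)
        fun h hh => ?_).trans ?_)
      · have := mem_erase.1 hh
        have c := mem_Icc.1 this.2
        refine h1 x _ h E (by have := mem_range.1 ha; have := mem_range.1 hb; omega) this.1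
          (le_trans ?_ a1) hE
        exact_mod_cast abs_le.2 c
      · rw [card_erase_of_mem (by simp), Int.card_Icc, nsmul_eq_mul,
          show ((H0 : ℤ) + 1 - -(H0 : ℤ)).toNat - 1 = 2 * H0 by omega]
        push_cast
        calc _ ≤ 2 * G y ^ 3 * (2 * L y ^ 3 / G y ^ 4) := by gcongr
          _ = _ := by field_simp; ring
    · rw [card_range, nsmul_eq_mul]
      calc _ ≤ y / 2 * (4 * L y ^ 3 / G y) := by gcongr; linarith
        _ = _ := by ring
  have t2 : ∑ u ∈ E, ∑ N ∈ Nd y J x (gg u), ∑ S ∈ Gd y J (gg u) N,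
      6 * y / G y * (1 / (u : ℝ) * (1 / (pr N : ℝ) * (1 / (pr S : ℝ)))) ≤
      6 * y / G y * (L y * L y ^ 2) := by
    simp only [← mul_sum]
    gcongr
    have hz : z y ≤ y := by
      rw [z, ← exp_L (by omega : 1 ≤ y), ← exp_half, ← exp_add]
      exact exp_le_exp.2 (by nlinarith)
    refine (sum_le_sum (g := fun u : ℕ => 1 / (u : ℝ) * L y ^ 2) fun u hu => ?_).trans ?_
    · gcongr
      refine (sum_le_sum (g := fun N => 1 / (pr N : ℝ) * L y ^ 2) fun N hN => ?_).trans ?_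
      · gcongr
        refine le_trans (sum_le_sum_of_subset_of_nonneg (fun S hS => ?_)
          fun _ _ _ => by positivity) h6.1
        refine mem_powerset.2 fun p hp => ?_
        have := mem_PP.1 ((mem_Fam.1 (mem_filter.1 (mem_filter.1 hS).1).1).1 hp)
        refine mem_PP.2 ⟨this.1, this.2.trans ?_⟩
        obtain ⟨g1, g2, g3, -⟩ := h2.2 _ (hgr u hu).1
        have hv : 0 < vv y J (gg u) := lt_of_lt_of_le (by positivity) g1
        have : 0 ≤ 1 / (4 * (J : ℝ)) := by positivity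
        rw [← exp_L (by omega : 1 ≤ y), lo]
        exact exp_le_exp.2 (by nlinarith)
      · rw [← sum_mul]
        exact mul_le_of_le_one_left (by positivity) (h3 x _ (hgr u hu).1).2
    · rw [← sum_mul]
      gcongr
      exact le_trans (sum_le_sum_of_subset_of_nonneg (fun u hu => mem_PP.2 ⟨(hE.1 u hu).1,
        (hE.1 u hu).2.2.1.trans hz⟩) fun _ _ _ => by positivity) h6.2
  refine (add_le_add t1 (le_trans ?_ t2)).trans ?_
  · simp only [← sum_sub_distrib]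
    refine (norm_sum_le _ _).trans (sum_le_sum fun u hu => (norm_sum_le _ _).trans
      (sum_le_sum fun N hN => (norm_sum_le _ _).trans (sum_le_sum fun S hS => ?_)))
    have := key u hu N hN S hS
    push_cast at this ⊢
    exact this
  · rw [le_div_iff₀ (by positivity)]
    calc _ = y * (8 * L y ^ 6 / G y) := by ring
      _ ≤ y * 1 := by gcongr; rw [div_le_one hG]; linarith
      _ = _ := mul_one _

end Jac
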