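import Vale.Agent.P013.Stm2

/-! Growth of the parameters and elementary facts on boxes. -/

noncomputable section
namespace Jac
open Finset Real Filter
open scoped Classical

theorem L_top : Tendsto L atTop atTop := tendsto_log_atTop.comp tendsto_natCast_atTop_atTop
theorem T_top : Tendsto T atTop atTop := tendsto_log_atTop.comp L_top
theorem ev_L (C : ℝ) : ∀ᶠ y : ℕ in atTop, C ≤ L y := L_top.eventually_ge_atTop C
theorem ev_T (C : ℝ) : ∀ᶠ y : ℕ in atTop, C ≤ T y := T_top.eventually_ge_atTop C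
theorem ev_sT (C : ℝ) : ∀ᶠ y : ℕ in atTop, C ≤ √(T y) :=
  (tendsto_sqrt_atTop.comp T_top).eventually_ge_atTop C
theorem exp_L {y : ℕ} (h : 1 ≤ y) : exp (L y) = y := exp_log (by exact_mod_cast h)
theorem exp_T {y : ℕ} (h : 0 < L y) : exp (T y) = L y := exp_log h
theorem rpow_eq {y : ℕ} (h : 1 ≤ y) (e : ℝ) : (y : ℝ) ^ e = exp (e * L y) := by
  rw [rpow_def_of_pos (by exact_mod_cast h), mul_comm]; rfl
theorem L_rpow {y : ℕ} (h : 0 < L y) (e : ℝ) : L y ^ e = exp (e * T y) := by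
  rw [rpow_def_of_pos h, mul_comm]; rfl
theorem G_pow (y k : ℕ) : G y ^ k = exp (k * kap y) := by rw [G, exp_nat_mul]
theorem G_pos (y : ℕ) : 0 < G y := exp_pos _

/-- `C t^a ≤ t^b` for large `t` -/
theorem ev_rpow_lt (C : ℝ) {a b : ℝ} (h : a < b) : ∀ᶠ t : ℝ in atTop, C * t ^ a ≤ t ^ b := by
  filter_upwards [(tendsto_rpow_atTop (sub_pos.2 h)).eventually_ge_atTop C,
    eventually_gt_atTop 0] with t h1 h2
  have : t ^ b = t ^ (b - a) * t ^ a := by rw [← rpow_add h2]; ring_nf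
  rw [this]; exact mul_le_mul_of_nonneg_right h1 (by positivity)
theorem ev_L_rpow (C : ℝ) {a b : ℝ} (h : a < b) : ∀ᶠ y : ℕ in atTop, C * L y ^ a ≤ L y ^ b :=
  L_top.eventually (ev_rpow_lt C h)
/-- `C t^k ≤ exp (e t)` for large `t` -/
theorem ev_pow_exp (C : ℝ) (k : ℕ) {e : ℝ} (he : 0 < e) :
    ∀ᶠ t : ℝ in atTop, C * t ^ k ≤ exp (e * t) := by
  have h := (isLittleO_pow_exp_pos_mul_atTop k he).bound (c := 1 / (|C| + 1)) (by positivity)
  filter_upwards [h, eventually_ge_atTop 0] with t h1 h2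
  rw [norm_of_nonneg (by positivity), norm_of_nonneg (exp_pos _).le, div_mul_eq_mul_div, one_mul,
    le_div_iff₀ (by positivity)] at h1
  have : C * t ^ k ≤ t ^ k * (|C| + 1) := by
    have := le_abs_self C
    have : 0 ≤ t ^ k := by positivity
    nlinarith
  linarith
/-- powers of `T` are below small powers of `L` -/
theorem ev_T_pow (C : ℝ) (k : ℕ) {e : ℝ} (he : 0 < e) : ∀ᶠ y : ℕ in atTop, C * T y ^ k ≤ L y ^ e := by
  filter_upwards [T_top.eventually (ev_pow_exp C k he), ev_L 1] with y h1 h2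
  rwa [L_rpow (by linarith)]
/-- powers of `L` are below small powers of `y` -/
theorem ev_L_pow (C : ℝ) (k : ℕ) {e : ℝ} (he : 0 < e) :
    ∀ᶠ y : ℕ in atTop, C * L y ^ k ≤ (y : ℝ) ^ e := by
  filter_upwards [L_top.eventually (ev_pow_exp C k he), eventually_ge_atTop 1] with y h1 h2
  rwa [rpow_eq h2]
theorem ev_T_kap (C : ℝ) : ∀ᶠ y : ℕ in atTop, C * T y ≤ kap y := by
  filter_upwards [ev_sT C, ev_T 0] with y h1 h2
  rw [kap, mul_comm]; exact mul_le_mul_of_nonneg_left h1 h2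
theorem ev_kap_T (C : ℝ) : ∀ᶠ y : ℕ in atTop, C * kap y ≤ T y ^ 2 := by
  filter_upwards [ev_sT C, ev_T 0] with y h1 h2
  have h3 := mul_self_sqrt h2
  have h4 : 0 ≤ T y * √(T y) := by positivity
  rw [kap]; nlinarith
theorem ev_log_sT (C : ℝ) : ∀ᶠ y : ℕ in atTop, C * log (T y) ≤ √(T y) := by
  have h := (isLittleO_log_rpow_atTop (r := 1 / 2) (by norm_num)).bound (c := 1 / (|C| + 1))
    (by positivity)
  filter_upwards [T_top.eventually h, ev_T 1] with y h1 h2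
  have h3 : 0 ≤ log (T y) := log_nonneg h2
  rw [norm_of_nonneg h3, norm_of_nonneg (by positivity), ← sqrt_eq_rpow, div_mul_eq_mul_div,
    one_mul, le_div_iff₀ (by positivity)] at h1
  have := le_abs_self C
  nlinarith
theorem ev_TlogT (C : ℝ) : ∀ᶠ y : ℕ in atTop, C * (T y * log (T y)) ≤ kap y := by
  filter_upwards [ev_log_sT C, ev_T 0] with y h1 h2
  rw [kap]; nlinarith
/-- powers of `L` are below `G` -/
theorem ev_L_G (C : ℝ) (k : ℕ) : ∀ᶠ y : ℕ in atTop, C * L y ^ k ≤ G y := by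
  filter_upwards [ev_T_kap (k + 1), ev_L (max C 1)] with y h1 h2
  have h3 : 1 ≤ L y := (le_max_right _ _).trans h2
  have h4 : C ≤ L y := (le_max_left _ _).trans h2
  have : L y ^ (k + 1) ≤ G y := by
    rw [← exp_T (y := y) (by linarith), ← exp_nat_mul, G]; exact exp_le_exp.2 (by push_cast; exact h1)
  refine le_trans ?_ this
  rw [pow_succ, mul_comm]; exact mul_le_mul_of_nonneg_left h4 (by positivity)
theorem B_ge (y : ℕ) : T y ^ 2 ≤ B y := Nat.le_ceil _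
theorem B_le (y : ℕ) : (B y : ℝ) ≤ T y ^ 2 + 1 := (Nat.ceil_lt_add_one (by positivity)).le
theorem r_ge (y : ℕ) : 12000 * √(T y) ≤ r y := Nat.le_ceil _
theorem r_le (y : ℕ) : (r y : ℝ) ≤ 12000 * √(T y) + 1 := (Nat.ceil_lt_add_one (by positivity)).le
theorem DD_ge (y : ℕ) : G y ^ 4 ≤ DD y := Nat.le_ceil _
theorem DD_le (y : ℕ) : (DD y : ℝ) ≤ G y ^ 4 + 1 :=
  (Nat.ceil_lt_add_one (pow_pos (G_pos y) 4).le).le
theorem DD_pos (y : ℕ) : 0 < DD y := Nat.ceil_pos.2 (pow_pos (G_pos y) 4)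
/-- powers of `G` are below `exp B` -/
theorem ev_G_B (k : ℕ) : ∀ᶠ y : ℕ in atTop, G y ^ k ≤ exp (B y / 2 - 1) := by
  filter_upwards [ev_kap_T (4 * k), ev_T 2] with y h1 h2
  rw [G_pow]; refine exp_le_exp.2 ?_
  have := B_ge y
  nlinarith
theorem ev_logB : ∀ᶠ y : ℕ in atTop, 2 ≤ B y ∧ log (B y) ≤ 3 * log (T y) := by
  filter_upwards [ev_T 2] with y h
  have h1 := B_ge y
  have h2 := B_le y
  have h3 : (2 : ℝ) ≤ B y := by nlinarith
  refine ⟨by exact_mod_cast h3, ?_⟩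
  rw [show 3 * log (T y) = log (T y ^ 3) by rw [log_pow]; norm_num]
  exact log_le_log (by linarith) (by nlinarith)
/-- the top of the windows is small -/
theorem ev_B_r {e : ℝ} (he : 0 < e) : ∀ᶠ y : ℕ in atTop, (B y : ℝ) ^ (r y + 2) ≤ L y ^ e := by
  filter_upwards [ev_logB, ev_log_sT (36009 / e), ev_sT 1, ev_L 1, ev_T 1] with y h1 h2 h3 h4 h5
  have hB : (0 : ℝ) < B y := by exact_mod_cast (by omega : 0 < B y)
  rw [L_rpow (by linarith), ← exp_log hB, ← exp_nat_mul]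
  refine exp_le_exp.2 ?_
  have h6 := r_le y
  have h7 : 0 ≤ log (T y) := log_nonneg h5
  have h8 := mul_self_sqrt (by linarith : 0 ≤ T y)
  rw [div_mul_eq_mul_div, div_le_iff₀ he] at h2
  have h9 : ((r y + 2 : ℕ) : ℝ) ≤ 12003 * √(T y) := by push_cast; linarith
  calc ((r y + 2 : ℕ) : ℝ) * log (B y) ≤ 12003 * √(T y) * (3 * log (T y)) :=
        mul_le_mul h9 h1.2 (log_nonneg (by exact_mod_cast (by omega : 1 ≤ B y))) (by positivity)
    _ = √(T y) * (36009 * log (T y)) := by ring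
    _ ≤ √(T y) * (√(T y) * e) := mul_le_mul_of_nonneg_left h2 (by positivity)
    _ = e * T y := by rw [← mul_assoc, h8, mul_comm]
/-- the number of choices of boxes, normalised -/
theorem ev_B_rr : ∀ᶠ y : ℕ in atTop, (3 * (B y : ℝ) ^ (r y + 2)) ^ (r y + 1) ≤ √(G y) := by
  filter_upwards [ev_logB, ev_TlogT (8 * 12003 ^ 2), ev_sT 1, ev_T 3] with y h1 h2 h3 h5
  have hB : (0 : ℝ) < B y := by exact_mod_cast (by omega : 0 < B y)
  have hT := B_ge y
  have h7 : 0 ≤ log (T y) := log_nonneg (by linarith)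
  have h8 := mul_self_sqrt (by linarith : 0 ≤ T y)
  have h6 := r_le y
  have h9 : ((r y + 3 : ℕ) : ℝ) ≤ 12004 * √(T y) := by push_cast; linarith
  have h10 : ((r y + 1 : ℕ) : ℝ) ≤ 12002 * √(T y) := by push_cast; linarith
  have h11 : 3 * (B y : ℝ) ^ (r y + 2) ≤ (B y : ℝ) ^ (r y + 3) := by
    rw [pow_succ _ (r y + 2), mul_comm]
    exact mul_le_mul_of_nonneg_left (by nlinarith) (by positivity)
  refine (pow_le_pow_left₀ (by positivity) h11 _).trans ?_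
  rw [G, ← exp_half, ← exp_log hB, ← exp_nat_mul, ← exp_nat_mul]
  refine exp_le_exp.2 ?_
  have h12 : 0 ≤ log (B y) := log_nonneg (by exact_mod_cast (by omega : 1 ≤ B y))
  calc ((r y + 1 : ℕ) : ℝ) * (((r y + 3 : ℕ) : ℝ) * log (B y))
      ≤ 12002 * √(T y) * (12004 * √(T y) * (3 * log (T y))) :=
        mul_le_mul h10 (mul_le_mul h9 h1.2 h12 (by positivity)) (by positivity) (by positivity)
    _ = 12002 * 12004 * 3 * (√(T y) * √(T y) * log (T y)) := by ring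
    _ ≤ kap y / 2 := by
        rw [h8]
        have : 0 ≤ T y * log (T y) := by positivity
        nlinarith

theorem mem_PP {w : ℝ} {p : ℕ} : p ∈ PP w ↔ p.Prime ∧ (p : ℝ) ≤ w := by
  simp only [PP, mem_filter, mem_range, Nat.lt_succ_iff]
  refine ⟨fun h => ⟨h.2, ?_⟩, fun h => ⟨Nat.le_floor h.2, h.1⟩⟩
  have := h.2.pos
  exact (Nat.le_floor_iff' (by omega)).1 h.1
theorem pr_pos {S : Finset ℕ} (h : ∀ p ∈ S, p.Prime) : 0 < pr S := prod_pos fun p hp => (h p hp).pos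
theorem pr_insert {S : Finset ℕ} {p : ℕ} (h : p ∉ S) : pr (insert p S) = p * pr S := prod_insert h
theorem pr_union {S S' : Finset ℕ} (h : Disjoint S S') : pr (S ∪ S') = pr S * pr S' := prod_union h
theorem log_pr {S : Finset ℕ} (h : ∀ p ∈ S, p.Prime) : log (pr S) = ∑ p ∈ S, log p := by
  rw [pr, Nat.cast_prod, log_prod fun p hp => by exact_mod_cast (h p hp).ne_zero]
theorem pr_inj {S S' : Finset ℕ} (h : ∀ p ∈ S, p.Prime) (h' : ∀ p ∈ S', p.Prime)
    (e : pr S = pr S') : S = S' := by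
  rw [← Nat.primeFactors_prod h, ← Nat.primeFactors_prod h']; exact congrArg _ e
theorem prime_dvd_pr {S : Finset ℕ} (h : ∀ p ∈ S, p.Prime) {q : ℕ} (hq : q.Prime) :
    q ∣ pr S ↔ q ∈ S := by
  refine ⟨fun d => ?_, fun m => dvd_prod_of_mem _ m⟩
  obtain ⟨p, hp, e⟩ := (hq.prime.dvd_finsetProd_iff _).1 d
  rwa [(Nat.prime_dvd_prime_iff_eq hq (h p hp)).1 e]
theorem pr_dvd_iff {S : Finset ℕ} (h : ∀ p ∈ S, p.Prime) (n : ℤ) :
    (pr S : ℤ) ∣ n ↔ ∀ p ∈ S, (p : ℤ) ∣ n := by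
  rw [pr, Nat.cast_prod]
  refine ⟨fun d p hp => (dvd_prod_of_mem _ hp).trans d, fun d => prod_dvd_of_coprime ?_ d⟩
  intro p hp q hq e
  exact Nat.isCoprime_iff_coprime.2 ((Nat.coprime_primes (h p hp) (h q hq)).2 e)
theorem sum_inv_pr (P : Finset ℕ) (c : ℝ) :
    ∑ S ∈ P.powerset, c ^ S.card / (pr S : ℝ) = ∏ p ∈ P, (1 + c / (p : ℝ)) := by
  rw [prod_one_add]
  exact sum_congr rfl fun S _ => by rw [prod_div_distrib, prod_const, pr, Nat.cast_prod]
theorem mem_Fam {ε : ℕ} {C : Finset ℕ → ℕ → Prop} {P S : Finset ℕ} :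
    S ∈ Fam ε C P ↔ S ⊆ P ∧ Alive ε C S := by simp [Fam]
theorem up_up (S : Finset ℕ) {p q : ℕ} (h : p ≤ q) : up (up S p) q = up S q := by
  ext t; simp only [up, mem_filter]; constructor
  · exact fun a => ⟨a.1.1, a.2⟩
  · exact fun a => ⟨⟨a.1, h.trans a.2⟩, a.2⟩
theorem Alive.up {ε : ℕ} {C : Finset ℕ → ℕ → Prop} {S : Finset ℕ} (h : Alive ε C S) (p : ℕ) :
    Alive ε C (up S p) := fun q hq => by
  have := mem_filter.1 hq
  rw [up_up S this.2]; exact h q this.1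
theorem Rule.alive {ε : ℕ} {l : ℝ} {C : Finset ℕ → ℕ → Prop} (h : Rule ε l C) {S : Finset ℕ}
    (hS : ∀ q ∈ S, q.Prime) (ha : Alive ε C S) : Alive ε (C0 l) S := fun p hp e =>
  (h _ p (fun q hq => hS q (mem_filter.1 hq).1) (mem_filter.2 ⟨hp, le_rfl⟩)).1 (ha p hp e)
theorem rule_C0 (ε : ℕ) (l : ℝ) : Rule ε l (C0 l) := fun _ _ _ _ =>
  ⟨id, fun h => (exp_le_exp.2 (by linarith)).trans (not_le.1 h.2.2.2.1).le⟩
theorem be_mono (y : ℕ) {p q : ℕ} (hp : 1 ≤ p) (h : p ≤ q) : be y p ≤ be y q :=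
  Nat.ceil_mono (mul_le_mul_of_nonneg_left
    (log_le_log (by exact_mod_cast hp) (by exact_mod_cast h)) (by positivity))
theorem be_ge (y p : ℕ) : (DD y : ℝ) * log p ≤ be y p := Nat.le_ceil _
theorem be_lt (y p : ℕ) : (be y p : ℝ) < DD y * log p + 1 :=
  Nat.ceil_lt_add_one (mul_nonneg (by positivity) (log_natCast_nonneg p))
theorem mem_box {y b p : ℕ} : p ∈ box y b ↔ p.Prime ∧ be y p = b := by
  simp only [box, mem_filter, mem_PP]
  refine ⟨fun h => ⟨h.1.1, h.2⟩, fun h => ⟨⟨h.1, ?_⟩, h.2⟩⟩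
  have h1 := be_ge y p
  have h2 : (0 : ℝ) < DD y := by exact_mod_cast DD_pos y
  rw [← h.2, ← log_le_iff_le_exp (by exact_mod_cast h.1.pos), le_div_iff₀ h2]; linarith
theorem Qb_pos (y b : ℕ) : 0 < Qb y b := exp_pos _
theorem box_bd {y b p : ℕ} (h : p ∈ box y b) : Qb y b < p ∧ (p : ℝ) ≤ exp ((b : ℝ) / DD y) := by
  refine ⟨?_, (mem_PP.1 (mem_filter.1 h).1).2⟩
  obtain ⟨h1, rfl⟩ := mem_box.1 h
  have h2 : (0 : ℝ) < DD y := by exact_mod_cast DD_pos y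
  have h3 := be_lt y p
  rw [Qb, ← lt_log_iff_exp_lt (by exact_mod_cast h1.pos), div_lt_iff₀ h2]; linarith
theorem exp_box_le (y b : ℕ) : exp ((b : ℝ) / DD y) ≤ Qb y b + 2 * Qb y b / DD y := by
  have h2 : (1 : ℝ) ≤ DD y := by exact_mod_cast DD_pos y
  have h3 : exp ((b : ℝ) / DD y) = Qb y b * exp (1 / DD y) := by
    rw [Qb, ← exp_add]; congr 1; field_simp; ring
  have h4 : 1 / (DD y : ℝ) ≤ 1 := by rw [div_le_one (by linarith)]; exact h2
  have h5 := abs_exp_sub_one_le (x := 1 / (DD y : ℝ)) (by rw [abs_of_nonneg (by positivity)]; exact h4)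
  rw [abs_of_nonneg (by positivity : (0 : ℝ) ≤ 1 / DD y)] at h5
  have h6 := le_abs_self (exp (1 / (DD y : ℝ)) - 1)
  have h7 := Qb_pos y b
  rw [h3, show 2 * Qb y b / DD y = Qb y b * (2 * (1 / DD y)) by ring]
  nlinarith
theorem card_box {y b : ℕ} (h : (DD y : ℝ) ≤ Qb y b) : ((box y b).card : ℝ) ≤ Vb y b := by
  have h2 : (0 : ℝ) < DD y := by exact_mod_cast DD_pos y
  have h7 := Qb_pos y b
  have h1 : box y b ⊆ Ioc ⌊Qb y b⌋₊ ⌊exp ((b : ℝ) / DD y)⌋₊ := fun p hp =>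
    mem_Ioc.2 ⟨(Nat.floor_lt h7.le).2 (box_bd hp).1, Nat.le_floor (box_bd hp).2⟩
  have h3 : Qb y b ≤ exp ((b : ℝ) / DD y) :=
    exp_le_exp.2 (div_le_div_of_nonneg_right (by linarith) h2.le)
  have h4 : ((box y b).card : ℝ) ≤ ⌊exp ((b : ℝ) / DD y)⌋₊ - ⌊Qb y b⌋₊ := by
    rw [← Nat.cast_sub (Nat.floor_mono h3), ← Nat.card_Ioc]; exact_mod_cast card_le_card h1
  have h5 := Nat.floor_le (exp_pos ((b : ℝ) / DD y)).le
  have h6 := Nat.lt_floor_add_one (Qb y b)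
  have h8 := exp_box_le y b
  have h9 : 1 ≤ Qb y b / DD y := by rw [le_div_iff₀ h2]; linarith
  rw [Vb, mul_div_assoc]; rw [mul_div_assoc] at h8; linarith
theorem aa_div (y i : ℕ) : (aa y i : ℝ) / DD y = (B y : ℝ) ^ (i + 1) := by
  have h2 : (0 : ℝ) < DD y := by exact_mod_cast DD_pos y
  rw [aa]; push_cast; field_simp
theorem win_Qb {y i b : ℕ} (h : Win y i b) :
    exp ((B y : ℝ) ^ (i + 1)) ≤ Qb y b ∧ exp ((b : ℝ) / DD y) ≤ exp ((B y : ℝ) ^ (i + 2)) := by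
  have h2 : (0 : ℝ) < DD y := by exact_mod_cast DD_pos y
  have h3 : (aa y i : ℝ) + 1 ≤ b := by exact_mod_cast h.1
  have h4 : (b : ℝ) ≤ aa y (i + 1) := by exact_mod_cast h.2
  rw [← aa_div, ← aa_div y (i + 1)]
  exact ⟨exp_le_exp.2 (div_le_div_of_nonneg_right (by linarith) h2.le),
    exp_le_exp.2 (div_le_div_of_nonneg_right h4 h2.le)⟩
theorem ee_add (s t : ℝ) : ee (s + t) = ee s * ee t := by simp [ee, mul_add, add_mul, Complex.exp_add]
theorem norm_ee (t : ℝ) : ‖ee t‖ = 1 := by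
  rw [ee, show (2 * π * t * Complex.I : ℂ) = ((2 * π * t : ℝ) : ℂ) * Complex.I by push_cast; ring]
  exact Complex.norm_exp_ofReal_mul_I _
theorem ee_int (n : ℤ) : ee n = 1 := by
  rw [ee, show (2 * π * ((n : ℝ) : ℂ) * Complex.I : ℂ) = n * (2 * π * Complex.I) by push_cast; ring]
  exact Complex.exp_int_mul_two_pi_mul_I n
theorem norm_ee_sub (s t : ℝ) : ‖ee s - ee t‖ ≤ 2 * π * |s - t| := by
  have : ee s - ee t = ee t * (ee (s - t) - 1) := by
    rw [mul_sub, ← ee_add]; simp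
  rw [this, norm_mul, norm_ee, one_mul, ee,
    show (2 * π * ((s - t : ℝ) : ℂ) * Complex.I : ℂ) = Complex.I * ((2 * π * (s - t) : ℝ) : ℂ) by
      push_cast; ring]
  refine Real.norm_exp_I_mul_ofReal_sub_one_le.trans ?_
  rw [Real.norm_eq_abs, abs_mul, abs_of_pos (by positivity : 0 < 2 * π)]

end Jac
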