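import Mathlib

/-! The function of Jacobsthal. -/

namespace Jac

/-- `m` consecutive integers, from any starting point, always contain an integer coprime to `n` -/
def Covers (n m : ℕ) : Prop := ∀ a : ℤ, ∃ t : ℕ, t < m ∧ Int.gcd (a + t) n = 1

/-- `j(n)`, the least positive `m` such that any `m` consecutive integers contain one coprime
to `n` -/
noncomputable def jac (n : ℕ) : ℕ := sInf {m : ℕ | 1 ≤ m ∧ Covers n m}

/-- the values of `j(n)` over `n ≥ 1` with at most `k` distinct prime divisors -/
def vals (k : ℕ) : Set ℕ := {v : ℕ | ∃ n : ℕ, 1 ≤ n ∧ n.primeFactors.card ≤ k ∧ v = jac n}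

/-- `h(k)` -/
noncomputable def hh (k : ℕ) : ℕ := sSup (vals k)

end Jac
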