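import Vale.Agent.P013.Gro
import Vale.Agent.P026.Main
import Vale.Agent.P005.BC
import Vale.Agent.P005.PS
import Vale.Agent.P005.Psi
import Vale.Agent.P005.Riesz
import Vale.Agent.P005.Shift
import Vale.Agent.P005.ZF

/-! Primes in progressions, from the zero free half plane. -/

namespace Jac
open Vale.Agent.P005

theorem pntap' : Jac.PNTAP :=
  pntap (s_Psi (s_PS s_BC s_Riesz s_Shift) (s_ZF fun q _ χ s h h1 => QRH.quasi_rh q χ s h h1))

end Jac
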