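import Vale.Agent.P013.Gro

/-! Splitting of the phase, and the bound for Ramanujan sums. -/

noncomputable section
namespace Jac
open Finset Real Filter
open scoped Classical

theorem s_Ph : S_Ph := by
  intro x h ρ n0 m hm
  have hk : 0 < ρ.den := ρ.den_pos
  have hkm : 0 < ρ.den * m := Nat.mul_pos hk hm
  have hg : 0 < Int.gcd (ρ.den * m : ℕ) (h * (ρ.den * x - ρ.num)) :=
    Int.gcd_pos_of_ne_zero_left _ (by exact_mod_cast hkm.ne')
  have hgd : Int.gcd (ρ.den * m : ℕ) (h * (ρ.den * x - ρ.num)) ∣ ρ.den * m :=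
    Int.natCast_dvd_natCast.1 (Int.gcd_dvd_left _ _)
  obtain ⟨κ1, c, hc, e1, e2⟩ := Int.exists_gcd_one hg
  have hkD : IsCoprime (ρ.den : ℤ) (ρ.den * x - ρ.num) := by
    have h1 : IsCoprime (ρ.den : ℤ) ρ.num :=
      (Int.isCoprime_iff_gcd_eq_one.2 (by simpa [Int.gcd] using ρ.reduced)).symm
    have h2 := h1.neg_right.add_mul_left_right x
    rwa [neg_add_eq_sub] at h2
  have hr : (ρ : ℝ) = ρ.num / ρ.den := Rat.cast_def ρ
  generalize Int.gcd (ρ.den * m : ℕ) (h * (ρ.den * x - ρ.num)) = g at *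
  obtain ⟨κ, hκ⟩ := hgd
  have hκ0 : 0 < κ := Nat.pos_of_mul_pos_left (hκ ▸ hkm)
  have hg0 : (g : ℤ) ≠ 0 := by exact_mod_cast hg.ne'
  have e3 : (ρ.den : ℤ) * m = g * κ := by exact_mod_cast hκ
  have e4 : κ1 = κ := by
    refine mul_right_cancel₀ hg0 ?_
    rw [← e1]
    push_cast
    rw [e3, mul_comm]
  subst e4
  refine ⟨κ, c, hκ0, (Int.isCoprime_iff_gcd_eq_one.2 hc).symm, ?_, ?_, ?_, ?_⟩
  · rw [hκ, Nat.mul_div_cancel_left _ hg]
  · refine hkD.dvd_of_dvd_mul_right ⟨m * c, ?_⟩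
    rw [mul_assoc, e2, ← mul_assoc (ρ.den : ℤ), e3]
    ring
  · intro p hp hpm
    have h1 : p ∣ g * κ := hκ ▸ hpm.mul_left _
    rcases (Nat.Prime.dvd_mul hp).1 h1 with h2 | h2
    · right
      have h3 : (p : ℤ) ∣ h * (ρ.den * x - ρ.num) :=
        e2 ▸ (Int.natCast_dvd_natCast.2 h2).mul_left _
      exact (Nat.prime_iff_prime_int.1 hp).dvd_or_dvd h3
    · exact Or.inl h2
  · intro u q hu hq huq h1 h2 h3 h4
    have cop : ∀ p : ℕ, p.Prime → Hit x ρ p → ¬ p ∣ m → Nat.Coprime p (g * κ) := by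
      intro p hp a1 a2
      rw [← hκ]
      refine (Nat.Prime.coprime_iff_not_dvd hp).2 fun a3 => ?_
      rcases (Nat.Prime.dvd_mul hp).1 a3 with a4 | a4
      · exact (Nat.prime_iff_prime_int.1 hp).not_isUnit
          (hkD.isUnit_of_dvd' (Int.natCast_dvd_natCast.2 a4) a1)
      · exact a2 a4
    have cu := cop u hu h1 h3
    have cq := cop q hq h2 h4
    refine ⟨cu.coprime_mul_left_right, cq.coprime_mul_left_right, ?_⟩
    have cuq : Nat.Coprime (u * q) (g * κ) := Nat.Coprime.mul_left cu cq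
    obtain ⟨t, ht⟩ : ((u : ℤ) * q) ∣ ρ.den * x - ρ.num :=
      (Nat.isCoprime_iff_coprime.2 ((Nat.coprime_primes hu hq).2 huq)).mul_dvd h1 h2
    obtain ⟨t1, ht1⟩ : (g : ℤ) ∣ h * t := by
      have a1 : IsCoprime (g : ℤ) ((u * q : ℕ) : ℤ) :=
        Nat.isCoprime_iff_coprime.2 cuq.coprime_mul_right_right.symm
      refine a1.dvd_of_dvd_mul_left ⟨c, ?_⟩
      push_cast
      rw [mul_comm (g : ℤ), ← e2, ht]
      ring
    have e5 : c = u * q * t1 := by
      refine mul_right_cancel₀ hg0 ?_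
      rw [← e2, ht]
      linear_combination (u * q : ℤ) * ht1
    have e6 := Nat.gcd_eq_gcd_ab (u * q) κ
    rw [cuq.coprime_mul_left_right] at e6
    have e7 : t1 = c * Nat.gcdA (u * q) κ + κ * (Nat.gcdB (u * q) κ * t1) := by
      rw [e5]
      push_cast at e6
      linear_combination t1 * e6
    rw [chi, ← ee_add, ← mul_one (ee (_ + _)), ← ee_int (Nat.gcdB (u * q) κ * t1), ← ee_add]
    congr 1
    have r1 : (ρ.den : ℝ) ≠ 0 := by positivity
    have r2 : (m : ℝ) ≠ 0 := by positivity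
    have r3 : (u : ℝ) ≠ 0 := by have := hu.pos; positivity
    have r4 : (q : ℝ) ≠ 0 := by have := hq.pos; positivity
    have r5 : (κ : ℝ) ≠ 0 := by positivity
    have r6 : (g : ℝ) ≠ 0 := by positivity
    have f1 : (ρ.den : ℝ) * x - ρ.num = u * q * t := by exact_mod_cast ht
    have f2 : (h : ℝ) * t = g * t1 := by exact_mod_cast ht1
    have f3 : (ρ.den : ℝ) * m = g * κ := by exact_mod_cast hκ
    have f4 : (t1 : ℝ) = ((c * Nat.gcdA (u * q) κ : ℤ) : ℝ) +
        κ * ((Nat.gcdB (u * q) κ * t1 : ℤ) : ℝ) := by exact_mod_cast e7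
    have f5 : ((c * Nat.gcdA (u * q) κ : ℤ) : ℝ) / κ + ((Nat.gcdB (u * q) κ * t1 : ℤ) : ℝ)
        = h * t / (ρ.den * m) := by
      rw [f2, f3, mul_div_mul_left _ _ r6, eq_div_iff r5, add_mul, div_mul_cancel₀ _ r5, f4,
        mul_comm (κ : ℝ)]
    have f6 : (x : ℝ) = ρ.num / ρ.den + u * q * t / ρ.den := by
      rw [← f1]
      field_simp
      ring
    rw [add_assoc, f5, hr, f6]
    push_cast
    field_simp
    ring

theorem ph_pow (t : ℝ) (n : ℕ) : ee t ^ n = ee (n * t) := by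
  induction n with
  | zero => simp [ee]
  | succ n ih => rw [pow_succ, ih, ← ee_add]; congr 1; push_cast; ring

theorem ph_geo {e : ℕ} (he : 0 < e) (s : ℤ) :
    ‖∑ i ∈ range e, ee ((s : ℝ) * i / e)‖ ≤ if (e : ℤ) ∣ s then (e : ℝ) else 0 := by
  have he' : (e : ℝ) ≠ 0 := by positivity
  split_ifs with h
  · refine (norm_sum_le _ _).trans ?_
    simp [norm_ee]
  · have h1 : ee ((s : ℝ) / e) ≠ 1 := by
      intro h2
      obtain ⟨n, hn⟩ := Complex.exp_eq_one_iff.1 h2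
      have h3 : (((s : ℝ) / e : ℝ) : ℂ) = n := by
        refine mul_right_cancel₀ Complex.two_pi_I_ne_zero ?_
        rw [← hn]
        ring
      have h4 : (s : ℝ) / e = n := by exact_mod_cast h3
      rw [div_eq_iff he', mul_comm] at h4
      exact h ⟨n, by exact_mod_cast h4⟩
    have h2 : ∑ i ∈ range e, ee ((s : ℝ) * i / e) = ∑ i ∈ range e, ee ((s : ℝ) / e) ^ i :=
      sum_congr rfl fun i _ => by rw [ph_pow]; congr 1; ring
    rw [h2, geom_sum_eq h1, ph_pow, mul_div_cancel₀ _ he', ee_int, sub_self, zero_div, norm_zero]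

theorem ph_congr {κ : ℕ} (hκ : 0 < κ) (s : ℤ) {a b : ℤ} (h : (a : ZMod κ) = b) :
    ee (((s * a : ℤ) : ℝ) / κ) = ee (((s * b : ℤ) : ℝ) / κ) := by
  obtain ⟨t, ht⟩ := (ZMod.intCast_eq_intCast_iff_dvd_sub a b κ).1 h
  have h0 : (κ : ℝ) ≠ 0 := by positivity
  rw [← mul_one (ee (((s * a : ℤ) : ℝ) / κ)), ← ee_int (s * t), ← ee_add]
  congr 1
  have : (b : ℝ) = a + κ * t := by
    have : b = a + κ * t := by linarith
    exact_mod_cast this
  push_cast
  rw [this]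
  field_simp

theorem ph_perm {κ : ℕ} (hκ : 0 < κ) (s : ℤ) :
    ∑ j ∈ (range κ).filter (fun j => Nat.Coprime j κ), chi κ s j =
      ∑ j ∈ (range κ).filter (fun j => Nat.Coprime j κ), ee ((s : ℝ) * j / κ) := by
  have : NeZero κ := ⟨hκ.ne'⟩
  have h1 : ∀ j : ℕ, Nat.Coprime j κ → (j : ZMod κ) * (j : ZMod κ)⁻¹ = 1 :=
    fun j hj => ZMod.coe_mul_inv_eq_one j hj
  have h2 : ∀ j ∈ (range κ).filter (fun j => Nat.Coprime j κ),
      ((j : ZMod κ)⁻¹).val ∈ (range κ).filter (fun j => Nat.Coprime j κ) := by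
    intro j hj
    refine mem_filter.2 ⟨mem_range.2 (ZMod.val_lt _), (ZMod.isUnit_iff_coprime _ _).1 ?_⟩
    rw [ZMod.natCast_zmod_val]
    exact IsUnit.of_mul_eq_one (j : ZMod κ) (by rw [mul_comm]; exact h1 j (mem_filter.1 hj).2)
  have h3 : ∀ j ∈ (range κ).filter (fun j => Nat.Coprime j κ),
      (((((j : ZMod κ)⁻¹).val : ℕ) : ZMod κ)⁻¹).val = j := by
    intro j hj
    rw [ZMod.natCast_zmod_val, ZMod.inv_eq_of_mul_eq_one κ _ (j : ZMod κ)
      (by rw [mul_comm]; exact h1 j (mem_filter.1 hj).2),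
      ZMod.val_cast_of_lt (mem_range.1 (mem_filter.1 hj).1)]
  refine sum_nbij' (fun j => ((j : ZMod κ)⁻¹).val) (fun j => ((j : ZMod κ)⁻¹).val) h2 h2 h3 h3
    fun j hj => ?_
  have h4 := Nat.gcd_eq_gcd_ab j κ
  rw [(mem_filter.1 hj).2] at h4
  have h5 : (j : ZMod κ) * (Nat.gcdA j κ : ℤ) = 1 := by
    have := congrArg (Int.cast : ℤ → ZMod κ) h4
    push_cast at this
    rw [ZMod.natCast_self, zero_mul, add_zero] at this
    exact this.symm
  rw [chi, ph_congr hκ s (b := (((j : ZMod κ)⁻¹).val : ℕ))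
    (by rw [Int.cast_natCast, ZMod.natCast_zmod_val, ZMod.inv_eq_of_mul_eq_one κ _ _ h5])]
  push_cast
  rfl

theorem ph_mu (n : ℕ) :
    ∑ d ∈ n.divisors, ((ArithmeticFunction.moebius d : ℤ) : ℂ) = if n = 1 then 1 else 0 := by
  have h := congrArg (fun f : ArithmeticFunction ℂ => f n)
    (ArithmeticFunction.coe_moebius_mul_coe_zeta (R := ℂ))
  simpa only [ArithmeticFunction.coe_mul_zeta_apply, ArithmeticFunction.one_apply,
    ArithmeticFunction.intCoe_apply] using h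

theorem s_Ram : S_Ram := by
  intro κ s hκ
  have hκ0 : κ ≠ 0 := by omega
  have e1 : ∑ j ∈ (range κ).filter (fun j => Nat.Coprime j κ), ee ((s : ℝ) * j / κ) =
      ∑ d ∈ κ.divisors, ((ArithmeticFunction.moebius d : ℤ) : ℂ) *
        ∑ j ∈ (range κ).filter (fun j => d ∣ j), ee ((s : ℝ) * j / κ) := by
    simp only [sum_filter, mul_sum]
    rw [sum_comm]
    refine sum_congr rfl fun j _ => ?_
    have a1 : (Nat.gcd j κ).divisors = κ.divisors.filter (fun d => d ∣ j) := by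
      ext d
      simp only [Nat.mem_divisors, mem_filter, Nat.dvd_gcd_iff]
      exact ⟨fun h => ⟨⟨h.1.2, hκ0⟩, h.1.1⟩,
        fun h => ⟨⟨h.2, h.1.1⟩, (Nat.gcd_pos_of_pos_right _ hκ).ne'⟩⟩
    have a2 := ph_mu (Nat.gcd j κ)
    rw [a1, sum_filter] at a2
    rw [← one_mul (ee _), ← zero_mul (ee ((s : ℝ) * j / κ)), ← ite_mul, ← a2, sum_mul]
    refine sum_congr rfl fun d _ => ?_
    split_ifs <;> simp
  rw [ph_perm hκ, e1, sum_filter,
    ← Nat.sum_div_divisors κ fun e => if (e : ℤ) ∣ s then (e : ℝ) else 0]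
  refine (norm_sum_le _ _).trans (sum_le_sum fun d hd => ?_)
  obtain ⟨e, he⟩ := Nat.dvd_of_mem_divisors hd
  have hd0 : 0 < d := Nat.pos_of_mem_divisors hd
  have he0 : 0 < e := Nat.pos_of_mul_pos_left (he ▸ hκ)
  have a1 : ∑ j ∈ (range κ).filter (fun j => d ∣ j), ee ((s : ℝ) * j / κ) =
      ∑ i ∈ range e, ee ((s : ℝ) * i / e) := by
    symm
    refine sum_bij (fun i _ => d * i) (fun i hi => ?_) (fun i _ j _ h => ?_) (fun j hj => ?_)
      fun i _ => ?_
    · exact mem_filter.2 ⟨mem_range.2 (he ▸ Nat.mul_lt_mul_of_pos_left (mem_range.1 hi) hd0),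
        dvd_mul_right _ _⟩
    · exact Nat.eq_of_mul_eq_mul_left hd0 h
    · obtain ⟨h1, i, rfl⟩ := mem_filter.1 hj
      exact ⟨i, mem_range.2 (Nat.lt_of_mul_lt_mul_left (he ▸ mem_range.1 h1)), rfl⟩
    · have : (d : ℝ) ≠ 0 := by positivity
      have : (e : ℝ) ≠ 0 := by positivity
      rw [he]
      congr 1
      push_cast
      field_simp
  have a2 : κ / d = e := by rw [he, Nat.mul_div_cancel_left _ hd0]
  have a3 : ‖((ArithmeticFunction.moebius d : ℤ) : ℂ)‖ ≤ 1 := by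
    rw [Complex.norm_intCast]
    exact_mod_cast ArithmeticFunction.abs_moebius_le_one
  rw [a1, a2, norm_mul]
  exact (mul_le_of_le_one_left (norm_nonneg _) a3).trans (ph_geo he0 s)

end Jac
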