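import Vale.Agent.P013.Defs

/-! Statements, first part: tools, the density of the support, the main terms. -/

noncomputable section
namespace Jac
open Finset Real Filter
open scoped Classical

/-- primes in progressions with a power saving -/
def PNTAP : Prop :=
  ∃ c : ℝ, 0 < c ∧ ∃ C : ℝ, ∀ y q a : ℕ, 1 ≤ q → q ≤ y → Nat.Coprime a q →
    |(∑ p ∈ (Icc 1 y).filter (fun p => p.Prime ∧ p ≡ a [MOD q]), Real.log p) -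
      (y : ℝ) / (Nat.totient q : ℕ)| ≤ C * (y : ℝ) ^ (1 - c)

def S_Id : Prop := ∀ (ε : ℕ) (C : Finset ℕ → ℕ → Prop) (P : Finset ℕ), ε ≤ 1 →
  ∑ S ∈ Fam ε C P, sg S = (if P = ∅ then 1 else 0) - (-1) ^ ε *
    ((P.powerset.filter (fun S => ∃ p, Stop ε C S p ∧ ∀ q ∈ P, p ≤ q)).card : ℝ)
def S_Split : Prop := ∀ (l : ℝ) (N S : Finset ℕ), (∀ p ∈ N, p.Prime) → N.card % 2 = 1 →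
  (∀ p ∈ S, ∀ q ∈ N, p < q) →
  (Alive 0 (C0 l) (N ∪ S) ↔ Alive 0 (C0 l) N ∧ Alive 1 (C0 (l - log (pr N))) S) ∧
  ∀ p, Alive 0 (C0 l) N → Stop 1 (C0 (l - log (pr N))) S p → Stop 0 (C0 l) (N ∪ S) p
/-- remaining level of an alive chain -/
def S_Rem : Prop := ∀ (ε : ℕ) (l : ℝ) (S : Finset ℕ), ε ≤ 1 → (∀ q ∈ S, q.Prime) →
  (S.card = 1 → ∀ q ∈ S, (q : ℝ) ≤ exp (l / 2)) → Alive ε (C0 l) S → ∀ p ∈ S, (∀ q ∈ S, p ≤ q) →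
  log p ≤ l - log (pr S) ∧ (S.card % 2 = ε → 2 * log p ≤ l - log (pr S))
def S_Esym : Prop := ∀ (P : Finset ℕ) (φ : ℕ → ℝ) (M : ℝ) (k : ℕ), 0 ≤ M →
  (∀ p ∈ P, 0 ≤ φ p ∧ φ p ≤ M) →
  (∑ N ∈ powersetCard k P, ∏ p ∈ N, φ p ≤ (∑ p ∈ P, φ p) ^ k / k.factorial) ∧
  (k * M ≤ ∑ p ∈ P, φ p →
    (∑ p ∈ P, φ p - k * M) ^ k / k.factorial ≤ ∑ N ∈ powersetCard k P, ∏ p ∈ N, φ p)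
def S_John : Prop := ∀ (Ω : Finset ℕ) (I : Finset ℚ) (F : ℚ → Finset ℕ) (V τ l : ℝ), 0 < τ → 0 ≤ l →
  (Ω.card : ℝ) ≤ V → 2 * V * l ≤ τ ^ 2 → (∀ i ∈ I, F i ⊆ Ω ∧ τ ≤ (F i).card) →
  (∀ i ∈ I, ∀ j ∈ I, i ≠ j → ((F i ∩ F j).card : ℝ) ≤ l) → (I.card : ℝ) ≤ 2 * V / τ
def S_Com : Prop := ∀ (y : ℕ) (x : ℤ) (ρ ρ' : ℚ) (A : Finset ℕ), 3 ≤ y → Ht y ρ → Ht y ρ' →
  ρ ≠ ρ' → (∀ p ∈ A, p.Prime ∧ Hit x ρ p ∧ Hit x ρ' p) → (A.card : ℝ) ≤ 10 * L y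
def S_M : Prop := ∃ C : ℝ, 0 < C ∧
  (∀ t : ℝ, 1 ≤ t → |∑ p ∈ PP t, log p / p - log t| ≤ C) ∧
  (∀ s t : ℝ, 2 ≤ s → s ≤ t →
    |∑ p ∈ (PP t).filter (fun p : ℕ => s < p), 1 / (p : ℝ) - log (log t / log s)| ≤ C / log s ^ 2) ∧
  (∀ t : ℝ, 2 ≤ t → ((PP t).card : ℝ) ≤ C * t / log t) ∧
  (∀ t : ℝ, 2 ≤ t → |∑ p ∈ PP t, 1 / (p : ℝ) - log (log t)| ≤ C) ∧
  (∀ t : ℝ, ∑ p ∈ PP t, 1 / ((p : ℝ) * log p) ≤ C)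
def S_Rank : Prop := ∃ C : ℝ, 0 < C ∧ ∀ w Y : ℝ, 2 ≤ w → 0 < Y →
  ∑ S ∈ (PP w).powerset.filter (fun S => Y ≤ (pr S : ℝ)), (2 : ℝ) ^ S.card / pr S ≤
    C * log w ^ 6 * exp (-(log Y / log w))
def S_Up : Prop := ∀ (w : ℝ) (P1 P2 : Finset ℕ) (α1 β1 α2 β2 : ℤ) (M : ℕ), 1 ≤ w →
  (∀ p ∈ P1, p.Prime ∧ (p : ℝ) ≤ w ∧ ¬ (p : ℤ) ∣ α1) →
  (∀ p ∈ P2, p.Prime ∧ (p : ℝ) ≤ w ∧ ¬ (p : ℤ) ∣ α2) →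
  (∀ p ∈ P1, p ∈ P2 → 3 ≤ p ∧ ¬ (p : ℤ) ∣ α1 * β2 - α2 * β1) →
  (((range M).filter (fun t : ℕ => (∀ p ∈ P1, ¬ (p : ℤ) ∣ α1 * t + β1) ∧
      ∀ p ∈ P2, ¬ (p : ℤ) ∣ α2 * t + β2)).card : ℝ) ≤
    4 * M / ((∏ p ∈ P1, (1 + 1 / (p : ℝ))) * ∏ p ∈ P2, (1 + 1 / (p : ℝ))) + (4 * w) ^ 32
def S_FL : Prop := ∃ s0 : ℕ, ∀ (w : ℝ) (P : Finset ℕ) (g : ℕ → ℝ), 2 ≤ w → P ⊆ PP w →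
  (∀ p ∈ P, 0 ≤ g p ∧ g p ≤ 1 / 2 ∧ g p ≤ 2 / p) →
  ∃ c : Finset ℕ → ℝ, (∀ U, |c U| ≤ 1) ∧ (∀ U ⊆ P, c U ≠ 0 → (pr U : ℝ) ≤ w ^ s0) ∧
    (∀ A ⊆ P, ∑ U ∈ A.powerset, c U ≤ if A = ∅ then 1 else 0) ∧
    (∏ p ∈ P, (1 - g p)) / 2 ≤ ∑ U ∈ P.powerset, c U * ∏ p ∈ U, g p
def S_Four : Prop := ∀ (K d : ℕ) (x : ℤ), 1 ≤ K → 1 ≤ d →
  |A0 K x d - (K : ℝ) / d| ≤ (d : ℝ) / K ∧ ∀ H0 : ℕ, 1 ≤ H0 → 2 * H0 < d →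
  ‖((A0 K x d - (K : ℝ) / d : ℝ) : ℂ) - (∑ a ∈ range K, ∑ b ∈ range K,
      ∑ h ∈ (Icc (-(H0 : ℤ)) H0).erase 0, ee ((h : ℝ) * ((x : ℝ) + (a + b : ℕ)) / d) / d) / K‖ ≤
    (d : ℝ) / (K * H0)

/-! density of the support -/
def S_Rec : Prop := ∀ (ε : ℕ) (l : ℝ) (P : Finset ℕ) (t2 p : ℕ) (a : ℝ), ε ≤ 1 → p.Prime →
  (∀ q ∈ P, q.Prime ∧ p < q) → (a ≤ l - log p ∨ p ≤ t2) →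
  nm ε l (insert p P) t2 0 a ≤ nm ε l P t2 0 a +
    (if 2 * log p < a then nm ε l P t2 1 (a + log p) / p else 0) ∧
  nm ε l (insert p P) t2 1 a ≤ nm ε l P t2 1 a + nm ε l P t2 0 (a + log p) / p
def S_Van : Prop := ∀ (ε : ℕ) (l : ℝ) (P : Finset ℕ) (t t2 : ℕ) (a : ℝ), ε ≤ 1 → 1 ≤ t →
  (∀ q ∈ P, q.Prime ∧ t ≤ q ∧ (q : ℝ) ≤ exp (l / 2)) →
  (a ≤ 2 * log t → nm ε l P t2 0 a = 0) ∧ (a ≤ log t → nm ε l P t2 1 a = 0) ∧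
  ∀ s, l + 1 < a → nm ε l P t2 s a = 0
def S_Dir : Prop := ∃ C : ℝ, 0 < C ∧ ∀ (ε : ℕ) (l : ℝ) (P : Finset ℕ) (t t2 s : ℕ) (a : ℝ), 2 ≤ t →
  (∀ q ∈ P, q.Prime ∧ t ≤ q) → l - log t < a → nm ε l P t2 s a ≤ C / log t
def S_Base : Prop := ∃ C : ℝ, 0 < C ∧ ∀ (ε : ℕ) (l : ℝ) (P : Finset ℕ) (t2 : ℕ) (a : ℝ), ε ≤ 1 →
  4 ≤ l → (∀ q ∈ P, q.Prime ∧ exp (l / 4) < q ∧ (q : ℝ) ≤ exp (l / 2)) →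
  (∀ s, nm ε l P t2 s a ≤ C / l) ∧ (a ≤ 2 * l / 3 → nm ε l P t2 0 a = 0) ∧
  (a ≤ l / 3 → nm ε l P t2 1 a = 0)
/-- the coefficients of the majorant -/
def S_SeqA : Prop := ∃ C : ℝ, 1 ≤ C ∧ ∀ t1 : ℕ, 3 ≤ t1 → ∃ A b d e : ℕ → ℝ,
  (∀ t, 2 ≤ t → t ≤ t1 → 1 / C ≤ A t * log t ∧ A t * log t ≤ C ∧ |b t - log t| ≤ C ∧
    0 ≤ d t ∧ |2 * d t - log t ^ 2| ≤ C ∧ |e t| ≤ C * (1 + log (log t1))) ∧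
  (∀ t, 2 ≤ t → t < t1 → ¬ t.Prime →
    A t = A (t + 1) ∧ b t = b (t + 1) ∧ d t = d (t + 1) ∧ e t = e (t + 1)) ∧
  ∀ p : ℕ, p < t1 → p.Prime → A p = (1 + 1 / (p : ℝ)) * A (p + 1) ∧
    b p = b (p + 1) - log p / (p + 1) ∧ d p = (1 - 2 / ((p : ℝ) + 1)) * d (p + 1) ∧
    e p = e (p + 1) + log p ^ 2 / (p + 1) - (log p / (p + 1)) ^ 2 - 2 * d (p + 1) / (p + 1)
/-- the majorant -/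
def S_SeqB : Prop := ∃ C : ℝ, 1 ≤ C ∧ ∀ᶠ l : ℝ in atTop, ∃ W : ℕ → ℕ → ℝ → ℝ,
  (∀ t, 2 ≤ t → t ≤ ⌊exp (l / 4)⌋₊ + 1 → ∀ a,
    (2 * log t - 2 ≤ a → 0 ≤ W t 0 a) ∧ (log t - 1 ≤ a → 0 ≤ W t 1 a) ∧
    (∀ s ≤ 1, W t s a ≤ C * ((a - log t) ^ 2 + log l) / log t) ∧
    (∀ s ≤ 1, (l - log t < a ∧ log t ≤ l / 4) → l ^ 2 / (C * log t) ≤ W t s a)) ∧
  (∀ a, (2 * l / 3 < a → l / C ≤ W (⌊exp (l / 4)⌋₊ + 1) 0 a) ∧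
    (l / 3 < a → l / C ≤ W (⌊exp (l / 4)⌋₊ + 1) 1 a)) ∧
  (∀ t, 2 ≤ t → t ≤ ⌊exp (l / 4)⌋₊ → ¬ t.Prime → W t = W (t + 1)) ∧
  ∀ p : ℕ, p ≤ ⌊exp (l / 4)⌋₊ → p.Prime → ∀ a,
    W p 0 a = W (p + 1) 0 a + W (p + 1) 1 (a + log p) / p ∧
    W p 1 a = W (p + 1) 1 a + W (p + 1) 0 (a + log p) / p ∧
    (2 * log p < a → W (p + 1) 0 a ≤ W (p + 1) 1 (a + log p)) ∧
    (log p < a → W (p + 1) 1 a ≤ W (p + 1) 0 (a + log p))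
def S_NB : Prop := ∃ C : ℝ, 0 < C ∧ ∀ᶠ l : ℝ in atTop, ∀ (ε : ℕ) (P : Finset ℕ) (t t2 s : ℕ) (a : ℝ),
  ε ≤ 1 → s ≤ 1 → 2 ≤ t → (t : ℝ) ≤ exp (l / 4) → (t2 : ℝ) ≤ exp (l / 4) →
  (∀ q ∈ P, q.Prime ∧ t ≤ q ∧ (q : ℝ) ≤ exp (l / 2)) →
  nm ε l P t2 s a ≤ C * ((a - log t) ^ 2 + log l) / (l ^ 2 * log t) /
    ∏ p ∈ (Icc t t2).filter (fun p => p.Prime ∧ p ∉ P), (1 + 1 / (p : ℝ))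

/-! the models -/
def S_W : Prop := ∃ C : ℝ, 0 < C ∧
  (∀ Y : ℕ, |∑ m ∈ Icc 1 Y, ((Y / m % 2 : ℕ) : ℝ) - Y * log 2| ≤ C * √Y) ∧
  (∀ Y : ℕ, |∑ m ∈ Icc 1 Y, ((Y / m % 2 : ℕ) : ℝ) * liou m| ≤ C * √Y) ∧
  ∀ Y : ℕ, 2 ≤ Y → |∑ p ∈ (Icc 1 Y).filter Nat.Prime, ((Y / p % 2 : ℕ) : ℝ) - Y * log 2 / log Y| ≤
    C * Y / log Y ^ 2
def S_ModK : Prop := ∃ K : ℝ, 0 < K ∧ ∀ (ε : ℕ) (l w : ℝ) (C : Finset ℕ → ℕ → Prop) (X : ℕ), ε ≤ 1 →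
  Rule ε l C → (X : ℝ) < exp (l - 1) →
  |X * log 2 * Tm ε C (PP w) - ∑ n ∈ (Icc 1 X).filter (fun n => ∀ p ∈ PP w, ¬ p ∣ n),
      ((X / n % 2 : ℕ) : ℝ) * (1 + (-1) ^ ε * liou n)| ≤
    2 * (((PP w).powerset.filter (fun S => (∃ p, Stop ε C S p) ∧ pr S ≤ X)).card : ℝ) +
      K * ∑ S ∈ Fam ε C (PP w), (√((X : ℝ) / pr S) + 1)
def S_ModD : Prop := ∃ C : ℝ, 0 < C ∧ ∀ᶠ l : ℝ in atTop, ∀ ε ≤ 1,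
  (((PP (exp (l / 2))).powerset.filter (fun S => (∃ p ∈ S, (∀ q ∈ S, p ≤ q) ∧ S.card % 2 = ε ∧
      Alive ε (C0 l) (S.erase p)) ∧ (pr S : ℝ) ≤ exp l)).card : ℝ) ≤ C * exp l * log l / l ^ 2
def S_ModR : Prop := ∃ C : ℝ, 0 < C ∧ ∀ᶠ l : ℝ in atTop, ∀ ε ≤ 1,
  ∑ S ∈ Fam ε (C0 l) (PP (exp (l / 2))), (√(exp l / pr S) + 1) ≤ C * exp l * log l / l ^ 2
def S_Mod : Prop := ∃ C : ℝ, 0 < C ∧ ∀ᶠ l : ℝ in atTop,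
  -(C * log l / l ^ 2) ≤ Tm 0 (C0 l) (PP (exp (l / 2))) ∧
  ∀ (R : Finset ℕ → ℕ → Prop) (w : ℝ), Rule 1 l R → exp (l / 3) ≤ w →
    |Tm 1 R (PP w) - 2 / l| ≤ C * log l / l ^ 2

end Jac
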