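import Vale.Agent.P013.Stm

/-! Statements, second part: nodes, remainders, fibres, the structured case. -/

noncomputable section
namespace Jac
open Finset Real Filter
open scoped Classical

def S_Geo : Prop := ∀ J : ℕ, 3 ≤ J → ∀ᶠ y : ℕ in atTop,
  (∀ u : ℕ, (y : ℝ) ^ (1 / (J : ℝ)) < u → (u : ℝ) ≤ z y →
    GR y J (gg u) ∧ (gg u : ℝ) - 1 < log u ∧ log u ≤ gg u) ∧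
  ∀ g, GR y J g → L y / (8 * J) ≤ vv y J g ∧ vv y J g + 2 ≤ g ∧ (g : ℝ) ≤ 2 / 3 * L y ∧
    ∀ (x : ℤ), ∀ N ∈ Nd y J x g, 2 * vv y J g ≤ l0 y - g - log (pr N) ∧
      l1 y - g - log (pr N) + 2 ≤ 3 * lo y J g ∧
      ∀ u : ℕ, u.Prime → gg u = g → u ∉ N ∧ Alive 0 (C0 (l0 y)) (insert u N)
def S_Rule : Prop := ∀ᶠ y : ℕ in atTop, ∀ m : ℕ, (m : ℝ) ≤ 2 * DD y * L y →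
  Rule 1 ((m : ℝ) / DD y) (C1 y m) ∧ ∀ S : Finset ℕ, (∀ q ∈ S, q.Prime) → Alive 1 (C1 y m) S →
    ∀ p ∈ S, ∑ q ∈ up S p, be y q + be y p ≤ m
def S_NU : Prop := ∀ᶠ y : ℕ in atTop, ∀ (x : ℤ) (A : Finset ℕ),
  (∀ p ∈ A, p.Prime ∧ ¬ Uniq y x p) → (A.card : ℝ) ≤ exp √(L y)
def S_Top : Prop := ∃ C : ℝ, 0 < C ∧ ∀ᶠ y : ℕ in atTop,
  -(C * (T y * log (T y)) / L y ^ 2) ≤ Tm 0 (C0 (l0 y)) (PP (z y))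
def S_Gain : Prop := ∀ J : ℕ, 3 ≤ J → ∀ᶠ y : ℕ in atTop, ∀ (x : ℤ) (u : ℕ),
  (y : ℝ) ^ (1 / (J : ℝ)) < u → (u : ℝ) ≤ z y → ∀ N ∈ Nd y J x (gg u),
  kap y / (2 * L y ^ 2) ≤ ∑ S ∈ U0 y J u N, sg S / pr S - ∑ S ∈ U1 y J (gg u) N, sg S / pr S
def S_Mass : Prop := ∀ J : ℕ, 3 ≤ J → ∃ c : ℝ, 0 < c ∧ ∀ᶠ y : ℕ in atTop, ∀ (x : ℤ) (g : ℕ),
  GR y J g → c ≤ ∑ N ∈ Nd y J x g, 1 / (pr N : ℝ) ∧ ∑ N ∈ Nd y J x g, 1 / (pr N : ℝ) ≤ 1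
def S_Main : Prop := ∀ J : ℕ, 3 ≤ J → ∀ w0 : ℝ, 0 < w0 → ∃ c : ℝ, 0 < c ∧ ∀ᶠ y : ℕ in atTop,
  ∀ (x : ℤ) (E : Finset ℕ), EE y J x E → w0 ≤ ∑ u ∈ E, 1 / (u : ℝ) →
  c * kap y / L y ^ 2 ≤ Tm 0 (C0 (l0 y)) (PP (z y)) +
    nsum y J x E (U0 y J) (fun S d => sg S / d) -
    nsum y J x E (fun u => U1 y J (gg u)) (fun S d => sg S / d)
def S_Master : Prop := ∀ J : ℕ, 3 ≤ J → ∀ᶠ y : ℕ in atTop, ∀ (x : ℤ) (E : Finset ℕ), EE y J x E →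
  ∑ S ∈ Fam 0 (C0 (l0 y)) (PP (z y)), sg S * A0 (H y) x (pr S) +
    nsum y J x E (U0 y J) (fun S d => sg S * A1 y x d) -
    nsum y J x E (fun u => U1 y J (gg u)) (fun S d => sg S * A1 y x d) ≤ Cnt y x
def S_Low : Prop := ∀ J : ℕ, 3 ≤ J → ∀ᶠ y : ℕ in atTop, ∀ (x : ℤ) (E : Finset ℕ), EE y J x E →
  ∑ S ∈ Fam 0 (C0 (l0 y)) (PP (z y)), |A0 (H y) x (pr S) - (H y : ℝ) / pr S| +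
    nsum y J x E (U0 y J) (fun _ d => |A1 y x d - (H y : ℝ) / d|) +
    nsum y J x E (fun u => Lo y J (gg u)) (fun _ d => |A1 y x d - (H y : ℝ) / d|) ≤
    y * T y / L y ^ 2
/-- sizes in the high part -/
def S_Size : Prop := ∀ J : ℕ, 3 ≤ J → ∀ᶠ y : ℕ in atTop, ∀ (x : ℤ) (g : ℕ), GR y J g →
  ∀ N ∈ Nd y J x g, ∀ S ∈ Hi y J g N,
  exp (l0 y - 1) ≤ exp g * pr N * pr S ∧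
  exp g * pr N * exp ((∑ q ∈ S, be y q : ℕ) / (DD y : ℝ)) ≤ exp (l1 y) ∧
  exp g * pr N * pr S ≤ exp (l1 y) ∧ (lam y g N : ℝ) ≤ 2 * DD y * L y ∧
  2 * lam y g N ≤ 2 * mu y g N + aa y 1 ∧ aa y (r y + 1) ≤ mu y g N
def S_Bad : Prop := ∀ J : ℕ, 3 ≤ J → ∀ᶠ y : ℕ in atTop, ∀ (x : ℤ) (g : ℕ), GR y J g →
  ∀ N ∈ Nd y J x g, ∑ S ∈ (Hi y J g N).filter (Bad y), 1 / (pr S : ℝ) ≤ 1 / G y ^ 3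
def S_StrU : Prop := ∀ J : ℕ, 3 ≤ J → ∀ᶠ y : ℕ in atTop,
  ∀ (x : ℤ) (ρ : ℚ) (g : ℕ) (Sl Ss U : Finset ℕ), Rich y x ρ → InR y ρ → GR y J g →
  (∀ u ∈ U, u.Prime ∧ gg u = g ∧ Hit x ρ u ∧ u ∉ Sl) →
  (∀ p ∈ Sl, p.Prime ∧ PW y < p ∧ Hit x ρ p) → (∀ p ∈ Ss, p.Prime ∧ (p : ℝ) ≤ PW y) →
  (pr Ss : ℝ) ≤ exp (B y ^ 2) → exp (l0 y - 1) ≤ exp g * pr Sl * pr Ss →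
  exp g * pr Sl * pr Ss ≤ exp (l1 y) →
  ∑ u ∈ U, (A1 y x (u * pr Sl * pr Ss) + (H y : ℝ) / (u * pr Sl * pr Ss : ℕ)) ≤
    T y ^ 10 * y * 2 ^ Ss.card / (L y * pr Sl * pr Ss)
def S_StrN : Prop := ∀ J : ℕ, 3 ≤ J → ∀ᶠ y : ℕ in atTop, ∀ (x : ℤ) (ρ : ℚ) (g : ℕ), ¬ Maj y x ρ →
  GR y J g → ∀ N ∈ Nd y J x g,
  ∑ S ∈ (Gd y J g N).filter (fun S => ∀ p : ℕ, p ∈ S → PW y < p → Hit x ρ p),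
    (2 : ℝ) ^ (S.filter (fun p : ℕ => (p : ℝ) ≤ PW y)).card / pr S ≤ 1 / L y ^ (2.2 : ℝ)
def S_Str : Prop := ∀ J : ℕ, 3 ≤ J → ∀ᶠ y : ℕ in atTop, ∀ (x : ℤ) (E : Finset ℕ), EE y J x E →
  nsum y J x E (fun u => Gd y J (gg u))
    (fun _ d => if Str y x d then A1 y x d + (H y : ℝ) / d else 0) ≤ y / L y ^ (2.1 : ℝ)
def S_Inv : Prop := ∀ J : ℕ, 3 ≤ J → ∀ᶠ y : ℕ in atTop, ∀ g : ℕ, GR y J g → ∀ N : Finset ℕ,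
  ∀ S ∈ Gd y J g N, ∀ q ∈ S, ∀ q' : ℕ, q'.Prime → be y q' = be y q → aa y 0 < be y q →
  be y q ≤ aa y (r y + 1) → insert q' (S.erase q) ∈ Gd y J g N
def S_Fibre : Prop := ∀ (y : ℕ) (𝓕 : Finset (Finset ℕ)) (F : Finset ℕ → ℂ), 0 < DD y → 2 ≤ B y →
  (∀ S ∈ 𝓕, (∀ p ∈ S, p.Prime) ∧ ¬ Bad y S) →
  (∀ S ∈ 𝓕, ∀ q ∈ S, ∀ q' : ℕ, q'.Prime → be y q' = be y q → aa y 0 < be y q →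
    be y q ≤ aa y (r y + 1) → insert q' (S.erase q) ∈ 𝓕) →
  ∃ I : Finset (Finset ℕ × ℕ × (Fin (r y) → ℕ)),
    (∀ t ∈ I, Win y (r y) t.2.1 ∧ (∀ i : Fin (r y), Win y i (t.2.2 i)) ∧
      (∀ p ∈ t.1, be y p ≠ t.2.1 ∧ ∀ i, be y p ≠ t.2.2 i) ∧
      ∃ S ∈ 𝓕, t.1 ⊆ S ∧ ∑ p ∈ S, be y p = ∑ p ∈ t.1, be y p + t.2.1 + ∑ i, t.2.2 i) ∧
    ‖∑ S ∈ 𝓕, (sg S : ℂ) * F S‖ ≤ ∑ t ∈ I, ‖∑ q ∈ box y t.2.1,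
      ∑ f ∈ Fintype.piFinset (fun i => box y (t.2.2 i)), F (insert q (t.1 ∪ image f univ))‖
def S_Good : Prop := ∀ J : ℕ, 3 ≤ J → ∀ᶠ y : ℕ in atTop, ∀ (x : ℤ) (E : Finset ℕ), EE y J x E →
  |nsum y J x E (fun u => Gd y J (gg u))
    (fun S d => if Str y x d then 0 else sg S * (A0 (H y) x d - (H y : ℝ) / d))| ≤ y / L y ^ 3
def S_II : Prop := ∀ J : ℕ, 3 ≤ J → ∀ w0 : ℝ, 0 < w0 → ∀ᶠ y : ℕ in atTop,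
  ∀ (x : ℤ) (E : Finset ℕ), EE y J x E → w0 ≤ ∑ u ∈ E, 1 / (u : ℝ) → y / L y ^ 2 ≤ Cnt y x

/-! the moment argument -/
def S_Rep : Prop := ∀ (n j : ℕ) (P : Finset ℕ), P.card = n → 1 ≤ n → 1 ≤ j →
  (((Fintype.piFinset (fun _ : Fin (2 * j) => P)).filter
    (fun f => ∀ t, ∃ t', t' ≠ t ∧ f t' = f t)).card : ℝ) ≤ (n : ℝ) ^ (2 * j) * (3 * j / n) ^ j
def S_Unif : Prop := ∀ (k n j : ℕ) (P : Fin k → Finset ℕ) (a : Fin k → ℕ → ℂ) (Q : Finset ℕ)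
  (Qm η : ℝ) (c : ℤ), 1 ≤ n → 1 ≤ j → 0 < η → 0 ≤ Qm →
  (∀ i, (P i).card = n ∧ ∀ p ∈ P i, p.Prime) →
  (∀ i i', i ≠ i' → Disjoint (P i) (P i')) → (∀ i p, ‖a i p‖ ≤ 1) →
  (∀ q ∈ Q, q.Prime ∧ (q : ℝ) ≤ Qm ∧ ∀ i, q ∉ P i) →
  ∑ q ∈ Q, (((range q).filter (fun s : ℕ => ∃ N : ℤ, N ≡ c [ZMOD (∏ i, pr (P i) : ℕ)] ∧
      N ≡ s [ZMOD q] ∧ η * (n : ℝ) ^ k ≤ ‖gsum P a q N‖)).card : ℝ) ≤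
    Qm / η ^ (2 * j) * (Q.card * (3 * (j : ℝ) / n) ^ (j * k) +
      logb 2 (2 * j * (∏ i, pr (P i) : ℕ)))
def S_Mom1 : Prop := ∀ (k n j : ℕ) (P : Fin k → Finset ℕ) (V : Fin k → ℝ) (a : Fin k → ℕ → ℂ)
  (Q U : Finset ℕ) (al : ℕ → Finset ℕ) (N : ℕ → ℤ) (Qm η V0 U1 τ0 : ℝ),
  1 ≤ n → 1 ≤ j → 0 < η → η ≤ 1 → 1 ≤ Qm → 1 ≤ τ0 → 0 < V0 →
  (∀ i, ((P i).card : ℝ) ≤ V i ∧ 4 * k * n ≤ η * V i ∧ ∀ p ∈ P i, p.Prime ∧ (p : ℝ) ≤ Qm) →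
  (∀ i i', i ≠ i' → Disjoint (P i) (P i')) → (∀ i p, ‖a i p‖ ≤ 1) →
  (∀ q ∈ Q, q.Prime ∧ (q : ℝ) ≤ Qm ∧ ∀ i, q ∉ P i) → (Q.card : ℝ) ≤ V0 → (U.card : ℝ) ≤ U1 →
  (∀ u ∈ U, al u ⊆ Q) →
  2 * τ0 * (Qm / (η / 4) ^ (2 * j) * (V0 * (3 * (j : ℝ) / n) ^ (j * k) +
    logb 2 (2 * j * Qm ^ (n * k)))) ≤ (η / 8) ^ 2 * V0 ^ 2 →
  ∑ u ∈ U, ∑ q ∈ al u, ‖gsum P a q (N u)‖ ≤ η * U1 * V0 * ∏ i, V i ∨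
    ∃ u0 ∈ U, η * U1 / (8 * Qm ^ (n * k) * V0) ≤
      ((U.filter (fun u => τ0 < (tau al N u0 u : ℝ))).card : ℝ)
def S_Mom2 : Prop := ∀ᶠ y : ℕ in atTop, ∀ (b0 : ℕ) (bs : Fin (r y) → ℕ) (a : Fin (r y) → ℕ → ℂ)
  (U : Finset ℕ) (al : ℕ → Finset ℕ) (N : ℕ → ℤ) (U1 : ℝ), Win y (r y) b0 →
  (∀ i : Fin (r y), Win y i (bs i)) → (∀ i p, ‖a i p‖ ≤ 1) → (U.card : ℝ) ≤ U1 →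
  (∀ u ∈ U, al u ⊆ box y b0) →
  ∑ u ∈ U, ∑ q ∈ al u, ‖gsum (fun i => box y (bs i)) a q (N u)‖ ≤
      U1 * Vb y b0 * (∏ i, Vb y (bs i)) / G y ^ 13 ∨
    ∃ u0 ∈ U, U1 * exp (-(L y ^ (0.2 : ℝ))) ≤
      ((U.filter (fun u => Qb y b0 ^ (0.71 : ℝ) < (tau al N u0 u : ℝ))).card : ℝ)
def S_AB : Prop := ∀ (y : ℕ) (x h : ℤ) (n0 m0 u u' : ℕ), 2 ≤ y → n0 < y → h ≠ 0 → 1 ≤ m0 →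
  u.Prime → u'.Prime → u ≠ u' → |h| < u → m0 * u * u' ≤ y ^ 2 → |h| * (u + u') ≤ y →
  ∃ ρ : ℚ, Ht y ρ ∧ Hit x ρ u ∧ ∃ K : ℤ, K ≠ 0 ∧ |K| ≤ y ∧ ∀ q : ℕ, q.Prime → ¬ (q : ℤ) ∣ K →
    (q : ℤ) ∣ h * (x + n0) / (m0 * u : ℕ) - h * (x + n0) / (m0 * u' : ℕ) → Hit x ρ q
def S_CH : Prop := ∀ (y : ℕ) (x h : ℤ) (ρ : ℚ) (n0 m0 u0 : ℕ) (U : Finset ℕ) (al : ℕ → Finset ℕ)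
  (W s τ0 : ℝ), 6 ≤ y → Ht y ρ → n0 < y → h ≠ 0 → |h| ≤ y → 1 ≤ m0 → 1 ≤ W → 2 ≤ s →
  s ≤ U.card → u0 ∈ U → (y : ℝ) ^ 6 ≤ 2 ^ τ0 →
  (∀ u ∈ U, u.Prime ∧ W < u ∧ (u : ℝ) ≤ exp 1 * W ∧ ¬ u ∣ m0 ∧ m0 * u ≤ y ^ 2 ∧ Hit x ρ u ∧
    (∀ q ∈ al u, q.Prime ∧ (q : ℝ) ≤ W ∧ Hit x ρ q) ∧
    τ0 < (tau al (fun v => h * (x + n0) / (m0 * v : ℕ)) u0 u : ℝ)) →
  ((ρ.den * m0 / Int.gcd (ρ.den * m0 : ℕ) (h * (ρ.den * x - ρ.num)) : ℕ) : ℝ) ≤ 4 * W / s ∧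
    |(h : ℝ) * ((ρ : ℝ) + n0)| ≤ 16 * W / s * m0 * W
def S_Ram : Prop := ∀ (κ : ℕ) (s : ℤ), 1 ≤ κ →
  ‖∑ j ∈ (range κ).filter (fun j => Nat.Coprime j κ), chi κ s j‖ ≤
    ∑ e ∈ κ.divisors.filter (fun e : ℕ => (e : ℤ) ∣ s), (e : ℝ)
def S_Osc : Prop := ∃ C : ℝ, 0 < C ∧ ∀ W Z : ℝ, 1 ≤ W →
  (Z ≠ 0 → |Z| ≤ W ^ 2 / 2 →
    ‖∑ v ∈ Ioc ⌊W⌋₊ ⌊exp 1 * W⌋₊, ee (Z / v)‖ ≤ C * W ^ 2 / |Z|) ∧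
  ∀ κ j : ℕ, 1 ≤ κ → ‖∑ v ∈ (Ioc ⌊W⌋₊ ⌊exp 1 * W⌋₊).filter (fun v => v % κ = j % κ), ee (Z / v) -
    (∑ v ∈ Ioc ⌊W⌋₊ ⌊exp 1 * W⌋₊, ee (Z / v)) / κ‖ ≤ C * (1 + |Z| / W)
def S_Bil : Prop := ∃ C : ℝ, 0 < C ∧ ∀ (κ : ℕ) (c : ℤ) (A : Finset ℕ) (W Q V Z E P1 : ℝ),
  1 ≤ κ → IsCoprime c κ → 1 ≤ W → 1 ≤ V → V ≤ Q → 1 ≤ P1 → |Z| ≤ E * W → E ≤ W / 2 →
  (∀ q ∈ A, q.Prime ∧ Q < q ∧ (q : ℝ) ≤ Q + V ∧ Nat.Coprime q κ) → (P1 < κ ∨ P1 * W * Q < |Z|) →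
  ∑ v ∈ (Ioc ⌊W⌋₊ ⌊exp 1 * W⌋₊).filter (fun v => Nat.Coprime v κ),
    ‖∑ q ∈ A, ((Q / q : ℝ) : ℂ) * (ee (Z / ((v : ℝ) * q)) * chi κ c (v * q))‖ ^ 2 ≤
    C * V ^ 2 * (W * (1 / √P1 + 1 / V + Q / V * (1 + log V) / P1) + κ * (1 + E))
def S_Ph : Prop := ∀ (x h : ℤ) (ρ : ℚ) (n0 m : ℕ), 1 ≤ m → ∃ (κ : ℕ) (c : ℤ), 1 ≤ κ ∧
  IsCoprime c κ ∧ κ = ρ.den * m / Int.gcd (ρ.den * m : ℕ) (h * (ρ.den * x - ρ.num)) ∧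
  (ρ.den : ℤ) ∣ κ * h ∧ (∀ p : ℕ, p.Prime → p ∣ m → p ∣ κ ∨ (p : ℤ) ∣ h ∨ Hit x ρ p) ∧
  ∀ u q : ℕ, u.Prime → q.Prime → u ≠ q → Hit x ρ u → Hit x ρ q → ¬ u ∣ m → ¬ q ∣ m →
    Nat.Coprime u κ ∧ Nat.Coprime q κ ∧ ee ((h : ℝ) * ((x : ℝ) + n0) / ((u * m * q : ℕ) : ℝ)) =
      ee ((h : ℝ) * ((ρ : ℝ) + n0) / m / ((u : ℝ) * q)) * chi κ c (u * q)
def S_FibAB : Prop := ∀ J : ℕ, 3 ≤ J → ∀ᶠ y : ℕ in atTop, ∀ (x : ℤ) (n0 : ℕ) (h : ℤ) (m0 g b0 : ℕ)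
  (bs : Fin (r y) → ℕ) (U : Finset ℕ), FibH y J x n0 h m0 g b0 bs U →
  ‖∑ u ∈ U, ∑ q ∈ (box y b0).filter (fun q => ¬ ∃ ρ, Rich y x ρ ∧ Hit x ρ u ∧ Hit x ρ q),
    trm y x n0 h m0 g b0 bs u q‖ ≤ 2 * Vol y g b0 bs / G y ^ 13
/-- the case of small height -/
def S_FibH : Prop := ∀ J : ℕ, 3 ≤ J → ∀ᶠ y : ℕ in atTop, ∀ (x : ℤ) (n0 : ℕ) (h : ℤ) (m0 g b0 : ℕ)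
  (bs : Fin (r y) → ℕ) (U : Finset ℕ) (ρ : ℚ), FibH y J x n0 h m0 g b0 bs U → Rich y x ρ →
  (∀ u ∈ U, Hit x ρ u) →
  ((ρ.den * m0 / Int.gcd (ρ.den * m0 : ℕ) (h * (ρ.den * x - ρ.num)) : ℕ) : ℝ) ≤
    exp (L y ^ (0.3 : ℝ)) →
  |(h : ℝ) * ((ρ : ℝ) + n0)| ≤ exp (L y ^ (0.3 : ℝ)) * m0 * exp ((g : ℝ) - 1) →
  ‖∑ u ∈ U, ∑ q ∈ (box y b0).filter (Hit x ρ), trm y x n0 h m0 g b0 bs u q‖ ≤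
    Vol y g b0 bs / G y ^ 12
def S_FibC : Prop := ∀ J : ℕ, 3 ≤ J → ∀ᶠ y : ℕ in atTop, ∀ (x : ℤ) (n0 : ℕ) (h : ℤ) (m0 g b0 : ℕ)
  (bs : Fin (r y) → ℕ) (U : Finset ℕ) (ρ : ℚ), FibH y J x n0 h m0 g b0 bs U → Rich y x ρ →
  (∀ u ∈ U, Hit x ρ u) →
  ‖∑ u ∈ U, ∑ q ∈ (box y b0).filter (Hit x ρ), trm y x n0 h m0 g b0 bs u q‖ ≤
    Vol y g b0 bs / G y ^ 12
def S_Fib : Prop := ∀ J : ℕ, 3 ≤ J → ∀ᶠ y : ℕ in atTop, ∀ (x : ℤ) (n0 : ℕ) (h : ℤ) (m0 g b0 : ℕ)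
  (bs : Fin (r y) → ℕ) (U : Finset ℕ), FibH y J x n0 h m0 g b0 bs U →
  ‖∑ u ∈ U, ∑ q ∈ box y b0, trm y x n0 h m0 g b0 bs u q‖ ≤ Vol y g b0 bs / G y ^ 5

/-! the structured case -/
def S_Ia : Prop := ∃ c : ℝ, 0 < c ∧ ∀ᶠ y : ℕ in atTop, ∀ (x k a : ℤ) (γ n1 M : ℕ) (E : Finset ℕ),
  CI y x k a γ n1 M E → ∀ U ⊆ E, (pr U : ℝ) ≤ (y : ℝ) ^ c →
  |∑ n ∈ (PS k a γ n1 M).filter (fun n : ℕ => ∀ p ∈ U, (p : ℤ) ∣ (n : ℤ) + x), wt k a γ n -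
    M * |(k : ℝ)| / (γ * Nat.totient (k.natAbs * pr U))| ≤ (y : ℝ) ^ (1 - c)
def S_Ib : Prop := ∃ c : ℝ, 0 < c ∧ ∃ J0 : ℕ, ∀ J ≥ J0, ∀ᶠ y : ℕ in atTop,
  ∀ (x k a : ℤ) (γ n1 M : ℕ) (E : Finset ℕ), CI y x k a γ n1 M E →
  E ⊆ PP ((y : ℝ) ^ (1 / (J : ℝ))) →
  c * y * (|(k : ℝ)| / Nat.totient k.natAbs) / ∏ p ∈ E, (1 + 1 / (p : ℝ)) ≤
    ∑ n ∈ (PS k a γ n1 M).filter (fun n : ℕ => ∀ p ∈ E, ¬ (p : ℤ) ∣ (n : ℤ) + x), wt k a γ n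
def S_Ic : Prop := ∀ J : ℕ, 3 ≤ J → ∃ C : ℝ, 0 < C ∧ ∀ᶠ y : ℕ in atTop,
  ∀ (x k a : ℤ) (γ n1 M : ℕ) (E : Finset ℕ), CI y x k a γ n1 M E →
  E ⊆ PP ((y : ℝ) ^ (1 / (J : ℝ))) → ∀ u : ℕ, u.Prime → (y : ℝ) ^ (1 / (J : ℝ)) < u →
  ∑ n ∈ (PS k a γ n1 M).filter
      (fun n : ℕ => (∀ p ∈ E, ¬ (p : ℤ) ∣ (n : ℤ) + x) ∧ (u : ℤ) ∣ (n : ℤ) + x), wt k a γ n ≤
    C * y * (|(k : ℝ)| / Nat.totient k.natAbs) / (u * ∏ p ∈ E, (1 + 1 / (p : ℝ))) +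
      (y : ℝ) ^ (0.4 : ℝ)
def S_I : Prop := ∃ J : ℕ, 3 ≤ J ∧ ∃ w0 : ℝ, 0 < w0 ∧ w0 ≤ 1 / 10 ∧ ∀ᶠ y : ℕ in atTop,
  ∀ (x : ℤ) (ρ : ℚ), InR y ρ → Maj y x ρ →
  ∑ u ∈ (PP (z y)).filter (fun u : ℕ => (y : ℝ) ^ (1 / (J : ℝ)) < u ∧ ¬ Hit x ρ u), 1 / (u : ℝ) ≤ w0 →
  y / L y ^ 2 ≤ Cnt y x
def S_All : Prop := ∀ᶠ y : ℕ in atTop, ∀ x : ℤ, y / L y ^ 2 ≤ Cnt y x
/-- the final bound -/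
def S_End : Prop := ∀ b : ℕ, ∃ C : ℝ, 0 < C ∧ ∀ k n : ℕ, 1 ≤ k → 1 ≤ n → n.primeFactors.card ≤ k →
  ∃ m : ℕ, 1 ≤ m ∧ (m : ℝ) ≤ C * k ^ 2 / log (k + 1) ^ b ∧
    ∀ x : ℤ, ∃ t < m, Int.gcd (x + t) n = 1

end Jac
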